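import Crest.Agent.R181.MonMain
import Mathlib.RingTheory.KrullDimension.Regular
import Mathlib.RingTheory.KrullDimension.Polynomial
import Mathlib.RingTheory.GradedAlgebra.Radical
import Mathlib.RingTheory.MvPolynomial.Homogeneous
import Crest.Agent.R181.UR396a

-- ▼ part R181/AEBase
section

/-!
# Koszul chains over a division ring

`PD D n` is the ring of polynomials in `n` central variables over the division ring `D`, viewed
as a left `D`-module.  For a family `a : Fin n → PD D n` the map `KR a` is the Koszul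
differential attached to the right multiplications by the `a t`.
-/

set_option autoImplicit false

namespace Crest.Agent.R181.AE

open Module Finset
open Crest.Agent.R181.Mon (e1 key key_injective key_add_lt degS mem_degS degree_e1 e1_insert)

/-- Polynomials in `n` central variables over `D`. -/
abbrev PD (D : Type*) [Semiring D] (n : ℕ) := AddMonoidAlgebra D (Fin n →₀ ℕ)

/-- Koszul chains with values in `PD D n`. -/
abbrev ChD (D : Type*) [Semiring D] (n : ℕ) := Finset (Fin n) → PD D n

variable {n : ℕ}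

/-- The Koszul sign. -/
def sgz (U : Finset (Fin n)) (t : Fin n) : ℤ := (-1) ^ (U.filter (· < t)).card

theorem sgz_mul_self (U : Finset (Fin n)) (t : Fin n) : sgz U t * sgz U t = 1 := by
  unfold sgz
  rw [← pow_add, ← two_mul, pow_mul]
  norm_num

theorem sgz_smul_sgz_smul {V : Type*} [AddCommGroup V] (U : Finset (Fin n)) (t : Fin n) (v : V) :
    sgz U t • sgz U t • v = v := by
  rw [smul_smul, sgz_mul_self, one_smul]

theorem sgz_smul_eq_zero {V : Type*} [AddCommGroup V] {U : Finset (Fin n)} {t : Fin n} {v : V} :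
    sgz U t • v = 0 ↔ v = 0 := by
  constructor
  · intro h
    rw [← sgz_smul_sgz_smul U t v, h, smul_zero]
  · rintro rfl
    rw [smul_zero]

theorem sgz_smul_eq {V : Type*} [AddCommGroup V] [Module ℂ V] (U : Finset (Fin n)) (t : Fin n)
    (v : V) : Mon.sg U t • v = sgz U t • v := by
  rw [← Int.cast_smul_eq_zsmul ℂ]
  congr 1
  unfold Mon.sg sgz
  push_cast
  rfl

theorem sgz_swap_aux {U : Finset (Fin n)} {s t : Fin n} (hs : s ∉ U) (hst : s < t) :
    sgz U t * sgz (insert t U) s = -(sgz U s * sgz (insert s U) t) := by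
  have h1 : sgz (insert t U) s = sgz U s := by
    unfold sgz
    rw [Finset.filter_insert, if_neg (not_lt.2 hst.le)]
  have h2 : sgz (insert s U) t = - sgz U t := by
    unfold sgz
    rw [Finset.filter_insert, if_pos hst, Finset.card_insert_of_notMem, pow_succ]
    · ring
    · simp [hs]
  rw [h1, h2]; ring

theorem sgz_swap {U : Finset (Fin n)} {s t : Fin n} (hs : s ∉ U) (ht : t ∉ U) (hst : s ≠ t) :
    sgz U t * sgz (insert t U) s = -(sgz U s * sgz (insert s U) t) := by
  rcases lt_or_gt_of_ne hst with h | h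
  · exact sgz_swap_aux hs h
  · rw [sgz_swap_aux ht h, neg_neg]

variable {D : Type*} [DivisionRing D]

open AddMonoidAlgebra in
/-- The variables. -/
noncomputable def Xs (D : Type*) [DivisionRing D] {n : ℕ} (t : Fin n) : PD D n :=
  single (Finsupp.single t 1) 1

/-- Constants -/
noncomputable def Cs (d : D) : PD D n := AddMonoidAlgebra.single 0 d

theorem coeff_mul_Xs (f : PD D n) (t : Fin n) (m : Fin n →₀ ℕ) :
    (f * Xs D t).coeff m = if t ∈ m.support then f.coeff (m - Finsupp.single t 1) else 0 := by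
  split_ifs with h
  · have h1 : m = (m - Finsupp.single t 1) + Finsupp.single t 1 := by
      rw [tsub_add_cancel_of_le]
      rw [Finsupp.single_le_iff]
      have := Finsupp.mem_support_iff.1 h
      omega
    conv_lhs => rw [h1]
    unfold Xs
    rw [AddMonoidAlgebra.coeff_mul_single_add, mul_one]
  · unfold Xs
    apply AddMonoidAlgebra.coeff_mul_single_of_forall_add_ne
    rintro d rfl
    apply h
    simp

theorem Xs_comm (t : Fin n) (f : PD D n) : Xs D t * f = f * Xs D t :=
  (AddMonoidAlgebra.single_commute (fun m' => AddCommute.all _ _) (fun r => Commute.one_left r) f)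

theorem coeff_mul_Cs (f : PD D n) (d : D) (m : Fin n →₀ ℕ) :
    (f * Cs d).coeff m = f.coeff m * d := AddMonoidAlgebra.coeff_mul_single_zero ..

theorem Cs_mul (f : PD D n) (d : D) : Cs d * f = d • f := by
  ext m
  rw [Cs, AddMonoidAlgebra.coeff_single_zero_mul]
  rfl

theorem smul_mul' (d : D) (f g : PD D n) : (d • f) * g = d • (f * g) := smul_mul_assoc _ _ _

/-- The Koszul differential attached to the right multiplications by `a`. -/
noncomputable def KR (a : Fin n → PD D n) : ChD D n →ₗ[D] ChD D n where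
  toFun f U := ∑ t ∈ Uᶜ, sgz U t • (f (insert t U) * a t)
  map_add' f g := by
    funext U
    simp only [Pi.add_apply, add_mul, smul_add, Finset.sum_add_distrib]
  map_smul' d f := by
    funext U
    simp only [Pi.smul_apply, RingHom.id_apply, Finset.smul_sum, smul_mul']
    exact Finset.sum_congr rfl fun t _ => smul_comm _ _ _

theorem KR_apply (a : Fin n → PD D n) (f : ChD D n) (U : Finset (Fin n)) :
    KR a f U = ∑ t ∈ Uᶜ, sgz U t • (f (insert t U) * a t) := rfl

/-- Chains of bidegree `(p, j)`. -/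
def chD (D : Type*) [DivisionRing D] (n p j : ℕ) : Submodule D (ChD D n) where
  carrier := {f | ∀ T m, (f T).coeff m ≠ 0 → T.card = p ∧ m.degree + p = j}
  add_mem' := by
    intro f g hf hg T m h
    rw [Pi.add_apply, AddMonoidAlgebra.coeff_add, Finsupp.add_apply] at h
    by_cases h1 : (f T).coeff m = 0
    · exact hg T m (by rwa [h1, zero_add] at h)
    · exact hf T m h1
  zero_mem' := by
    intro T m h
    exact absurd rfl h
  smul_mem' := by
    intro a f hf T m h
    rw [Pi.smul_apply, AddMonoidAlgebra.coeff_smul, Finsupp.smul_apply, smul_eq_mul] at h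
    exact hf T m (right_ne_zero_of_mul h)


/-- The degree piece of a submodule. -/
def pcD (J : Submodule D (PD D n)) (d : ℕ) : Submodule D (PD D n) where
  carrier := {f | (∀ m, f.coeff m ≠ 0 → m.degree = d) ∧ f ∈ J}
  add_mem' := by
    rintro f g ⟨hf, hf'⟩ ⟨hg, hg'⟩
    refine ⟨fun m h => ?_, J.add_mem hf' hg'⟩
    rw [AddMonoidAlgebra.coeff_add, Finsupp.add_apply] at h
    by_cases h1 : f.coeff m = 0
    · exact hg m (by rwa [h1, zero_add] at h)
    · exact hf m h1
  zero_mem' := ⟨fun m h => absurd rfl h, J.zero_mem⟩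
  smul_mem' := by
    rintro a f ⟨hf, hf'⟩
    refine ⟨fun m h => ?_, J.smul_mem a hf'⟩
    rw [AddMonoidAlgebra.coeff_smul, Finsupp.smul_apply, smul_eq_mul] at h
    exact hf m (right_ne_zero_of_mul h)

theorem mem_pcD {J : Submodule D (PD D n)} {d : ℕ} {f : PD D n} :
    f ∈ pcD J d ↔ (∀ m, f.coeff m ≠ 0 → m.degree = d) ∧ f ∈ J := Iff.rfl

theorem finiteDimensional_of_suppP (Z : Submodule D (PD D n))
    (s : Finset (Fin n →₀ ℕ)) (h : ∀ f ∈ Z, ∀ m, f.coeff m ≠ 0 → m ∈ s) :
    FiniteDimensional D Z := by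
  let φ : Z →ₗ[D] (s → D) :=
    { toFun := fun f x => f.1.coeff x.1
      map_add' := fun f g => rfl
      map_smul' := fun a f => rfl }
  refine FiniteDimensional.of_injective φ ?_
  rw [injective_iff_map_eq_zero]
  intro f hf
  ext m
  by_contra h2
  have h2' : f.1.coeff m ≠ 0 := h2
  have hm : m ∈ s := h f.1 f.2 m h2'
  have := congrFun hf ⟨m, hm⟩
  exact h2 this

theorem finiteDimensional_of_suppC (Z : Submodule D (ChD D n))
    (s : Finset (Fin n →₀ ℕ)) (h : ∀ f ∈ Z, ∀ T m, (f T).coeff m ≠ 0 → m ∈ s) :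
    FiniteDimensional D Z := by
  let φ : Z →ₗ[D] (Finset (Fin n) × s → D) :=
    { toFun := fun f x => (f.1 x.1).coeff x.2.1
      map_add' := fun f g => rfl
      map_smul' := fun a f => rfl }
  refine FiniteDimensional.of_injective φ ?_
  rw [injective_iff_map_eq_zero]
  intro f hf
  ext T m
  by_contra h2
  have h2' : (f.1 T).coeff m ≠ 0 := h2
  have hm : m ∈ s := h f.1 f.2 T m h2'
  have := congrFun hf (T, ⟨m, hm⟩)
  exact h2 this

instance (J : Submodule D (PD D n)) (d : ℕ) : FiniteDimensional D (pcD J d) :=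
  finiteDimensional_of_suppP _ (degS n d) (fun _ hf m hm => mem_degS.2 (hf.1 m hm))

instance (p j : ℕ) : FiniteDimensional D (chD D n p j) :=
  finiteDimensional_of_suppC _ (degS n (j - p)) (fun f hf T m hm => by
    have := hf T m hm
    rw [mem_degS]; omega)

/-- Chains of bidegree `(p, j)` whose differential is `J`-valued. -/
noncomputable def zspD (a : Fin n → PD D n) (J : Submodule D (PD D n)) (p j : ℕ) :
    Submodule D (ChD D n) where
  carrier := {f | f ∈ chD D n p j ∧ ∀ U, KR a f U ∈ J}
  add_mem' := by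
    rintro f g ⟨hf, hf'⟩ ⟨hg, hg'⟩
    exact ⟨(chD D n p j).add_mem hf hg, fun U => by
      rw [map_add]; exact J.add_mem (hf' U) (hg' U)⟩
  zero_mem' := ⟨(chD D n p j).zero_mem, fun U => by rw [map_zero]; exact J.zero_mem⟩
  smul_mem' := by
    rintro d f ⟨hf, hf'⟩
    exact ⟨(chD D n p j).smul_mem d hf, fun U => by
      rw [map_smul]; exact J.smul_mem d (hf' U)⟩

theorem mem_zspD {a : Fin n → PD D n} {J : Submodule D (PD D n)} {p j : ℕ} {f : ChD D n} :
    f ∈ zspD a J p j ↔ f ∈ chD D n p j ∧ ∀ U, KR a f U ∈ J := Iff.rfl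

instance (a : Fin n → PD D n) (J : Submodule D (PD D n)) (p j : ℕ) :
    FiniteDimensional D (zspD a J p j) :=
  Submodule.finiteDimensional_of_le (fun _ hf => hf.1 : zspD a J p j ≤ chD D n p j)

/-- Dimension of the space of chains of bidegree `(p, j)` with `J`-valued differential. -/
noncomputable def zdD (a : Fin n → PD D n) (J : Submodule D (PD D n)) (p j : ℕ) : ℕ :=
  finrank D (zspD a J p j)

end Crest.Agent.R181.AE
end

-- ▼ part R181/AEBC
section

/-!
# Base change from `ℂ` to the division ring `D`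
-/

set_option autoImplicit false

namespace Crest.Agent.R181.AE

open Module Finset
open Crest.Agent.R181.Mon (Ch KD zd zsp pc mem_zsp mem_pc valued chains)

variable {n : ℕ} {D : Type*} [DivisionRing D] [Algebra ℂ D]

/-- The inclusion of the complex polynomials. -/
noncomputable def iota (D : Type*) [DivisionRing D] [Algebra ℂ D] {n : ℕ} :
    MvPolynomial (Fin n) ℂ →+* PD D n :=
  AddMonoidAlgebra.mapRingHom _ (algebraMap ℂ D)

theorem coeff_iota (g : MvPolynomial (Fin n) ℂ) (m : Fin n →₀ ℕ) :
    (iota D g).coeff m = algebraMap ℂ D (MvPolynomial.coeff m g) :=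
  AddMonoidAlgebra.coeff_mapRingHom ..

theorem iota_smul (c : ℂ) (g : MvPolynomial (Fin n) ℂ) :
    iota D (c • g) = algebraMap ℂ D c • iota D g := by
  ext m
  rw [coeff_iota, MvPolynomial.coeff_smul, AddMonoidAlgebra.coeff_smul, Finsupp.smul_apply,
    coeff_iota, smul_eq_mul, smul_eq_mul, map_mul]

theorem iota_X (t : Fin n) : iota D (MvPolynomial.X t) = Xs D t := by
  ext m
  rw [coeff_iota, MvPolynomial.coeff_X]
  unfold Xs
  rw [AddMonoidAlgebra.coeff_single, Finsupp.single_apply]
  split_ifs <;> simp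

/-- Apply a linear functional coefficientwise. -/
noncomputable def lam (l : D →ₗ[ℂ] ℂ) : PD D n →+ MvPolynomial (Fin n) ℂ where
  toFun f := AddMonoidAlgebra.ofCoeff (f.coeff.mapRange l (map_zero l))
  map_zero' := by
    ext m
    change l 0 = 0
    exact map_zero l
  map_add' f g := by
    ext m
    change l (f.coeff m + g.coeff m) = l (f.coeff m) + l (g.coeff m)
    exact map_add l _ _

theorem coeff_lam (l : D →ₗ[ℂ] ℂ) (f : PD D n) (m : Fin n →₀ ℕ) :
    MvPolynomial.coeff m (lam l f) = l (f.coeff m) := rfl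

theorem lam_smul_iota (l : D →ₗ[ℂ] ℂ) (d : D) (g : MvPolynomial (Fin n) ℂ) :
    lam l (d • iota D g) = l d • g := by
  ext m
  rw [coeff_lam, AddMonoidAlgebra.coeff_smul, Finsupp.smul_apply, coeff_iota,
    MvPolynomial.coeff_smul, smul_eq_mul, ← Algebra.commutes, ← Algebra.smul_def, map_smul,
    smul_eq_mul, smul_eq_mul, mul_comm]

theorem lam_smul (l : D →ₗ[ℂ] ℂ) (d : D) (f : PD D n) :
    lam l (d • f) = lam (l ∘ₗ LinearMap.mulLeft ℂ d) f := by
  ext m
  rw [coeff_lam, coeff_lam]
  rfl

theorem lam_mul_Xs (l : D →ₗ[ℂ] ℂ) (f : PD D n) (t : Fin n) :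
    lam l (f * Xs D t) = MvPolynomial.X t * lam l f := by
  ext m
  rw [coeff_lam, coeff_mul_Xs, MvPolynomial.coeff_X_mul']
  split_ifs
  · rw [coeff_lam]
  · exact map_zero l

/-- The extension of a subspace. -/
noncomputable def exD (D : Type*) [DivisionRing D] [Algebra ℂ D] {n : ℕ}
    (I : Submodule ℂ (MvPolynomial (Fin n) ℂ)) : Submodule D (PD D n) :=
  Submodule.span D (iota D '' (I : Set (MvPolynomial (Fin n) ℂ)))

theorem lam_mem_of_mem_exD (I : Submodule ℂ (MvPolynomial (Fin n) ℂ)) {f : PD D n}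
    (hf : f ∈ exD D I) : ∀ l : D →ₗ[ℂ] ℂ, lam l f ∈ I := by
  unfold exD at hf
  induction hf using Submodule.span_induction with
  | mem x hx =>
    obtain ⟨g, hg, rfl⟩ := hx
    intro l
    have := lam_smul_iota (n := n) l 1 g
    rw [one_smul] at this
    rw [this]
    exact I.smul_mem _ hg
  | zero => intro l; rw [map_zero]; exact I.zero_mem
  | add x y _ _ hx hy => intro l; rw [map_add]; exact I.add_mem (hx l) (hy l)
  | smul a x _ hx => intro l; rw [lam_smul]; exact hx _

/-- Every element is a finite combination of elements with complex coefficients. -/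
theorem exists_finset_sum {κ : Type*} (B : Basis κ ℂ D) (f : PD D n) :
    ∃ S : Finset κ, ∀ S' : Finset κ, S ⊆ S' →
      f = ∑ k ∈ S', B k • iota D (lam (B.coord k) f) := by
  classical
  refine ⟨f.coeff.support.biUnion (fun m => (B.repr (f.coeff m)).support), fun S' hS' => ?_⟩
  ext m
  have h1 : (∑ k ∈ S', B k • iota D (lam (B.coord k) f)).coeff m =
      ∑ k ∈ S', (B.repr (f.coeff m) k) • B k := by
    rw [AddMonoidAlgebra.coeff_sum, Finsupp.finsetSum_apply]
    refine Finset.sum_congr rfl fun k _ => ?_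
    rw [AddMonoidAlgebra.coeff_smul, Finsupp.smul_apply, coeff_iota, coeff_lam, smul_eq_mul,
      ← Algebra.commutes, ← Algebra.smul_def]
    rfl
  rw [h1]
  by_cases hm : m ∈ f.coeff.support
  · have h2 : (B.repr (f.coeff m)).support ⊆ S' := by
      intro k hk
      apply hS'
      rw [Finset.mem_biUnion]
      exact ⟨m, hm, hk⟩
    conv_lhs => rw [← B.linearCombination_repr (f.coeff m)]
    rw [Finsupp.linearCombination_apply, Finsupp.sum_of_support_subset _ h2]
    intro i _
    rw [zero_smul]
  · have h2 : f.coeff m = 0 := by simpa using hm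
    rw [h2, map_zero]
    simp

theorem mem_span_of_lam (Z : Submodule ℂ (MvPolynomial (Fin n) ℂ)) (f : PD D n)
    (h : ∀ l : D →ₗ[ℂ] ℂ, lam l f ∈ Z) : f ∈ exD D Z := by
  obtain ⟨S, hS⟩ := exists_finset_sum (Basis.ofVectorSpace ℂ D) f
  rw [hS S Finset.Subset.rfl]
  exact Submodule.sum_mem _ fun k _ => Submodule.smul_mem _ _
    (Submodule.subset_span ⟨_, h _, rfl⟩)

/-- Chains. -/
noncomputable def iotaC (D : Type*) [DivisionRing D] [Algebra ℂ D] {n : ℕ} (f : Ch n) : ChD D n :=
  fun T => iota D (f T)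

/-- Chains. -/
noncomputable def lamC (l : D →ₗ[ℂ] ℂ) (f : ChD D n) : Ch n := fun T => lam l (f T)

theorem mem_span_of_lamC (Z : Submodule ℂ (Ch n)) (f : ChD D n)
    (h : ∀ l : D →ₗ[ℂ] ℂ, lamC l f ∈ Z) :
    f ∈ Submodule.span D (iotaC D '' (Z : Set (Ch n))) := by
  classical
  have h1 := fun T => exists_finset_sum (Basis.ofVectorSpace ℂ D) (f T)
  choose S hS using h1
  have h2 : f = ∑ k ∈ Finset.univ.biUnion S, Basis.ofVectorSpace ℂ D k •
      iotaC D (lamC ((Basis.ofVectorSpace ℂ D).coord k) f) := by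
    funext T
    rw [Finset.sum_apply]
    exact hS T _ (fun k hk => Finset.mem_biUnion.2 ⟨T, Finset.mem_univ _, hk⟩)
  rw [h2]
  exact Submodule.sum_mem _ fun k _ => Submodule.smul_mem _ _
    (Submodule.subset_span ⟨_, h _, rfl⟩)

/-- Dimension of the extension of a finite dimensional space. -/
theorem finrank_span_image {V VD : Type*} [AddCommGroup V] [Module ℂ V] [AddCommGroup VD]
    [Module D VD] (io : V → VD) (io_add : ∀ v w, io (v + w) = io v + io w)
    (io_smul : ∀ (c : ℂ) v, io (c • v) = algebraMap ℂ D c • io v)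
    (la : (D →ₗ[ℂ] ℂ) → VD →+ V) (hla : ∀ l d v, la l (d • io v) = l d • v)
    (Z : Submodule ℂ V) [FiniteDimensional ℂ Z] :
    finrank D (Submodule.span D (io '' (Z : Set V))) = finrank ℂ Z := by
  classical
  set b := Module.finBasis ℂ Z
  have hzero : io 0 = 0 := by
    have := io_smul 0 0
    rwa [zero_smul, map_zero, zero_smul] at this
  have hsum : ∀ (s : Finset (Fin (finrank ℂ Z))) (g : Fin (finrank ℂ Z) → V),
      io (∑ i ∈ s, g i) = ∑ i ∈ s, io (g i) := by
    intro s g
    induction s using Finset.induction_on with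
    | empty => simpa using hzero
    | insert a s ha ih => rw [Finset.sum_insert ha, Finset.sum_insert ha, io_add, ih]
  have h1 : Submodule.span D (io '' (Z : Set V)) =
      Submodule.span D (Set.range fun i => io (b i : V)) := by
    apply le_antisymm
    · rw [Submodule.span_le]
      rintro _ ⟨z, hz, rfl⟩
      have h2 : z = ∑ i, b.repr ⟨z, hz⟩ i • (b i : V) := by
        have := congrArg Subtype.val (b.sum_repr ⟨z, hz⟩)
        rw [AddSubmonoidClass.coe_finsetSum] at this
        exact this.symm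
      rw [h2, hsum]
      refine Submodule.sum_mem _ fun i _ => ?_
      rw [io_smul]
      exact Submodule.smul_mem _ _ (Submodule.subset_span ⟨i, rfl⟩)
    · apply Submodule.span_mono
      rintro _ ⟨i, rfl⟩
      exact ⟨_, (b i).2, rfl⟩
  have h2 : LinearIndependent D fun i => io (b i : V) := by
    rw [Fintype.linearIndependent_iff]
    intro g hg i
    rw [← Module.forall_dual_apply_eq_zero_iff ℂ]
    intro l
    have h3 : la l (∑ i, g i • io (b i : V)) = 0 := by rw [hg, map_zero]
    rw [map_sum] at h3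
    simp only [hla] at h3
    have h4 : ∑ i, l (g i) • b i = 0 := by
      apply Subtype.ext
      rw [AddSubmonoidClass.coe_finsetSum]
      simpa using h3
    exact Fintype.linearIndependent_iff.1 b.linearIndependent _ h4 i
  rw [h1, finrank_span_eq_card h2, Fintype.card_fin]

theorem iotaC_add (f g : Ch n) : iotaC D (f + g) = iotaC D f + iotaC D g := by
  funext T
  exact map_add _ _ _

theorem iotaC_smul (c : ℂ) (f : Ch n) : iotaC D (c • f) = algebraMap ℂ D c • iotaC D f := by
  funext T
  exact iota_smul _ _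

/-- Apply a linear functional coefficientwise. -/
noncomputable def lamC' (l : D →ₗ[ℂ] ℂ) : ChD D n →+ Ch n where
  toFun := lamC l
  map_zero' := by funext T; exact map_zero _
  map_add' f g := by funext T; exact map_add _ _ _

theorem lamC_smul_iotaC (l : D →ₗ[ℂ] ℂ) (d : D) (f : Ch n) :
    lamC' l (d • iotaC D f) = l d • f := by
  funext T
  exact lam_smul_iota _ _ _

theorem KD_lamC (l : D →ₗ[ℂ] ℂ) (f : ChD D n) (U : Finset (Fin n)) :
    KD (lamC l f) U = lam l (KR (Xs D) f U) := by
  rw [Mon.KD_apply, KR_apply, map_sum]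
  refine Finset.sum_congr rfl fun t _ => ?_
  rw [sgz_smul_eq, map_zsmul, lam_mul_Xs]
  rfl

theorem KR_iotaC (f : Ch n) (U : Finset (Fin n)) :
    KR (Xs D) (iotaC D f) U = iota D (KD f U) := by
  rw [Mon.KD_apply, KR_apply, map_sum]
  refine Finset.sum_congr rfl fun t _ => ?_
  rw [sgz_smul_eq, map_zsmul, map_mul, iota_X, Xs_comm]
  rfl

theorem zspD_exD (I : Submodule ℂ (MvPolynomial (Fin n) ℂ)) (p j : ℕ) :
    zspD (Xs D) (exD D I) p j = Submodule.span D (iotaC D '' (zsp I p j : Set (Ch n))) := by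
  apply le_antisymm
  · rintro f ⟨hf1, hf2⟩
    apply mem_span_of_lamC
    intro l
    rw [mem_zsp]
    constructor
    · intro T m hm
      apply hf1 T m
      intro h0
      apply hm
      change l ((f T).coeff m) = 0
      rw [h0, map_zero]
    · intro U
      rw [KD_lamC]
      exact lam_mem_of_mem_exD I (hf2 U) l
  · rw [Submodule.span_le]
    rintro _ ⟨f, hf, rfl⟩
    refine ⟨?_, fun U => ?_⟩
    · intro T m hm
      apply hf.1 T m
      intro h0
      apply hm
      change (iota D (f T)).coeff m = 0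
      rw [coeff_iota, h0, map_zero]
    · rw [KR_iotaC]
      exact Submodule.subset_span ⟨_, hf.2 U, rfl⟩

/-- Base change for `zd`. -/
theorem zdD_exD (I : Submodule ℂ (MvPolynomial (Fin n) ℂ)) (p j : ℕ) :
    zdD (Xs D) (exD D I) p j = zd I p j := by
  unfold zdD zd
  rw [zspD_exD]
  exact finrank_span_image (iotaC D) iotaC_add iotaC_smul lamC' lamC_smul_iotaC _

theorem pcD_exD (I : Submodule ℂ (MvPolynomial (Fin n) ℂ)) (d : ℕ) :
    pcD (exD D I) d = Submodule.span D (iota D '' (pc I d : Set (MvPolynomial (Fin n) ℂ))) := by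
  apply le_antisymm
  · rintro f ⟨hf1, hf2⟩
    apply mem_span_of_lam
    intro l
    rw [mem_pc]
    constructor
    · intro m hm
      apply hf1 m
      intro h0
      apply hm
      rw [coeff_lam, h0, map_zero]
    · exact lam_mem_of_mem_exD I hf2 l
  · rw [Submodule.span_le]
    rintro _ ⟨f, hf, rfl⟩
    have hf' := mem_pc.1 hf
    refine ⟨?_, ?_⟩
    · intro m hm
      apply hf'.1 m
      intro h0
      apply hm
      rw [coeff_iota, h0, map_zero]
    · exact Submodule.subset_span ⟨_, hf'.2, rfl⟩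

/-- Base change for the Hilbert function. -/
theorem finrank_pcD_exD (I : Submodule ℂ (MvPolynomial (Fin n) ℂ)) (d : ℕ) :
    finrank D (pcD (exD D I) d) = finrank ℂ (pc I d) := by
  rw [pcD_exD]
  exact finrank_span_image (iota D) (fun v w => map_add _ v w) iota_smul lam lam_smul_iota _

/-- The submodule spanned by the monomials with exponents in `J`. -/
def monD (D : Type*) [DivisionRing D] {n : ℕ} (J : Set (Fin n →₀ ℕ)) : Submodule D (PD D n) where
  carrier := {f | ∀ m, f.coeff m ≠ 0 → m ∈ J}
  add_mem' := by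
    intro f g hf hg m h
    rw [AddMonoidAlgebra.coeff_add, Finsupp.add_apply] at h
    by_cases h1 : f.coeff m = 0
    · exact hg m (by rwa [h1, zero_add] at h)
    · exact hf m h1
  zero_mem' := by
    intro m h
    exact absurd rfl h
  smul_mem' := by
    intro a f hf m h
    rw [AddMonoidAlgebra.coeff_smul, Finsupp.smul_apply, smul_eq_mul] at h
    exact hf m (right_ne_zero_of_mul h)

omit [Algebra ℂ D] in
theorem mem_monD {J : Set (Fin n →₀ ℕ)} {f : PD D n} :
    f ∈ monD D J ↔ ∀ m, f.coeff m ≠ 0 → m ∈ J := Iff.rfl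

theorem exD_monId (J : Set (Fin n →₀ ℕ)) : exD D (Mon.monId J) = monD D J := by
  apply le_antisymm
  · unfold exD
    rw [Submodule.span_le]
    rintro _ ⟨g, hg, rfl⟩
    intro m hm
    apply hg m
    intro h0
    apply hm
    rw [coeff_iota, h0, map_zero]
  · intro f hf
    apply mem_span_of_lam
    intro l
    rw [Mon.mem_monId]
    intro m hm
    apply hf m
    intro h0
    apply hm
    rw [coeff_lam, h0, map_zero]

/-- The extension of an ideal is closed under the right multiplication by constants. -/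
theorem exD_mul_Cs (I : Submodule ℂ (MvPolynomial (Fin n) ℂ)) {f : PD D n} (hf : f ∈ exD D I)
    (d : D) : f * Cs d ∈ exD D I := by
  unfold exD at hf
  induction hf using Submodule.span_induction with
  | mem x hx =>
    obtain ⟨g, hg, rfl⟩ := hx
    have : iota D g * Cs d = d • iota D g := by
      ext m
      rw [coeff_mul_Cs, AddMonoidAlgebra.coeff_smul, Finsupp.smul_apply, coeff_iota, smul_eq_mul,
        Algebra.commutes]
    rw [this]
    exact Submodule.smul_mem _ _ (Submodule.subset_span ⟨g, hg, rfl⟩)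
  | zero => rw [zero_mul]; exact Submodule.zero_mem _
  | add x y _ _ hx hy => rw [add_mul]; exact Submodule.add_mem _ hx hy
  | smul a x _ hx => rw [smul_mul']; exact Submodule.smul_mem _ _ hx

theorem exD_mul_Xs (I : Submodule ℂ (MvPolynomial (Fin n) ℂ))
    (hI : ∀ t, ∀ f ∈ I, MvPolynomial.X t * f ∈ I) {f : PD D n} (hf : f ∈ exD D I)
    (t : Fin n) : f * Xs D t ∈ exD D I := by
  unfold exD at hf
  induction hf using Submodule.span_induction with
  | mem x hx =>
    obtain ⟨g, hg, rfl⟩ := hx
    have : iota D g * Xs D t = iota D (MvPolynomial.X t * g) := by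
      rw [map_mul, iota_X, Xs_comm]
    rw [this]
    exact Submodule.subset_span ⟨_, hI t g hg, rfl⟩
  | zero => rw [zero_mul]; exact Submodule.zero_mem _
  | add x y _ _ hx hy => rw [add_mul]; exact Submodule.add_mem _ hx hy
  | smul a x _ hx => rw [smul_mul']; exact Submodule.smul_mem _ _ hx

end Crest.Agent.R181.AE
end

-- ▼ part R181/AESemi
section

/-!
# Semicontinuity over a division ring: passing to the leading exponents
-/

set_option autoImplicit false

namespace Crest.Agent.R181.AE

open Module Finset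
open Crest.Agent.R181.Mon (e1 key key_injective key_add_lt degS mem_degS degree_e1 e1_insert
  lowPart finrank_eq_sum_initial finrank_le_of_initial UpClosed)

variable {n : ℕ} {D : Type*} [DivisionRing D]

theorem coeff_KR (f : ChD D n) (U : Finset (Fin n)) (m : Fin n →₀ ℕ) :
    (KR (Xs D) f U).coeff m = ∑ t ∈ Uᶜ, sgz U t •
      (if t ∈ m.support then (f (insert t U)).coeff (m - Finsupp.single t 1) else 0) := by
  rw [KR_apply, AddMonoidAlgebra.coeff_sum, Finsupp.finsetSum_apply]
  refine Finset.sum_congr rfl fun t _ => ?_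
  rw [← coeff_mul_Xs]
  rfl

/-- Component of multidegree `μ` of a chain. -/
noncomputable def cmpD (μ : Fin n →₀ ℕ) : ChD D n →ₗ[D] ChD D n where
  toFun f T := if e1 T ≤ μ then AddMonoidAlgebra.single (μ - e1 T) ((f T).coeff (μ - e1 T)) else 0
  map_add' f g := by
    funext T
    simp only [Pi.add_apply, AddMonoidAlgebra.coeff_add, Finsupp.add_apply]
    split_ifs <;> simp
  map_smul' a f := by
    funext T
    simp only [Pi.smul_apply, AddMonoidAlgebra.coeff_smul, Finsupp.smul_apply, RingHom.id_apply]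
    split_ifs <;> simp

theorem coeff_cmpD (μ : Fin n →₀ ℕ) (f : ChD D n) (T : Finset (Fin n)) (m : Fin n →₀ ℕ) :
    (cmpD μ f T).coeff m = if m + e1 T = μ then (f T).coeff m else 0 := by
  classical
  change (if e1 T ≤ μ then AddMonoidAlgebra.single (μ - e1 T) ((f T).coeff (μ - e1 T))
    else 0 : PD D n).coeff m = _
  by_cases h1 : e1 T ≤ μ
  · rw [if_pos h1, AddMonoidAlgebra.coeff_single, Finsupp.single_apply]
    by_cases h2 : m + e1 T = μ
    · have : μ - e1 T = m := by rw [← h2]; exact add_tsub_cancel_right _ _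
      rw [if_pos this, if_pos h2, this]
    · rw [if_neg h2, if_neg]
      intro h3
      apply h2
      rw [← h3, tsub_add_cancel_of_le h1]
  · rw [if_neg h1, if_neg]
    · rfl
    · intro h2
      apply h1
      rw [← h2]
      exact le_add_self

theorem cmpD_cmpD_self (μ : Fin n →₀ ℕ) (f : ChD D n) : cmpD μ (cmpD μ f) = cmpD μ f := by
  funext T
  ext m
  rw [coeff_cmpD, coeff_cmpD]
  split_ifs <;> rfl

theorem cmpD_cmpD_ne {μ ν : Fin n →₀ ℕ} (h : μ ≠ ν) (f : ChD D n) : cmpD ν (cmpD μ f) = 0 := by
  funext T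
  ext m
  rw [coeff_cmpD, coeff_cmpD]
  change _ = (0 : D)
  split_ifs with h1 h2
  · exact absurd (h2.symm.trans h1) h
  · rfl
  · rfl

theorem KR_cmpD (μ : Fin n →₀ ℕ) (f : ChD D n) : KR (Xs D) (cmpD μ f) = cmpD μ (KR (Xs D) f) := by
  funext U
  ext m
  rw [coeff_cmpD, coeff_KR, coeff_KR]
  have key1 : ∀ t ∈ Uᶜ, sgz U t • (if t ∈ m.support then
        (cmpD μ f (insert t U)).coeff (m - Finsupp.single t 1) else 0) =
      if m + e1 U = μ then sgz U t • (if t ∈ m.support then
        (f (insert t U)).coeff (m - Finsupp.single t 1) else 0) else 0 := by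
    intro t ht
    have htU : t ∉ U := by simpa using ht
    by_cases h4 : t ∈ m.support
    · rw [if_pos h4, if_pos h4, coeff_cmpD, e1_insert htU, ← add_assoc, tsub_add_cancel_of_le]
      · split_ifs <;> simp
      · rw [Finsupp.single_le_iff]
        have := Finsupp.mem_support_iff.1 h4
        omega
    · rw [if_neg h4, if_neg h4]
      split_ifs <;> simp
  rw [Finset.sum_congr rfl key1]
  split_ifs
  · rfl
  · simp

/-- The leading exponents of the homogeneous elements of `J`. -/
def leadD (J : Submodule D (PD D n)) : Set (Fin n →₀ ℕ) :=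
  {m | ∃ f ∈ J, f.coeff m ≠ 0 ∧ ∀ m', f.coeff m' ≠ 0 → m'.degree = m.degree ∧ key m' ≤ key m}

/-- The monomial component. -/
noncomputable def mcD (m : Fin n →₀ ℕ) : PD D n →ₗ[D] PD D n where
  toFun f := AddMonoidAlgebra.single m (f.coeff m)
  map_add' f g := by
    rw [AddMonoidAlgebra.coeff_add, Finsupp.add_apply, AddMonoidAlgebra.single_add]
  map_smul' a f := by
    rw [AddMonoidAlgebra.coeff_smul, Finsupp.smul_apply, RingHom.id_apply,
      AddMonoidAlgebra.smul_single]

theorem mcD_apply (m : Fin n →₀ ℕ) (f : PD D n) :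
    mcD m f = AddMonoidAlgebra.single m (f.coeff m) := rfl

/-- General count: for a space `Z` of polynomials of degree `d`, the dimension is the number of
leading exponents. -/
theorem finrank_eq_card_leadD (Z : Submodule D (PD D n)) [FiniteDimensional D Z]
    (d : ℕ) (hZ : ∀ f ∈ Z, ∀ m, f.coeff m ≠ 0 → m.degree = d) (S : Finset (Fin n →₀ ℕ))
    (hS : ∀ m, m ∈ S ↔ m.degree = d ∧ ∃ f ∈ Z, f.coeff m ≠ 0 ∧
      ∀ m', f.coeff m' ≠ 0 → key m' ≤ key m) :
    finrank D Z = S.card := by
  classical
  rw [finrank_eq_sum_initial key key_injective mcD (degS n d) Z]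
  · have h1 : ∀ m ∈ degS n d, finrank D ((lowPart key mcD (degS n d) Z m).map (mcD m)) =
        if m ∈ S then 1 else 0 := by
      intro m hm
      split_ifs with h
      · obtain ⟨-, f, hf, hfm, hf2⟩ := (hS m).1 h
        have : (lowPart key mcD (degS n d) Z m).map (mcD m) =
            Submodule.span D {AddMonoidAlgebra.single m (1 : D)} := by
          apply le_antisymm
          · rintro _ ⟨g, -, rfl⟩
            rw [mcD_apply, Submodule.mem_span_singleton]
            exact ⟨g.coeff m, by rw [AddMonoidAlgebra.smul_single, smul_eq_mul, mul_one]⟩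
          · rw [Submodule.span_singleton_le_iff_mem]
            refine ⟨(f.coeff m)⁻¹ • f, ?_, ?_⟩
            · refine ⟨Z.smul_mem _ hf, fun j hj hij => ?_⟩
              rw [mcD_apply, AddMonoidAlgebra.coeff_smul, Finsupp.smul_apply]
              have : f.coeff j = 0 := by
                by_contra hne
                exact absurd hij (not_lt.2 (hf2 j hne))
              rw [this, smul_zero, AddMonoidAlgebra.single_zero]
            · rw [mcD_apply, AddMonoidAlgebra.coeff_smul, Finsupp.smul_apply, smul_eq_mul,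
                inv_mul_cancel₀ hfm]
        rw [this]
        exact finrank_span_singleton (AddMonoidAlgebra.single_ne_zero.2 one_ne_zero)
      · have : (lowPart key mcD (degS n d) Z m).map (mcD m) = ⊥ := by
          rw [Submodule.eq_bot_iff]
          rintro _ ⟨f, ⟨hf, hf2⟩, rfl⟩
          rw [mcD_apply]
          by_contra hne
          apply h
          rw [hS]
          refine ⟨mem_degS.1 hm, f, hf, fun h0 => hne (by rw [h0, AddMonoidAlgebra.single_zero]),
            fun m' hm' => ?_⟩
          by_contra hlt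
          have := hf2 m' (mem_degS.2 (hZ f hf m' hm')) (not_le.1 hlt)
          rw [mcD_apply, AddMonoidAlgebra.single_eq_zero] at this
          exact hm' this
        rw [this, finrank_bot]
    rw [Finset.sum_congr rfl h1, Finset.sum_ite_mem, Finset.sum_const, smul_eq_mul, mul_one]
    congr 1
    rw [Finset.inter_eq_right]
    intro m hm
    exact mem_degS.2 ((hS m).1 hm).1
  · intro f hf h
    ext m
    by_contra hne
    change f.coeff m ≠ 0 at hne
    have := h m (mem_degS.2 (hZ f hf m hne))
    rw [mcD_apply, AddMonoidAlgebra.single_eq_zero] at this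
    exact hne this

theorem hf_leadD (J : Submodule D (PD D n)) (d : ℕ) :
    finrank D (pcD J d) = Mon.hf (leadD J) d := by
  classical
  unfold Mon.hf
  apply finrank_eq_card_leadD (pcD J d) d (fun _ hf => (mem_pcD.1 hf).1)
  intro m
  rw [Finset.mem_filter, mem_degS]
  constructor
  · rintro ⟨h1, f, hf, h2, h3⟩
    exact ⟨h1, f, mem_pcD.2 ⟨fun m' hm' => by rw [(h3 m' hm').1, h1], hf⟩, h2,
      fun m' hm' => (h3 m' hm').2⟩
  · rintro ⟨h1, f, hf, h2, h3⟩
    have := mem_pcD.1 hf
    exact ⟨h1, f, this.2, h2, fun m' hm' => ⟨by rw [this.1 m' hm', h1], h3 m' hm'⟩⟩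

theorem leadD_upClosed (J : Submodule D (PD D n))
    (hX : ∀ t, ∀ f ∈ J, f * Xs D t ∈ J) : UpClosed (leadD J) := by
  intro m hm t
  obtain ⟨f, hf, h1, h2⟩ := hm
  refine ⟨f * Xs D t, hX t f hf, ?_, ?_⟩
  · unfold Xs
    rw [AddMonoidAlgebra.coeff_mul_single_add, mul_one]; exact h1
  · intro m' hm'
    rw [coeff_mul_Xs] at hm'
    split_ifs at hm' with h3
    · obtain ⟨h4, h5⟩ := h2 _ hm'
      have h6 : m' = (m' - Finsupp.single t 1) + Finsupp.single t 1 := by
        rw [tsub_add_cancel_of_le]
        rw [Finsupp.single_le_iff]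
        have := Finsupp.mem_support_iff.1 h3
        omega
      constructor
      · rw [h6, map_add, map_add, h4]
      · rw [h6]
        rw [← not_lt, key_add_lt, not_lt]
        exact h5
    · exact absurd rfl hm'

/-- Semicontinuity. -/
theorem zdD_le_zdD_leadD (J : Submodule D (PD D n)) (p j : ℕ) :
    zdD (Xs D) J p j ≤ zdD (Xs D) (monD D (leadD J)) p j := by
  classical
  unfold zdD
  refine finrank_le_of_initial key key_injective cmpD cmpD_cmpD_self
    (fun i j hij f => cmpD_cmpD_ne hij f) (degS n j) _ _ ?_ ?_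
  · intro f hf h
    funext T
    ext m
    by_contra hne
    change (f T).coeff m ≠ 0 at hne
    have h1 := hf.1 T m hne
    have h2 := h (m + e1 T) (by rw [mem_degS, map_add, degree_e1]; omega)
    have h3 := coeff_cmpD (m + e1 T) f T m
    rw [h2, if_pos rfl] at h3
    exact hne h3.symm
  · intro μ hμ f hf h
    rw [mem_zspD]
    constructor
    · intro T m hm
      rw [coeff_cmpD] at hm
      split_ifs at hm with h1
      · exact hf.1 T m hm
      · exact absurd rfl hm
    · intro U
      rw [KR_cmpD, mem_monD]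
      intro m hm
      rw [coeff_cmpD] at hm
      split_ifs at hm with h1
      · refine ⟨KR (Xs D) f U, hf.2 U, hm, fun m' hm' => ?_⟩
        have hdeg : ∀ m'', (KR (Xs D) f U).coeff m'' ≠ 0 → (m'' + e1 U).degree = j := by
          intro m'' hm''
          rw [coeff_KR] at hm''
          obtain ⟨t, ht, h2⟩ := Finset.exists_ne_zero_of_sum_ne_zero hm''
          have h3 : (if t ∈ m''.support then
              (f (insert t U)).coeff (m'' - Finsupp.single t 1) else 0) ≠ 0 := fun h0 =>
            h2 (by rw [h0, smul_zero])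
          have htU : t ∉ U := by simpa using ht
          split_ifs at h3 with h4
          · have h5 := hf.1 _ _ h3
            have h7 : m'' = (m'' - Finsupp.single t 1) + Finsupp.single t 1 := by
              rw [tsub_add_cancel_of_le]
              rw [Finsupp.single_le_iff]
              have := Finsupp.mem_support_iff.1 h4
              omega
            have h8 : m''.degree = (m'' - Finsupp.single t 1).degree + 1 := by
              conv_lhs => rw [h7]
              rw [map_add, Finsupp.degree_single]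
            rw [Finset.card_insert_of_notMem htU] at h5
            rw [map_add, degree_e1]
            omega
          · exact absurd rfl h3
        constructor
        · have h2 := hdeg m' hm'
          have h3 := hdeg m hm
          rw [map_add] at h2 h3
          omega
        · by_contra hlt
          rw [not_le, ← key_add_lt (e1 U), h1] at hlt
          have h4 := h (m' + e1 U) (mem_degS.2 (hdeg m' hm')) hlt
          have h5 := coeff_cmpD (m' + e1 U) (KR (Xs D) f) U m'
          rw [if_pos rfl, ← KR_cmpD, h4, map_zero] at h5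
          exact hm' h5.symm
      · exact absurd rfl hm

end Crest.Agent.R181.AE
end

-- ▼ part R181/AEPsi
section

/-!
# Polynomials in commuting linear forms over a division ring

If `M 0, …, M (n-1)` are pairwise commuting linear forms of `PD D n` which span the space of
linear forms over `D`, then the monomials in the `M i` are a basis of `PD D n` over `D`.
-/

set_option autoImplicit false

namespace Crest.Agent.R181.AE

open Module Finset
open Crest.Agent.R181.Mon (degS mem_degS)

variable {n : ℕ} {D : Type*} [DivisionRing D]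

theorem exists_monomials (M : Fin n → PD D n) (hc : ∀ i k, M i * M k = M k * M i) :
    ∃ E : (Fin n →₀ ℕ) → PD D n, E 0 = 1 ∧ (∀ m t, E (m + Finsupp.single t 1) = E m * M t) ∧
      (∀ m t, M t * E m = E m * M t) := by
  classical
  have hcomm : ∀ a ∈ Set.range M, ∀ b ∈ Set.range M, a * b = b * a := by
    rintro _ ⟨i, rfl⟩ _ ⟨k, rfl⟩
    exact hc i k
  have hcm := Submonoid.isMulCommutative_closure (PD D n) hcomm
  let _ : CommMonoid (Submonoid.closure (Set.range M)) :=
    { (inferInstance : Monoid (Submonoid.closure (Set.range M))) with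
      mul_comm := fun a b => hcm.is_comm.comm a b }
  let g : Fin n → Submonoid.closure (Set.range M) := fun i =>
    ⟨M i, Submonoid.subset_closure ⟨i, rfl⟩⟩
  refine ⟨fun m => ((∏ i, g i ^ m i : Submonoid.closure (Set.range M)) : PD D n), ?_, ?_, ?_⟩
  · simp
  · intro m t
    have : ∏ i, g i ^ ((m + Finsupp.single t 1 : Fin n →₀ ℕ) i) = (∏ i, g i ^ m i) * g t := by
      have h1 : ∀ i, g i ^ ((m + Finsupp.single t 1 : Fin n →₀ ℕ) i) = g i ^ m i * (if t = i then g t else 1) := by
        intro i
        rw [Finsupp.add_apply, pow_add, Finsupp.single_apply]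
        split_ifs with h
        · rw [h, pow_one]
        · rw [pow_zero]
      simp only [h1, Finset.prod_mul_distrib, Finset.prod_ite_eq, Finset.mem_univ, if_true]
    change ((∏ i, g i ^ ((m + Finsupp.single t 1 : Fin n →₀ ℕ) i) : Submonoid.closure (Set.range M)) : PD D n) = _
    rw [this]
    rfl
  · intro m t
    exact congrArg Subtype.val (mul_comm (g t) (∏ i, g i ^ m i))

/-- The monomials in the `M i`. -/
noncomputable def Em (M : Fin n → PD D n) (hc : ∀ i k, M i * M k = M k * M i) :
    (Fin n →₀ ℕ) → PD D n := (exists_monomials M hc).choose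

variable (M : Fin n → PD D n) (hc : ∀ i k, M i * M k = M k * M i)

theorem Em_zero : Em M hc 0 = 1 := (exists_monomials M hc).choose_spec.1

theorem Em_add_single (m : Fin n →₀ ℕ) (t : Fin n) :
    Em M hc (m + Finsupp.single t 1) = Em M hc m * M t :=
  (exists_monomials M hc).choose_spec.2.1 m t

theorem Em_comm (m : Fin n →₀ ℕ) (t : Fin n) : M t * Em M hc m = Em M hc m * M t :=
  (exists_monomials M hc).choose_spec.2.2 m t

/-- The degree `d` part of `PD D n`. -/
noncomputable def hd (D : Type*) [DivisionRing D] (n d : ℕ) : Submodule D (PD D n) := pcD ⊤ d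

theorem mem_hd {d : ℕ} {f : PD D n} : f ∈ hd D n d ↔ ∀ m, f.coeff m ≠ 0 → m.degree = d := by
  unfold hd
  rw [mem_pcD]
  simp

instance (d : ℕ) : FiniteDimensional D (hd D n d) := by unfold hd; infer_instance

theorem mul_mem_hd {d e : ℕ} {f g : PD D n} (hf : f ∈ hd D n d) (hg : g ∈ hd D n e) :
    f * g ∈ hd D n (d + e) := by
  classical
  rw [mem_hd] at *
  intro m hm
  rw [AddMonoidAlgebra.coeff_mul] at hm
  obtain ⟨m1, h1, h2⟩ := Finset.exists_ne_zero_of_sum_ne_zero hm
  obtain ⟨m2, h3, h4⟩ := Finset.exists_ne_zero_of_sum_ne_zero h2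
  have h4' : (if m1 + m2 = m then f.coeff m1 * g.coeff m2 else 0) ≠ 0 := h4
  split_ifs at h4' with h5
  · rw [← h5, map_add, hf m1 (left_ne_zero_of_mul h4'), hg m2 (right_ne_zero_of_mul h4')]
  · exact absurd rfl h4'

theorem one_mem_hd : (1 : PD D n) ∈ hd D n 0 := by
  rw [mem_hd]
  intro m hm
  rw [AddMonoidAlgebra.one_def, AddMonoidAlgebra.coeff_single] at hm
  by_contra h
  apply hm
  rw [Finsupp.single_eq_of_ne]
  rintro rfl
  exact h (map_zero _)

theorem Cs_mem_hd (d : D) : (Cs d : PD D n) ∈ hd D n 0 := by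
  rw [mem_hd]
  intro m hm
  unfold Cs at hm
  rw [AddMonoidAlgebra.coeff_single] at hm
  by_contra h
  apply hm
  rw [Finsupp.single_eq_of_ne]
  rintro rfl
  exact h (map_zero _)

theorem single_mem_hd {m : Fin n →₀ ℕ} {d : ℕ} (h : m.degree = d) (a : D) :
    AddMonoidAlgebra.single m a ∈ hd D n d := by
  rw [mem_hd]
  intro m' hm'
  rw [AddMonoidAlgebra.coeff_single] at hm'
  by_contra h1
  apply hm'
  rw [Finsupp.single_eq_of_ne]
  rintro rfl
  exact h1 h

theorem Xs_mem_hd (t : Fin n) : Xs D t ∈ hd D n 1 :=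
  single_mem_hd (by rw [Finsupp.degree_single]) _

theorem exists_eq_add_single {m : Fin n →₀ ℕ} {d : ℕ} (h : m.degree = d + 1) :
    ∃ (m' : Fin n →₀ ℕ) (t : Fin n), m = m' + Finsupp.single t 1 ∧ m'.degree = d := by
  have h1 : m ≠ 0 := by
    rintro rfl
    rw [map_zero] at h
    omega
  obtain ⟨t, ht⟩ := Finsupp.ne_iff.1 h1
  have h2 : m = (m - Finsupp.single t 1) + Finsupp.single t 1 := by
    rw [tsub_add_cancel_of_le]
    rw [Finsupp.single_le_iff]
    simp only [Finsupp.coe_zero, Pi.zero_apply] at ht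
    omega
  refine ⟨m - Finsupp.single t 1, t, h2, ?_⟩
  have h3 := congrArg Finsupp.degree h2
  rw [map_add, Finsupp.degree_single, h] at h3
  omega

theorem Em_mem_hd (hM : ∀ i, M i ∈ hd D n 1) (m : Fin n →₀ ℕ) :
    Em M hc m ∈ hd D n m.degree := by
  obtain ⟨d, hd'⟩ : ∃ d, m.degree = d := ⟨_, rfl⟩
  induction d generalizing m with
  | zero =>
    have : m = 0 := (Finsupp.degree_eq_zero_iff m).1 hd'
    rw [this, Em_zero, map_zero]
    exact one_mem_hd
  | succ d ih =>
    obtain ⟨m', t, rfl, h1⟩ := exists_eq_add_single hd'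
    rw [Em_add_single, map_add, Finsupp.degree_single]
    exact mul_mem_hd (ih m' h1) (hM t)

/-- Substitution of the `M i` for the variables. -/
noncomputable def Psi : PD D n →ₗ[D] PD D n :=
  Finsupp.linearCombination D (Em M hc) ∘ₗ (AddMonoidAlgebra.coeffLinearEquiv D).toLinearMap

theorem Psi_apply (f : PD D n) : Psi M hc f = f.coeff.sum fun m a => a • Em M hc m := rfl

theorem Psi_single (m : Fin n →₀ ℕ) (a : D) :
    Psi M hc (AddMonoidAlgebra.single m a) = a • Em M hc m := by
  rw [Psi_apply, AddMonoidAlgebra.coeff_single, Finsupp.sum_single_index]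
  rw [zero_smul]

theorem single_mul_Xs (m : Fin n →₀ ℕ) (a : D) (t : Fin n) :
    (AddMonoidAlgebra.single m a : PD D n) * Xs D t =
      AddMonoidAlgebra.single (m + Finsupp.single t 1) a := by
  unfold Xs
  rw [AddMonoidAlgebra.single_mul_single, mul_one]

theorem single_mul_Cs (m : Fin n →₀ ℕ) (a d : D) :
    (AddMonoidAlgebra.single m a : PD D n) * Cs d = AddMonoidAlgebra.single m (a * d) := by
  unfold Cs
  rw [AddMonoidAlgebra.single_mul_single, add_zero]

theorem Psi_mul_Xs (f : PD D n) (t : Fin n) : Psi M hc (f * Xs D t) = Psi M hc f * M t := by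
  induction f using AddMonoidAlgebra.induction_linear with
  | zero => rw [zero_mul, map_zero, zero_mul]
  | add f g hf hg => rw [add_mul, map_add, map_add, add_mul, hf, hg]
  | single m a => rw [single_mul_Xs, Psi_single, Psi_single, Em_add_single, smul_mul']

theorem Psi_one : Psi M hc 1 = 1 := by
  rw [AddMonoidAlgebra.one_def, Psi_single, Em_zero, one_smul]
  rfl

variable (c : Fin n → Fin n → D) (hs : ∀ s, Xs D s = ∑ i, c i s • M i)

include hs in
theorem Psi_Xs (f : PD D n) (s : Fin n) :
    Psi M hc (∑ i, f * Cs (c i s) * Xs D i) = Psi M hc f * Xs D s := by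
  rw [map_sum]
  simp only [Psi_mul_Xs]
  induction f using AddMonoidAlgebra.induction_linear with
  | zero => simp
  | add f g hf hg =>
    rw [map_add, add_mul, ← hf, ← hg, ← Finset.sum_add_distrib]
    refine Finset.sum_congr rfl fun i _ => ?_
    rw [add_mul, map_add, add_mul]
  | single m a =>
    rw [Psi_single, smul_mul', ← Xs_comm, hs, Finset.sum_mul, Finset.smul_sum]
    refine Finset.sum_congr rfl fun i _ => ?_
    rw [single_mul_Cs, Psi_single, smul_mul', smul_mul', Em_comm, smul_smul]

theorem Psi_mem_hd (hM : ∀ i, M i ∈ hd D n 1) {d : ℕ} {f : PD D n} (hf : f ∈ hd D n d) :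
    Psi M hc f ∈ hd D n d := by
  rw [Psi_apply]
  refine Submodule.sum_mem _ fun m hm => Submodule.smul_mem _ _ ?_
  rw [← mem_hd.1 hf m (Finsupp.mem_support_iff.1 hm)]
  exact Em_mem_hd M hc hM m

include hs in
theorem exists_Psi_eq {d : ℕ} {f : PD D n} (hf : f ∈ hd D n d) :
    ∃ g ∈ hd D n d, Psi M hc g = f := by
  have hmain : hd D n d ≤ (hd D n d).map (Psi M hc) := by
    clear hf f
    induction d with
    | zero =>
      intro f hf
      refine ⟨f, hf, ?_⟩
      have h1 : f = AddMonoidAlgebra.single 0 (f.coeff 0) := by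
        ext m
        rw [AddMonoidAlgebra.coeff_single]
        by_cases hm : m = 0
        · rw [hm, Finsupp.single_eq_same]
        · rw [Finsupp.single_eq_of_ne hm]
          by_contra h2
          exact hm ((Finsupp.degree_eq_zero_iff m).1 (mem_hd.1 hf m h2))
      rw [h1, Psi_single, Em_zero, AddMonoidAlgebra.one_def, AddMonoidAlgebra.smul_single,
        smul_eq_mul, mul_one]
    | succ d ih =>
      intro f hf
      rw [← AddMonoidAlgebra.sum_coeff_single f]
      refine Submodule.sum_mem _ fun m hm => ?_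
      obtain ⟨m', t, h1, h2⟩ := exists_eq_add_single
        (mem_hd.1 hf m (Finsupp.mem_support_iff.1 hm))
      obtain ⟨g, hg, hg2⟩ := ih (single_mem_hd h2 (f.coeff m))
      rw [h1, ← single_mul_Xs, ← h1, ← hg2, ← Psi_Xs M hc c hs]
      refine ⟨_, ?_, rfl⟩
      refine Submodule.sum_mem _ fun i _ => ?_
      exact mul_mem_hd (by simpa using mul_mem_hd hg (Cs_mem_hd _)) (Xs_mem_hd i)
  obtain ⟨g, hg, rfl⟩ := hmain hf
  exact ⟨g, hg, rfl⟩

include hs in
theorem Psi_injOn (hM : ∀ i, M i ∈ hd D n 1) {d : ℕ} {f : PD D n} (hf : f ∈ hd D n d)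
    (h0 : Psi M hc f = 0) : f = 0 := by
  let φ : hd D n d →ₗ[D] hd D n d := (Psi M hc).restrict (fun f hf => Psi_mem_hd M hc hM hf)
  have hsurj : Function.Surjective φ := by
    rintro ⟨f, hf⟩
    obtain ⟨g, hg, hg2⟩ := exists_Psi_eq M hc c hs hf
    exact ⟨⟨g, hg⟩, Subtype.ext hg2⟩
  have hinj := LinearMap.injective_iff_surjective.2 hsurj
  have h1 : φ ⟨f, hf⟩ = 0 := Subtype.ext h0
  have h2 := hinj (h1.trans (map_zero φ).symm)
  exact congrArg Subtype.val h2

end Crest.Agent.R181.AE
end

-- ▼ part R181/AEKos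
section

/-!
# Comparison of the Koszul complexes of the variables and of the `M i`
-/

set_option autoImplicit false

namespace Crest.Agent.R181.AE

open Module Finset
open Crest.Agent.R181.Mon (degS mem_degS)

variable {n : ℕ} {D : Type*} [DivisionRing D]

/-- The matrices of the comparison map. -/
noncomputable def phi (c : Fin n → Fin n → D) : ℕ → Finset (Fin n) → Finset (Fin n) → D
  | 0, T, U => if T = ∅ ∧ U = ∅ then 1 else 0
  | (k + 1), T, U => if h : T.Nonempty then
      sgz (T.erase (T.max' h)) (T.max' h) • ∑ s ∈ U, sgz (U.erase s) s •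
        (phi c k (T.erase (T.max' h)) (U.erase s) * c (T.max' h) s) else 0

/-- Auxiliary rows. -/
noncomputable def rr (c : Fin n → Fin n → D) (k : ℕ) (i : Fin n) (W U : Finset (Fin n)) : D :=
  ∑ s ∈ U, sgz (U.erase s) s • (phi c k W (U.erase s) * c i s)

theorem phi_succ (c : Fin n → Fin n → D) (k : ℕ) (T U : Finset (Fin n)) (h : T.Nonempty) :
    phi c (k + 1) T U = sgz (T.erase (T.max' h)) (T.max' h) •
      rr c k (T.max' h) (T.erase (T.max' h)) U := by
  rw [phi, dif_pos h]
  rfl


theorem pair_eq_iff {i t a b : Fin n} :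
    (Finsupp.single i 1 + Finsupp.single t 1 : Fin n →₀ ℕ) =
      Finsupp.single a 1 + Finsupp.single b 1 ↔ (i = a ∧ t = b) ∨ (i = b ∧ t = a) := by
  rw [Finsupp.single_add_single_eq_single_add_single one_ne_zero one_ne_zero]
  constructor
  · rintro (⟨h1, h2⟩ | ⟨-, h1, h2⟩ | ⟨h, -, -⟩)
    · exact Or.inl ⟨h1, h2⟩
    · exact Or.inr ⟨h1, h2⟩
    · omega
  · rintro (⟨h1, h2⟩ | ⟨h1, h2⟩)
    · exact Or.inl ⟨h1, h2⟩
    · exact Or.inr (Or.inl ⟨rfl, h1, h2⟩)

/-- A quadratic form with given coefficients. -/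
noncomputable def quad (S : Finset (Fin n)) (r : Fin n → Fin n → D) : PD D n :=
  ∑ t ∈ S, ∑ i, AddMonoidAlgebra.single (Finsupp.single i 1 + Finsupp.single t 1) (r i t)

theorem coeff_quad (S : Finset (Fin n)) (r : Fin n → Fin n → D) (m : Fin n →₀ ℕ) :
    (quad S r).coeff m = ∑ t ∈ S, ∑ i,
      (if Finsupp.single i 1 + Finsupp.single t 1 = m then r i t else 0) := by
  unfold quad
  rw [AddMonoidAlgebra.coeff_sum, Finsupp.finsetSum_apply]
  refine Finset.sum_congr rfl fun t _ => ?_
  rw [AddMonoidAlgebra.coeff_sum, Finsupp.finsetSum_apply]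
  refine Finset.sum_congr rfl fun i _ => ?_
  rw [AddMonoidAlgebra.coeff_single, Finsupp.single_apply]

theorem coeff_quad_ne (S : Finset (Fin n)) (r : Fin n → Fin n → D) {a b : Fin n} (hab : a ≠ b) :
    (quad S r).coeff (Finsupp.single a 1 + Finsupp.single b 1) =
      (if b ∈ S then r a b else 0) + (if a ∈ S then r b a else 0) := by
  rw [coeff_quad]
  have h1 : ∀ t ∈ S, ∑ i, (if (Finsupp.single i 1 + Finsupp.single t 1 : Fin n →₀ ℕ) =
      Finsupp.single a 1 + Finsupp.single b 1 then r i t else 0) =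
      (if b = t then r a b else 0) + (if a = t then r b a else 0) := by
    intro t _
    have h2 : ∀ i ∈ (Finset.univ : Finset (Fin n)),
        (if (Finsupp.single i 1 + Finsupp.single t 1 : Fin n →₀ ℕ) =
        Finsupp.single a 1 + Finsupp.single b 1 then r i t else 0) =
        (if a = i then (if b = t then r a b else 0) else 0) +
        (if b = i then (if a = t then r b a else 0) else 0) := by
      intro i _
      by_cases h3 : i = a ∧ t = b
      · obtain ⟨rfl, rfl⟩ := h3
        rw [if_pos rfl, if_pos rfl, if_pos rfl, if_neg hab.symm, add_zero]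
      · by_cases h4 : i = b ∧ t = a
        · obtain ⟨rfl, rfl⟩ := h4
          rw [if_pos (add_comm _ _), if_neg hab, if_pos rfl, if_pos rfl, zero_add]
        · rw [if_neg]
          · have h5 : (if a = i then (if b = t then r a b else 0) else 0) = 0 := by
              split_ifs with h5 h6
              · exact absurd ⟨h5.symm, h6.symm⟩ h3
              · rfl
              · rfl
            have h6 : (if b = i then (if a = t then r b a else 0) else 0) = 0 := by
              split_ifs with h5 h6
              · exact absurd ⟨h5.symm, h6.symm⟩ h4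
              · rfl
              · rfl
            rw [h5, h6, add_zero]
          · rw [pair_eq_iff]
            rintro (h | h)
            · exact h3 h
            · exact h4 h
    rw [Finset.sum_congr rfl h2, Finset.sum_add_distrib, Finset.sum_ite_eq, Finset.sum_ite_eq,
      if_pos (Finset.mem_univ _), if_pos (Finset.mem_univ _)]
  rw [Finset.sum_congr rfl h1, Finset.sum_add_distrib, Finset.sum_ite_eq, Finset.sum_ite_eq]

theorem coeff_quad_self (S : Finset (Fin n)) (r : Fin n → Fin n → D) (a : Fin n) :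
    (quad S r).coeff (Finsupp.single a 1 + Finsupp.single a 1) = if a ∈ S then r a a else 0 := by
  rw [coeff_quad]
  have h1 : ∀ t ∈ S, ∑ i, (if (Finsupp.single i 1 + Finsupp.single t 1 : Fin n →₀ ℕ) =
      Finsupp.single a 1 + Finsupp.single a 1 then r i t else 0) =
      (if a = t then r a a else 0) := by
    intro t _
    have h2 : ∀ i ∈ (Finset.univ : Finset (Fin n)),
        (if (Finsupp.single i 1 + Finsupp.single t 1 : Fin n →₀ ℕ) =
        Finsupp.single a 1 + Finsupp.single a 1 then r i t else 0) =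
        (if a = i then (if a = t then r a a else 0) else 0) := by
      intro i _
      by_cases h3 : i = a ∧ t = a
      · obtain ⟨rfl, rfl⟩ := h3
        rw [if_pos rfl, if_pos rfl, if_pos rfl]
      · rw [if_neg]
        · split_ifs with h5 h6
          · exact absurd ⟨h5.symm, h6.symm⟩ h3
          · rfl
          · rfl
        · rw [pair_eq_iff]
          rintro (h | h)
          · exact h3 h
          · exact h3 h
    rw [Finset.sum_congr rfl h2, Finset.sum_ite_eq, if_pos (Finset.mem_univ _)]
  rw [Finset.sum_congr rfl h1, Finset.sum_ite_eq]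

variable (M : Fin n → PD D n) (hc : ∀ i k, M i * M k = M k * M i)
  (c : Fin n → Fin n → D) (hs : ∀ s, Xs D s = ∑ i, c i s • M i)

theorem Psi_quad (S : Finset (Fin n)) (r : Fin n → Fin n → D) :
    Psi M hc (quad S r) = ∑ t ∈ S, (∑ i, r i t • M i) * M t := by
  unfold quad
  rw [map_sum]
  refine Finset.sum_congr rfl fun t _ => ?_
  rw [map_sum, Finset.sum_mul]
  refine Finset.sum_congr rfl fun i _ => ?_
  rw [Psi_single, Em_add_single, smul_mul']
  have : Em M hc (Finsupp.single i 1) = M i := by
    have := Em_add_single M hc 0 i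
    rwa [zero_add, Em_zero, one_mul] at this
  rw [this]

theorem quad_mem_hd (S : Finset (Fin n)) (r : Fin n → Fin n → D) : quad S r ∈ hd D n 2 := by
  unfold quad
  refine Submodule.sum_mem _ fun t _ => Submodule.sum_mem _ fun i _ => single_mem_hd ?_ _
  rw [map_add, Finsupp.degree_single, Finsupp.degree_single]

include hs in
theorem sum_Xs_eq (k : ℕ) (W U : Finset (Fin n)) :
    ∑ s ∈ U, sgz (U.erase s) s • (phi c k W (U.erase s) • Xs D s) =
      ∑ i, rr c k i W U • M i := by
  simp only [hs, rr, Finset.sum_smul, Finset.smul_sum]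
  rw [Finset.sum_comm]
  refine Finset.sum_congr rfl fun i _ => Finset.sum_congr rfl fun s _ => ?_
  rw [smul_smul, smul_assoc]

/-- The main compatibility. -/
def Star (k : ℕ) : Prop := ∀ W U : Finset (Fin n), W.card = k →
  ∑ t ∈ Wᶜ, sgz W t • (phi c (k + 1) (insert t W) U • M t) =
    ∑ s ∈ U, sgz (U.erase s) s • (phi c k W (U.erase s) • Xs D s)

/-- first auxiliary claim -/
def ClA (c : Fin n → Fin n → D) (k : ℕ) : Prop := ∀ W U : Finset (Fin n), W.card = k →
  ∀ i ∈ W, rr c k i W U = 0

/-- second auxiliary claim -/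
def ClB (c : Fin n → Fin n → D) (k : ℕ) : Prop := ∀ T U : Finset (Fin n), T.card = k + 1 →
  ∀ i ∈ T, phi c (k + 1) T U = sgz (T.erase i) i • rr c k i (T.erase i) U

include hs in
theorem star_of_AB (k : ℕ) (hA : ClA c k) (hB : ClB c k) : Star M c k := by
  intro W U hW
  rw [sum_Xs_eq M c hs]
  have h1 : ∀ t ∈ Wᶜ, sgz W t • (phi c (k + 1) (insert t W) U • M t) = rr c k t W U • M t := by
    intro t ht
    have htW : t ∉ W := by simpa using ht
    have h2 := hB (insert t W) U (by rw [Finset.card_insert_of_notMem htW, hW]) t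
      (Finset.mem_insert_self _ _)
    rw [Finset.erase_insert htW] at h2
    rw [h2, smul_assoc, sgz_smul_sgz_smul]
  rw [Finset.sum_congr rfl h1]
  refine Finset.sum_subset (Finset.subset_univ _) fun i _ hi => ?_
  have hiW : i ∈ W := by simpa using hi
  rw [hA W U hW i hiW, zero_smul]

/-- Antisymmetric sums vanish. -/
theorem sum_antisymm {A : Type*} [AddCommGroup A] (U : Finset (Fin n))
    (F : Fin n → Fin n → A) (hF : ∀ s s', F s s' = F s' s) :
    ∑ s ∈ U, sgz (U.erase s) s • ∑ s' ∈ U.erase s,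
      sgz ((U.erase s).erase s') s' • F s s' = 0 := by
  have h1 : ∀ s ∈ U, sgz (U.erase s) s • ∑ s' ∈ U.erase s,
      sgz ((U.erase s).erase s') s' • F s s' = ∑ s' ∈ U.erase s,
      (sgz (U.erase s) s * sgz ((U.erase s).erase s') s') • F s s' := by
    intro s _
    rw [Finset.smul_sum]
    refine Finset.sum_congr rfl fun s' _ => ?_
    rw [smul_smul]
  rw [Finset.sum_congr rfl h1, Finset.sum_sigma']
  refine Finset.sum_involution (fun x _ => ⟨x.2, x.1⟩) ?_ ?_ ?_ ?_
  · rintro ⟨s, s'⟩ hx
    rw [Finset.mem_sigma] at hx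
    obtain ⟨h2, h3⟩ := hx
    simp only [Finset.mem_erase] at h2 h3
    have h4 : (U.erase s).erase s' = (U.erase s').erase s := Finset.erase_right_comm
    have h5 : U.erase s = insert s' ((U.erase s).erase s') :=
      (Finset.insert_erase (Finset.mem_erase.2 h3)).symm
    have h6 : U.erase s' = insert s ((U.erase s).erase s') := by
      rw [h4]
      exact (Finset.insert_erase (Finset.mem_erase.2 ⟨h3.1.symm, h2⟩)).symm
    have h7 := sgz_swap (U := (U.erase s).erase s') (s := s) (t := s') (by simp) (by simp)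
      h3.1.symm
    rw [← h5, ← h6] at h7
    simp only
    rw [hF s' s, ← add_smul, ← h4, mul_comm (sgz (U.erase s) s), h7,
      mul_comm (sgz (U.erase s') s'), neg_add_cancel, zero_smul]
  · rintro ⟨s, s'⟩ hx _ h
    rw [Finset.mem_sigma] at hx
    obtain ⟨h2, h3⟩ := hx
    simp only [Sigma.mk.injEq] at h
    simp only [Finset.mem_erase] at h3
    exact h3.1 h.1
  · rintro ⟨s, s'⟩ hx
    rw [Finset.mem_sigma] at hx ⊢
    obtain ⟨h2, h3⟩ := hx
    simp only [Finset.mem_erase] at h2 h3 ⊢
    exact ⟨h3.2, h3.1.symm, h2⟩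
  · rintro ⟨s, s'⟩ _
    rfl

include hc hs in
theorem quad_eq_zero (hM : ∀ i, M i ∈ hd D n 1) (k : ℕ) (hS : Star M c k)
    (W U : Finset (Fin n)) (hW : W.card = k) :
    quad Wᶜ (fun i t => sgz W t • rr c (k + 1) i (insert t W) U) = 0 := by
  refine Psi_injOn M hc c hs hM (quad_mem_hd _ _) ?_
  rw [Psi_quad]
  have h1 : ∀ t ∈ Wᶜ, (∑ i, (sgz W t • rr c (k + 1) i (insert t W) U) • M i) * M t =
      ∑ s ∈ U, sgz (U.erase s) s • (Xs D s *
        (sgz W t • (phi c (k + 1) (insert t W) (U.erase s) • M t))) := by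
    intro t _
    have h2 : ∑ i, (sgz W t • rr c (k + 1) i (insert t W) U) • M i =
        sgz W t • ∑ i, rr c (k + 1) i (insert t W) U • M i := by
      rw [Finset.smul_sum]
      exact Finset.sum_congr rfl fun i _ => smul_assoc _ _ _
    rw [h2, ← sum_Xs_eq M c hs, Finset.smul_sum, Finset.sum_mul]
    refine Finset.sum_congr rfl fun s _ => ?_
    rw [smul_comm, smul_mul_assoc, mul_smul_comm, smul_mul_assoc, smul_mul', Xs_comm,
      Xs_comm s (_ • M t), smul_mul']
  rw [Finset.sum_congr rfl h1, Finset.sum_comm]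
  have h3 : ∀ s ∈ U, ∑ t ∈ Wᶜ, sgz (U.erase s) s • (Xs D s *
        (sgz W t • (phi c (k + 1) (insert t W) (U.erase s) • M t))) =
      sgz (U.erase s) s • ∑ s' ∈ U.erase s, sgz ((U.erase s).erase s') s' •
        (phi c k W ((U.erase s).erase s') • (Xs D s * Xs D s')) := by
    intro s _
    rw [← Finset.smul_sum, ← Finset.mul_sum, hS W (U.erase s) hW, Finset.mul_sum]
    congr 1
    refine Finset.sum_congr rfl fun s' _ => ?_
    rw [mul_smul_comm]
    congr 1
    rw [Xs_comm, smul_mul', Xs_comm s]
  rw [Finset.sum_congr rfl h3]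
  exact sum_antisymm U (fun s s' => phi c k W ((U.erase s).erase s') • (Xs D s * Xs D s'))
    (by intro s s'; rw [Finset.erase_right_comm, Xs_comm])

theorem clA_zero : ClA c 0 := by
  intro W U hW i hi
  rw [Finset.card_eq_zero.1 hW] at hi
  simp at hi

theorem clB_zero : ClB c 0 := by
  intro T U hT i hi
  obtain ⟨t, rfl⟩ := Finset.card_eq_one.1 hT
  rw [Finset.mem_singleton] at hi
  subst hi
  rw [phi_succ c 0 {i} U (Finset.singleton_nonempty i)]
  simp only [Finset.max'_singleton]

include hc hs in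
theorem AB_succ (hM : ∀ i, M i ∈ hd D n 1) (k : ℕ) (hA : ClA c k) (hB : ClB c k) :
    ClA c (k + 1) ∧ ClB c (k + 1) := by
  have hS := star_of_AB M c hs k hA hB
  have hQ := quad_eq_zero M hc c hs hM k hS
  constructor
  · intro W U hW i hi
    have h1 := hQ (W.erase i) U (by rw [Finset.card_erase_of_mem hi, hW]; rfl)
    have h2 := coeff_quad_self (W.erase i)ᶜ
      (fun i' t => sgz (W.erase i) t • rr c (k + 1) i' (insert t (W.erase i)) U) i
    rw [h1, if_pos (by simp), Finset.insert_erase hi] at h2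
    exact sgz_smul_eq_zero.1 h2.symm
  · intro T U hT i hi
    have hne : T.Nonempty := ⟨i, hi⟩
    rw [phi_succ c (k + 1) T U hne]
    set b := T.max' hne with hb
    have hbT : b ∈ T := T.max'_mem hne
    by_cases hib : b = i
    · rw [hib]
    set W := (T.erase i).erase b with hW
    have hbi : b ∈ T.erase i := Finset.mem_erase.2 ⟨hib, hbT⟩
    have h1 := hQ W U (by
      rw [hW, Finset.card_erase_of_mem hbi, Finset.card_erase_of_mem hi, hT]; rfl)
    have h2 := coeff_quad_ne Wᶜ
      (fun i' t => sgz W t • rr c (k + 1) i' (insert t W) U) hib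
    have hbW : b ∉ W := by rw [hW]; simp
    have hiW : i ∉ W := by rw [hW]; simp
    have h3 : insert b W = T.erase i := by rw [hW, Finset.insert_erase hbi]
    have h4 : insert i W = T.erase b := by
      rw [hW, Finset.erase_right_comm]
      exact Finset.insert_erase (Finset.mem_erase.2 ⟨fun h => hib h.symm, hi⟩)
    rw [h1, if_pos (by simpa using hiW), if_pos (by simpa using hbW), h3, h4] at h2
    have h5 : sgz W i • rr c (k + 1) b (T.erase b) U =
        -(sgz W b • rr c (k + 1) i (T.erase i) U) := by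
      rw [eq_neg_iff_add_eq_zero]
      exact h2.symm
    have h6 := sgz_swap (U := W) (s := b) (t := i) hbW hiW hib
    rw [h3, h4] at h6
    -- multiply
    have h7 : rr c (k + 1) b (T.erase b) U =
        -(sgz W i • sgz W b • rr c (k + 1) i (T.erase i) U) := by
      rw [← smul_neg, ← h5, sgz_smul_sgz_smul]
    rw [h7, smul_neg, smul_smul, mul_comm, h6, neg_smul, neg_neg, mul_comm, ← smul_smul,
      sgz_smul_sgz_smul]

include hc hs in
theorem AB_all (hM : ∀ i, M i ∈ hd D n 1) (k : ℕ) : ClA c k ∧ ClB c k := by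
  induction k with
  | zero => exact ⟨clA_zero c, clB_zero c⟩
  | succ k ih => exact AB_succ M hc c hs hM k ih.1 ih.2

include hc hs in
theorem star_all (hM : ∀ i, M i ∈ hd D n 1) (k : ℕ) : Star M c k :=
  star_of_AB M c hs k (AB_all M hc c hs hM k).1 (AB_all M hc c hs hM k).2

theorem mul_zsmul_comm' (z : ℤ) (f g : PD D n) : z • (f * g) = f * (z • g) :=
  (mul_smul_comm z f g).symm

theorem sum_erase_eq {A : Type*} [AddCommMonoid A]
    (g : Finset (Fin n) → Fin n → Finset (Fin n) → A) :
    ∑ U, ∑ s ∈ U, g (U.erase s) s U = ∑ V, ∑ s ∈ Vᶜ, g V s (insert s V) := by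
  rw [Finset.sum_sigma', Finset.sum_sigma']
  refine Finset.sum_bij' (fun x _ => ⟨x.1.erase x.2, x.2⟩) (fun x _ => ⟨insert x.2 x.1, x.2⟩)
    ?_ ?_ ?_ ?_ ?_
  · rintro ⟨U, s⟩ hx
    simp
  · rintro ⟨V, s⟩ hx
    simp
  · rintro ⟨U, s⟩ hx
    simp only [Finset.mem_sigma, Finset.mem_univ, true_and] at hx
    simp only [Finset.insert_erase hx]
  · rintro ⟨V, s⟩ hx
    simp only [Finset.mem_sigma, Finset.mem_univ, true_and, Finset.mem_compl] at hx
    simp only [Finset.erase_insert hx]
  · rintro ⟨U, s⟩ hx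
    simp only [Finset.mem_sigma, Finset.mem_univ, true_and] at hx
    simp only [Finset.insert_erase hx]

/-- The comparison map. -/
noncomputable def Theta (c : Fin n → Fin n → D) (k : ℕ) : ChD D n →ₗ[D] ChD D n where
  toFun f T := if T.card = k then ∑ U, f U * Cs (phi c k T U) else 0
  map_add' f g := by
    funext T
    simp only [Pi.add_apply, add_mul, Finset.sum_add_distrib]
    split_ifs <;> simp
  map_smul' a f := by
    funext T
    simp only [Pi.smul_apply, RingHom.id_apply, smul_mul']
    split_ifs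
    · rw [Finset.smul_sum]
    · rw [smul_zero]

theorem Theta_apply (k : ℕ) (f : ChD D n) (T : Finset (Fin n)) :
    Theta c k f T = if T.card = k then ∑ U, f U * Cs (phi c k T U) else 0 := rfl

include hc hs in
theorem KR_Theta (hM : ∀ i, M i ∈ hd D n 1) (k : ℕ) (f : ChD D n) :
    KR M (Theta c (k + 1) f) = Theta c k (KR (Xs D) f) := by
  funext W
  rw [KR_apply, Theta_apply]
  split_ifs with hW
  · have h1 : ∀ t ∈ Wᶜ, sgz W t • (Theta c (k + 1) f (insert t W) * M t) =
        ∑ U, f U * (sgz W t • (phi c (k + 1) (insert t W) U • M t)) := by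
      intro t ht
      have htW : t ∉ W := by simpa using ht
      rw [Theta_apply, if_pos (by rw [Finset.card_insert_of_notMem htW, hW]), Finset.sum_mul,
        Finset.smul_sum]
      refine Finset.sum_congr rfl fun U _ => ?_
      rw [mul_assoc, Cs_mul, mul_zsmul_comm']
    rw [Finset.sum_congr rfl h1, Finset.sum_comm]
    have h2 : ∀ U ∈ (Finset.univ : Finset (Finset (Fin n))),
        ∑ t ∈ Wᶜ, f U * (sgz W t • (phi c (k + 1) (insert t W) U • M t)) =
        ∑ s ∈ U, sgz (U.erase s) s • (f U * Xs D s * Cs (phi c k W (U.erase s))) := by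
      intro U _
      rw [← Finset.mul_sum, star_all M hc c hs hM k W U hW, Finset.mul_sum]
      refine Finset.sum_congr rfl fun s _ => ?_
      rw [mul_smul_comm, mul_assoc, Xs_comm, Cs_mul]
    rw [Finset.sum_congr rfl h2, sum_erase_eq (fun V s U =>
      sgz V s • (f U * Xs D s * Cs (phi c k W V)))]
    refine Finset.sum_congr rfl fun V _ => ?_
    rw [KR_apply, Finset.sum_mul]
    refine Finset.sum_congr rfl fun s _ => ?_
    rw [smul_mul_assoc]
  · refine Finset.sum_eq_zero fun t ht => ?_
    have htW : t ∉ W := by simpa using ht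
    rw [Theta_apply, if_neg (by rw [Finset.card_insert_of_notMem htW]; omega), zero_mul,
      smul_zero]

include hc hs in
theorem phi_inj (hM : ∀ i, M i ∈ hd D n 1) (k : ℕ) (v : Finset (Fin n) → D)
    (hv : ∀ U, v U ≠ 0 → U.card = k)
    (h : ∀ T : Finset (Fin n), T.card = k → ∑ U, v U * phi c k T U = 0) : v = 0 := by
  induction k generalizing v with
  | zero =>
    have h1 := h ∅ rfl
    funext U
    by_contra hne
    have h2 := Finset.card_eq_zero.1 (hv U hne)
    subst h2
    apply hne
    change v ∅ = 0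
    rw [← h1, Finset.sum_eq_single ∅]
    · rw [phi, if_pos ⟨rfl, rfl⟩, mul_one]
    · intro U _ hU
      rw [phi, if_neg (fun h => hU h.2), mul_zero]
    · intro h3
      exact absurd (Finset.mem_univ _) h3
  | succ k ih =>
    set f : ChD D n := fun U => Cs (v U) with hf
    have h1 : Theta c (k + 1) f = 0 := by
      funext T
      rw [Theta_apply]
      split_ifs with hT
      · have h2 : ∀ U ∈ (Finset.univ : Finset (Finset (Fin n))),
            f U * Cs (phi c (k + 1) T U) = AddMonoidAlgebra.singleAddHom 0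
              (v U * phi c (k + 1) T U) := by
          intro U _
          simp only [hf, Cs, AddMonoidAlgebra.single_mul_single, add_zero,
            AddMonoidAlgebra.singleAddHom_apply]
        rw [Finset.sum_congr rfl h2, ← map_sum, h T hT, map_zero]
        rfl
      · rfl
    have h2 : Theta c k (KR (Xs D) f) = 0 := by
      rw [← KR_Theta M hc c hs hM k f, h1, map_zero]
    have h3 : ∀ m : Fin n →₀ ℕ, (fun V => (KR (Xs D) f V).coeff m) = 0 := by
      intro m
      refine ih _ ?_ ?_
      · intro V hV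
        rw [coeff_KR] at hV
        obtain ⟨t, ht, h4⟩ := Finset.exists_ne_zero_of_sum_ne_zero hV
        have htV : t ∉ V := by simpa using ht
        have h5 : v (insert t V) ≠ 0 := by
          intro h0
          apply h4
          have : f (insert t V) = 0 := by
            simp only [hf, h0, Cs, AddMonoidAlgebra.single_zero]
          rw [this]
          simp
        have h6 := hv _ h5
        rw [Finset.card_insert_of_notMem htV] at h6
        omega
      · intro T hT
        have h4 := congrArg (fun g : PD D n => g.coeff m) (congrFun h2 T)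
        simp only [Theta_apply, if_pos hT, AddMonoidAlgebra.coeff_sum,
          Finsupp.finsetSum_apply, coeff_mul_Cs] at h4
        exact h4
    funext U
    by_contra hne
    have hU := hv U hne
    obtain ⟨s, hsU⟩ : U.Nonempty := by
      rw [← Finset.card_pos, hU]; omega
    have h4 := congrFun (h3 (Finsupp.single s 1)) (U.erase s)
    simp only [coeff_KR, Pi.zero_apply] at h4
    rw [Finset.sum_eq_single s] at h4
    · rw [sgz_smul_eq_zero, Finset.insert_erase hsU, if_pos (by simp), tsub_self] at h4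
      simp only [hf, Cs, AddMonoidAlgebra.coeff_single, Finsupp.single_eq_same] at h4
      exact hne h4
    · intro t _ hts
      rw [if_neg, smul_zero]
      rw [Finsupp.mem_support_iff, not_not, Finsupp.single_eq_of_ne hts]
    · intro h5
      simp at h5

theorem Theta_mem_chD {k j : ℕ} {f : ChD D n} (hf : f ∈ chD D n k j) :
    Theta c k f ∈ chD D n k j := by
  intro T m hm
  rw [Theta_apply] at hm
  split_ifs at hm with hT
  · rw [AddMonoidAlgebra.coeff_sum, Finsupp.finsetSum_apply] at hm
    obtain ⟨U, _, h1⟩ := Finset.exists_ne_zero_of_sum_ne_zero hm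
    rw [coeff_mul_Cs] at h1
    exact ⟨hT, (hf U m (left_ne_zero_of_mul h1)).2⟩
  · exact absurd rfl hm

theorem KR_chD_zero (a : Fin n → PD D n) {j : ℕ} {f : ChD D n} (hf : f ∈ chD D n 0 j) :
    KR a f = 0 := by
  funext U
  rw [KR_apply]
  refine Finset.sum_eq_zero fun t ht => ?_
  have : f (insert t U) = 0 := by
    ext m
    by_contra h
    have := (hf (insert t U) m h).1
    rw [Finset.card_eq_zero] at this
    exact Finset.insert_ne_empty _ _ this
  rw [this, zero_mul, smul_zero]

include hc hs in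
/-- Comparison of the two Koszul complexes. -/
theorem zdD_Xs_le (hM : ∀ i, M i ∈ hd D n 1) (J : Submodule D (PD D n))
    (hJ : ∀ f ∈ J, ∀ d : D, f * Cs d ∈ J) (p j : ℕ) : zdD (Xs D) J p j ≤ zdD M J p j := by
  unfold zdD
  cases p with
  | zero =>
    apply Submodule.finrank_mono
    intro f hf
    refine ⟨hf.1, fun U => ?_⟩
    rw [KR_chD_zero M hf.1]
    exact J.zero_mem
  | succ k =>
    have hmaps : ∀ f ∈ zspD (Xs D) J (k + 1) j, Theta c (k + 1) f ∈ zspD M J (k + 1) j := by
      intro f hf
      refine ⟨Theta_mem_chD c hf.1, fun U => ?_⟩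
      rw [KR_Theta M hc c hs hM, Theta_apply]
      split_ifs
      · exact J.sum_mem fun V _ => hJ _ (hf.2 V) _
      · exact J.zero_mem
    refine LinearMap.finrank_le_finrank_of_injective
      (f := (Theta c (k + 1)).restrict hmaps) ?_
    rw [injective_iff_map_eq_zero]
    rintro ⟨f, hf⟩ h0
    have h1 : Theta c (k + 1) f = 0 := congrArg Subtype.val h0
    apply Subtype.ext
    change f = 0
    funext U
    ext m
    have h2 : (fun U => (f U).coeff m) = 0 := by
      refine phi_inj M hc c hs hM (k + 1) _ (fun U hU => (hf.1 U m hU).1) ?_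
      intro T hT
      have h4 := congrArg (fun g : PD D n => g.coeff m) (congrFun h1 T)
      simp only [Theta_apply, if_pos hT, AddMonoidAlgebra.coeff_sum,
        Finsupp.finsetSum_apply, coeff_mul_Cs] at h4
      exact h4
    exact congrFun h2 U

end Crest.Agent.R181.AE
private theorem rz_81df928129 : type_of% @_root_.Crest.Agent.R181.AE.phi.eq_def := @_root_.Crest.Agent.R181.AE.phi.eq_def -- L17
private theorem rz_775fa48750 : type_of% @_root_.Crest.Agent.R181.AE.phi.eq_1 := @_root_.Crest.Agent.R181.AE.phi.eq_1 -- L17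
end

-- ▼ part R181/AEMain
section

/-!
# The lex-plus-powers theorem from commuting linear forms over a division ring

`lpp_of_skew`: if over some division ring `D ⊇ ℂ` there are pairwise commuting linear forms
`M 0, …, M (n-1)` spanning the linear forms, with
`(M i) ^ (a i) ∈ I D[x] + ∑_{k > i} D[x] (M k)`, then the conclusion of `S0271` holds.
-/

set_option autoImplicit false

namespace Crest.Agent.R181.AE

open Module Finset Crest.AlgebraR.LPP
open Crest.Agent.R181.Mon (degS mem_degS zd pc key UpClosed HasP)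

variable {n : ℕ} {D : Type*} [DivisionRing D]

variable (M : Fin n → PD D n) (hc : ∀ i k, M i * M k = M k * M i)
  (c : Fin n → Fin n → D) (hs : ∀ s, Xs D s = ∑ i, c i s • M i)

/-- `Psi` on chains. -/
noncomputable def PsiC : ChD D n →ₗ[D] ChD D n where
  toFun f T := Psi M hc (f T)
  map_add' f g := by funext T; exact map_add _ _ _
  map_smul' a f := by funext T; exact (Psi M hc).map_smul a (f T)


theorem KR_PsiC (f : ChD D n) (U : Finset (Fin n)) :
    KR M (PsiC M hc f) U = Psi M hc (KR (Xs D) f U) := by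
  rw [KR_apply, KR_apply, map_sum]
  refine Finset.sum_congr rfl fun t _ => ?_
  rw [map_zsmul, Psi_mul_Xs]
  rfl

include hs in
/-- Transport by `Psi`. -/
theorem zdD_M_le (J : Submodule D (PD D n)) (p j : ℕ) :
    zdD M J p j ≤ zdD (Xs D) (J.comap (Psi M hc)) p j := by
  unfold zdD
  have h1 : zspD M J p j ≤ (zspD (Xs D) (J.comap (Psi M hc)) p j).map (PsiC M hc) := by
    intro f hf
    have h2 : ∀ T, ∃ g : PD D n, (f T = 0 → g = 0) ∧ g ∈ hd D n (j - p) ∧ Psi M hc g = f T := by
      intro T
      by_cases h0 : f T = 0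
      · exact ⟨0, fun _ => rfl, Submodule.zero_mem _, by rw [map_zero, h0]⟩
      · have h3 : f T ∈ hd D n (j - p) := by
          rw [mem_hd]
          intro m hm
          have := hf.1 T m hm
          omega
        obtain ⟨g, hg1, hg2⟩ := exists_Psi_eq M hc c hs h3
        exact ⟨g, fun h => absurd h h0, hg1, hg2⟩
    choose g hg0 hg1 hg2 using h2
    refine ⟨g, ⟨?_, fun U => ?_⟩, ?_⟩
    · intro T m hm
      have h3 : f T ≠ 0 := by
        intro h
        rw [hg0 T h] at hm
        exact hm rfl
      obtain ⟨m', hm'⟩ : ∃ m', (f T).coeff m' ≠ 0 := by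
        by_contra hall
        push Not at hall
        exact h3 (AddMonoidAlgebra.ext (Finsupp.ext hall))
      have h4 := hf.1 T m' hm'
      have h5 := mem_hd.1 (hg1 T) m hm
      omega
    · rw [Submodule.mem_comap, ← KR_PsiC]
      have : PsiC M hc g = f := by
        funext T
        exact hg2 T
      rw [this]
      exact hf.2 U
    · funext T
      exact hg2 T
  exact (Submodule.finrank_mono h1).trans (Submodule.finrank_map_le _ _)

include hs in
theorem finrank_pcD_comap (hM : ∀ i, M i ∈ hd D n 1) (J : Submodule D (PD D n)) (d : ℕ) :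
    finrank D (pcD (J.comap (Psi M hc)) d) = finrank D (pcD J d) := by
  have hmaps : ∀ f ∈ pcD (J.comap (Psi M hc)) d, Psi M hc f ∈ pcD J d := by
    intro f hf
    exact ⟨mem_hd.1 (Psi_mem_hd M hc hM (mem_hd.2 hf.1)), hf.2⟩
  refine (LinearEquiv.ofBijective ((Psi M hc).restrict hmaps) ⟨?_, ?_⟩).finrank_eq
  · rw [injective_iff_map_eq_zero]
    rintro ⟨f, hf⟩ h0
    apply Subtype.ext
    exact Psi_injOn M hc c hs hM (mem_hd.2 hf.1) (congrArg Subtype.val h0)
  · rintro ⟨f, hf⟩
    obtain ⟨g, hg1, hg2⟩ := exists_Psi_eq M hc c hs (mem_hd.2 hf.1)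
    refine ⟨⟨g, mem_hd.1 hg1, ?_⟩, Subtype.ext hg2⟩
    rw [Submodule.mem_comap, hg2]
    exact hf.2

/-- The homogeneous component. -/
noncomputable def hcp (d : ℕ) : PD D n →ₗ[D] PD D n where
  toFun f := AddMonoidAlgebra.ofCoeff (f.coeff.filter fun m => m.degree = d)
  map_add' f g := by
    rw [AddMonoidAlgebra.coeff_add, Finsupp.filter_add]
    rfl
  map_smul' a f := by
    rw [AddMonoidAlgebra.coeff_smul, Finsupp.filter_smul]
    rfl

theorem coeff_hcp (d : ℕ) (f : PD D n) (m : Fin n →₀ ℕ) :
    (hcp d f).coeff m = if m.degree = d then f.coeff m else 0 := by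
  classical
  exact Finsupp.filter_apply _ _ _

theorem hcp_mem_hd (d : ℕ) (f : PD D n) : hcp d f ∈ hd D n d := by
  rw [mem_hd]
  intro m hm
  rw [coeff_hcp] at hm
  split_ifs at hm with h
  · exact h
  · exact absurd rfl hm

theorem hcp_of_mem {d : ℕ} {f : PD D n} (hf : f ∈ hd D n d) : hcp d f = f := by
  ext m
  rw [coeff_hcp]
  split_ifs with h
  · rfl
  · by_contra h2
    exact h (mem_hd.1 hf m (fun h3 => h2 h3.symm))

theorem hcp_of_mem_ne {d e : ℕ} (hne : d ≠ e) {f : PD D n} (hf : f ∈ hd D n d) :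
    hcp e f = 0 := by
  ext m
  rw [coeff_hcp]
  change _ = (0 : D)
  split_ifs with h
  · by_contra h2
    exact hne ((mem_hd.1 hf m h2).symm.trans h)
  · rfl

theorem hcp_mul {d : ℕ} (f : PD D n) {g : PD D n} (hg : g ∈ hd D n 1) :
    hcp (d + 1) (f * g) = hcp d f * g := by
  induction f using AddMonoidAlgebra.induction_linear with
  | zero => simp
  | add f f' hf hf' => rw [add_mul, map_add, map_add, add_mul, hf, hf']
  | single m a =>
    by_cases h : m.degree = d
    · have h1 : (AddMonoidAlgebra.single m a : PD D n) ∈ hd D n d := single_mem_hd h a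
      rw [hcp_of_mem h1, hcp_of_mem (mul_mem_hd h1 hg)]
    · have h1 : (AddMonoidAlgebra.single m a : PD D n) ∈ hd D n m.degree := single_mem_hd rfl a
      rw [hcp_of_mem_ne h h1, zero_mul, hcp_of_mem_ne (by omega) (mul_mem_hd h1 hg)]

theorem pow_mem_hd {g : PD D n} (hg : g ∈ hd D n 1) (a : ℕ) : g ^ a ∈ hd D n a := by
  induction a with
  | zero => rw [pow_zero]; exact one_mem_hd
  | succ a ih => rw [pow_succ]; exact mul_mem_hd ih hg

theorem hcp_mem_exD [Algebra ℂ D] (I : Submodule ℂ (MvPolynomial (Fin n) ℂ))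
    (hI : ∀ g ∈ I, ∀ d : ℕ, MvPolynomial.homogeneousComponent d g ∈ I) (d : ℕ) {f : PD D n}
    (hf : f ∈ exD D I) : hcp d f ∈ exD D I := by
  unfold exD at hf
  induction hf using Submodule.span_induction with
  | mem x hx =>
    obtain ⟨g, hg, rfl⟩ := hx
    have : hcp d (iota D g) = iota D (MvPolynomial.homogeneousComponent d g) := by
      ext m
      rw [coeff_hcp, coeff_iota, coeff_iota, MvPolynomial.coeff_homogeneousComponent]
      split_ifs
      · rfl
      · rw [map_zero]
    rw [this]
    exact Submodule.subset_span ⟨_, hI g hg d, rfl⟩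
  | zero => rw [map_zero]; exact Submodule.zero_mem _
  | add x y _ _ hx hy => rw [map_add]; exact Submodule.add_mem _ hx hy
  | smul a x _ hx => rw [map_smul]; exact Submodule.smul_mem _ _ hx

theorem Psi_Xs_pow (i : Fin n) (a : ℕ) : Psi M hc (Xs D i ^ a) = M i ^ a := by
  induction a with
  | zero => rw [pow_zero, pow_zero, Psi_one]
  | succ a ih => rw [pow_succ, Psi_mul_Xs, ih, pow_succ]

theorem Xs_pow (i : Fin n) (a : ℕ) :
    Xs D i ^ a = AddMonoidAlgebra.single (Finsupp.single i a) 1 := by
  unfold Xs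
  rw [AddMonoidAlgebra.single_pow, one_pow]
  congr 1
  simp

theorem key_lt_of_dvd {m : Fin n →₀ ℕ} {i k : Fin n} {a : ℕ} (hik : i < k)
    (hk : m k ≠ 0) : key m < key (Finsupp.single i a) := by
  classical
  unfold Mon.key
  rw [OrderDual.toDual_lt_toDual, Finsupp.Colex.lt_iff]
  -- the largest index where they differ
  set S : Finset (Fin n) := Finset.univ.filter fun l => k ≤ l ∧ m l ≠ 0 with hS
  have hne : S.Nonempty := ⟨k, by rw [hS, Finset.mem_filter]; exact ⟨Finset.mem_univ _, le_rfl, hk⟩⟩
  have hmem : k ≤ S.max' hne ∧ m (S.max' hne) ≠ 0 := by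
    have h0 : ∀ l ∈ S, k ≤ l ∧ m l ≠ 0 := by
      intro l hl
      rw [hS, Finset.mem_filter] at hl
      exact hl.2
    exact h0 _ (S.max'_mem hne)
  refine ⟨S.max' hne, fun l hl => ?_, ?_⟩
  · have h1 : (Finsupp.single i a : Fin n →₀ ℕ) l = 0 := by
      rw [Finsupp.single_eq_of_ne]
      rintro rfl
      exact absurd (hmem.1.trans_lt hl) (not_lt.2 hik.le)
    have h2 : m l = 0 := by
      by_contra h3
      have h4 : l ∈ S := by
        rw [hS, Finset.mem_filter]
        exact ⟨Finset.mem_univ _, hmem.1.trans hl.le, h3⟩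
      exact absurd (S.le_max' l h4) (not_le.2 hl)
    change (Finsupp.single i a : Fin n →₀ ℕ) l = m l
    rw [h1, h2]
  · have h1 : (Finsupp.single i a : Fin n →₀ ℕ) (S.max' hne) = 0 := by
      rw [Finsupp.single_eq_of_ne]
      intro h2
      rw [h2] at hmem
      exact absurd hmem.1 (not_le.2 hik)
    change (Finsupp.single i a : Fin n →₀ ℕ) (S.max' hne) < m (S.max' hne)
    rw [h1]
    exact Nat.pos_of_ne_zero hmem.2

theorem exD_mul [Algebra ℂ D] (I : Ideal (MvPolynomial (Fin n) ℂ)) {f : PD D n}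
    (hf : f ∈ exD D (Submodule.restrictScalars ℂ I)) (g : PD D n) :
    f * g ∈ exD D (Submodule.restrictScalars ℂ I) := by
  induction g using AddMonoidAlgebra.induction_linear with
  | zero => rw [mul_zero]; exact Submodule.zero_mem _
  | add g g' hg hg' => rw [mul_add]; exact Submodule.add_mem _ hg hg'
  | single m a =>
    obtain ⟨d, hd'⟩ : ∃ d, m.degree = d := ⟨_, rfl⟩
    induction d generalizing m with
    | zero =>
      have : m = 0 := (Finsupp.degree_eq_zero_iff m).1 hd'
      rw [this]
      exact exD_mul_Cs _ hf a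
    | succ d ih =>
      obtain ⟨m', t, rfl, h1⟩ := exists_eq_add_single hd'
      rw [← single_mul_Xs, ← mul_assoc]
      exact exD_mul_Xs _ (fun t f hf => I.mul_mem_left _ hf) (ih m' h1) t

/-- The lex-plus-powers theorem from commuting linear forms over a division ring (left form). -/
theorem lpp_of_skew [Algebra ℂ D] (a : Fin n → ℕ) (ha : Monotone a) (hpos : ∀ i, 0 < a i)
    (I : Ideal (MvPolynomial (Fin n) ℂ))
    (hI : ∀ g ∈ I, ∀ d : ℕ, MvPolynomial.homogeneousComponent d g ∈ I)
    (M : Fin n → PD D n) (hM : ∀ i, M i ∈ hd D n 1) (hc : ∀ i k, M i * M k = M k * M i)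
    (c : Fin n → Fin n → D) (hs : ∀ s, Xs D s = ∑ i, c i s • M i)
    (hp : ∀ i, ∃ s : Fin n → PD D n, M i ^ a i - ∑ k ∈ Finset.univ.filter (fun k => i < k),
      s k * M k ∈ exD D (Submodule.restrictScalars ℂ I)) :
    ∃ U : ℕ → Set (Fin n →₀ ℕ), (∀ d, IsLexSegment n d (U d)) ∧
      (∀ d, Module.finrank ℂ (lppPiece a (U d) d) = Module.finrank ℂ (degreePiece I d)) ∧
      ∃ J : Ideal (MvPolynomial (Fin n) ℂ),
        (∀ g ∈ J, ∀ d : ℕ, MvPolynomial.homogeneousComponent d g ∈ J) ∧
        (∀ d, degreePiece J d = lppPiece a (U d) d) ∧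
        ∀ p j : ℕ, gradedBetti I p j ≤ gradedBetti J p j := by
  classical
  set ID : Submodule D (PD D n) := exD D (Submodule.restrictScalars ℂ I) with hID
  have hJ0 : UpClosed (leadD (ID.comap (Psi M hc))) := by
    apply leadD_upClosed
    intro t f hf
    rw [Submodule.mem_comap] at hf ⊢
    rw [Psi_mul_Xs]
    exact exD_mul I hf _
  have hP0 : HasP a (leadD (ID.comap (Psi M hc))) := by
    intro i
    obtain ⟨s, hs1⟩ := hp i
    obtain ⟨b, hb⟩ : ∃ b, a i = b + 1 := ⟨a i - 1, by have := hpos i; omega⟩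
    have h1 : ∀ k, ∃ g ∈ hd D n b, Psi M hc g = hcp b (s k) := fun k =>
      exists_Psi_eq M hc c hs (hcp_mem_hd _ _)
    choose g hg1 hg2 using h1
    set F : PD D n := Xs D i ^ a i - ∑ k ∈ Finset.univ.filter (fun k => i < k), g k * Xs D k
      with hF
    have hF1 : Psi M hc F = hcp (a i) (M i ^ a i -
        ∑ k ∈ Finset.univ.filter (fun k => i < k), s k * M k) := by
      rw [hF, map_sub, map_sub, map_sum, map_sum, Psi_Xs_pow, hcp_of_mem (pow_mem_hd (hM i) _)]
      congr 1
      refine Finset.sum_congr rfl fun k _ => ?_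
      rw [Psi_mul_Xs, hg2, hb, hcp_mul _ (hM k)]
    have hF2 : F ∈ hd D n (a i) := by
      rw [hF]
      refine Submodule.sub_mem _ (pow_mem_hd (Xs_mem_hd i) _) (Submodule.sum_mem _ fun k _ => ?_)
      rw [hb]
      exact mul_mem_hd (hg1 k) (Xs_mem_hd k)
    have hcoef : ∀ m, F.coeff m = (if Finsupp.single i (a i) = m then 1 else 0) -
        ∑ k ∈ Finset.univ.filter (fun k => i < k), (g k * Xs D k).coeff m := by
      intro m
      rw [hF, AddMonoidAlgebra.coeff_sub, Finsupp.sub_apply, Xs_pow,
        AddMonoidAlgebra.coeff_single, Finsupp.single_apply, AddMonoidAlgebra.coeff_sum,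
        Finsupp.finsetSum_apply]
    refine ⟨F, ?_, ?_, ?_⟩
    · rw [Submodule.mem_comap, hF1]
      exact hcp_mem_exD _ hI _ hs1
    · rw [hcoef, if_pos rfl, Finset.sum_eq_zero, sub_zero]
      · exact one_ne_zero
      · intro k hk
        rw [Finset.mem_filter] at hk
        rw [coeff_mul_Xs, if_neg]
        rw [Finsupp.mem_support_iff, not_not, Finsupp.single_eq_of_ne]
        rintro rfl
        exact lt_irrefl _ hk.2
    · intro m' hm'
      refine ⟨by rw [mem_hd.1 hF2 m' hm', Finsupp.degree_single], ?_⟩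
      by_cases h2 : Finsupp.single i (a i) = m'
      · rw [h2]
      · rw [hcoef, if_neg h2, zero_sub, neg_ne_zero] at hm'
        obtain ⟨k, hk, h3⟩ := Finset.exists_ne_zero_of_sum_ne_zero hm'
        rw [Finset.mem_filter] at hk
        rw [coeff_mul_Xs] at h3
        split_ifs at h3 with h4
        · exact (key_lt_of_dvd hk.2 (Finsupp.mem_support_iff.1 h4)).le
        · exact absurd rfl h3
  have hHF : ∀ d, finrank ℂ (pc (Submodule.restrictScalars ℂ I) d) =
      Mon.hf (leadD (ID.comap (Psi M hc))) d := by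
    intro d
    rw [← finrank_pcD_exD (D := D), ← hf_leadD, finrank_pcD_comap M hc c hs hM]
  refine Mon.lpp_of_monomial a ha hpos I _ hJ0 hP0 (fun d => hHF d) (fun p j => ?_)
  refine Mon.gradedBetti_le_of_zd_le _ _ ?_ ?_ p j
  · intro d
    rw [Mon.restrictScalars_monIdeal, Mon.finrank_pc_monId]
    exact hHF d
  · intro p j
    rw [Mon.restrictScalars_monIdeal, ← zdD_exD (D := D), ← zdD_exD (D := D), exD_monId]
    refine (zdD_Xs_le M hc c hs hM _ (fun f hf d => exD_mul_Cs _ hf d) p j).trans ?_
    exact (zdD_M_le M hc c hs _ p j).trans (zdD_le_zdD_leadD _ p j)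

end Crest.Agent.R181.AE
end

-- ▼ part R181/AS1
section

/-!
# Growth of the quotient of `PD D n` by commuting linear forms and one central form
-/

set_option autoImplicit false

namespace Crest.Agent.R181.AS

open Module Finset
open Crest.Agent.R181.Mon (degS mem_degS)
open Crest.Agent.R181.AE

variable {n : ℕ} {D : Type*} [DivisionRing D]

theorem card_le_finrank_hd (d : ℕ) : (degS n d).card ≤ finrank D (hd D n d) := by
  classical
  have hli : LinearIndependent D (fun m : degS n d =>
      (⟨AddMonoidAlgebra.single m.1 1, single_mem_hd (mem_degS.1 m.2) 1⟩ : hd D n d)) := by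
    rw [Fintype.linearIndependent_iff]
    intro g hg i
    have h1 := congrArg (fun x : hd D n d => (x : PD D n).coeff i.1) hg
    simp only [Submodule.coe_sum, Submodule.coe_smul, AddMonoidAlgebra.coeff_sum,
      Finsupp.finsetSum_apply, AddMonoidAlgebra.smul_single, AddMonoidAlgebra.coeff_single,
      Submodule.coe_zero, smul_eq_mul, mul_one] at h1
    rw [Finset.sum_eq_single i] at h1
    · rw [Finsupp.single_eq_same] at h1
      exact h1
    · intro b _ hb
      rw [Finsupp.single_eq_of_ne]
      intro h2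
      exact hb (Subtype.ext h2.symm)
    · intro h2
      exact absurd (Finset.mem_univ _) h2
  simpa using hli.fintype_card_le_finrank

theorem hcp_mul_hd {d e : ℕ} (f : PD D n) {g : PD D n} (hg : g ∈ hd D n e) :
    hcp (d + e) (f * g) = hcp d f * g := by
  induction f using AddMonoidAlgebra.induction_linear with
  | zero => simp
  | add f f' hf hf' => rw [add_mul, map_add, map_add, add_mul, hf, hf']
  | single m a =>
    by_cases h : m.degree = d
    · have h1 : (AddMonoidAlgebra.single m a : PD D n) ∈ hd D n d := single_mem_hd h a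
      rw [hcp_of_mem h1, hcp_of_mem (mul_mem_hd h1 hg)]
    · have h1 : (AddMonoidAlgebra.single m a : PD D n) ∈ hd D n m.degree := single_mem_hd rfl a
      rw [hcp_of_mem_ne h h1, zero_mul, hcp_of_mem_ne (by omega) (mul_mem_hd h1 hg)]

/-- `hd` is spanned by the monomials. -/
theorem hd_le_of_single (d : ℕ) (Z : Submodule D (PD D n))
    (h : ∀ m : Fin n →₀ ℕ, m.degree = d → AddMonoidAlgebra.single m 1 ∈ Z) : hd D n d ≤ Z := by
  intro f hf
  rw [← AddMonoidAlgebra.sum_coeff_single f]
  refine Submodule.sum_mem _ fun m hm => ?_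
  have h1 : (AddMonoidAlgebra.single m (f.coeff m) : PD D n) =
      f.coeff m • AddMonoidAlgebra.single m 1 := by
    rw [AddMonoidAlgebra.smul_single, smul_eq_mul, mul_one]
  rw [h1]
  exact Z.smul_mem _ (h m (mem_hd.1 hf m (Finsupp.mem_support_iff.1 hm)))

variable (M : Fin n → PD D n) (hM : ∀ i, M i ∈ hd D n 1) (hc : ∀ i k, M i * M k = M k * M i)
variable (c : Fin n → Fin n → D) (hs : ∀ s, Xs D s = ∑ i, c i s • M i)
variable (B : Finset (Fin n))

/-- Monomials of degree `d` without a variable of `B`. -/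
noncomputable def N0 (B : Finset (Fin n)) (d : ℕ) : Finset (Fin n →₀ ℕ) := by
  classical exact (degS n d).filter fun m => ∀ i ∈ B, m i = 0

/-- Monomials of degree `d` with a variable of `B`. -/
noncomputable def N1 (B : Finset (Fin n)) (d : ℕ) : Finset (Fin n →₀ ℕ) := by
  classical exact (degS n d).filter fun m => ¬ ∀ i ∈ B, m i = 0

theorem mem_N0 {d : ℕ} {m : Fin n →₀ ℕ} : m ∈ N0 B d ↔ m.degree = d ∧ ∀ i ∈ B, m i = 0 := by
  classical
  unfold N0
  rw [Finset.mem_filter, mem_degS]

theorem mem_N1 {d : ℕ} {m : Fin n →₀ ℕ} : m ∈ N1 B d ↔ m.degree = d ∧ ∃ i ∈ B, m i ≠ 0 := by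
  classical
  unfold N1
  rw [Finset.mem_filter, mem_degS]
  push Not
  rfl

theorem card_N0_add_card_N1 (d : ℕ) : (N0 B d).card + (N1 B d).card = (degS n d).card := by
  classical
  unfold N0 N1
  exact Finset.card_filter_add_card_filter_not _

/-- The span of the monomials with a variable of `B`. -/
noncomputable def Y1 (d : ℕ) : Submodule D (PD D n) :=
  Submodule.span D (Em M hc '' (N1 B d : Set (Fin n →₀ ℕ)))

theorem finrank_span_image_le {ι : Type*} (s : Finset ι) (E : ι → PD D n) :
    finrank D (Submodule.span D (E '' (s : Set ι))) ≤ s.card := by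
  classical
  rw [← Finset.coe_image]
  exact (finrank_span_finset_le_card _).trans Finset.card_image_le

include hs in
theorem mul_mem_Y1 {i : Fin n} (hi : i ∈ B) {e : ℕ} {v : PD D n} (hv : v ∈ hd D n e) :
    v * M i ∈ Y1 M hc B (e + 1) := by
  obtain ⟨g, hg, rfl⟩ := exists_Psi_eq M hc c hs hv
  rw [Psi_apply, Finsupp.sum, Finset.sum_mul]
  refine Submodule.sum_mem _ fun m hm => ?_
  rw [AE.smul_mul', ← Em_add_single]
  refine Submodule.smul_mem _ _ (Submodule.subset_span ⟨_, ?_, rfl⟩)
  rw [Finset.mem_coe, mem_N1]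
  refine ⟨?_, i, hi, ?_⟩
  · rw [map_add, Finsupp.degree_single, mem_hd.1 hg m (Finsupp.mem_support_iff.1 hm)]
  · simp

theorem Em_eq_mul {m : Fin n →₀ ℕ} {i : Fin n} (h : m i ≠ 0) :
    Em M hc m = Em M hc (m - Finsupp.single i 1) * M i := by
  rw [← Em_add_single, tsub_add_cancel_of_le]
  rw [Finsupp.single_le_iff]
  omega

theorem degree_sub_single {m : Fin n →₀ ℕ} {i : Fin n} {d : ℕ} (h : m i ≠ 0)
    (hd' : m.degree = d + 1) : (m - Finsupp.single i 1).degree = d := by
  have h2 : m = (m - Finsupp.single i 1) + Finsupp.single i 1 := by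
    rw [tsub_add_cancel_of_le]
    rw [Finsupp.single_le_iff]
    omega
  have h3 := congrArg Finsupp.degree h2
  rw [map_add, Finsupp.degree_single, hd'] at h3
  omega

include hM hc hs in
/-- The degree `d` part is spanned by the obvious elements. -/
theorem hd_le (f : PD D n) (a : ℕ) (ha : 0 < a) (hf : f ∈ hd D n a) (hfc : ∀ g, f * g = g * f)
    (d : ℕ) (had : a < d)
    (hgen : ∀ m : Fin n →₀ ℕ, m.degree = d → ∃ (u : PD D n) (v : Fin n → PD D n),
      AddMonoidAlgebra.single m 1 = u * f + ∑ i ∈ B, v i * M i) :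
    hd D n d ≤ Submodule.span D ((fun m => f * Em M hc m) '' (N0 B (d - a) : Set (Fin n →₀ ℕ))) ⊔
      Y1 M hc B d := by
  obtain ⟨e, he⟩ : ∃ e, d = e + 1 := ⟨d - 1, by omega⟩
  apply hd_le_of_single
  intro m hm
  obtain ⟨u, v, huv⟩ := hgen m hm
  have h1 : (AddMonoidAlgebra.single m 1 : PD D n) =
      hcp (d - a) u * f + ∑ i ∈ B, hcp e (v i) * M i := by
    have h2 := congrArg (hcp d) huv
    rw [hcp_of_mem (single_mem_hd hm 1), map_add, map_sum] at h2
    rw [h2]
    congr 1
    · conv_lhs => rw [show d = (d - a) + a by omega]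
      exact hcp_mul_hd u hf
    · refine Finset.sum_congr rfl fun i _ => ?_
      rw [he]
      exact hcp_mul_hd _ (hM i)
  rw [h1]
  refine Submodule.add_mem _ ?_ (Submodule.sum_mem _ fun i hi => ?_)
  · obtain ⟨g, hg, hg2⟩ := exists_Psi_eq M hc c hs (hcp_mem_hd (d - a) u)
    rw [← hg2, Psi_apply, Finsupp.sum, Finset.sum_mul]
    refine Submodule.sum_mem _ fun m' hm' => ?_
    rw [AE.smul_mul']
    refine Submodule.smul_mem _ _ ?_
    have hm'd := mem_hd.1 hg m' (Finsupp.mem_support_iff.1 hm')
    rw [← hfc]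
    by_cases h3 : ∀ i ∈ B, m' i = 0
    · refine Submodule.mem_sup_left (Submodule.subset_span ⟨m', ?_, rfl⟩)
      rw [Finset.mem_coe, mem_N0]
      exact ⟨hm'd, h3⟩
    · push Not at h3
      obtain ⟨i, hi, h4⟩ := h3
      refine Submodule.mem_sup_right ?_
      rw [Em_eq_mul M hc h4, ← mul_assoc, he]
      refine mul_mem_Y1 M hc c hs B hi ?_
      have h5 : (m' - Finsupp.single i 1).degree = d - a - 1 :=
        degree_sub_single h4 (by omega)
      have h6 := mul_mem_hd hf (Em_mem_hd M hc hM (m' - Finsupp.single i 1))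
      rw [h5, show a + (d - a - 1) = e by omega] at h6
      exact h6
  · refine Submodule.mem_sup_right ?_
    rw [he]
    exact mul_mem_Y1 M hc c hs B hi (hcp_mem_hd _ _)

include hM hc hs in
theorem card_N0_le (f : PD D n) (a : ℕ) (ha : 0 < a) (hf : f ∈ hd D n a)
    (hfc : ∀ g, f * g = g * f) (d : ℕ) (had : a < d)
    (hgen : ∀ m : Fin n →₀ ℕ, m.degree = d → ∃ (u : PD D n) (v : Fin n → PD D n),
      AddMonoidAlgebra.single m 1 = u * f + ∑ i ∈ B, v i * M i) :
    (N0 B d).card ≤ (N0 B (d - a)).card := by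
  have h1 := hd_le M hM hc c hs B f a ha hf hfc d had hgen
  have : FiniteDimensional D (Submodule.span D
      ((fun m => f * Em M hc m) '' (N0 B (d - a) : Set (Fin n →₀ ℕ)))) :=
    FiniteDimensional.span_of_finite D (Set.Finite.image _ (Finset.finite_toSet _))
  have : FiniteDimensional D (Y1 M hc B d) :=
    FiniteDimensional.span_of_finite D (Set.Finite.image _ (Finset.finite_toSet _))
  have h2 := Submodule.finrank_mono h1
  have h3 := Submodule.finrank_add_le_finrank_add_finrank (Submodule.span D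
      ((fun m => f * Em M hc m) '' (N0 B (d - a) : Set (Fin n →₀ ℕ)))) (Y1 M hc B d)
  have h4 := finrank_span_image_le (D := D) (N0 B (d - a)) (fun m => f * Em M hc m)
  have h5 := finrank_span_image_le (D := D) (N1 B d) (Em M hc)
  have h6 := card_le_finrank_hd (D := D) (n := n) d
  have h7 := card_N0_add_card_N1 B d
  have h8 : finrank D (Y1 M hc B d) ≤ (N1 B d).card := h5
  omega

/-- If two variables are not in `B` then the Hilbert function of the polynomial ring in these
variables is strictly increasing. -/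
theorem card_N0_lt {s t : Fin n} (hst : s ≠ t) (hsB : s ∉ B) (htB : t ∉ B) (a : ℕ) (ha : 0 < a)
    (d : ℕ) (had : a < d) : (N0 B (d - a)).card < (N0 B d).card := by
  classical
  rw [← Finset.card_image_of_injective (N0 B (d - a))
    (add_left_injective (Finsupp.single s a : Fin n →₀ ℕ))]
  apply Finset.card_lt_card
  rw [Finset.ssubset_iff_of_subset]
  · refine ⟨Finsupp.single t d, ?_, ?_⟩
    · rw [mem_N0]
      refine ⟨Finsupp.degree_single _ _, fun i hi => ?_⟩
      rw [Finsupp.single_eq_of_ne]
      rintro rfl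
      exact htB hi
    · intro h
      obtain ⟨m, _, hm⟩ := Finset.mem_image.1 h
      have h1 := DFunLike.congr_fun hm s
      simp only [Finsupp.add_apply, Finsupp.single_eq_same] at h1
      rw [Finsupp.single_eq_of_ne hst] at h1
      omega
  · intro m hm
    obtain ⟨m', hm', rfl⟩ := Finset.mem_image.1 hm
    rw [mem_N0] at hm' ⊢
    refine ⟨?_, fun i hi => ?_⟩
    · simp only [map_add, Finsupp.degree_single, hm'.1]
      omega
    · simp only [Finsupp.add_apply, hm'.2 i hi, zero_add]
      rw [Finsupp.single_eq_of_ne]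
      rintro rfl
      exact hsB hi

include hM hc hs in
/-- At most one index is not in `B`. -/
theorem eq_of_notMem (f : PD D n) (a : ℕ) (ha : 0 < a) (hf : f ∈ hd D n a)
    (hfc : ∀ g, f * g = g * f) (d : ℕ) (had : a < d)
    (hgen : ∀ m : Fin n →₀ ℕ, m.degree = d → ∃ (u : PD D n) (v : Fin n → PD D n),
      AddMonoidAlgebra.single m 1 = u * f + ∑ i ∈ B, v i * M i)
    {s t : Fin n} (hsB : s ∉ B) (htB : t ∉ B) : s = t := by
  by_contra hst
  exact absurd (card_N0_le M hM hc c hs B f a ha hf hfc d had hgen)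
    (not_le.2 (card_N0_lt B hst hsB htB a ha d had))

include hM hc hs in
/-- The remaining variable occurs in `f` as a pure power. -/
theorem exists_pow_sub (f : PD D n) (a : ℕ) (ha : 0 < a) (hf : f ∈ hd D n a)
    (hfc : ∀ g, f * g = g * f) (d : ℕ) (had : a < d)
    (hgen : ∀ m : Fin n →₀ ℕ, m.degree = d → ∃ (u : PD D n) (v : Fin n → PD D n),
      AddMonoidAlgebra.single m 1 = u * f + ∑ i ∈ B, v i * M i)
    (i0 : Fin n) (hi0 : ∀ i, i ∉ B ↔ i = i0) :
    ∃ (b : D) (s : Fin n → PD D n), M i0 ^ a - ∑ i ∈ B, s i * M i = b • f := by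
  classical
  obtain ⟨e, he⟩ : ∃ e, a = e + 1 := ⟨a - 1, by omega⟩
  obtain ⟨g, hg, hg2⟩ := exists_Psi_eq M hc c hs hf
  -- the part of `f` in the left ideal
  have hpart : ∀ m : Fin n →₀ ℕ, m.degree = a → m ≠ Finsupp.single i0 a →
      ∃ s : Fin n → PD D n, Em M hc m = ∑ i ∈ B, s i * M i := by
    intro m hm hne
    have h1 : ∃ i ∈ B, m i ≠ 0 := by
      by_contra h2
      push Not at h2
      apply hne
      ext i
      by_cases hi : i = i0
      · subst hi
        rw [Finsupp.single_eq_same, ← hm, Finsupp.degree_eq_sum, Finset.sum_eq_single i]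
        · intro j _ hj
          apply h2
          by_contra h3
          exact hj ((hi0 j).1 h3)
        · intro h; exact absurd (Finset.mem_univ _) h
      · rw [Finsupp.single_eq_of_ne hi]
        apply h2
        by_contra h3
        exact hi ((hi0 i).1 h3)
    obtain ⟨i, hi, h2⟩ := h1
    refine ⟨fun j => if j = i then Em M hc (m - Finsupp.single i 1) else 0, ?_⟩
    rw [Finset.sum_eq_single i]
    · simp only [if_true]
      exact Em_eq_mul M hc h2
    · intro j _ hj
      simp only [if_neg hj, zero_mul]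
    · intro h; exact absurd hi h
  have hpart2 : ∃ s : Fin n → PD D n,
      f - (g.coeff (Finsupp.single i0 a)) • (M i0 ^ a) = ∑ i ∈ B, s i * M i := by
    choose! s hs1 using hpart
    refine ⟨fun i => ∑ m ∈ g.coeff.support.erase (Finsupp.single i0 a), g.coeff m • s m i, ?_⟩
    have h1 : M i0 ^ a = Em M hc (Finsupp.single i0 a) := by
      rw [← Psi_Xs_pow M hc, Xs_pow, Psi_single, one_smul]
    have h2 : f = ∑ m ∈ insert (Finsupp.single i0 a) g.coeff.support, g.coeff m • Em M hc m := by
      rw [← hg2, Psi_apply, Finsupp.sum]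
      apply Finset.sum_subset (Finset.subset_insert _ _)
      intro m _ hm
      rw [Finsupp.notMem_support_iff.1 hm, zero_smul]
    rw [h1, h2, ← Finset.insert_erase (Finset.mem_insert_self (Finsupp.single i0 a) g.coeff.support),
      Finset.sum_insert (Finset.notMem_erase _ _), Finset.erase_insert_eq_erase, add_sub_cancel_left]
    rw [show (∑ i ∈ B, (∑ m ∈ g.coeff.support.erase (Finsupp.single i0 a), g.coeff m • s m i) * M i)
      = ∑ m ∈ g.coeff.support.erase (Finsupp.single i0 a), g.coeff m • ∑ i ∈ B, s m i * M i by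
      simp only [Finset.sum_mul, Finset.smul_sum, AE.smul_mul']
      exact Finset.sum_comm]
    refine Finset.sum_congr rfl fun m hm => ?_
    rw [Finset.mem_erase] at hm
    rw [← hs1 m (mem_hd.1 hg m (Finsupp.mem_support_iff.1 hm.2)) hm.1]
  obtain ⟨s, hs2⟩ := hpart2
  by_cases hz : g.coeff (Finsupp.single i0 a) = 0
  · exfalso
    rw [hz, zero_smul, sub_zero] at hs2
    have h1 : hd D n d ≤ Y1 M hc B d := by
      obtain ⟨e', he'⟩ : ∃ e', d = e' + 1 := ⟨d - 1, by omega⟩
      apply hd_le_of_single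
      intro m hm
      obtain ⟨u, v, huv⟩ := hgen m hm
      have h2 : (AddMonoidAlgebra.single m 1 : PD D n) =
          ∑ i ∈ B, hcp e' (u * s i + v i) * M i := by
        have h2 := congrArg (hcp d) huv
        rw [hcp_of_mem (single_mem_hd hm 1)] at h2
        rw [h2, hs2, Finset.mul_sum, ← Finset.sum_add_distrib, map_sum]
        refine Finset.sum_congr rfl fun i _ => ?_
        rw [he', ← mul_assoc, ← add_mul]
        exact hcp_mul_hd _ (hM i)
      rw [h2]
      refine Submodule.sum_mem _ fun i hi => ?_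
      rw [he']
      exact mul_mem_Y1 M hc c hs B hi (hcp_mem_hd _ _)
    have : FiniteDimensional D (Y1 M hc B d) :=
      FiniteDimensional.span_of_finite D (Set.Finite.image _ (Finset.finite_toSet _))
    have h2 := Submodule.finrank_mono h1
    have h5 : finrank D (Y1 M hc B d) ≤ (N1 B d).card :=
      finrank_span_image_le (D := D) (N1 B d) (Em M hc)
    have h6 := card_le_finrank_hd (D := D) (n := n) d
    have h7 := card_N0_add_card_N1 B d
    have h8 : 0 < (N0 B d).card := by
      refine Finset.card_pos.2 ⟨Finsupp.single i0 d, ?_⟩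
      rw [mem_N0]
      refine ⟨Finsupp.degree_single _ _, fun i hi => ?_⟩
      rw [Finsupp.single_eq_of_ne]
      rintro rfl
      exact ((hi0 i).2 rfl) hi
    omega
  · refine ⟨(g.coeff (Finsupp.single i0 a))⁻¹,
      fun i => -((g.coeff (Finsupp.single i0 a))⁻¹ • s i), ?_⟩
    have h1 : f = (g.coeff (Finsupp.single i0 a)) • (M i0 ^ a) + ∑ i ∈ B, s i * M i := by
      rw [← hs2]; abel
    conv_rhs => rw [h1]
    rw [smul_add, smul_smul, inv_mul_cancel₀ hz, one_smul, Finset.smul_sum]
    simp only [neg_mul, AE.smul_mul', Finset.sum_neg_distrib, sub_neg_eq_add]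

end Crest.Agent.R181.AS
end

-- ▼ part R181/AS2
section

/-!
# From a tuple of commuting linear forms to the lex-plus-powers theorem
-/

set_option autoImplicit false

namespace Crest.Agent.R181.AS

open Module Finset
open Crest.Agent.R181.Mon (degS mem_degS)
open Crest.Agent.R181.AE
open Crest.AlgebraR.LPP
open Crest Crest.AlgebraR

variable {n : ℕ} {D : Type*} [DivisionRing D]

theorem hd_one_le (Z : Submodule D (PD D n)) (h : ∀ t, Xs D t ∈ Z) : hd D n 1 ≤ Z := by
  apply hd_le_of_single
  intro m hm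
  obtain ⟨m', t, rfl, h1⟩ := exists_eq_add_single (d := 0) hm
  rw [(Finsupp.degree_eq_zero_iff m').1 h1, zero_add]
  exact h t

theorem card_degS_one : (degS n 1).card = n := by
  classical
  have : degS n 1 = Finset.univ.image (fun t : Fin n => Finsupp.single t 1) := by
    ext m
    rw [mem_degS, Finset.mem_image]
    constructor
    · intro h
      obtain ⟨m', t, rfl, h1⟩ := exists_eq_add_single (d := 0) h
      exact ⟨t, Finset.mem_univ _, by rw [(Finsupp.degree_eq_zero_iff m').1 h1, zero_add]⟩
    · rintro ⟨t, _, rfl⟩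
      exact Finsupp.degree_single _ _
  rw [this, Finset.card_image_of_injective, Finset.card_univ, Fintype.card_fin]
  intro s t h
  exact Finsupp.single_left_injective one_ne_zero h

theorem finrank_hd_one : finrank D (hd D n 1) = n := by
  classical
  apply le_antisymm
  · have h1 : hd D n 1 ≤ Submodule.span D (Set.range (Xs D : Fin n → PD D n)) :=
      hd_one_le _ fun t => Submodule.subset_span ⟨t, rfl⟩
    have : FiniteDimensional D (Submodule.span D (Set.range (Xs D : Fin n → PD D n))) :=
      FiniteDimensional.span_of_finite D (Set.finite_range _)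
    have h2 := Submodule.finrank_mono h1
    have h3 := finrank_range_le_card (R := D) (Xs D : Fin n → PD D n)
    rw [Fintype.card_fin] at h3
    exact h2.trans h3
  · have := card_le_finrank_hd (D := D) (n := n) 1
    rwa [card_degS_one] at this

/-- A finite linearly independent set of pairwise commuting linear forms can be completed by
variables. -/
theorem exists_complete (w : Set (PD D n)) (hw : ∀ x ∈ w, x ∈ hd D n 1)
    (hcw : ∀ x ∈ w, ∀ y ∈ w, x * y = y * x) :
    ∃ (M : Fin n → PD D n) (B : Finset (Fin n)), (∀ i, M i ∈ hd D n 1) ∧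
      (∀ i k, M i * M k = M k * M i) ∧ LinearIndependent D M ∧
      (∀ s, ∃ c : Fin n → D, Xs D s = ∑ i, c i • M i) ∧
      (∀ i ∈ B, M i ∈ w) ∧ (∀ i ∉ B, ∃ s, M i = Xs D s) ∧
      (∀ x ∈ w, ∃ c : Fin n → D, x = ∑ i ∈ B, c i • M i) := by
  classical
  obtain ⟨b1, h1, -, h3, h4⟩ := exists_linearIndepOn_extension (K := D) (v := (id : PD D n → PD D n))
    (s := (∅ : Set (PD D n))) (t := w) (linearIndepOn_empty D _) (Set.empty_subset _)
  obtain ⟨b2, h5, h6, h7, h8⟩ := exists_linearIndepOn_extension (K := D)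
    (v := (id : PD D n → PD D n))
    (s := b1) (t := b1 ∪ Set.range (Xs D : Fin n → PD D n)) h4 Set.subset_union_left
  simp only [Set.image_id] at h3 h7
  have hb2 : ∀ x ∈ b2, x ∈ hd D n 1 := by
    intro x hx
    rcases h5 hx with h | ⟨s, rfl⟩
    · exact hw x (h1 h)
    · exact Xs_mem_hd s
  have hspan : Submodule.span D b2 = hd D n 1 := by
    apply le_antisymm
    · exact Submodule.span_le.2 hb2
    · exact hd_one_le _ fun t => h7 (Or.inr ⟨t, rfl⟩)
  have hcb : ∀ x ∈ b2, ∀ y ∈ b2, x * y = y * x := by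
    intro x hx y hy
    rcases h5 hx with h | ⟨s, rfl⟩
    · rcases h5 hy with h' | ⟨s, rfl⟩
      · exact hcw x (h1 h) y (h1 h')
      · exact (Xs_comm _ _).symm
    · exact Xs_comm _ _
  have hfin : b2.Finite := by
    have : LinearIndependent D (fun x : b2 => (⟨x.1, hb2 _ x.2⟩ : hd D n 1)) := by
      apply LinearIndependent.of_comp (hd D n 1).subtype
      exact h8
    have h9 : Finite b2 := this.finite
    exact Set.toFinite b2
  have hfb : Fintype b2 := hfin.fintype
  have hcard : Fintype.card b2 = n := by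
    have := finrank_span_set_eq_card (R := D) (s := b2) h8
    rw [hspan, finrank_hd_one] at this
    rw [← Set.toFinset_card]
    exact this.symm
  let e : Fin n ≃ b2 := (Fintype.equivFinOfCardEq hcard).symm
  refine ⟨fun i => (e i : PD D n), Finset.univ.filter (fun i => (e i : PD D n) ∈ b1),
    fun i => hb2 _ (e i).2, fun i k => hcb _ (e i).2 _ (e k).2, ?_, ?_, ?_, ?_, ?_⟩
  · exact LinearIndependent.comp h8 e e.injective
  · intro s
    have h9 : Xs D s ∈ Submodule.span D (Set.range fun i => (e i : PD D n)) := by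
      have : (Set.range fun i => (e i : PD D n)) = b2 := by
        ext x
        constructor
        · rintro ⟨i, rfl⟩; exact (e i).2
        · intro hx; exact ⟨e.symm ⟨x, hx⟩, by simp⟩
      rw [this, hspan]
      exact Xs_mem_hd s
    obtain ⟨c, hc⟩ := (Submodule.mem_span_range_iff_exists_fun D).1 h9
    exact ⟨c, hc.symm⟩
  · intro i hi
    exact h1 (Finset.mem_filter.1 hi).2
  · intro i hi
    have h9 : (e i : PD D n) ∉ b1 := fun h => hi (Finset.mem_filter.2 ⟨Finset.mem_univ _, h⟩)
    rcases h5 (e i).2 with h | ⟨s, hs⟩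
    · exact absurd h h9
    · exact ⟨s, hs.symm⟩
  · intro x hx
    have h9 : x ∈ Submodule.span D ((fun i => (e i : PD D n)) ''
        (Finset.univ.filter (fun i => (e i : PD D n) ∈ b1) : Finset (Fin n))) := by
      have : ((fun i => (e i : PD D n)) ''
        ((Finset.univ.filter (fun i => (e i : PD D n) ∈ b1) : Finset (Fin n)) : Set (Fin n))) = b1 := by
        ext x
        constructor
        · rintro ⟨i, hi, rfl⟩
          rw [Finset.mem_coe, Finset.mem_filter] at hi
          exact hi.2
        · intro hx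
          refine ⟨e.symm ⟨x, h6 hx⟩, ?_, by simp⟩
          rw [Finset.mem_coe, Finset.mem_filter]
          exact ⟨Finset.mem_univ _, by simpa using hx⟩
      rw [this]
      exact h3 hx
    obtain ⟨c, hc⟩ := (Submodule.mem_span_image_finset_iff_exists_fun' D).1 h9
    exact ⟨c, hc.symm⟩


theorem mul_smul_eq (v g : PD D n) (c : D) : v * (c • g) = (v * Cs c) * g := by
  rw [← Cs_mul, mul_assoc]

theorem single_mul_Xs_one (m : Fin n →₀ ℕ) (t : Fin n) :
    (AddMonoidAlgebra.single (m + Finsupp.single t 1) 1 : PD D n) =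
      AddMonoidAlgebra.single m 1 * Xs D t := by
  rw [single_mul_Xs]

theorem hgen_of_le (f : PD D n) (B : Finset (Fin n)) (w : Fin n → PD D n) {d e : ℕ} (hde : d ≤ e)
    (hgen : ∀ m : Fin n →₀ ℕ, m.degree = d → ∃ (u : PD D n) (v : Fin n → PD D n),
      AddMonoidAlgebra.single m 1 = u * f + ∑ i ∈ B, v i * w i) :
    ∀ m : Fin n →₀ ℕ, m.degree = e → ∃ (u : PD D n) (v : Fin n → PD D n),
      AddMonoidAlgebra.single m 1 = u * f + ∑ i ∈ B, v i * w i := by
  induction e, hde using Nat.le_induction with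
  | base => exact hgen
  | succ e he ih =>
    intro m hm
    obtain ⟨m', t, rfl, h1⟩ := exists_eq_add_single hm
    obtain ⟨u, v, huv⟩ := ih m' h1
    refine ⟨u * Xs D t, fun i => v i * Xs D t, ?_⟩
    rw [single_mul_Xs_one, huv, add_mul, Finset.sum_mul, mul_assoc, ← Xs_comm, mul_assoc]
    congr 1
    refine Finset.sum_congr rfl fun i _ => ?_
    rw [mul_assoc, ← Xs_comm, mul_assoc]

theorem iota_comm [Algebra ℂ D] (f : MvPolynomial (Fin n) ℂ) (g : PD D n) :
    iota D f * g = g * iota D f := by
  induction f using MvPolynomial.induction_on with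
  | C x =>
    have h1 : iota D (MvPolynomial.C x : MvPolynomial (Fin n) ℂ) = Cs (algebraMap ℂ D x) := by
      ext m
      rw [coeff_iota, MvPolynomial.coeff_C]
      unfold Cs
      rw [AddMonoidAlgebra.coeff_single, Finsupp.single_apply]
      split_ifs <;> simp
    rw [h1]
    ext m
    rw [coeff_mul_Cs, Cs_mul, AddMonoidAlgebra.coeff_smul, Finsupp.smul_apply, smul_eq_mul,
      Algebra.commutes]
  | add p q hp hq => rw [map_add, add_mul, mul_add, hp, hq]
  | mul_X p t hp =>
    rw [map_mul, iota_X, mul_assoc, Xs_comm, ← mul_assoc, hp, mul_assoc]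

theorem iota_mem_hd [Algebra ℂ D] {f : MvPolynomial (Fin n) ℂ} {a : ℕ} (hf : f.IsHomogeneous a) :
    iota D f ∈ hd D n a := by
  rw [mem_hd]
  intro m hm
  rw [coeff_iota] at hm
  have h1 : MvPolynomial.coeff m f ≠ 0 := by
    rintro h
    rw [h, map_zero] at hm
    exact hm rfl
  have h2 := hf h1
  rw [← h2, Finsupp.degree_eq_weight_one]
  rfl

/-- The data of the top of the tower give commuting linear forms which are a basis. -/
theorem exists_full [Algebra ℂ D] (a : Fin n → ℕ) (hpos : ∀ i, 0 < a i)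
    (i0 : Fin n) (hi0 : ∀ i, i0 ≤ i)
    (I : Ideal (MvPolynomial (Fin n) ℂ))
    (w : Fin n → PD D n) (hw : ∀ i, i ≠ i0 → w i ∈ hd D n 1)
    (hcw : ∀ i k, i ≠ i0 → k ≠ i0 → w i * w k = w k * w i)
    (f : MvPolynomial (Fin n) ℂ) (hf : f.IsHomogeneous (a i0)) (hfI : f ∈ I)
    (d : ℕ) (hgen : ∀ m : Fin n →₀ ℕ, m.degree = d →
      ∃ (u : PD D n) (v : Fin n → PD D n),
        AddMonoidAlgebra.single m 1 = u * iota D f +
          ∑ i ∈ Finset.univ.filter (fun i => i ≠ i0), v i * w i) :
    ∃ (M : Fin n → PD D n), (∀ i, M i ∈ hd D n 1) ∧ (∀ i k, M i * M k = M k * M i) ∧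
      (∀ s, ∃ c : Fin n → D, Xs D s = ∑ i, c i • M i) ∧ (∀ i, i ≠ i0 → M i = w i) ∧
      ∃ s : Fin n → PD D n, M i0 ^ a i0 - ∑ k ∈ Finset.univ.filter (fun k => i0 < k),
        s k * M k ∈ exD D (Submodule.restrictScalars ℂ I) := by
  classical
  have hgen' := hgen_of_le (iota D f) _ w (Nat.le_add_right d (a i0 + 1)) hgen
  obtain ⟨M0, B0, h1, h2, h3, h4, h5, h6, h7⟩ := exists_complete (D := D)
    (w '' {i | i ≠ i0}) (by rintro _ ⟨i, hi, rfl⟩; exact hw i hi)
    (by rintro _ ⟨i, hi, rfl⟩ _ ⟨k, hk, rfl⟩; exact hcw i k hi hk)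
  choose c0 hc0 using h4
  have hgen0 : ∀ m : Fin n →₀ ℕ, m.degree = d + (a i0 + 1) →
      ∃ (u : PD D n) (v : Fin n → PD D n),
        AddMonoidAlgebra.single m 1 = u * iota D f + ∑ i ∈ B0, v i * M0 i := by
    intro m hm
    obtain ⟨u, v, huv⟩ := hgen' m hm
    have h8 : ∀ i, ∃ c : Fin n → D, i ≠ i0 → w i = ∑ k ∈ B0, c k • M0 k := by
      intro i
      by_cases hi : i = i0
      · exact ⟨0, fun h => absurd hi h⟩
      · obtain ⟨c, hc⟩ := h7 (w i) ⟨i, hi, rfl⟩
        exact ⟨c, fun _ => hc⟩
    choose c hc using h8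
    refine ⟨u, fun k => ∑ i ∈ Finset.univ.filter (fun i => i ≠ i0), v i * Cs (c i k), ?_⟩
    rw [huv]
    congr 1
    calc ∑ i ∈ Finset.univ.filter (fun i => i ≠ i0), v i * w i
        = ∑ i ∈ Finset.univ.filter (fun i => i ≠ i0), ∑ k ∈ B0, (v i * Cs (c i k)) * M0 k := by
          refine Finset.sum_congr rfl fun i hi => ?_
          rw [hc i (Finset.mem_filter.1 hi).2, Finset.mul_sum]
          exact Finset.sum_congr rfl fun k _ => mul_smul_eq _ _ _
      _ = _ := by
          rw [Finset.sum_comm]
          exact Finset.sum_congr rfl fun k _ => (Finset.sum_mul _ _ _).symm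
  have huniq : ∀ {s t : Fin n}, s ∉ B0 → t ∉ B0 → s = t := fun hs ht =>
    eq_of_notMem M0 h1 h2 (fun i k => c0 k i) hc0 B0 (iota D f) (a i0) (hpos i0)
      (iota_mem_hd hf) (iota_comm f) _ (by omega) hgen0 hs ht
  -- cardinalities
  have hBc : n ≤ B0.card + 1 := by
    have h8 : (B0ᶜ).card ≤ 1 := Finset.card_le_one.2 fun s hs t ht =>
      huniq (Finset.mem_compl.1 hs) (Finset.mem_compl.1 ht)
    have h9 := Finset.card_compl B0
    rw [Fintype.card_fin] at h9
    omega
  set W : Finset (Fin n) := Finset.univ.filter (fun i => i ≠ i0) with hW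
  have hWc : W.card + 1 = n := by
    rw [hW, Finset.filter_ne', Finset.card_erase_add_one (Finset.mem_univ _), Finset.card_univ,
      Fintype.card_fin]
  have hsub : B0.image M0 ⊆ W.image w := by
    intro x hx
    obtain ⟨i, hi, rfl⟩ := Finset.mem_image.1 hx
    obtain ⟨j, hj, hj2⟩ := h5 i hi
    exact Finset.mem_image.2 ⟨j, by rw [hW, Finset.mem_filter]; exact ⟨Finset.mem_univ _, hj⟩, hj2⟩
  have hcardB : (B0.image M0).card = B0.card :=
    Finset.card_image_of_injective _ h3.injective
  have hle1 := Finset.card_le_card hsub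
  have hle2 : (W.image w).card ≤ W.card := Finset.card_image_le
  have hB0 : B0.card + 1 = n := by omega
  obtain ⟨s0, hs0⟩ : ∃ s0, s0 ∉ B0 := by
    by_contra h
    push Not at h
    have : B0 = Finset.univ := Finset.eq_univ_iff_forall.2 h
    rw [this, Finset.card_univ, Fintype.card_fin] at hB0
    omega
  obtain ⟨s1, hs1⟩ := h6 s0 hs0
  let M : Fin n → PD D n := fun i => if i = i0 then M0 s0 else w i
  have hMi0 : M i0 = M0 s0 := if_pos rfl
  have hMne : ∀ i, i ≠ i0 → M i = w i := fun i hi => if_neg hi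
  have hM : ∀ i, M i ∈ hd D n 1 := by
    intro i
    by_cases hi : i = i0
    · rw [hi, hMi0]; exact h1 s0
    · rw [hMne i hi]; exact hw i hi
  have hMc : ∀ i k, M i * M k = M k * M i := by
    intro i k
    by_cases hi : i = i0
    · rw [hi, hMi0, hs1, Xs_comm]
    · by_cases hk : k = i0
      · rw [hk, hMi0, hs1, Xs_comm]
      · rw [hMne i hi, hMne k hk]; exact hcw i k hi hk
  have hrange : ∀ i, M0 i ∈ Submodule.span D (Set.range M) := by
    intro i
    by_cases hi : i ∈ B0
    · obtain ⟨j, hj, hj2⟩ := h5 i hi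
      rw [← hj2, ← hMne j hj]
      exact Submodule.subset_span ⟨j, rfl⟩
    · rw [huniq hi hs0, ← hMi0]
      exact Submodule.subset_span ⟨i0, rfl⟩
  have hMs : ∀ s, ∃ c : Fin n → D, Xs D s = ∑ i, c i • M i := by
    intro s
    have h8 : Xs D s ∈ Submodule.span D (Set.range M) := by
      rw [hc0 s]
      exact Submodule.sum_mem _ fun i _ => Submodule.smul_mem _ _ (hrange i)
    obtain ⟨c, hc⟩ := (Submodule.mem_span_range_iff_exists_fun D).1 h8
    exact ⟨c, hc.symm⟩
  refine ⟨M, hM, hMc, hMs, hMne, ?_⟩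
  choose c hc using hMs
  have hgenM : ∀ m : Fin n →₀ ℕ, m.degree = d + (a i0 + 1) →
      ∃ (u : PD D n) (v : Fin n → PD D n),
        AddMonoidAlgebra.single m 1 = u * iota D f + ∑ i ∈ W, v i * M i := by
    intro m hm
    obtain ⟨u, v, huv⟩ := hgen' m hm
    refine ⟨u, v, ?_⟩
    rw [huv]
    congr 1
    refine Finset.sum_congr rfl fun i hi => ?_
    rw [hW, Finset.mem_filter] at hi
    rw [hMne i hi.2]
  obtain ⟨b, s, hbs⟩ := exists_pow_sub M hM hMc (fun i k => c k i) hc W (iota D f) (a i0)
    (hpos i0) (iota_mem_hd hf) (iota_comm f) _ (by omega) hgenM i0 (by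
      intro i
      rw [hW, Finset.mem_filter]
      simp)
  refine ⟨s, ?_⟩
  have h8 : Finset.univ.filter (fun k => i0 < k) = W := by
    rw [hW]
    ext k
    simp only [Finset.mem_filter, Finset.mem_univ, true_and]
    exact ⟨fun h => h.ne', fun h => lt_of_le_of_ne (hi0 k) (Ne.symm h)⟩
  rw [h8, hbs]
  exact Submodule.smul_mem _ _ (Submodule.subset_span ⟨f, hfI, rfl⟩)

/-- **(A)-START**: the lex-plus-powers theorem from the commuting linear forms at the top of the
tower. -/
theorem lpp_of_tuple [Algebra ℂ D] (a : Fin n → ℕ) (ha : Monotone a) (hpos : ∀ i, 0 < a i)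
    (i0 : Fin n) (hi0 : ∀ i, i0 ≤ i)
    (I : Ideal (MvPolynomial (Fin n) ℂ))
    (hI : ∀ g ∈ I, ∀ d : ℕ, MvPolynomial.homogeneousComponent d g ∈ I)
    (w : Fin n → PD D n) (hw : ∀ i, i ≠ i0 → w i ∈ hd D n 1)
    (hcw : ∀ i k, i ≠ i0 → k ≠ i0 → w i * w k = w k * w i)
    (hp : ∀ i, i ≠ i0 → ∃ s : Fin n → PD D n,
      w i ^ a i - ∑ k ∈ Finset.univ.filter (fun k => i < k), s k * w k ∈
        exD D (Submodule.restrictScalars ℂ I))
    (f : MvPolynomial (Fin n) ℂ) (hf : f.IsHomogeneous (a i0)) (hfI : f ∈ I)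
    (d : ℕ) (hgen : ∀ m : Fin n →₀ ℕ, m.degree = d →
      ∃ (u : PD D n) (v : Fin n → PD D n),
        AddMonoidAlgebra.single m 1 = u * iota D f +
          ∑ i ∈ Finset.univ.filter (fun i => i ≠ i0), v i * w i) :
    ∃ U : ℕ → Set (Fin n →₀ ℕ), (∀ d, IsLexSegment n d (U d)) ∧
      (∀ d, Module.finrank ℂ (lppPiece a (U d) d) = Module.finrank ℂ (degreePiece I d)) ∧
      ∃ J : Ideal (MvPolynomial (Fin n) ℂ),
        (∀ g ∈ J, ∀ d : ℕ, MvPolynomial.homogeneousComponent d g ∈ J) ∧
        (∀ d, degreePiece J d = lppPiece a (U d) d) ∧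
        ∀ p j : ℕ, gradedBetti I p j ≤ gradedBetti J p j := by
  classical
  obtain ⟨M, h1, h2, h3, h4, h5⟩ := exists_full a hpos i0 hi0 I w hw hcw f hf hfI d hgen
  choose c hc using h3
  refine lpp_of_skew a ha hpos I hI M h1 h2 (fun i s => c s i) hc ?_
  intro i
  by_cases hi : i = i0
  · rw [hi]; exact h5
  · obtain ⟨s, hs⟩ := hp i hi
    refine ⟨s, ?_⟩
    rw [h4 i hi]
    convert hs using 2
    refine Finset.sum_congr rfl fun k hk => ?_
    rw [Finset.mem_filter] at hk
    rw [h4 k]
    rintro rfl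
    exact absurd (hi0 i) (not_le.2 hk.2)

end Crest.Agent.R181.AS
end

-- ▼ part R181/AS3
section

/-!
# A homogeneous regular sequence of length `n` in `n` variables is primary to the origin
-/

set_option autoImplicit false

namespace Crest.Agent.R181.AS

open Module Finset RingTheory.Sequence

theorem supportDim_add_length_le {R M : Type*} [CommRing R] [IsNoetherianRing R]
    [AddCommGroup M] [Module R M] [Module.Finite R M] (rs : List R) (reg : IsWeaklyRegular M rs) :
    supportDim R (M ⧸ Ideal.ofList rs • (⊤ : Submodule R M)) + rs.length ≤ supportDim R M := by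
  induction rs generalizing M with
  | nil =>
    rw [Ideal.ofList_nil, Submodule.bot_smul]
    simpa using (supportDim_eq_of_equiv (Submodule.quotEquivOfEqBot ⊥ rfl)).le
  | cons x rs' ih =>
    obtain ⟨h1, h2⟩ := (isWeaklyRegular_cons_iff M x rs').1 reg
    have h3 := ih h2
    have h4 := supportDim_quotSMulTop_succ_le_of_notMem_minimalPrimes (R := R) (M := M) (x := x)
      (fun _ ↦ h1.notMem_of_mem_minimalPrimes)
    rw [supportDim_eq_of_equiv (Submodule.quotOfListConsSMulTopEquivQuotSMulTopInner M x _)]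
    refine le_trans ?_ h4
    refine le_trans ?_ (add_le_add_left h3 1)
    simp [add_assoc]

variable {n : ℕ}

theorem le_zero_of_add_le (x : WithBot ℕ∞) (n : ℕ) (h : x + n ≤ n) : x ≤ 0 := by
  by_contra h1
  rw [not_le] at h1
  have h2 : (1 : WithBot ℕ∞) ≤ x := by
    have := (ENat.WithBot.add_one_le_iff (n := 0) (m := x)).2 (by simpa using h1)
    simpa using this
  have h3 : (1 : WithBot ℕ∞) + n ≤ n := (add_le_add_left h2 _).trans h
  have h4 : ((1 + n : ℕ) : WithBot ℕ∞) ≤ (n : ℕ) := by push_cast; exact h3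
  have h5 : 1 + n ≤ n := by exact_mod_cast h4
  omega

theorem primes_maximal {K : Type*} [Field K] (f : Fin n → MvPolynomial (Fin n) K)
    (hreg : IsRegular (MvPolynomial (Fin n) K) (List.ofFn f))
    (P : Ideal (MvPolynomial (Fin n) K)) (hP : P.IsPrime) (hf : ∀ i, f i ∈ P) : P.IsMaximal := by
  have h1 := supportDim_add_length_le (List.ofFn f) hreg.toIsWeaklyRegular
  have h0 : Ideal.ofList (List.ofFn f) = Ideal.ofList (List.ofFn f) •
      (⊤ : Ideal (MvPolynomial (Fin n) K)) := by simp
  rw [← h0, supportDim_quotient_eq_ringKrullDim, supportDim_self_eq_ringKrullDim,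
    MvPolynomial.ringKrullDim_of_isNoetherianRing, ringKrullDim_eq_zero_of_field, zero_add,
    List.length_ofFn, Nat.card_fin] at h1
  have h2 : Ring.KrullDimLE 0 (MvPolynomial (Fin n) K ⧸ Ideal.ofList (List.ofFn f)) := by
    rw [Ring.krullDimLE_iff]
    exact le_zero_of_add_le _ n (by simpa using h1)
  have hle : Ideal.ofList (List.ofFn f) ≤ P := by
    rw [Ideal.ofList, Ideal.span_le]
    intro x hx
    obtain ⟨i, rfl⟩ := (List.mem_ofFn' f x).1 hx
    exact hf i
  have hker : RingHom.ker (Ideal.Quotient.mk (Ideal.ofList (List.ofFn f))) ≤ P := by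
    rwa [Ideal.mk_ker]
  have h3 : (P.map (Ideal.Quotient.mk (Ideal.ofList (List.ofFn f)))).IsPrime :=
    Ideal.map_isPrime_of_surjective Ideal.Quotient.mk_surjective hker
  have h4 := h3.isMaximal'
  have h5 := Ideal.comap_isMaximal_of_surjective
    (Ideal.Quotient.mk (Ideal.ofList (List.ofFn f))) Ideal.Quotient.mk_surjective
    (K := P.map (Ideal.Quotient.mk (Ideal.ofList (List.ofFn f))))
  rwa [Ideal.comap_map_of_surjective' _ Ideal.Quotient.mk_surjective, sup_eq_left.2 hker] at h5

attribute [local instance] MvPolynomial.gradedAlgebra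

theorem X_mem_radical {K : Type*} [Field K] (f : Fin n → MvPolynomial (Fin n) K) (a : Fin n → ℕ)
    (hf : ∀ i, (f i).IsHomogeneous (a i))
    (hreg : IsRegular (MvPolynomial (Fin n) K) (List.ofFn f)) (t : Fin n) :
    MvPolynomial.X t ∈ (Ideal.span (Set.range f)).radical := by
  classical
  have hhom : (Ideal.span (Set.range f)).IsHomogeneous
      (MvPolynomial.homogeneousSubmodule (Fin n) K) := by
    apply Ideal.homogeneous_span
    rintro _ ⟨i, rfl⟩
    exact ⟨a i, hf i⟩
  rw [hhom.radical_eq]
  rw [Submodule.mem_sInf]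
  rintro P ⟨h1, h2, h3⟩
  have hmax := primes_maximal f hreg P h3 (fun i => h2 (Ideal.subset_span ⟨i, rfl⟩))
  by_contra hX
  obtain ⟨y, i, hi, h4⟩ := Ideal.IsMaximal.exists_inv hmax hX
  have h5 := h1 0 hi
  have h6 : ((DirectSum.decompose (MvPolynomial.homogeneousSubmodule (Fin n) K)
      (y * MvPolynomial.X t) 0 : _) : MvPolynomial (Fin n) K) = 0 :=
    DirectSum.coe_decompose_mul_of_right_mem_of_not_le _
      (MvPolynomial.isHomogeneous_X K t) (by omega)
  have h7 : ((DirectSum.decompose (MvPolynomial.homogeneousSubmodule (Fin n) K)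
      (1 : MvPolynomial (Fin n) K) 0 : _) : MvPolynomial (Fin n) K) = 1 :=
    DirectSum.decompose_of_mem_same _ (MvPolynomial.isHomogeneous_one (Fin n) K)
  rw [← h4, DirectSum.decompose_add, DirectSum.add_apply, Submodule.coe_add, h6, zero_add,
    h4] at h7
  rw [h7] at h5
  exact hmax.ne_top ((Ideal.eq_top_iff_one _).2 h5)

theorem exists_X_pow_mem {K : Type*} [Field K] (f : Fin n → MvPolynomial (Fin n) K)
    (a : Fin n → ℕ) (hf : ∀ i, (f i).IsHomogeneous (a i))
    (hreg : IsRegular (MvPolynomial (Fin n) K) (List.ofFn f)) :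
    ∃ N : ℕ, ∀ t : Fin n, (MvPolynomial.X t : MvPolynomial (Fin n) K) ^ N ∈
      Ideal.span (Set.range f) := by
  have h1 : ∀ t : Fin n, ∃ N : ℕ, (MvPolynomial.X t : MvPolynomial (Fin n) K) ^ N ∈
      Ideal.span (Set.range f) := fun t => X_mem_radical f a hf hreg t
  choose N hN using h1
  exact ⟨∑ t, N t, fun t => Ideal.pow_mem_of_pow_mem _ (hN t)
    (Finset.single_le_sum (f := N) (fun _ _ => Nat.zero_le _) (Finset.mem_univ t))⟩

theorem exists_monomial_mem {K : Type*} [Field K] (f : Fin n → MvPolynomial (Fin n) K)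
    (a : Fin n → ℕ) (hf : ∀ i, (f i).IsHomogeneous (a i))
    (hreg : IsRegular (MvPolynomial (Fin n) K) (List.ofFn f)) :
    ∃ N : ℕ, ∀ m : Fin n →₀ ℕ, N ≤ m.degree →
      MvPolynomial.monomial m (1 : K) ∈ Ideal.span (Set.range f) := by
  obtain ⟨N, hN⟩ := exists_X_pow_mem f a hf hreg
  refine ⟨n * N + 1, fun m hm => ?_⟩
  obtain ⟨t, ht⟩ : ∃ t, N ≤ m t := by
    by_contra h
    push Not at h
    have h1 : m.degree ≤ n * N := by
      rw [Finsupp.degree_eq_sum]
      calc ∑ i, m i ≤ ∑ _i : Fin n, N := Finset.sum_le_sum fun i _ => (h i).le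
        _ = n * N := by simp
    omega
  have h2 : MvPolynomial.monomial m (1 : K) =
      MvPolynomial.monomial (m - Finsupp.single t N) 1 * MvPolynomial.X t ^ N := by
    rw [MvPolynomial.X_pow_eq_monomial, MvPolynomial.monomial_mul, one_mul, tsub_add_cancel_of_le]
    rw [Finsupp.single_le_iff]
    exact ht
  rw [h2]
  exact Ideal.mul_mem_left _ _ (hN t)

open Crest.Agent.R181.AE
open Crest.AlgebraR.LPP
open Crest Crest.AlgebraR

variable {D : Type*} [DivisionRing D]

/-- The left ideal generated by `f` and the `w i`, `i ∈ B`. -/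
def LI (f : PD D n) (B : Finset (Fin n)) (w : Fin n → PD D n) : AddSubgroup (PD D n) where
  carrier := {g | ∃ (u : PD D n) (v : Fin n → PD D n), g = u * f + ∑ i ∈ B, v i * w i}
  add_mem' := by
    rintro _ _ ⟨u, v, rfl⟩ ⟨u', v', rfl⟩
    refine ⟨u + u', fun i => v i + v' i, ?_⟩
    simp only [add_mul, Finset.sum_add_distrib]
    abel
  zero_mem' := ⟨0, 0, by simp⟩
  neg_mem' := by
    rintro _ ⟨u, v, rfl⟩
    refine ⟨-u, fun i => -v i, ?_⟩
    simp only [neg_mul, Finset.sum_neg_distrib]
    abel


theorem mul_mem_LI {f : PD D n} {B : Finset (Fin n)} {w : Fin n → PD D n} (h : PD D n)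
    {g : PD D n} (hg : g ∈ LI f B w) : h * g ∈ LI f B w := by
  obtain ⟨u, v, rfl⟩ := hg
  refine ⟨h * u, fun i => h * v i, ?_⟩
  rw [mul_add, mul_assoc, Finset.mul_sum]
  simp only [mul_assoc]

theorem smul_mem_LI {f : PD D n} {B : Finset (Fin n)} {w : Fin n → PD D n} (c : D)
    {g : PD D n} (hg : g ∈ LI f B w) : c • g ∈ LI f B w := by
  rw [← Cs_mul]
  exact mul_mem_LI _ hg

theorem self_mem_LI (f : PD D n) (B : Finset (Fin n)) (w : Fin n → PD D n) : f ∈ LI f B w :=
  ⟨1, 0, by simp⟩

theorem w_mem_LI (f : PD D n) {B : Finset (Fin n)} (w : Fin n → PD D n) {i : Fin n} (hi : i ∈ B) :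
    w i ∈ LI f B w := by
  classical
  refine ⟨0, fun j => if j = i then 1 else 0, ?_⟩
  simp [hi]


end Crest.Agent.R181.AS
end

-- ▼ part R181/AS4

/-!
# The concrete parameters of the tower, and the final theorem from a tuple over a skew field
-/

set_option autoImplicit false

namespace Crest.Agent.R181.AS

open Module Finset
open Crest.Agent.R181.AE
open Crest.AlgebraR.LPP
open Crest Crest.AlgebraR

variable {n : ℕ}

/-- The parameters: `c_i`, `c_ijv`, `θ_il`. -/
abbrev Par (n : ℕ) := Fin n ⊕ (Fin n × Fin n × Fin n) ⊕ (Fin n × Fin n)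

/-- The parameter field `ℂ(c, θ)`. -/
abbrev Fld (n : ℕ) : Type := FractionRing (MvPolynomial (Par n) ℂ)

/-- A parameter. -/
noncomputable def par (p : Par n) : Fld n :=
  algebraMap (MvPolynomial (Par n) ℂ) (Fld n) (MvPolynomial.X p)

theorem par_ne_zero (p : Par n) : par p ≠ 0 := by
  unfold par
  rw [Ne, map_eq_zero_iff _ (IsFractionRing.injective (MvPolynomial (Par n) ℂ) (Fld n))]
  exact MvPolynomial.X_ne_zero p

/-- The parameter `c_i`. -/
noncomputable def cF (i : Fin n) : Fld n := par (Sum.inl i)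

/-- The parameter `c_ijv`. -/
noncomputable def ccF (i j v : Fin n) : Fld n := par (Sum.inr (Sum.inl (i, j, v)))

/-- The parameter `θ_il` (`0` unless `i < l`). -/
noncomputable def thF (i l : Fin n) : Fld n := if i < l then par (Sum.inr (Sum.inr (i, l))) else 0

theorem cF_ne_zero (i : Fin n) : cF i ≠ 0 := par_ne_zero _

/-- The form `f i` with coefficients in the parameter field. -/
noncomputable def fF (f : Fin n → MvPolynomial (Fin n) ℂ) (i : Fin n) :
    MvPolynomial (Fin n) (Fld n) := MvPolynomial.map (algebraMap ℂ (Fld n)) (f i)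

/-- The forms `q_i = c_i f_i + ∑_{j<i} ∑_v c_ijv x_v^(a_i-a_j) f_j`. -/
noncomputable def QF (a : Fin n → ℕ) (f : Fin n → MvPolynomial (Fin n) ℂ) (i : Fin n) :
    MvPolynomial (Fin n) (Fld n) :=
  MvPolynomial.C (cF i) * fF f i + ∑ j ∈ Finset.univ.filter (fun j => j < i), ∑ v,
    MvPolynomial.C (ccF i j v) * (fF f j * MvPolynomial.X v ^ (a i - a j))

theorem fF_isHomogeneous {a : Fin n → ℕ} {f : Fin n → MvPolynomial (Fin n) ℂ}
    (hf : ∀ i, (f i).IsHomogeneous (a i)) (i : Fin n) : (fF f i).IsHomogeneous (a i) :=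
  (hf i).map _

theorem QF_isHomogeneous {a : Fin n → ℕ} (ha : Monotone a) {f : Fin n → MvPolynomial (Fin n) ℂ}
    (hf : ∀ i, (f i).IsHomogeneous (a i)) (i : Fin n) : (QF a f i).IsHomogeneous (a i) := by
  unfold QF
  refine MvPolynomial.IsHomogeneous.add ?_ (MvPolynomial.IsHomogeneous.sum _ _ _ fun j hj =>
    MvPolynomial.IsHomogeneous.sum _ _ _ fun v _ => ?_)
  · have := (MvPolynomial.isHomogeneous_C (Fin n) (cF i)).mul (fF_isHomogeneous hf i)
    rwa [zero_add] at this
  · have h1 := (MvPolynomial.isHomogeneous_C (Fin n) (ccF i j v)).mul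
      ((fF_isHomogeneous hf j).mul (MvPolynomial.isHomogeneous_X_pow (R := Fld n) v (a i - a j)))
    have h2 : 0 + (a j + (a i - a j)) = a i := by
      have := ha (Finset.mem_filter.1 hj).2.le
      omega
    rwa [h2] at h1






end Crest.Agent.R181.AS
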