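import Crest.Agent.R181.HT279a

-- ▼ part R181/HT279b
section

/-!
R181 (helper279), H10: the property `E` passes from `(D', w')` to `(D, w)`, if derivations of
`U(D', w')` with values in `D`-bimodules `End E` are inner.
-/

set_option autoImplicit false
set_option linter.unusedSectionVars false

namespace Crest.Agent.R181.HT

open AddMonoidAlgebra
open Crest.Agent.R181.UR
open Crest.Agent.R181.H (Dn Dn_zero Dn_succ)

theorem map_Dn {A B : Type*} [Ring A] [Ring B] (f : A →+* B) (w y : A) (a : ℕ) :
    f (Dn w y a) = Dn (f w) (f y) a := by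
  induction a with
  | zero => simp
  | succ a ih => rw [Dn_succ, Dn_succ, map_add, map_mul, map_mul, map_pow, ih]

section Dual

variable {E : Type*} [AddCommGroup E]

/-- diagonal operators on `E × E` -/
def dg : AddMonoid.End E →+* AddMonoid.End (E × E) where
  toFun x := AddMonoidHom.prodMap x x
  map_one' := rfl
  map_mul' x y := rfl
  map_zero' := rfl
  map_add' x y := rfl


variable (E) in
/-- the nilpotent operator -/
def e2 : AddMonoid.End (E × E) := AddMonoidHom.prod (AddMonoidHom.snd E E) 0


theorem e2_mul_e2 : e2 E * e2 E = 0 := rfl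

theorem e2_comm (x : AddMonoid.End E) : Commute (e2 E) (dg x) := by
  refine AddMonoidHom.ext fun p => ?_
  show (x p.2, (0 : E)) = (x p.2, x 0)
  rw [map_zero]

theorem dual_mul (f g f' g' : AddMonoid.End E) :
    (dg f + e2 E * dg g) * (dg f' + e2 E * dg g') = dg (f * f') + e2 E * dg (f * g' + g * f') := by
  have h1 : dg f * (e2 E * dg g') = e2 E * (dg f * dg g') := by
    rw [← mul_assoc, ← (e2_comm f).eq, mul_assoc]
  have h2 : e2 E * dg g * (e2 E * dg g') = 0 := by
    rw [mul_assoc, ← mul_assoc (dg g), ← (e2_comm g).eq, mul_assoc, ← mul_assoc, e2_mul_e2,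
      zero_mul]
  rw [add_mul, mul_add, mul_add, h1, h2, add_zero, map_add, map_mul, map_mul, map_mul, mul_add,
    mul_assoc]
  abel

variable {σ : Type*}

theorem eps_comm (f : PA (AddMonoid.End E) σ) : Commute (cst σ (e2 E)) (mp σ dg f) := by
  apply cst_comm
  intro m
  rw [mp_coeff]
  exact e2_comm _

theorem eps_eps : cst σ (e2 E) * cst σ (e2 E) = 0 := by
  rw [← map_mul, e2_mul_e2, map_zero]

theorem eps_mul (f g f' g' : PA (AddMonoid.End E) σ) :
    (mp σ dg f + cst σ (e2 E) * mp σ dg g) * (mp σ dg f' + cst σ (e2 E) * mp σ dg g') =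
      mp σ dg (f * f') + cst σ (e2 E) * mp σ dg (f * g' + g * f') := by
  have h1 : mp σ dg f * (cst σ (e2 E) * mp σ dg g') =
      cst σ (e2 E) * (mp σ dg f * mp σ dg g') := by
    rw [← mul_assoc, ← (eps_comm f).eq, mul_assoc]
  have h2 : cst σ (e2 E) * mp σ dg g * (cst σ (e2 E) * mp σ dg g') = 0 := by
    rw [mul_assoc, ← mul_assoc (mp σ dg g), ← (eps_comm g).eq, mul_assoc, ← mul_assoc, eps_eps,
      zero_mul]
  rw [add_mul, mul_add, mul_add, h1, h2, add_zero, map_add, map_mul, map_mul, map_mul, mul_add,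
    mul_assoc]
  abel

theorem eps_pow (f g : PA (AddMonoid.End E) σ) (a : ℕ) :
    (mp σ dg f + cst σ (e2 E) * mp σ dg g) ^ a =
      mp σ dg (f ^ a) + cst σ (e2 E) * mp σ dg (Dn f g a) := by
  induction a with
  | zero => simp
  | succ a ih =>
    rw [pow_succ', ih, eps_mul, ← pow_succ', Dn_succ]

/-- a first-order deformation of a tuple over `End E` is a tuple over `End (E × E)` -/
theorem isTuple_dual {F L I : Type*} [CommRing F] [CommRing L] [Algebra F L] [Fintype I]
    [Fintype σ] {a : I → ℕ} {th : I → I → F} {Q : I → MvPolynomial σ L}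
    {τ : L →+* AddMonoid.End E} {w : I → σ → AddMonoid.End E} (hW : IsTuple a th Q τ w)
    {ζ : I → PA (AddMonoid.End E) σ}
    (hcoc : IsCoc a th (τ.comp (algebraMap F L)) (fun i => lf (w i)) ζ)
    (w2 : I → σ → AddMonoid.End (E × E))
    (hlf : ∀ i, lf (w2 i) = mp σ dg (lf (w i)) + cst σ (e2 E) * mp σ dg (ζ i)) :
    IsTuple a th Q (dg.comp τ) w2 := by
  constructor
  · intro i j
    rw [hlf, hlf, eps_mul, eps_mul]
    have h1 := hW.comm i j
    have h2 := hcoc.comm i j
    rw [sub_eq_sub_iff_add_eq_add] at h2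
    rw [h1, h2]
  · intro i
    rw [hlf i, eps_pow]
    have h1 : mp σ dg (lf (w i) ^ a i) = mp σ (dg.comp τ) (Q i) +
        ∑ l, cst σ (dg (τ (algebraMap F L (th i l)))) * mp σ dg (lf (w l) ^ a i) := by
      rw [hW.rel i, map_add, mp_comp, map_sum]
      congr 1
      refine Finset.sum_congr rfl fun l _ => ?_
      rw [map_mul, mp_cst]
    have h2 : mp σ dg (Dn (lf (w i)) (ζ i) (a i)) =
        ∑ l, cst σ (dg (τ (algebraMap F L (th i l)))) * mp σ dg (Dn (lf (w l)) (ζ l) (a i)) := by
      rw [hcoc.rel i, map_sum]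
      refine Finset.sum_congr rfl fun l _ => ?_
      rw [map_mul, mp_cst]
      rfl
    rw [h1, h2, add_assoc, Finset.mul_sum, ← Finset.sum_add_distrib]
    congr 1
    refine Finset.sum_congr rfl fun l _ => ?_
    rw [hlf l, eps_pow, mul_add, ← mul_assoc, ← mul_assoc]
    congr 2
    rw [← map_mul, ← map_mul]
    congr 1
    exact (e2_comm _).eq

end Dual

section Der

variable {F D' I σ : Type} [CommRing F] [Ring D'] [Algebra F D'] [Fintype I] [Fintype σ]
  {a : I → ℕ} {th : I → I → F} {Q : I → MvPolynomial (Option σ) F} {w' : I → σ → D'}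
  {E : Type} [AddCommGroup E]

/-- the derivation of `U` defined by a deformation `s * z` of the universal tuple -/
theorem exists_der (χ : U a th Q w' →+* AddMonoid.End E) (z : I → AddMonoid.End E)
    (hz : ∀ i c, Commute (χ (iL a th Q w' c)) (z i))
    (hcoc : IsCoc a th (χ.comp (iL a th Q w')) (fun i => lf (fun v => χ (wU a th Q w' i v)))
      (fun i => sv (AddMonoid.End E) σ * cst (Option σ) (z i))) :
    ∃ δ : U a th Q w' →+ AddMonoid.End E, (∀ s t, δ (s * t) = χ s * δ t + δ s * χ t) ∧
      (∀ d, δ (iD a th Q w' d) = 0) ∧ ∀ i, δ (eta a th Q w' i) = z i := by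
  classical
  have hW := (isTuple_wU (a := a) (th := th) (Q := Q) (w := w')).map χ
  have hlf : ∀ i, lf (ext' (fun i v => (dg.comp χ) (iD a th Q w' (w' i v)))
      (fun i => dg (χ (eta a th Q w' i)) + e2 E * dg (z i)) i) =
      mp (Option σ) dg (lf (fun v => χ (wU a th Q w' i v))) +
        cst (Option σ) (e2 E) * mp (Option σ) dg (sv (AddMonoid.End E) σ * cst (Option σ) (z i)) := by
    intro i
    have h1 : ext' (fun i v => (dg.comp χ) (iD a th Q w' (w' i v)))
        (fun i => dg (χ (eta a th Q w' i)) + e2 E * dg (z i)) i =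
        (fun v => dg (χ (wU a th Q w' i v))) +
          (fun v => if v = none then e2 E * dg (z i) else 0) := by
      funext v
      cases v with
      | none => simp [wU]
      | some v => simp [wU]
    rw [h1, lf_add, mp_lf]
    congr 1
    unfold lf
    rw [Fintype.sum_option]
    simp only [if_true, reduceCtorEq, if_false, single_zero, Finset.sum_const_zero, add_zero]
    rw [map_mul, mp_var, mp_cst, (var_comm _ _).eq, ← mul_assoc, ← map_mul, cst_apply, var,
      single_mul_single, zero_add, mul_one]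
  have ht : IsTuple a th Q (dg.comp (χ.comp (iL a th Q w')))
      (ext' (fun i v => (dg.comp (χ.comp (iD a th Q w'))) (w' i v))
      (fun i => dg (χ (eta a th Q w' i)) + e2 E * dg (z i))) :=
    isTuple_dual hW hcoc _ hlf
  obtain ⟨f, hf1, hf2, hf3⟩ := exists_lift (dg.comp (χ.comp (iD a th Q w')))
    (dg.comp (χ.comp (iL a th Q w'))) (fun i => dg (χ (eta a th Q w' i)) + e2 E * dg (z i))
    (fun c => by
      show dg (χ _) = dg (χ _)
      rw [iD_base])
    (fun x d => ((iL_comm a th Q w' x (iD a th Q w' d)).map χ).map dg)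
    (fun x i => by
      refine Commute.add_right (((iL_comm a th Q w' x (eta a th Q w' i)).map χ).map dg) ?_
      exact Commute.mul_right (e2_comm _).symm ((hz i x).map dg))
    ht
  have hfd : ∀ t : U a th Q w', ∃ y : AddMonoid.End E, f t = dg (χ t) + e2 E * dg y := by
    intro t
    refine generation a th Q w' (fun t => ∃ y : AddMonoid.End E, f t = dg (χ t) + e2 E * dg y)
      ?_ ?_ ?_ ?_ ?_ t
    · intro d
      exact ⟨0, by rw [hf1, map_zero, mul_zero, add_zero]; rfl⟩
    · intro d
      exact ⟨0, by rw [hf2, map_zero, mul_zero, add_zero]; rfl⟩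
    · intro i
      exact ⟨z i, hf3 i⟩
    · rintro x y ⟨p, hp⟩ ⟨q, hq⟩
      refine ⟨p + q, ?_⟩
      rw [map_add, hp, hq, map_add, map_add, map_add, mul_add]
      abel
    · rintro x y ⟨p, hp⟩ ⟨q, hq⟩
      exact ⟨χ x * q + p * χ y, by rw [map_mul f, hp, hq, dual_mul, map_mul χ]⟩
  let δ : U a th Q w' →+ AddMonoid.End E :=
    { toFun := fun t => (AddMonoidHom.fst E E).comp ((f t).comp (AddMonoidHom.inr E E))
      map_zero' := by rw [map_zero]; rfl
      map_add' := fun s t => by rw [map_add]; rfl }
  have hδ : ∀ t y, f t = dg (χ t) + e2 E * dg y → δ t = y := by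
    intro t y h
    refine AddMonoidHom.ext fun x => ?_
    show ((f t) (0, x)).1 = y x
    rw [h]
    show (χ t 0 + y x) = y x
    rw [map_zero, zero_add]
  refine ⟨δ, ?_, ?_, ?_⟩
  · intro s t
    obtain ⟨p, hp⟩ := hfd s
    obtain ⟨q, hq⟩ := hfd t
    rw [hδ s p hp, hδ t q hq]
    apply hδ
    rw [map_mul f, hp, hq, dual_mul, map_mul χ]
  · intro d
    apply hδ
    rw [hf1, map_zero, mul_zero, add_zero]; rfl
  · intro i
    exact hδ _ _ (hf3 i)

end Der

end Crest.Agent.R181.HT
end

-- ▼ part R181/HT279c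

/-!
R181 (helper279), H10: the property `E` passes from `(D', w')` to `(D, w)`.
-/

set_option autoImplicit false
set_option linter.unusedSectionVars false

namespace Crest.Agent.R181.HT

open AddMonoidAlgebra
open Crest.Agent.R181.UR
open Crest.Agent.R181.H (Dn Dn_zero Dn_succ)

/-- Property `E` of a tuple: first-order deformations of degree `d + 1` are coboundaries. -/
def EProp {F D I σ : Type} [CommRing F] [Ring D] [Algebra F D] [Fintype I] [Fintype σ]
    (a : I → ℕ) (th : I → I → F) (w : I → σ → D) : Prop :=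
  ∀ (E : Type) [AddCommGroup E] (ρ : D →+* AddMonoid.End E) (d : ℕ)
    (ζ : I → PA (AddMonoid.End E) σ), (∀ i, Hg (d + 1) (ζ i)) →
    (∀ i, Cf (Subring.centralizer (Set.range (ρ.comp (algebraMap F D)))) (ζ i)) →
    IsCoc a th (ρ.comp (algebraMap F D)) (fun i => lf (fun v => ρ (w i v))) ζ →
    ∃ η : PA (AddMonoid.End E) σ, Hg d η ∧
      Cf (Subring.centralizer (Set.range (ρ.comp (algebraMap F D)))) η ∧
      ∀ i, ζ i = lf (fun v => ρ (w i v)) * η - η * lf (fun v => ρ (w i v))

/-- The start: no variables. -/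
theorem EProp.empty {F D I σ : Type} [CommRing F] [Ring D] [Algebra F D] [Fintype I] [Fintype σ]
    [IsEmpty σ] (a : I → ℕ) (th : I → I → F) (w : I → σ → D) : EProp a th w := by
  intro E _ ρ d ζ hζ _ _
  refine ⟨0, hg_zero d, ?_, fun i => ?_⟩
  · intro m
    exact Subring.zero_mem _
  · rw [mul_zero, zero_mul, sub_zero]
    refine coeff_injective (Finsupp.ext fun m => ?_)
    by_contra h
    have h1 := hζ i m h
    have h2 : m = 0 := Subsingleton.elim _ _
    rw [h2, map_zero] at h1
    omega

theorem lf_bracket {A σ : Type*} [Ring A] [Fintype σ] (w : σ → A) (y : A) :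
    lf w * cst σ y - cst σ y * lf w = lf (fun v => w v * y - y * w v) := by
  unfold lf
  rw [Finset.sum_mul, Finset.mul_sum, ← Finset.sum_sub_distrib]
  refine Finset.sum_congr rfl fun v _ => ?_
  rw [cst_apply, single_mul_single, single_mul_single, add_zero, zero_add, ← single_sub]

theorem sv_cst {A σ : Type*} [Ring A] [Fintype σ] (y : A) :
    sv A σ * cst (Option σ) y = lf (fun v => if v = none then y else 0) := by
  unfold lf
  rw [Fintype.sum_option]
  simp only [if_true, reduceCtorEq, if_false, single_zero, Finset.sum_const_zero, add_zero]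
  unfold sv var
  rw [cst_apply, single_mul_single, add_zero, one_mul]

theorem IsCoc.of_sv {A F I σ : Type*} [Ring A] [CommRing F] [Fintype I] {a : I → ℕ}
    {th : I → I → F} {τ : F →+* A} {W ζ : I → PA A (Option σ)}
    (h : IsCoc a th τ W (fun i => sv A σ * ζ i)) : IsCoc a th τ W ζ where
  comm i j := by
    apply sv_mul_inj
    have h1 := h.comm i j
    have hc : ∀ i j, W i * (sv A σ * ζ j) - (sv A σ * ζ j) * W i =
        sv A σ * (W i * ζ j - ζ j * W i) := by
      intro i j
      rw [mul_sub, ← mul_assoc, ← (var_comm (none : Option σ) (W i)).eq, mul_assoc, mul_assoc]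
    rw [hc, hc] at h1
    exact h1
  rel i := by
    apply sv_mul_inj
    have h1 := h.rel i
    rw [Finset.mul_sum]
    rw [H.Dn_mul_left _ _ _ (var_comm (none : Option σ) (W i))] at h1
    rw [h1]
    refine Finset.sum_congr rfl fun l _ => ?_
    rw [H.Dn_mul_left _ _ _ (var_comm (none : Option σ) (W l)), ← mul_assoc, ← mul_assoc,
      (var_comm (none : Option σ) _).eq]

theorem EProp.step {F D' D I σ : Type} [CommRing F] [Ring D'] [Algebra F D'] [Ring D]
    [Algebra F D] [Fintype I] [Fintype σ] {a : I → ℕ} {th : I → I → F} {w' : I → σ → D'}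
    (hE : EProp a th w') (Q : I → MvPolynomial (Option σ) F) (φ : U a th Q w' →+* D)
    (hφF : ∀ c, φ (iL a th Q w' c) = algebraMap F D c)
    (hder : ∀ (E : Type) [AddCommGroup E] (ρ : D →+* AddMonoid.End E)
      (δ : U a th Q w' →+ AddMonoid.End E), (∀ s t, δ (s * t) = ρ (φ s) * δ t + δ s * ρ (φ t)) →
      ∃ η : AddMonoid.End E, ∀ t, δ t = η * ρ (φ t) - ρ (φ t) * η) :
    EProp a th (fun i v => φ (wU a th Q w' i v)) := by
  intro E _ ρ
  set χ : U a th Q w' →+* AddMonoid.End E := ρ.comp φ with hχ
  have hτ : ρ.comp (algebraMap F D) = χ.comp (iL a th Q w') := by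
    ext1 c
    show ρ (algebraMap F D c) = ρ (φ (iL a th Q w' c))
    rw [hφF]
  have hτ' : ρ.comp (algebraMap F D) = (χ.comp (iD a th Q w')).comp (algebraMap F D') := by
    ext1 c
    show ρ (algebraMap F D c) = ρ (φ (iD a th Q w' (algebraMap F D' c)))
    rw [iD_base, ← hφF]
    rfl
  set S : Subring (AddMonoid.End E) :=
    Subring.centralizer (Set.range (ρ.comp (algebraMap F D))) with hS
  have hcen : ∀ t : U a th Q w', χ t ∈ S := by
    intro t
    rw [hS, Subring.mem_centralizer_iff, hτ]
    rintro _ ⟨c, rfl⟩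
    exact ((iL_comm a th Q w' c t).map χ).eq
  have hW := (isTuple_wU (a := a) (th := th) (Q := Q) (w := w')).map χ
  have hbd : ∀ η : PA (AddMonoid.End E) (Option σ), Cf S η →
      IsCoc a th (ρ.comp (algebraMap F D)) (fun i => lf (fun v => χ (wU a th Q w' i v)))
        (fun i => lf (fun v => χ (wU a th Q w' i v)) * η -
          η * lf (fun v => χ (wU a th Q w' i v))) := by
    intro η hη
    have hcst : ∀ x : F, Commute (cst (Option σ) ((χ.comp (iL a th Q w')) x)) η := by
      intro x
      apply cst_comm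
      intro m
      have := hη m
      rw [hS, Subring.mem_centralizer_iff, hτ] at this
      exact this _ ⟨x, rfl⟩
    refine isCoc_bd hW η hcst ?_ (fun x => by rw [hτ]; rfl)
    intro i
    have hQ : ∀ p : MvPolynomial (Option σ) F,
        Commute (mp (Option σ) (χ.comp (iL a th Q w')) p) η := by
      intro p
      induction p using AddMonoidAlgebra.induction_linear with
      | zero => rw [map_zero]; exact Commute.zero_left _
      | add p q hp hq => rw [map_add]; exact hp.add_left hq
      | single m x =>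
        have h1 : mp (Option σ) (χ.comp (iL a th Q w')) (single m x) =
            single m 1 * cst (Option σ) ((χ.comp (iL a th Q w')) x) := by
          rw [mp_single, cst_apply, single_mul_single, add_zero, one_mul]
        rw [h1]
        exact (single_commute (fun m' => AddCommute.all _ _) (fun r => Commute.one_left r) η
          ).mul_left (hcst x)
    exact hQ (Q i)
  -- restriction to `s = 0`
  have hred : ∀ (d : ℕ) (ζ : I → PA (AddMonoid.End E) (Option σ)), (∀ i, Hg (d + 1) (ζ i)) →
      (∀ i, Cf S (ζ i)) →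
      IsCoc a th (ρ.comp (algebraMap F D)) (fun i => lf (fun v => χ (wU a th Q w' i v))) ζ →
      ∃ η : PA (AddMonoid.End E) (Option σ), Hg d η ∧ Cf S η ∧
        ∃ ζ1 : I → PA (AddMonoid.End E) (Option σ), (∀ i, Hg d (ζ1 i)) ∧ (∀ i, Cf S (ζ1 i)) ∧
        IsCoc a th (ρ.comp (algebraMap F D)) (fun i => lf (fun v => χ (wU a th Q w' i v))) ζ1 ∧
        ∀ i, ζ i = (lf (fun v => χ (wU a th Q w' i v)) * η -
          η * lf (fun v => χ (wU a th Q w' i v))) + sv (AddMonoid.End E) σ * ζ1 i := by
    intro d ζ h1 h2 h3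
    have hSeq : Subring.centralizer (Set.range ((χ.comp (iD a th Q w')).comp (algebraMap F D'))) =
        S := by rw [hS, hτ']
    have hwr : ∀ i, r0 (lf (fun v => χ (wU a th Q w' i v))) =
        lf (fun v => (χ.comp (iD a th Q w')) (w' i v)) := by
      intro i
      rw [r0_lf]
      rfl
    obtain ⟨η0, h4, h5, h6⟩ := hE E (χ.comp (iD a th Q w')) d (fun i => r0 (ζ i))
      (fun i => (h1 i).r0) (fun i => by rw [hSeq]; exact (h2 i).r0) (by
        constructor
        · intro i j
          have := congrArg r0 (h3.comm i j)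
          simpa only [map_sub, map_mul, hwr] using this
        · intro i
          have := congrArg r0 (h3.rel i)
          simpa only [map_sum, map_mul, map_Dn, hwr, r0_cst, hτ'] using this)
    rw [hSeq] at h5
    have h7 := h3.sub (hbd (em η0) h5.em)
    have hWc : ∀ i, Cf S (lf (fun v => χ (wU a th Q w' i v))) := fun i =>
      cf_lf _ fun v => hcen _
    set ζ' : I → PA (AddMonoid.End E) (Option σ) := fun i => ζ i -
      (lf (fun v => χ (wU a th Q w' i v)) * em η0 - em η0 * lf (fun v => χ (wU a th Q w' i v)))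
      with hζ'
    have h8 : ∀ i, r0 (ζ' i) = 0 := by
      intro i
      have h9 : r0 (ζ i) = lf (fun v => (χ.comp (iD a th Q w')) (w' i v)) * η0 -
        η0 * lf (fun v => (χ.comp (iD a th Q w')) (w' i v)) := h6 i
      rw [hζ']
      simp only [map_sub, map_mul, hwr, r0_em, h9, sub_self]
    have h9 : ∀ i, sv (AddMonoid.End E) σ * dv (ζ' i) = ζ' i := fun i => sv_mul_dv (h8 i)
    have hHg : ∀ i, Hg (d + 1) (ζ' i) := by
      intro i
      refine (h1 i).sub (Hg.sub ?_ ?_)
      · have := (hg_lf (fun v => χ (wU a th Q w' i v))).mul h4.em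
        rwa [add_comm 1 d] at this
      · exact h4.em.mul (hg_lf _)
    have hCf : ∀ i, Cf S (ζ' i) := fun i =>
      (h2 i).sub (((hWc i).mul h5.em).sub (h5.em.mul (hWc i)))
    have hcomm : ∀ f, Commute (sv (AddMonoid.End E) σ) f := fun f => var_comm none f
    refine ⟨em η0, h4.em, h5.em, fun i => dv (ζ' i), fun i => (hHg i).dv, fun i => (hCf i).dv,
      ?_, ?_⟩
    · apply IsCoc.of_sv
      simp only [h9]
      exact h7
    · intro i
      rw [h9]
      exact (add_sub_cancel _ _).symm
  intro d
  induction d with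
  | zero =>
    intro ζ h1 h2 h3
    obtain ⟨η, h4, h5, ζ1, h6, h7, h8, h9⟩ := hred 0 ζ h1 h2 h3
    -- the constants
    let z : I → AddMonoid.End E := fun i => (ζ1 i).coeff 0
    have hz : ∀ i, ζ1 i = cst (Option σ) (z i) := fun i => eq_cst_of_hg_zero (h6 i)
    have hcoc : IsCoc a th (χ.comp (iL a th Q w')) (fun i => lf (fun v => χ (wU a th Q w' i v)))
        (fun i => sv (AddMonoid.End E) σ * cst (Option σ) (z i)) := by
      have h10 := h3.sub (hbd η h5)
      have h11 : (fun i => ζ i - (lf (fun v => χ (wU a th Q w' i v)) * η -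
          η * lf (fun v => χ (wU a th Q w' i v)))) =
          fun i => sv (AddMonoid.End E) σ * cst (Option σ) (z i) := by
        funext i
        rw [h9 i, ← hz i, add_sub_cancel_left]
      rw [h11, hτ] at h10
      exact h10
    obtain ⟨δ, hδ1, hδ2, hδ3⟩ := exists_der χ z (by
      intro i c
      have := h7 i 0
      rw [hS, Subring.mem_centralizer_iff, hτ] at this
      exact this _ ⟨c, rfl⟩) hcoc
    obtain ⟨y, hy⟩ := hder E ρ δ hδ1
    have hyD : ∀ d, y * χ (iD a th Q w' d) - χ (iD a th Q w' d) * y = 0 := fun d => by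
      rw [← hδ2 d, hy]; rfl
    have hyS : y ∈ S := by
      rw [hS, Subring.mem_centralizer_iff, hτ']
      rintro _ ⟨c, rfl⟩
      exact (sub_eq_zero.1 (hyD (algebraMap F D' c))).symm
    refine ⟨η - cst (Option σ) y, h4.sub (hg_cst y), h5.sub (cf_cst hyS), fun i => ?_⟩
    change ζ i = lf (fun v => χ (wU a th Q w' i v)) * (η - cst (Option σ) y) -
        (η - cst (Option σ) y) * lf (fun v => χ (wU a th Q w' i v))
    have h12 : lf (fun v => χ (wU a th Q w' i v)) * cst (Option σ) y -
        cst (Option σ) y * lf (fun v => χ (wU a th Q w' i v)) =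
        - (sv (AddMonoid.End E) σ * cst (Option σ) (z i)) := by
      rw [lf_bracket, sv_cst]
      unfold lf
      rw [← Finset.sum_neg_distrib]
      refine Finset.sum_congr rfl fun v _ => ?_
      rw [← single_neg]
      congr 1
      cases v with
      | none =>
        simp only [if_true]
        rw [← hδ3 i, hy]
        exact (neg_sub _ _).symm
      | some v =>
        simp only [reduceCtorEq, if_false, neg_zero]
        have := hyD (w' i v)
        rw [sub_eq_zero] at this
        rw [sub_eq_zero]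
        exact this.symm
    rw [h9 i, hz i, mul_sub, sub_mul]
    have h13 : sv (AddMonoid.End E) σ * cst (Option σ) (z i) =
        -(lf (fun v => χ (wU a th Q w' i v)) * cst (Option σ) y -
        cst (Option σ) y * lf (fun v => χ (wU a th Q w' i v))) := by rw [h12, neg_neg]
    rw [h13]
    abel
  | succ d ih =>
    intro ζ h1 h2 h3
    obtain ⟨η, h4, h5, ζ1, h6, h7, h8, h9⟩ := hred (d + 1) ζ h1 h2 h3
    obtain ⟨η1, h10, h11, h12⟩ := ih ζ1 h6 h7 h8
    refine ⟨η + sv (AddMonoid.End E) σ * η1, h4.add ?_, h5.add ((cf_var _ _).mul h11), fun i => ?_⟩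
    · have := (hg_var (A := AddMonoid.End E) (none : Option σ)).mul h10
      rwa [add_comm 1 d] at this
    · have h13 : ζ1 i = lf (fun v => χ (wU a th Q w' i v)) * η1 -
        η1 * lf (fun v => χ (wU a th Q w' i v)) := h12 i
      change ζ i = lf (fun v => χ (wU a th Q w' i v)) * (η + sv (AddMonoid.End E) σ * η1) -
        (η + sv (AddMonoid.End E) σ * η1) * lf (fun v => χ (wU a th Q w' i v))
      have hc := (var_comm (none : Option σ) (lf (fun v => χ (wU a th Q w' i v)))).eq
      rw [h9 i, h13, mul_sub, mul_add, add_mul, ← mul_assoc, ← mul_assoc, hc, ← mul_assoc,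
        mul_assoc (sv (AddMonoid.End E) σ) η1]
      abel

end Crest.Agent.R181.HT
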