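import Crest.Agent.R181.H1
import Crest.Agent.R181.UR396a
import Crest.Agent.R181.AS4
import Crest.Agent.R181.HT279c
import Crest.Agent.R181.TW825b
import Crest.Agent.R181.SM858a
import Crest.Agent.R181.HL776a
import Crest.Agent.R181.AS6

-- ▼ part R181/H2
section

/-!
# R181, block H: the killing lemma, abstract form
-/

set_option autoImplicit false

namespace Crest.Agent.R181.H

open Finset

noncomputable section

/-- The data of the killing lemma. -/
structure KData (B F : Type*) [Ring B] [Field F] (r : ℕ) where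
  /-- number of variables is `r + 1` -/
  φ : MvPolynomial (Fin (r + 1)) F →+* B
  /-- the operators -/
  w : Fin r → B
  a : Fin r → ℕ
  /-- the forms -/
  f : Fin (r + 1) → MvPolynomial (Fin (r + 1)) F
  /-- right hand sides -/
  Q : Fin r → MvPolynomial (Fin (r + 1)) F
  c : Fin r → F
  θ : Fin r → Fin r → F
  /-- the distinguished variable -/
  k : Fin (r + 1)
  ha : ∀ i, 2 ≤ a i
  hX : ∀ t b, Commute (φ (MvPolynomial.X t)) b
  hwF : ∀ i u, Commute (φ (MvPolynomial.C u)) (w i)
  hww : ∀ i l, Commute (w i) (w l)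
  hw : ∀ i, w i ^ a i = φ (Q i) + ∑ l ∈ univ.filter (fun l => i < l), φ (MvPolynomial.C (θ i l)) * w l ^ a i
  hc : ∀ i, c i ≠ 0
  hQ : ∀ i, Q i - MvPolynomial.C (c i) * f i.succ ∈
    Ideal.span (f '' {j | j ≤ i.castSucc})
  hf : ∃ M, (MvPolynomial.X k : MvPolynomial (Fin (r + 1)) F) ^ M ∈ Ideal.span (Set.range f)

namespace KData

variable {B F : Type*} [Ring B] [Field F] {r : ℕ} (K : KData B F r)

/-- scalars -/
def j : F →+* B := K.φ.comp MvPolynomial.C

/-- the element x_k -/
def x : B := K.φ (MvPolynomial.X K.k)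

theorem x_comm (b : B) : Commute K.x b := K.hX _ _

/-- an element `G` of `B` obtained by a connection `∇` differentiating a parameter of the `i`-th
relation only. -/
def Par (i : Fin r) (G : B) : Prop :=
  ∃ (nb : B) (d : F → F), (∀ u, nb * K.j u - K.j u * nb = K.j (d u)) ∧
    (∀ l, i < l → nb * K.φ (K.Q l) - K.φ (K.Q l) * nb = 0) ∧
    (∀ l m, i < l → nb * K.j (K.θ l m) - K.j (K.θ l m) * nb = 0) ∧
    G = (nb * K.φ (K.Q i) - K.φ (K.Q i) * nb) +
      ∑ m ∈ univ.filter (fun m => i < m), (nb * K.j (K.θ i m) - K.j (K.θ i m) * nb) * K.w m ^ K.a i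

/-- `F`-linear elements. -/
def Lin : Subring B := Subring.centralizer (Set.range K.j)

theorem mem_Lin {b : B} : b ∈ K.Lin ↔ ∀ u, Commute (K.j u) b := by
  unfold Lin
  rw [Subring.mem_centralizer_iff]
  constructor
  · intro h u
    exact h _ ⟨u, rfl⟩
  · rintro h _ ⟨u, rfl⟩
    exact h u

/-- `F`-linear elements commuting with `w l` for `l > i` (as naturals `≥ i`). -/
def Cen (i : ℕ) : Subring B :=
  Subring.centralizer (Set.range K.j ∪ {b | ∃ l : Fin r, i ≤ l ∧ b = K.w l})

theorem mem_Cen {i : ℕ} {b : B} :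
    b ∈ K.Cen i ↔ b ∈ K.Lin ∧ ∀ l : Fin r, i ≤ l → Commute (K.w l) b := by
  unfold Cen
  rw [Subring.mem_centralizer_iff, mem_Lin]
  constructor
  · intro h
    exact ⟨fun u => h _ (Or.inl ⟨u, rfl⟩), fun l hl => h _ (Or.inr ⟨l, hl, rfl⟩)⟩
  · rintro ⟨h1, h2⟩ g (⟨u, rfl⟩ | ⟨l, hl, rfl⟩)
    · exact h1 u
    · exact h2 l hl

theorem φ_comm_w (p : MvPolynomial (Fin (r + 1)) F) (i : Fin r) : Commute (K.φ p) (K.w i) := by
  induction p using MvPolynomial.induction_on with
  | C u => exact K.hwF i u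
  | add p q hp hq => rw [map_add]; exact hp.add_left hq
  | mul_X p t hp => rw [map_mul]; exact hp.mul_left (K.hX t _)

theorem φ_comm_Lin (p : MvPolynomial (Fin (r + 1)) F) {b : B} (hb : b ∈ K.Lin) :
    Commute (K.φ p) b := by
  rw [mem_Lin] at hb
  induction p using MvPolynomial.induction_on with
  | C u => exact hb u
  | add p q hp hq => rw [map_add]; exact hp.add_left hq
  | mul_X p t hp => rw [map_mul]; exact hp.mul_left (K.hX t _)

theorem w_mem_Lin (i : Fin r) : K.w i ∈ K.Lin := by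
  rw [mem_Lin]; intro u; exact K.hwF i u

theorem w_mem_Cen (i : Fin r) (m : ℕ) : K.w i ∈ K.Cen m := by
  rw [mem_Cen]; exact ⟨K.w_mem_Lin i, fun l _ => K.hww l i⟩

theorem φ_mem_Lin (p : MvPolynomial (Fin (r + 1)) F) : K.φ p ∈ K.Lin := by
  rw [mem_Lin]; intro u
  show K.φ _ * K.φ _ = K.φ _ * K.φ _
  rw [← map_mul, ← map_mul, mul_comm]

theorem φ_mem_Cen (p : MvPolynomial (Fin (r + 1)) F) (m : ℕ) : K.φ p ∈ K.Cen m := by
  rw [mem_Cen]; exact ⟨K.φ_mem_Lin p, fun l _ => (K.φ_comm_w p l).symm⟩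

theorem x_mem_Cen (m : ℕ) : K.x ∈ K.Cen m := K.φ_mem_Cen _ m

/-- cocycles: `F`-linear families, conditions only for indices `≥ i`. -/
structure IsCoc (i : ℕ) (ζ : Fin r → B) : Prop where
  lin : ∀ l : Fin r, i ≤ l → ζ l ∈ K.Lin
  comm : ∀ l m : Fin r, i ≤ l → i ≤ m → K.w l * ζ m - ζ m * K.w l = K.w m * ζ l - ζ l * K.w m
  rel : ∀ l : Fin r, i ≤ l → Dn (K.w l) (ζ l) (K.a l) =
    ∑ m ∈ univ.filter (fun m => l < m), K.j (K.θ l m) * Dn (K.w m) (ζ m) (K.a l)

/-- `K(i)`: the killing statement for the sub-tuple of indices `≥ i`. -/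
def Kill (i : ℕ) : Prop :=
  ∀ ζ : Fin r → B, K.IsCoc i ζ → ∃ (M : ℕ) (η : B), η ∈ K.Lin ∧
    ∀ l : Fin r, i ≤ l → K.x ^ M * ζ l = K.w l * η - η * K.w l

/-- the commutative ring of multipliers -/
def PP : Subring B := Subring.closure (Set.range K.φ ∪ Set.range K.w)

theorem PP_comm : ∀ b ∈ K.PP, ∀ b' ∈ K.PP, b * b' = b' * b := by
  have h0 : ∀ b ∈ (Set.range K.φ ∪ Set.range K.w), ∀ b' ∈ (Set.range K.φ ∪ Set.range K.w),
      b * b' = b' * b := by
    rintro _ (⟨p, rfl⟩ | ⟨i, rfl⟩) _ (⟨q, rfl⟩ | ⟨l, rfl⟩)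
    · rw [← map_mul, ← map_mul, mul_comm]
    · exact (K.φ_comm_w p l).eq
    · exact (K.φ_comm_w q i).symm.eq
    · exact (K.hww i l).eq
  intro b hb b' hb'
  have := Subring.isMulCommutative_closure (s := Set.range K.φ ∪ Set.range K.w) h0
  exact congrArg Subtype.val (this.is_comm.comm (⟨b, hb⟩ : Subring.closure _) ⟨b', hb'⟩)

instance instPPComm : CommRing K.PP :=
  { (inferInstance : Ring K.PP) with
    mul_comm := fun b b' => Subtype.ext (K.PP_comm b.1 b.2 b'.1 b'.2) }

theorem PP_le_Cen (m : ℕ) : K.PP ≤ K.Cen m := by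
  unfold PP
  rw [Subring.closure_le]
  rintro _ (⟨p, rfl⟩ | ⟨i, rfl⟩)
  · exact K.φ_mem_Cen p m
  · exact K.w_mem_Cen i m

theorem PP_comm_w {b : B} (hb : b ∈ K.PP) (i : Fin r) : Commute b (K.w i) := by
  have := (K.mem_Cen.1 (K.PP_le_Cen 0 hb)).2 i (Nat.zero_le _)
  exact this.symm

theorem φ_mem_PP (p : MvPolynomial (Fin (r + 1)) F) : K.φ p ∈ K.PP :=
  Subring.subset_closure (Or.inl ⟨p, rfl⟩)

theorem w_mem_PP (i : Fin r) : K.w i ∈ K.PP := Subring.subset_closure (Or.inr ⟨i, rfl⟩)

/-- The ideal of multipliers of `ζ`. -/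
def bId (i : Fin r) (ζ : B) : Ideal K.PP where
  carrier := {b | ∃ (M : ℕ) (η : B), η ∈ K.Cen (i + 1) ∧
    K.x ^ M * (b.1 * ζ) = K.w i * η - η * K.w i}
  zero_mem' := ⟨0, 0, (K.Cen _).zero_mem, by simp⟩
  add_mem' := by
    rintro b b' ⟨M, η, h1, h2⟩ ⟨M', η', h1', h2'⟩
    refine ⟨M + M', K.x ^ M' * η + K.x ^ M * η', ?_, ?_⟩
    · exact (K.Cen _).add_mem ((K.Cen _).mul_mem ((K.Cen _).pow_mem (K.x_mem_Cen _) _) h1)
        ((K.Cen _).mul_mem ((K.Cen _).pow_mem (K.x_mem_Cen _) _) h1')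
    · have e1 : K.w i * (K.x ^ M' * η) = K.x ^ M' * (K.w i * η) := by
        rw [← mul_assoc, ← ((K.x_comm (K.w i)).pow_left M').eq, mul_assoc]
      have e2 : K.w i * (K.x ^ M * η') = K.x ^ M * (K.w i * η') := by
        rw [← mul_assoc, ← ((K.x_comm (K.w i)).pow_left M).eq, mul_assoc]
      show K.x ^ (M + M') * ((b.1 + b'.1) * ζ) = _
      rw [mul_add, add_mul, e1, e2, add_mul (K.x ^ M' * η), mul_add, pow_add]
      have e3 : K.x ^ M * K.x ^ M' * (b.1 * ζ) = K.x ^ M' * (K.x ^ M * (b.1 * ζ)) := by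
        rw [← mul_assoc (K.x ^ M'), (pow_mul_comm K.x M M')]
      rw [e3, h2, mul_assoc (K.x ^ M) (K.x ^ M'), h2', mul_sub, mul_sub, mul_assoc, mul_assoc]
      abel
  smul_mem' := by
    rintro p b ⟨M, η, h1, h2⟩
    refine ⟨M, p.1 * η, (K.Cen _).mul_mem (K.PP_le_Cen _ p.2) h1, ?_⟩
    show K.x ^ M * ((p.1 * b.1) * ζ) = _
    have e1 : K.x ^ M * (p.1 * b.1 * ζ) = p.1 * (K.x ^ M * (b.1 * ζ)) := by
      rw [mul_assoc p.1, ← mul_assoc, ((K.x_comm p.1).pow_left M).eq, mul_assoc]
    rw [e1, h2, mul_sub]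
    rw [← mul_assoc, (K.PP_comm_w p.2 i).eq]
    simp only [mul_assoc]

theorem mem_bId {i : Fin r} {ζ : B} {b : K.PP} : b ∈ K.bId i ζ ↔ ∃ (M : ℕ) (η : B),
    η ∈ K.Cen (i + 1) ∧ K.x ^ M * (b.1 * ζ) = K.w i * η - η * K.w i := Iff.rfl

end KData

end

end Crest.Agent.R181.H
end

-- ▼ part R181/H3
section

/-!
# R181, block H: proof of the killing lemma
-/

set_option autoImplicit false

namespace Crest.Agent.R181.H

open Finset

noncomputable section

namespace KData

variable {B F : Type*} [Ring B] [Field F] {r : ℕ} (K : KData B F r)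

theorem x_pow_comm (M : ℕ) (b : B) : K.x ^ M * b = b * K.x ^ M := ((K.x_comm b).pow_left M).eq

theorem br_mem_Lin {nb : B} {d : F → F} (hnb : ∀ u, nb * K.j u - K.j u * nb = K.j (d u)) {b : B}
    (hb : b ∈ K.Lin) : nb * b - b * nb ∈ K.Lin := by
  rw [mem_Lin] at hb ⊢
  intro u
  have h1 : K.j u * nb = nb * K.j u - K.j (d u) := by rw [← hnb]; abel
  have h2 := (hb u).eq
  have h3 := (hb (d u)).eq
  show K.j u * (nb * b - b * nb) = (nb * b - b * nb) * K.j u
  have e1 : K.j u * (nb * b) = nb * b * K.j u - b * K.j (d u) := by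
    rw [← mul_assoc, h1, sub_mul, h3, mul_assoc, h2, mul_assoc]
  have e2 : K.j u * (b * nb) = b * nb * K.j u - b * K.j (d u) := by
    rw [← mul_assoc, h2, mul_assoc, h1, mul_sub, mul_assoc]
  rw [mul_sub, e1, e2, sub_mul]
  abel

/-- the connection gives a cocycle -/
theorem coc_of_par {i : Fin r} {nb : B} {d : F → F}
    (hnb : ∀ u, nb * K.j u - K.j u * nb = K.j (d u))
    (hQ : ∀ l, i < l → nb * K.φ (K.Q l) - K.φ (K.Q l) * nb = 0)
    (hθ : ∀ l m, i < l → nb * K.j (K.θ l m) - K.j (K.θ l m) * nb = 0) :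
    K.IsCoc (i + 1) (fun l => nb * K.w l - K.w l * nb) := by
  refine ⟨fun l _ => K.br_mem_Lin hnb (K.w_mem_Lin l), ?_, ?_⟩
  · intro l m _ _
    have h := (K.hww l m).eq
    have : K.w l * (nb * K.w m - K.w m * nb) - (nb * K.w m - K.w m * nb) * K.w l
      - (K.w m * (nb * K.w l - K.w l * nb) - (nb * K.w l - K.w l * nb) * K.w m)
      = nb * (K.w l * K.w m - K.w m * K.w l) - (K.w l * K.w m - K.w m * K.w l) * nb := by
      noncomm_ring
    rw [h, sub_self, mul_zero, zero_mul, sub_zero] at this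
    exact sub_eq_zero.1 this
  · intro l hl
    have hl' : i < l := by
      rw [Fin.lt_def]; omega
    have h1 := comm_pow (K.w l) (K.a l) nb
    rw [← h1, K.hw l, mul_add, add_mul, Finset.mul_sum, Finset.sum_mul]
    have h2 := hQ l hl'
    have : nb * K.φ (K.Q l) + ∑ m ∈ univ.filter (fun m => l < m),
        nb * (K.φ (MvPolynomial.C (K.θ l m)) * K.w m ^ K.a l) -
        (K.φ (K.Q l) * nb + ∑ m ∈ univ.filter (fun m => l < m),
          K.φ (MvPolynomial.C (K.θ l m)) * K.w m ^ K.a l * nb)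
        = (nb * K.φ (K.Q l) - K.φ (K.Q l) * nb) + ∑ m ∈ univ.filter (fun m => l < m),
          (nb * (K.j (K.θ l m) * K.w m ^ K.a l) - K.j (K.θ l m) * K.w m ^ K.a l * nb) := by
      rw [Finset.sum_sub_distrib]
      show nb * K.φ (K.Q l) + ∑ m ∈ univ.filter (fun m => l < m),
        nb * (K.j (K.θ l m) * K.w m ^ K.a l) -
        (K.φ (K.Q l) * nb + ∑ m ∈ univ.filter (fun m => l < m),
          K.j (K.θ l m) * K.w m ^ K.a l * nb) = _
      abel
    rw [this, h2, zero_add]
    apply Finset.sum_congr rfl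
    intro m _
    rw [← comm_pow (K.w m) (K.a l) nb]
    have h3 : nb * K.j (K.θ l m) = K.j (K.θ l m) * nb := sub_eq_zero.1 (hθ l m hl')
    rw [← mul_assoc, h3]
    noncomm_ring

theorem step1 {i : Fin r} (hK : K.Kill (i + 1)) {G ζ : B} (hP : K.Par i G) (hG : G ∈ K.PP)
    (hζ : ζ ∈ K.Cen (i + 1)) (hGζ : Commute G ζ) (hD : Dn (K.w i) ζ (K.a i) = 0) :
    (⟨G, hG⟩ : K.PP) ∈ K.bId i ζ := by
  obtain ⟨nb, d, hnb, hQ, hθ, hGeq⟩ := hP
  obtain ⟨M, η, hη, hM⟩ := hK _ (K.coc_of_par hnb hQ hθ)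
  set N : B := K.x ^ M * nb + η with hN
  have hηL := K.mem_Lin.1 hη
  have hbr : ∀ b : B, N * b - b * N = K.x ^ M * (nb * b - b * nb) + (η * b - b * η) := by
    intro b
    rw [hN, add_mul, mul_add, ← mul_assoc b, ← K.x_pow_comm M b, mul_sub]
    simp only [mul_assoc]
    abel
  have hNw : ∀ l : Fin r, i < l → Commute N (K.w l) := by
    intro l hl
    have h1 := hM l (by rw [Fin.lt_def] at hl; omega)
    have h2 := hbr (K.w l)
    rw [h1] at h2
    have : N * K.w l - K.w l * N = 0 := by rw [h2]; abel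
    exact sub_eq_zero.1 this
  set κ : B := N * K.w i - K.w i * N with hκ
  have hκL : κ ∈ K.Lin := by
    rw [hκ, hbr]
    exact K.Lin.add_mem (K.Lin.mul_mem (K.Lin.pow_mem (K.φ_mem_Lin _) _)
      (K.br_mem_Lin hnb (K.w_mem_Lin i)))
      (K.Lin.sub_mem (K.Lin.mul_mem hη (K.w_mem_Lin i)) (K.Lin.mul_mem (K.w_mem_Lin i) hη))
  have hκC : κ ∈ K.Cen (i + 1) := by
    rw [mem_Cen]
    refine ⟨hκL, fun l hl => ?_⟩
    have hl' : i < l := by rw [Fin.lt_def]; omega
    have c1 := (hNw l hl').symm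
    have c2 := K.hww l i
    exact (c1.mul_right c2).sub_right (c2.mul_right c1)
  have hDκ : Dn (K.w i) κ (K.a i) = K.x ^ M * G := by
    rw [hκ, ← comm_pow, K.hw i, mul_add N, add_mul (K.φ (K.Q i)), Finset.mul_sum, Finset.sum_mul]
    have e0 : N * K.φ (K.Q i) - K.φ (K.Q i) * N
        = K.x ^ M * (nb * K.φ (K.Q i) - K.φ (K.Q i) * nb) := by
      rw [hbr, (K.φ_comm_Lin (K.Q i) hη).eq, sub_self, add_zero]
    have e1 : ∀ m ∈ univ.filter (fun m => i < m),
        N * (K.φ (MvPolynomial.C (K.θ i m)) * K.w m ^ K.a i)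
        - K.φ (MvPolynomial.C (K.θ i m)) * K.w m ^ K.a i * N
        = K.x ^ M * ((nb * K.j (K.θ i m) - K.j (K.θ i m) * nb) * K.w m ^ K.a i) := by
      intro m hm
      have hm' : i < m := (Finset.mem_filter.1 hm).2
      have h1 : K.w m ^ K.a i * N = N * K.w m ^ K.a i := ((hNw m hm').pow_right _).eq.symm
      have h2 := hbr (K.j (K.θ i m))
      rw [(hηL (K.θ i m)).eq, sub_self, add_zero] at h2
      show N * (K.j (K.θ i m) * K.w m ^ K.a i) - K.j (K.θ i m) * K.w m ^ K.a i * N = _
      rw [mul_assoc (K.j (K.θ i m)), h1, ← mul_assoc, ← mul_assoc, ← sub_mul, h2]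
      simp only [mul_assoc]
    have : N * K.φ (K.Q i) + ∑ m ∈ univ.filter (fun m => i < m),
        N * (K.φ (MvPolynomial.C (K.θ i m)) * K.w m ^ K.a i) -
        (K.φ (K.Q i) * N + ∑ m ∈ univ.filter (fun m => i < m),
          K.φ (MvPolynomial.C (K.θ i m)) * K.w m ^ K.a i * N)
        = (N * K.φ (K.Q i) - K.φ (K.Q i) * N) + ∑ m ∈ univ.filter (fun m => i < m),
          (N * (K.φ (MvPolynomial.C (K.θ i m)) * K.w m ^ K.a i)
            - K.φ (MvPolynomial.C (K.θ i m)) * K.w m ^ K.a i * N) := by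
      rw [Finset.sum_sub_distrib]
      abel
    rw [this, e0, Finset.sum_congr rfl e1, ← Finset.mul_sum, ← mul_add, ← hGeq]
  have hE := comm_En (K.w i) ζ κ (K.a i)
  rw [hD, hDκ, zero_mul, zero_sub] at hE
  rw [mem_bId]
  refine ⟨M, -En (K.w i) ζ κ (K.a i), (K.Cen _).neg_mem (En_mem _ _ _ _ (K.w_mem_Cen i _) hζ hκC),
    ?_⟩
  show K.x ^ M * (G * ζ) = _
  rw [mul_neg, neg_mul, sub_neg_eq_add, neg_add_eq_sub, ← neg_sub, hE, neg_neg, hGζ.eq,
    ← mul_assoc, K.x_pow_comm M ζ, mul_assoc]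

theorem step2 [CharZero F] {i : Fin r} {ζ : B} (hζ : ζ ∈ K.Cen (i + 1))
    (hD : Dn (K.w i) ζ (K.a i) = 0) :
    (⟨K.w i, K.w_mem_PP i⟩ : K.PP) ^ (K.a i - 1) ∈ K.bId i ζ := by
  have h1 : ((K.a i : ℕ) : K.PP) * (⟨K.w i, K.w_mem_PP i⟩ : K.PP) ^ (K.a i - 1) ∈ K.bId i ζ := by
    rw [mem_bId]
    refine ⟨0, Gn (K.w i) ζ (K.a i), Gn_mem _ _ _ (K.w_mem_Cen i _) hζ, ?_⟩
    have h2 := Dn_eq (K.w i) ζ (K.a i)
    rw [hD] at h2
    rw [pow_zero, one_mul]
    have h3 := (sub_eq_zero.1 h2.symm)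
    rw [← h3]
    push_cast
    rfl
  have h2 := (K.bId i ζ).mul_mem_left
    (⟨K.φ (MvPolynomial.C ((K.a i : F)⁻¹)), K.φ_mem_PP _⟩ : K.PP) h1
  rw [← mul_assoc] at h2
  have h3 : (⟨K.φ (MvPolynomial.C ((K.a i : F)⁻¹)), K.φ_mem_PP _⟩ : K.PP) * ((K.a i : ℕ) : K.PP)
      = 1 := by
    apply Subtype.ext
    show K.φ (MvPolynomial.C ((K.a i : F)⁻¹)) * (((K.a i : ℕ) : K.PP) : B) = 1
    have : (((K.a i : ℕ) : K.PP) : B) = K.φ (MvPolynomial.C (K.a i : F)) := by
      push_cast
      rw [map_natCast, map_natCast]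
    rw [this, ← map_mul, ← map_mul, inv_mul_cancel₀, map_one, map_one]
    have := K.ha i
    exact Nat.cast_ne_zero.2 (by omega)
  rwa [h3, one_mul] at h2

end KData

end

end Crest.Agent.R181.H
end

-- ▼ part R181/H4
section

/-!
# R181, block H: proof of the killing lemma, end
-/

set_option autoImplicit false

namespace Crest.Agent.R181.H

open Finset

noncomputable section

namespace KData

variable {B F : Type*} [Ring B] [Field F] {r : ℕ} (K : KData B F r)

/-- `φ` with values in the commutative ring `PP`. -/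
def φP : MvPolynomial (Fin (r + 1)) F →+* K.PP := K.φ.codRestrict K.PP K.φ_mem_PP

theorem step3 [CharZero F] {i : Fin r} (hK : K.Kill (i + 1))
    (hPf : K.Par i (K.φ (K.f i.succ)))
    (hPj : ∀ j, j ≤ i.castSucc → ∃ e, K.Par i (K.φ (MvPolynomial.X K.k ^ e * K.f j)))
    (hPw : ∀ m, i < m → K.Par i (K.w m ^ K.a i))
    {ζ : B} (hζ : ζ ∈ K.Cen (i + 1)) (hD : Dn (K.w i) ζ (K.a i) = 0) :
    (1 : K.PP) ∈ K.bId i ζ := by
  by_contra hcon
  -- the ideal is saturated with respect to `x`
  set xP : K.PP := ⟨K.x, K.φ_mem_PP _⟩ with hxP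
  have hsat : ∀ M : ℕ, xP ^ M ∉ K.bId i ζ := by
    intro M hM
    apply hcon
    obtain ⟨M', η, h1, h2⟩ := K.mem_bId.1 hM
    rw [mem_bId]
    refine ⟨M' + M, η, h1, ?_⟩
    rw [← h2, pow_add]
    show _ = K.x ^ M' * (K.x ^ M * ζ)
    rw [mul_assoc]
    congr 2
    exact one_mul ζ
  obtain ⟨p, hp, hle, hdis⟩ := Ideal.exists_le_prime_disjoint (K.bId i ζ) (Submonoid.powers xP) (by
    rw [Set.disjoint_left]
    rintro _ h1 ⟨M, rfl⟩
    exact hsat M h1)
  have hx : xP ∉ p := by
    intro h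
    exact Set.disjoint_left.1 hdis h ⟨1, pow_one _⟩
  have hζL : ζ ∈ K.Lin := (K.mem_Cen.1 hζ).1
  have hwm : ∀ m : Fin r, i < m → (⟨K.w m, K.w_mem_PP m⟩ : K.PP) ∈ p := by
    intro m hm
    have h1 := K.step1 hK (hPw m hm) (K.PP.pow_mem (K.w_mem_PP m) _) hζ
      (((K.mem_Cen.1 hζ).2 m (by rw [Fin.lt_def] at hm; omega)).pow_left _) hD
    have h2 : (⟨K.w m, K.w_mem_PP m⟩ : K.PP) ^ K.a i ∈ p := hle h1
    exact hp.mem_of_pow_mem _ h2
  have hwi : (⟨K.w i, K.w_mem_PP i⟩ : K.PP) ∈ p :=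
    hp.mem_of_pow_mem _ (hle (K.step2 hζ hD))
  have hf1 : ∀ j, j ≤ i.castSucc → K.φP (K.f j) ∈ p := by
    intro j hj
    obtain ⟨e, he⟩ := hPj j hj
    have h1 := hle (K.step1 hK he (K.φ_mem_PP _) hζ (K.φ_comm_Lin _ hζL) hD)
    have h2 : (⟨K.φ (MvPolynomial.X K.k ^ e * K.f j), K.φ_mem_PP _⟩ : K.PP)
        = xP ^ e * K.φP (K.f j) := by
      apply Subtype.ext
      show K.φ _ = K.x ^ e * K.φ (K.f j)
      rw [map_mul, map_pow]
      rfl
    rw [h2] at h1
    rcases hp.mem_or_mem h1 with h3 | h3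
    · exact absurd (hp.mem_of_pow_mem _ h3) hx
    · exact h3
  have hf2 : K.φP (K.f i.succ) ∈ p :=
    hle (K.step1 hK hPf (K.φ_mem_PP _) hζ (K.φ_comm_Lin _ hζL) hD)
  -- all `f j` are in `p`
  have key : ∀ m : ℕ, ∀ hm : m < r + 1, K.φP (K.f ⟨m, hm⟩) ∈ p := by
    intro m
    induction m using Nat.strong_induction_on with
    | _ m ih =>
      intro hm
      by_cases h1 : (⟨m, hm⟩ : Fin (r + 1)) ≤ i.castSucc
      · exact hf1 _ h1
      by_cases h2 : (⟨m, hm⟩ : Fin (r + 1)) = i.succ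
      · rw [h2]; exact hf2
      -- `m = l.succ`, `l > i`
      have hmi : (i : ℕ) + 1 < m := by
        rw [Fin.le_def] at h1
        rw [Fin.ext_iff] at h2
        simp only [Fin.val_castSucc, Fin.val_succ] at h1 h2
        omega
      obtain ⟨l, rfl⟩ : ∃ l, m = l + 1 := ⟨m - 1, by omega⟩
      have hl : l < r := by omega
      set L : Fin r := ⟨l, hl⟩ with hL
      have hiL : i < L := by rw [Fin.lt_def]; show (i : ℕ) < l; omega
      have hQ : K.φP (K.Q L) ∈ p := by
        have h3 : (⟨K.w L, K.w_mem_PP L⟩ : K.PP) ^ K.a L = K.φP (K.Q L) +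
            ∑ m ∈ univ.filter (fun m => L < m), K.φP (MvPolynomial.C (K.θ L m)) *
              (⟨K.w m, K.w_mem_PP m⟩ : K.PP) ^ K.a L := by
          apply Subtype.ext
          push_cast
          exact K.hw L
        have h4 : (⟨K.w L, K.w_mem_PP L⟩ : K.PP) ^ K.a L ∈ p :=
          Ideal.pow_mem_of_mem _ (hwm L hiL) _ (by have := K.ha L; omega)
        have h5 : ∑ m ∈ univ.filter (fun m => L < m), K.φP (MvPolynomial.C (K.θ L m)) *
              (⟨K.w m, K.w_mem_PP m⟩ : K.PP) ^ K.a L ∈ p := by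
          apply Ideal.sum_mem
          intro m hm
          apply Ideal.mul_mem_left
          exact Ideal.pow_mem_of_mem _ (hwm m (hiL.trans (Finset.mem_filter.1 hm).2)) _
            (by have := K.ha L; omega)
        have h6 : K.φP (K.Q L) = (⟨K.w L, K.w_mem_PP L⟩ : K.PP) ^ K.a L -
            ∑ m ∈ univ.filter (fun m => L < m), K.φP (MvPolynomial.C (K.θ L m)) *
              (⟨K.w m, K.w_mem_PP m⟩ : K.PP) ^ K.a L := by
          rw [h3]; ring
        rw [h6]
        exact Ideal.sub_mem _ h4 h5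
      have h7 : K.φP (K.Q L - MvPolynomial.C (K.c L) * K.f L.succ) ∈ p := by
        have h8 := Ideal.mem_map_of_mem K.φP (K.hQ L)
        rw [Ideal.map_span] at h8
        refine (Ideal.span_le.2 ?_) h8
        rintro _ ⟨_, ⟨j, hj, rfl⟩, rfl⟩
        have hj' : (j : ℕ) ≤ l := by
          have := Fin.le_def.1 hj
          simpa using this
        exact ih j (by omega) j.2
      rw [map_sub] at h7
      have h9 : K.φP (MvPolynomial.C (K.c L) * K.f L.succ) ∈ p := by
        have := Ideal.sub_mem _ hQ h7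
        rwa [sub_sub_cancel] at this
      have h10 := Ideal.mul_mem_left p (K.φP (MvPolynomial.C (K.c L)⁻¹)) h9
      rw [← map_mul, ← mul_assoc, ← map_mul, inv_mul_cancel₀ (K.hc L), map_one, one_mul] at h10
      have h11 : (⟨l + 1, hm⟩ : Fin (r + 1)) = L.succ := by
        apply Fin.ext; simp [hL]
      rw [h11]
      exact h10
  obtain ⟨M, hM⟩ := K.hf
  have h12 := Ideal.mem_map_of_mem K.φP hM
  rw [Ideal.map_span, map_pow] at h12
  have h13 : Ideal.span (K.φP '' Set.range K.f) ≤ p := by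
    rw [Ideal.span_le]
    rintro _ ⟨_, ⟨j, rfl⟩, rfl⟩
    exact key j.1 j.2
  have h14 : K.φP (MvPolynomial.X K.k) = xP := rfl
  rw [h14] at h12
  exact hx (hp.mem_of_pow_mem _ (h13 h12))

theorem step4 [CharZero F] {i : Fin r} (hK : K.Kill (i + 1))
    (hPf : K.Par i (K.φ (K.f i.succ)))
    (hPj : ∀ j, j ≤ i.castSucc → ∃ e, K.Par i (K.φ (MvPolynomial.X K.k ^ e * K.f j)))
    (hPw : ∀ m, i < m → K.Par i (K.w m ^ K.a i)) : K.Kill i := by
  intro ζ hζ
  have hζ1 : K.IsCoc (i + 1) ζ := ⟨fun l hl => hζ.lin l (by omega),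
    fun l m hl hm => hζ.comm l m (by omega) (by omega), fun l hl => hζ.rel l (by omega)⟩
  obtain ⟨M, η, hη, hM⟩ := hK ζ hζ1
  set ζ' : B := K.x ^ M * ζ i - (K.w i * η - η * K.w i) with hζ'
  have hL' : ζ' ∈ K.Lin := K.Lin.sub_mem
    (K.Lin.mul_mem (K.Lin.pow_mem (K.φ_mem_Lin _) _) (hζ.lin i le_rfl))
    (K.Lin.sub_mem (K.Lin.mul_mem (K.w_mem_Lin i) hη) (K.Lin.mul_mem hη (K.w_mem_Lin i)))
  have hC' : ζ' ∈ K.Cen (i + 1) := by
    rw [mem_Cen]
    refine ⟨hL', fun l hl => ?_⟩
    have h1 := hζ.comm l i (by omega) le_rfl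
    have h2 := hM l hl
    have h3 := (K.hww l i).eq
    have h4 : K.w l * (K.x ^ M * ζ i) = K.x ^ M * (K.w l * ζ i) := by
      rw [← mul_assoc, ← K.x_pow_comm M (K.w l), mul_assoc]
    have h5 : K.w i * (K.x ^ M * ζ l) = K.x ^ M * (K.w i * ζ l) := by
      rw [← mul_assoc, ← K.x_pow_comm M (K.w i), mul_assoc]
    have h6 : K.w l * ζ i = K.w i * ζ l - ζ l * K.w i + ζ i * K.w l := by
      rw [← h1]; abel
    show K.w l * ζ' = ζ' * K.w l
    rw [hζ', mul_sub, h4, h6, mul_add, mul_sub, ← h5, h2, ← mul_assoc (K.x ^ M) (ζ l), h2,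
      sub_mul (K.x ^ M * ζ i), mul_assoc (K.x ^ M) (ζ i)]
    have h7 : K.w i * (K.w l * η - η * K.w l) - (K.w l * η - η * K.w l) * K.w i
      - K.w l * (K.w i * η - η * K.w i) + (K.w i * η - η * K.w i) * K.w l
      = - ((K.w l * K.w i - K.w i * K.w l) * η) + η * (K.w l * K.w i - K.w i * K.w l) := by
      noncomm_ring
    rw [h3, sub_self, zero_mul, mul_zero, neg_zero, add_zero] at h7
    have h8 : K.w i * (K.w l * η - η * K.w l) - (K.w l * η - η * K.w l) * K.w i
      = K.w l * (K.w i * η - η * K.w i) - (K.w i * η - η * K.w i) * K.w l := by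
      rw [← sub_eq_zero, ← h7]; abel
    rw [h8]
    abel
  have hcomm : ∀ p, K.φ p * η - η * K.φ p = 0 := fun p => by
    rw [(K.φ_comm_Lin p hη).eq, sub_self]
  have hD' : Dn (K.w i) ζ' (K.a i) = 0 := by
    rw [hζ', Dn_sub, Dn_mul_left _ _ _ ((K.x_comm _).pow_left M), Dn_comm, hζ.rel i le_rfl]
    have e1 : K.x ^ M * ∑ m ∈ univ.filter (fun m => i < m), K.j (K.θ i m) * Dn (K.w m) (ζ m) (K.a i)
        = ∑ m ∈ univ.filter (fun m => i < m),
          K.j (K.θ i m) * (K.w m ^ K.a i * η - η * K.w m ^ K.a i) := by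
      rw [Finset.mul_sum]
      apply Finset.sum_congr rfl
      intro m hm
      have hm' : i < m := (Finset.mem_filter.1 hm).2
      rw [← Dn_comm, ← hM m (by rw [Fin.lt_def] at hm'; omega),
        Dn_mul_left _ _ _ ((K.x_comm _).pow_left M), ← mul_assoc, K.x_pow_comm, mul_assoc]
    have e2 : K.w i ^ K.a i * η - η * K.w i ^ K.a i
        = ∑ m ∈ univ.filter (fun m => i < m),
          K.j (K.θ i m) * (K.w m ^ K.a i * η - η * K.w m ^ K.a i) := by
      rw [K.hw i, add_mul, mul_add, Finset.mul_sum, Finset.sum_mul]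
      have : K.φ (K.Q i) * η + ∑ m ∈ univ.filter (fun m => i < m),
            K.φ (MvPolynomial.C (K.θ i m)) * K.w m ^ K.a i * η -
          (η * K.φ (K.Q i) + ∑ m ∈ univ.filter (fun m => i < m),
            η * (K.φ (MvPolynomial.C (K.θ i m)) * K.w m ^ K.a i))
          = (K.φ (K.Q i) * η - η * K.φ (K.Q i)) + ∑ m ∈ univ.filter (fun m => i < m),
            (K.φ (MvPolynomial.C (K.θ i m)) * K.w m ^ K.a i * η -
              η * (K.φ (MvPolynomial.C (K.θ i m)) * K.w m ^ K.a i)) := by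
        rw [Finset.sum_sub_distrib]; abel
      rw [this, hcomm, zero_add]
      apply Finset.sum_congr rfl
      intro m _
      have h1 : K.φ (MvPolynomial.C (K.θ i m)) * η = η * K.φ (MvPolynomial.C (K.θ i m)) :=
        sub_eq_zero.1 (hcomm _)
      rw [← mul_assoc η, ← h1]
      show _ = K.φ (MvPolynomial.C (K.θ i m)) * _
      simp only [mul_sub, mul_assoc]
    rw [e1, e2, sub_self]
  obtain ⟨M', η', h1', h2'⟩ := K.mem_bId.1 (K.step3 hK hPf hPj hPw hC' hD')
  have h2'' : K.x ^ M' * ζ' = K.w i * η' - η' * K.w i := by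
    rw [← h2']
    congr 1
    exact (one_mul ζ').symm
  refine ⟨M' + M, K.x ^ M' * η + η', ?_, ?_⟩
  · exact K.Lin.add_mem (K.Lin.mul_mem (K.Lin.pow_mem (K.φ_mem_Lin _) _) hη) (K.mem_Cen.1 h1').1
  · intro l hl
    have e0 : ∀ b : B, b * (K.x ^ M' * η) = K.x ^ M' * (b * η) := by
      intro b; rw [← mul_assoc, ← K.x_pow_comm M' b, mul_assoc]
    by_cases hli : (i : ℕ) + 1 ≤ l
    · have h3 := ((K.mem_Cen.1 h1').2 l hli).eq
      rw [pow_add, mul_assoc, hM l hli, mul_add, add_mul, e0, h3, mul_sub]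
      simp only [mul_assoc]
      abel
    · have : l = i := by apply Fin.ext; omega
      subst this
      have h4 : K.x ^ M * ζ l = ζ' + (K.w l * η - η * K.w l) := by rw [hζ']; abel
      rw [pow_add, mul_assoc, h4, mul_add, h2'', mul_add, add_mul, e0, mul_sub]
      simp only [mul_assoc]
      abel

/-- **Killing lemma.** -/
theorem kill [CharZero F]
    (hPf : ∀ i, K.Par i (K.φ (K.f i.succ)))
    (hPj : ∀ i j, j ≤ i.castSucc → ∃ e, K.Par i (K.φ (MvPolynomial.X K.k ^ e * K.f j)))
    (hPw : ∀ i m, i < m → K.Par i (K.w m ^ K.a i)) : K.Kill 0 := by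
  have : ∀ m : ℕ, m ≤ r → K.Kill (r - m) := by
    intro m
    induction m with
    | zero =>
      intro _ ζ _
      refine ⟨0, 0, K.Lin.zero_mem, fun l hl => ?_⟩
      exact absurd l.2 (by omega)
    | succ m ih =>
      intro hm
      have h1 := ih (by omega)
      set i : Fin r := ⟨r - (m + 1), by omega⟩ with hi
      have h2 : r - m = (i : ℕ) + 1 := by show r - m = r - (m + 1) + 1; omega
      rw [h2] at h1
      exact K.step4 h1 (hPf i) (hPj i) (hPw i)
  have h := this r le_rfl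
  rwa [Nat.sub_self] at h

end KData

end

end Crest.Agent.R181.H
end

-- ▼ part R181/H5
section

/-!
# R181, block H: polynomials in central variables over a noncommutative ring
-/

set_option autoImplicit false
set_option linter.unusedSectionVars false

namespace Crest.Agent.R181.H

open Finset
open Crest.Agent.R181.UR

noncomputable section

namespace Px

variable {A : Type*} [Ring A] {σ : Type*}






/-- induction principle: additive, and closed on terms -/
theorem ind {P : PA A σ → Prop} (f : PA A σ) (h0 : P 0) (ha : ∀ f g, P f → P g → P (f + g))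
    (hs : ∀ m a, P (AddMonoidAlgebra.single m a)) : P f :=
  AddMonoidAlgebra.induction_linear f h0 ha hs

/-- `V`-supported exponent -/
def In (V : Set σ) (m : σ →₀ ℕ) : Prop := ∀ t, t ∉ V → m t = 0

theorem In_zero (V : Set σ) : In V (0 : σ →₀ ℕ) := fun _ _ => rfl

theorem In_add (V : Set σ) (m m' : σ →₀ ℕ) : In V (m + m') ↔ In V m ∧ In V m' := by
  unfold In
  constructor
  · intro h
    refine ⟨fun t ht => ?_, fun t ht => ?_⟩
    · have := h t ht
      rw [Finsupp.add_apply] at this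
      omega
    · have := h t ht
      rw [Finsupp.add_apply] at this
      omega
  · rintro ⟨h1, h2⟩ t ht
    rw [Finsupp.add_apply, h1 t ht, h2 t ht]

theorem In_single {V : Set σ} {t : σ} : In V (Finsupp.single t 1) ↔ t ∈ V := by
  classical
  constructor
  · intro h
    by_contra h1
    have := h t h1
    simp at this
  · intro h s hs
    rw [Finsupp.single_apply, if_neg]
    rintro rfl
    exact hs h


/-- `V`-supported, homogeneous of degree `d`. -/
def Sup (A : Type*) [Ring A] {σ : Type*} (V : Set σ) (d : ℕ) : AddSubgroup (PA A σ) where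
  carrier := {f | ∀ m, f.coeff m ≠ 0 → In V m ∧ m.degree = d}
  zero_mem' := by intro m h; exact absurd rfl h
  add_mem' := by
    intro f g hf hg m h
    rw [AddMonoidAlgebra.coeff_add, Finsupp.add_apply] at h
    by_cases h1 : f.coeff m = 0
    · exact hg m (by rwa [h1, zero_add] at h)
    · exact hf m h1
  neg_mem' := by
    intro f hf m h
    apply hf m
    intro h1
    apply h
    simp [h1]



theorem single_mem_Sup {V : Set σ} {m : σ →₀ ℕ} (hm : In V m) (a : A) :
    AddMonoidAlgebra.single m a ∈ Sup A V m.degree := by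
  classical
  intro m' h
  rw [AddMonoidAlgebra.coeff_single, Finsupp.single_apply] at h
  by_cases h1 : m = m'
  · subst h1; exact ⟨hm, rfl⟩
  · rw [if_neg h1] at h; exact absurd rfl h

theorem C_mem_Sup (V : Set σ) (a : A) : (cst σ a : PA A σ) ∈ Sup A V 0 := by
  have := single_mem_Sup (V := V) (In_zero V) a
  rwa [map_zero] at this

theorem monom_mem_Sup {V : Set σ} {t : σ} (ht : t ∈ V) (a : A) :
    (AddMonoidAlgebra.single (Finsupp.single t 1) a : PA A σ) ∈ Sup A V 1 := by
  have := single_mem_Sup (V := V) (In_single.2 ht) a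
  rwa [Finsupp.degree_single] at this

theorem X_mem_Sup {V : Set σ} {t : σ} (ht : t ∈ V) : (var A t : PA A σ) ∈ Sup A V 1 :=
  monom_mem_Sup ht 1

theorem mul_mem_Sup {V : Set σ} {d e : ℕ} {f g : PA A σ} (hf : f ∈ Sup A V d)
    (hg : g ∈ Sup A V e) : f * g ∈ Sup A V (d + e) := by
  classical
  intro m hm
  have h1 : m ∈ (f * g).coeff.support := Finsupp.mem_support_iff.2 hm
  have h2 := AddMonoidAlgebra.support_coeff_mul_subset f g h1
  rw [Finset.mem_add] at h2
  obtain ⟨m1, hm1, m2, hm2, rfl⟩ := h2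
  have h3 := hf m1 (Finsupp.mem_support_iff.1 hm1)
  have h4 := hg m2 (Finsupp.mem_support_iff.1 hm2)
  refine ⟨(In_add V _ _).2 ⟨h3.1, h4.1⟩, ?_⟩
  rw [map_add, h3.2, h4.2]

theorem pow_mem_Sup {V : Set σ} {d : ℕ} {f : PA A σ} (hf : f ∈ Sup A V d) (e : ℕ) :
    f ^ e ∈ Sup A V (e * d) := by
  induction e with
  | zero => rw [pow_zero, zero_mul]; exact C_mem_Sup V (1 : A)
  | succ e ih => rw [pow_succ, Nat.succ_mul]; exact mul_mem_Sup ih hf


theorem lf_mem_Sup [Fintype σ] (w : σ → A) : lf w ∈ Sup A (Set.univ : Set σ) 1 := by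
  unfold lf
  exact sum_mem fun v _ => monom_mem_Sup (Set.mem_univ v) _

/-- homogeneous component -/
def hc (d : ℕ) : PA A σ →+ PA A σ where
  toFun f := .ofCoeff (f.coeff.filter (fun m => m.degree = d))
  map_zero' := by ext m; simp [Finsupp.filter_zero]
  map_add' f g := by ext m; simp [Finsupp.filter_add]

theorem coeff_hc (d : ℕ) (f : PA A σ) (m : σ →₀ ℕ) :
    (hc d f).coeff m = if m.degree = d then f.coeff m else 0 := by
  show (f.coeff.filter (fun m => m.degree = d)) m = _
  rw [Finsupp.filter_apply]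

theorem hc_single (d : ℕ) (m : σ →₀ ℕ) (a : A) :
    hc d (AddMonoidAlgebra.single m a) = if m.degree = d then AddMonoidAlgebra.single m a else 0 := by
  classical
  ext m'
  rw [coeff_hc]
  by_cases h : m = m'
  · subst h
    split_ifs <;> simp
  · have h2 : (AddMonoidAlgebra.single m a : PA A σ).coeff m' = 0 := by
      rw [AddMonoidAlgebra.coeff_single, Finsupp.single_apply, if_neg h]
    rw [h2, ite_self]
    split_ifs
    · exact h2.symm
    · rfl

theorem hc_of_mem {V : Set σ} {d : ℕ} {f : PA A σ} (hf : f ∈ Sup A V d) : hc d f = f := by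
  ext m
  rw [coeff_hc]
  split_ifs with h
  · rfl
  · by_contra h1
    exact h (hf m (fun h2 => h1 h2.symm)).2

theorem hc_single_mul (d : ℕ) (m : σ →₀ ℕ) (a : A) (f : PA A σ) :
    hc (m.degree + d) (AddMonoidAlgebra.single m a * f) = AddMonoidAlgebra.single m a * hc d f := by
  induction f using Px.ind with
  | h0 => simp
  | ha f g hf hg => rw [mul_add, map_add, hf, hg, map_add, mul_add]
  | hs m' b =>
    rw [AddMonoidAlgebra.single_mul_single, hc_single, hc_single, map_add]
    by_cases h : m'.degree = d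
    · rw [if_pos h, if_pos (by rw [h]), AddMonoidAlgebra.single_mul_single]
    · rw [if_neg h, if_neg (by omega), mul_zero]

theorem hc_mul_single (d : ℕ) (m : σ →₀ ℕ) (a : A) (f : PA A σ) :
    hc (m.degree + d) (f * AddMonoidAlgebra.single m a) = hc d f * AddMonoidAlgebra.single m a := by
  induction f using Px.ind with
  | h0 => simp
  | ha f g hf hg => rw [add_mul, map_add, hf, hg, map_add, add_mul]
  | hs m' b =>
    rw [AddMonoidAlgebra.single_mul_single, hc_single, hc_single, map_add]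
    by_cases h : m'.degree = d
    · rw [if_pos h, if_pos (by rw [h]; ring), AddMonoidAlgebra.single_mul_single]
    · rw [if_neg h, if_neg (by omega), zero_mul]

theorem hc_mul {V : Set σ} {e d : ℕ} {g : PA A σ} (hg : g ∈ Sup A V e) (f : PA A σ) :
    hc (e + d) (g * f) = g * hc d f := by
  have h : ∀ m ∈ g.coeff.support, hc (e + d) (AddMonoidAlgebra.single m (g.coeff m) * f)
      = AddMonoidAlgebra.single m (g.coeff m) * hc d f := by
    intro m hm
    rw [← (hg m (Finsupp.mem_support_iff.1 hm)).2, hc_single_mul]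
  have h2 : g = ∑ m ∈ g.coeff.support, AddMonoidAlgebra.single m (g.coeff m) :=
    (AddMonoidAlgebra.sum_coeff_single g).symm
  conv_lhs => rw [h2, Finset.sum_mul, map_sum]
  conv_rhs => rw [h2, Finset.sum_mul]
  exact Finset.sum_congr rfl h

theorem hc_mul' {V : Set σ} {e d : ℕ} {g : PA A σ} (hg : g ∈ Sup A V e) (f : PA A σ) :
    hc (e + d) (f * g) = hc d f * g := by
  have h : ∀ m ∈ g.coeff.support, hc (e + d) (f * AddMonoidAlgebra.single m (g.coeff m))
      = hc d f * AddMonoidAlgebra.single m (g.coeff m) := by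
    intro m hm
    rw [← (hg m (Finsupp.mem_support_iff.1 hm)).2, hc_mul_single]
  have h2 : g = ∑ m ∈ g.coeff.support, AddMonoidAlgebra.single m (g.coeff m) :=
    (AddMonoidAlgebra.sum_coeff_single g).symm
  conv_lhs => rw [h2, Finset.mul_sum, map_sum]
  conv_rhs => rw [h2, Finset.mul_sum]
  exact Finset.sum_congr rfl h












theorem hc_mem_Sup_univ (d : ℕ) (f : PA A σ) : hc d f ∈ Sup A (Set.univ : Set σ) d := by
  intro m hm
  rw [coeff_hc] at hm
  split_ifs at hm with h
  · exact ⟨fun t ht => absurd (Set.mem_univ t) ht, h⟩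
  · exact absurd rfl hm











end Px

end

end Crest.Agent.R181.H
end

-- ▼ part R181/H6
section

/-!
# R181, block H: the parameter field, derivations and connections
-/

set_option autoImplicit false
set_option linter.unusedSectionVars false

namespace Crest.Agent.R181.H

open Finset
open Crest.Agent.R181.UR

noncomputable section

/-- partial derivatives on the field of rational functions -/
theorem exists_der (P : Type) (p : P) :
    ∃ d : Derivation ℂ (FractionRing (MvPolynomial P ℂ)) (FractionRing (MvPolynomial P ℂ)),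
      (d (algebraMap (MvPolynomial P ℂ) _ (MvPolynomial.X p)) = 1) ∧
      ∀ q, q ≠ p → d (algebraMap (MvPolynomial P ℂ) _ (MvPolynomial.X q)) = 0 := by
  classical
  set R := MvPolynomial P ℂ with hR
  set K := FractionRing R with hK
  let g0 : R →ₐ[ℂ] DualNumber K := MvPolynomial.aeval (fun q =>
    TrivSqZeroExt.inl (algebraMap R K (MvPolynomial.X q)) +
      TrivSqZeroExt.inr (if q = p then (1 : K) else 0))
  have hgX : ∀ q, g0 (MvPolynomial.X q) = TrivSqZeroExt.inl (algebraMap R K (MvPolynomial.X q)) +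
      TrivSqZeroExt.inr (if q = p then (1 : K) else 0) := fun q => MvPolynomial.aeval_X _ _
  have hfst : ∀ x : R, (g0 x).fst = algebraMap R K x := by
    intro x
    have h1 : (TrivSqZeroExt.fstHom ℂ K K).comp g0 = Algebra.algHom ℂ R K := by
      apply MvPolynomial.algHom_ext
      intro q
      show (g0 (MvPolynomial.X q)).fst = algebraMap R K (MvPolynomial.X q)
      rw [hgX]
      simp
    exact DFunLike.congr_fun h1 x
  have hun : ∀ y : nonZeroDivisors R, IsUnit ((g0 : R →+* DualNumber K) y) := by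
    intro y
    rw [TrivSqZeroExt.isUnit_iff_isUnit_fst]
    show IsUnit (g0 y).fst
    rw [hfst]
    exact IsLocalization.map_units K y
  let g : K →+* DualNumber K := IsLocalization.lift (M := nonZeroDivisors R) hun
  have hg : ∀ x : R, g (algebraMap R K x) = g0 x := fun x => IsLocalization.lift_eq hun x
  have hgf : ∀ u : K, (g u).fst = u := by
    have h1 : ((TrivSqZeroExt.fstHom ℂ K K : DualNumber K →ₐ[ℂ] K) : DualNumber K →+* K).comp g
        = RingHom.id K := by
      apply IsLocalization.ringHom_ext (nonZeroDivisors R)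
      ext x
      · simp [hg, hfst]
      · simp [hg, hfst]
    intro u
    exact DFunLike.congr_fun h1 u
  have hgc : ∀ z : ℂ, g (algebraMap ℂ K z) = algebraMap ℂ (DualNumber K) z := by
    intro z
    rw [IsScalarTower.algebraMap_apply ℂ R K, hg]
    exact g0.commutes z
  refine ⟨Derivation.mk' ⟨⟨fun u => (g u).snd, fun u v => by simp⟩, fun z u => ?_⟩ ?_, ?_, ?_⟩
  · show (g (z • u)).snd = z • (g u).snd
    rw [Algebra.smul_def, map_mul, hgc, TrivSqZeroExt.snd_mul, hgf]
    have h1 : (algebraMap ℂ (DualNumber K) z).fst = algebraMap ℂ K z := rfl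
    have h2 : (algebraMap ℂ (DualNumber K) z).snd = 0 := rfl
    rw [h1, h2]
    simp [Algebra.smul_def]
  · intro u v
    show (g (u * v)).snd = u • (g v).snd + v • (g u).snd
    rw [map_mul, TrivSqZeroExt.snd_mul, hgf, hgf]
    simp [mul_comm]
  · show (g (algebraMap R K (MvPolynomial.X p))).snd = 1
    rw [hg, hgX]
    simp
  · intro q hq
    show (g (algebraMap R K (MvPolynomial.X q))).snd = 0
    rw [hg, hgX]
    simp [hq]

/-- connections on a vector space -/
theorem exists_conn {F : Type*} [Field F] [Algebra ℂ F] (d : Derivation ℂ F F) {E : Type*} [AddCommGroup E]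
    (τ : F →+* AddMonoid.End E) :
    ∃ nb : AddMonoid.End E, ∀ u, nb * τ u - τ u * nb = τ (d u) := by
  let _ : Module F E := Module.compHom E τ
  have hs : ∀ (u : F) (e : E), u • e = τ u e := fun _ _ => rfl
  let b := Module.Basis.ofVectorSpace F E
  let nb : E →+ E := b.repr.toAddEquiv.symm.toAddMonoidHom.comp
    ((Finsupp.mapRange.addMonoidHom (d : F →ₗ[ℂ] F).toAddMonoidHom).comp
      b.repr.toAddEquiv.toAddMonoidHom)
  refine ⟨nb, fun u => ?_⟩
  ext e
  show nb (τ u e) - τ u (nb e) = τ (d u) e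
  rw [← hs, ← hs, ← hs]
  apply b.repr.injective
  ext i
  have h1 : ∀ e', b.repr (nb e') i = d (b.repr e' i) := by
    intro e'
    simp [nb]
  rw [map_sub, Finsupp.sub_apply, h1, LinearEquiv.map_smul b.repr, LinearEquiv.map_smul b.repr,
    LinearEquiv.map_smul b.repr, Finsupp.smul_apply, Finsupp.smul_apply, Finsupp.smul_apply, h1,
    smul_eq_mul, smul_eq_mul, smul_eq_mul, Derivation.leibniz, smul_eq_mul, smul_eq_mul]
  ring

/-- The parameters of the tower. `n = r + 1` variables, `r` operators. -/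
structure Prm (r : ℕ) (F : Type) [Field F] [Algebra ℂ F] where
  a : Fin (r + 1) → ℕ
  f : Fin (r + 1) → MvPolynomial (Fin (r + 1)) ℂ
  c : Fin r → F
  cc : Fin r → Fin (r + 1) → Fin (r + 1) → F
  θ : Fin r → Fin r → F
  ha : ∀ i, 2 ≤ a i
  mono : Monotone a
  hom : ∀ i, (f i).IsHomogeneous (a i)
  hf : ∀ t, ∃ M : ℕ, (MvPolynomial.X t : MvPolynomial (Fin (r + 1)) ℂ) ^ M ∈
    Ideal.span (Set.range f)
  hc : ∀ i, c i ≠ 0
  dc : ∀ i, ∃ d : Derivation ℂ F F, (d (c i) = 1 ∧ ∀ i', i' ≠ i → d (c i') = 0) ∧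
    (∀ i' j l, d (cc i' j l) = 0) ∧ ∀ i' m, d (θ i' m) = 0
  dcc : ∀ i j l, ∃ d : Derivation ℂ F F, (∀ i', d (c i') = 0) ∧
    (d (cc i j l) = 1 ∧ ∀ i' j' l', (i', j', l') ≠ (i, j, l) → d (cc i' j' l') = 0) ∧
    ∀ i' m, d (θ i' m) = 0
  dθ : ∀ i m, ∃ d : Derivation ℂ F F, (∀ i', d (c i') = 0) ∧
    (∀ i' j' l', d (cc i' j' l') = 0) ∧
    (d (θ i m) = 1 ∧ ∀ i' m', (i', m') ≠ (i, m) → d (θ i' m') = 0)

namespace Prm


variable {r : ℕ} {F : Type} [Field F] [Algebra ℂ F] (P : Prm r F)

/-- the forms over `F` -/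
def fF (j : Fin (r + 1)) : MvPolynomial (Fin (r + 1)) F := MvPolynomial.map (algebraMap ℂ F) (P.f j)

/-- the right hand sides `q_i` -/
def Q (i : Fin r) : MvPolynomial (Fin (r + 1)) F :=
  MvPolynomial.C (P.c i) * P.fF i.succ +
    ∑ j ∈ univ.filter (fun j => j ≤ i.castSucc), ∑ l,
      MvPolynomial.C (P.cc i j l) * (MvPolynomial.X l ^ (P.a i.succ - P.a j) * P.fF j)

/-- the degrees of the operators -/
def b (i : Fin r) : ℕ := P.a i.succ

/-- the coefficients `θ` -/
def th (i l : Fin r) : F := if i < l then P.θ i l else 0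

theorem fF_hom (j : Fin (r + 1)) : (P.fF j).IsHomogeneous (P.a j) := (P.hom j).map _

theorem Q_hom (i : Fin r) : (P.Q i).IsHomogeneous (P.b i) := by
  unfold Q b
  apply MvPolynomial.IsHomogeneous.add
  · have := (MvPolynomial.isHomogeneous_C (Fin (r + 1)) (P.c i)).mul (P.fF_hom i.succ)
    rwa [zero_add] at this
  · refine MvPolynomial.IsHomogeneous.sum _ _ _ fun j hj => ?_
    refine MvPolynomial.IsHomogeneous.sum _ _ _ fun l _ => ?_
    have h1 : P.a j ≤ P.a i.succ := by
      apply P.mono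
      rw [mem_filter] at hj
      exact hj.2.trans (Fin.castSucc_lt_succ).le
    have := (MvPolynomial.isHomogeneous_C (Fin (r + 1)) (P.cc i j l)).mul
      (((MvPolynomial.isHomogeneous_X F l).pow (P.a i.succ - P.a j)).mul (P.fF_hom j))
    have h2 : 0 + (1 * (P.a i.succ - P.a j) + P.a j) = P.a i.succ := by omega
    rwa [h2] at this

theorem hfF (t : Fin (r + 1)) : ∃ M : ℕ, (MvPolynomial.X t : MvPolynomial (Fin (r + 1)) F) ^ M ∈
    Ideal.span (Set.range P.fF) := by
  obtain ⟨M, hM⟩ := P.hf t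
  refine ⟨M, ?_⟩
  have h1 := Ideal.mem_map_of_mem (MvPolynomial.map (algebraMap ℂ F)) hM
  rw [Ideal.map_span, map_pow, MvPolynomial.map_X] at h1
  convert h1 using 2
  ext x
  simp [fF]

end Prm

end

end Crest.Agent.R181.H
end

-- ▼ part R181/H7
section

/-!
# R181, block H: the killing lemma for tuples of linear forms
-/

set_option autoImplicit false
set_option linter.unusedSectionVars false

namespace Crest.Agent.R181.H

open Finset
open Crest.Agent.R181.UR

noncomputable section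

theorem mp_MvC {F R σ : Type*} [CommRing F] [Ring R] (τ : F →+* R) (u : F) :
    mp σ τ (MvPolynomial.C u : MvPolynomial σ F) = cst σ (τ u) := mp_cst τ u

theorem mp_MvX {F R σ : Type*} [CommRing F] [Ring R] (τ : F →+* R) (v : σ) :
    mp σ τ (MvPolynomial.X v : MvPolynomial σ F) = var R v := mp_var τ v

/-- first order deformations of tuples -/
structure IsZ {r : ℕ} {F : Type} [CommRing F] {σ : Type} [Fintype σ] (b : Fin r → ℕ)
    (th : Fin r → Fin r → F) {R : Type*} [Ring R] (τ : F →+* R) (w : Fin r → σ → R)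
    (ζ : Fin r → PA R σ) : Prop where
  lin : ∀ l u, Commute (cst σ (τ u)) (ζ l)
  comm : ∀ l m, lf (w l) * ζ m - ζ m * lf (w l) = lf (w m) * ζ l - ζ l * lf (w m)
  rel : ∀ l, Dn (lf (w l)) (ζ l) (b l) =
    ∑ m, cst σ (τ (th l m)) * Dn (lf (w m)) (ζ m) (b l)

/-- a linear map commuting with `τ` -/
def IsF {F : Type} [CommRing F] {σ : Type} {R : Type*} [Ring R] (τ : F →+* R) (η : PA R σ) : Prop :=
  ∀ u, Commute (cst σ (τ u)) η

/-- connections exist for `τ` -/
def Conn {F : Type} [Field F] [Algebra ℂ F] {R : Type*} [Ring R] (τ : F →+* R) : Prop :=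
  ∀ d : Derivation ℂ F F, ∃ nb : R, ∀ u, nb * τ u - τ u * nb = τ (d u)

/-- substitutions of variables -/
def IsSub {r : ℕ} {F : Type} [Field F] {σ : Type} (g : Fin (r + 1) → MvPolynomial σ F) : Prop :=
  ∀ t, g t = 0 ∨ ∃ v, g t = MvPolynomial.X v

namespace Prm

variable {r : ℕ} {F : Type} [Field F] [Algebra ℂ F] (P : Prm r F)
variable {σ : Type}

/-- the right hand sides in the variables `σ` -/
def Qs (g : Fin (r + 1) → MvPolynomial σ F) (i : Fin r) : MvPolynomial σ F :=
  MvPolynomial.aeval g (P.Q i)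

/-- the relations of the tuple -/
def Tup [Fintype σ] (g : Fin (r + 1) → MvPolynomial σ F) {R : Type*} [Ring R] (τ : F →+* R)
    (w : Fin r → σ → R) : Prop :=
  IsTuple P.b P.th (P.Qs g) τ w

section kd

variable (g : Fin (r + 1) → MvPolynomial σ F) {R : Type*} [Ring R] (τ : F →+* R)

/-- the structure map -/
def phi : MvPolynomial (Fin (r + 1)) F →+* PA R σ :=
  (mp σ τ).comp (MvPolynomial.aeval g : MvPolynomial (Fin (r + 1)) F →ₐ[F] MvPolynomial σ F).toRingHom

theorem phi_apply (p : MvPolynomial (Fin (r + 1)) F) :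
    phi g τ p = mp σ τ (MvPolynomial.aeval g p) := rfl

theorem phi_C (u : F) : phi g τ (MvPolynomial.C u) = cst σ (τ u) := by
  rw [phi_apply, MvPolynomial.aeval_C]
  exact mp_MvC τ u

theorem phi_X (t : Fin (r + 1)) : phi g τ (MvPolynomial.X t) = mp σ τ (g t) := by
  rw [phi_apply, MvPolynomial.aeval_X]

variable {g} (hg : IsSub g)
include hg

theorem phi_X_comm (t : Fin (r + 1)) (y : PA R σ) : Commute (phi g τ (MvPolynomial.X t)) y := by
  rw [phi_X]
  rcases hg t with h | ⟨v, h⟩
  · rw [h, map_zero]; exact Commute.zero_left y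
  · rw [h, mp_MvX]; exact var_comm v y

variable {τ} {nb : R} {d : Derivation ℂ F F} (hnb : ∀ u, nb * τ u - τ u * nb = τ (d u))
include hnb

/-- closed under products: elements of `MvPolynomial` killed by the connection -/
theorem br_mul {p q : MvPolynomial (Fin (r + 1)) F} {p' q' : PA R σ}
    (hp : cst σ nb * phi g τ p - phi g τ p * cst σ nb = p')
    (hq : cst σ nb * phi g τ q - phi g τ q * cst σ nb = q') :
    cst σ nb * phi g τ (p * q) - phi g τ (p * q) * cst σ nb =
      p' * phi g τ q + phi g τ p * q' := by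
  rw [← hp, ← hq, map_mul]
  noncomm_ring

theorem br_C (u : F) : cst σ nb * phi g τ (MvPolynomial.C u) - phi g τ (MvPolynomial.C u) * cst σ nb
    = phi g τ (MvPolynomial.C (d u)) := by
  rw [phi_C, phi_C, ← map_mul, ← map_mul, ← map_sub, hnb]

theorem br_X (t : Fin (r + 1)) :
    cst σ nb * phi g τ (MvPolynomial.X t) - phi g τ (MvPolynomial.X t) * cst σ nb = 0 := by
  rw [(phi_X_comm τ hg t _).eq, sub_self]

/-- polynomials with constant coefficients are horizontal -/
theorem br_const (p : MvPolynomial (Fin (r + 1)) ℂ) :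
    cst σ nb * phi g τ (MvPolynomial.map (algebraMap ℂ F) p) -
      phi g τ (MvPolynomial.map (algebraMap ℂ F) p) * cst σ nb = 0 := by
  induction p using MvPolynomial.induction_on with
  | C z =>
    rw [MvPolynomial.map_C, br_C hg hnb, Derivation.map_algebraMap, map_zero, map_zero]
  | add p q hp hq =>
    rw [map_add, map_add, mul_add, add_mul]
    rw [sub_eq_zero] at hp hq ⊢
    rw [hp, hq]
  | mul_X p t hp =>
    rw [map_mul, MvPolynomial.map_X, br_mul hg hnb hp (br_X hg hnb t)]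
    simp

theorem br_Xpow (t : Fin (r + 1)) (e : ℕ) {p : MvPolynomial (Fin (r + 1)) F}
    (hp : cst σ nb * phi g τ p - phi g τ p * cst σ nb = 0) :
    cst σ nb * phi g τ (MvPolynomial.X t ^ e * p) - phi g τ (MvPolynomial.X t ^ e * p) * cst σ nb
      = 0 := by
  induction e with
  | zero => simpa using hp
  | succ e ih =>
    rw [pow_succ', mul_assoc, br_mul hg hnb (br_X hg hnb t) ih]
    simp

theorem br_C_mul (u : F) {p : MvPolynomial (Fin (r + 1)) F}
    (hp : cst σ nb * phi g τ p - phi g τ p * cst σ nb = 0) :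
    cst σ nb * phi g τ (MvPolynomial.C u * p) - phi g τ (MvPolynomial.C u * p) * cst σ nb
      = phi g τ (MvPolynomial.C (d u) * p) := by
  rw [br_mul hg hnb (br_C hg hnb u) hp, map_mul, mul_zero, add_zero]

/-- derivative of `q_i` -/
theorem br_Q (i : Fin r) :
    cst σ nb * phi g τ (P.Q i) - phi g τ (P.Q i) * cst σ nb =
      phi g τ (MvPolynomial.C (d (P.c i)) * P.fF i.succ +
        ∑ j ∈ univ.filter (fun j => j ≤ i.castSucc), ∑ l,
        MvPolynomial.C (d (P.cc i j l)) * (MvPolynomial.X l ^ (P.a i.succ - P.a j) * P.fF j)) := by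
  have h1 : ∀ j, cst σ nb * phi g τ (P.fF j) - phi g τ (P.fF j) * cst σ nb = 0 :=
    fun j => br_const hg hnb _
  unfold Q
  rw [map_add, map_add, mul_add, add_mul, add_sub_add_comm, br_C_mul hg hnb _ (h1 _)]
  congr 1
  simp only [map_sum, Finset.mul_sum, Finset.sum_mul, ← Finset.sum_sub_distrib]
  refine Finset.sum_congr rfl fun j _ => Finset.sum_congr rfl fun l _ => ?_
  exact br_C_mul hg hnb _ (br_Xpow hg hnb l _ (h1 j))

end kd

variable [Fintype σ] {g : Fin (r + 1) → MvPolynomial σ F} {R : Type*} [Ring R] {τ : F →+* R}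
  {w : Fin r → σ → R}

theorem cst_comm_lf {R σ : Type*} [Ring R] [Fintype σ] {a : R} {w : σ → R}
    (h : ∀ v, Commute a (w v)) : Commute (cst σ a) (lf w) := by
  unfold lf
  refine Commute.sum_right _ _ _ fun v _ => ?_
  rw [cst_apply, commute_iff_eq, AddMonoidAlgebra.single_mul_single,
    AddMonoidAlgebra.single_mul_single, zero_add, add_zero, (h v).eq]

/-- the abstract data of the killing lemma -/
def toKData (hg : IsSub g) (hw : P.Tup g τ w) (hF : ∀ i v u, Commute (τ u) (w i v))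
    (k : Fin (r + 1)) : KData (PA R σ) F r where
  φ := phi g τ
  w := fun i => lf (w i)
  a := P.b
  f := P.fF
  Q := P.Q
  c := P.c
  θ := P.θ
  k := k
  ha := fun i => P.ha _
  hX := phi_X_comm τ hg
  hwF := fun i u => by
    rw [phi_C]
    exact cst_comm_lf fun v => hF i v u
  hww := fun i l => hw.comm i l
  hw := fun i => by
    rw [hw.rel i, phi_apply]
    congr 1
    rw [Finset.sum_filter]
    refine Finset.sum_congr rfl fun l _ => ?_
    rw [phi_C]
    unfold th
    split_ifs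
    · rfl
    · simp
  hc := P.hc
  hQ := fun i => by
    unfold Q
    rw [add_sub_cancel_left]
    refine Ideal.sum_mem _ fun j hj => Ideal.sum_mem _ fun l _ => ?_
    apply Ideal.mul_mem_left
    apply Ideal.mul_mem_left
    apply Ideal.subset_span
    rw [mem_filter] at hj
    exact ⟨j, hj.2, rfl⟩
  hf := P.hfF k

/-- **Killing lemma** for tuples of linear forms. -/
theorem kill (hg : IsSub g) (hτ : Conn τ) (hw : P.Tup g τ w)
    (hF : ∀ i v u, Commute (τ u) (w i v)) {k : Fin (r + 1)} {v : σ} (hk : g k = MvPolynomial.X v)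
    {ζ : Fin r → PA R σ} (hζ : IsZ P.b P.th τ w ζ) {d : ℕ}
    (hd : ∀ l, ζ l ∈ Px.Sup R Set.univ (d + 1)) :
    ∃ M, ∃ η ∈ Px.Sup R (Set.univ : Set σ) (d + M), IsF τ η ∧
      ∀ l, var R v ^ M * ζ l = lf (w l) * η - η * lf (w l) := by
  have : CharZero F := charZero_of_injective_algebraMap (algebraMap ℂ F).injective
  set K := P.toKData hg hw hF k with hK
  have hx : K.x = var R v := by
    show phi g τ (MvPolynomial.X k) = _
    rw [phi_X, hk, mp_MvX]
  have hj : ∀ u, K.j u = cst σ (τ u) := fun u => phi_C g τ u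
  -- derivatives of q_i
  have hder : ∀ (d : Derivation ℂ F F), ∃ nb : PA R σ, (∀ u, nb * K.j u - K.j u * nb = K.j (d u)) ∧
      ∀ i, nb * K.φ (K.Q i) - K.φ (K.Q i) * nb =
      phi g τ (MvPolynomial.C (d (P.c i)) * P.fF i.succ +
        ∑ j ∈ univ.filter (fun j => j ≤ i.castSucc), ∑ l,
        MvPolynomial.C (d (P.cc i j l)) * (MvPolynomial.X l ^ (P.a i.succ - P.a j) * P.fF j)) := by
    intro d
    obtain ⟨nb, hnb⟩ := hτ d
    refine ⟨cst σ nb, fun u => ?_, fun i => P.br_Q hg hnb i⟩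
    rw [hj, hj, ← map_mul, ← map_mul, ← map_sub, hnb]
  have h0 : K.Kill 0 := by
    apply K.kill
    · intro i
      obtain ⟨d, ⟨h1, h1'⟩, h2, h3⟩ := P.dc i
      obtain ⟨nb, hnb, hQ⟩ := hder d
      refine ⟨nb, d, hnb, fun l hl => ?_, fun l m _ => ?_, ?_⟩
      · rw [hQ, h1' l (ne_of_gt hl)]
        simp [h2]
      · rw [hnb]
        show K.j (d (P.θ l m)) = 0
        rw [h3, map_zero]
      · rw [hQ, h1]
        have : ∀ m, nb * K.j (K.θ i m) - K.j (K.θ i m) * nb = 0 := by
          intro m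
          rw [hnb]
          show K.j (d (P.θ i m)) = 0
          rw [h3, map_zero]
        simp only [this, h2]
        simp
        rfl
    · intro i j hij
      obtain ⟨d, h1, ⟨h2, h2'⟩, h3⟩ := P.dcc i j k
      obtain ⟨nb, hnb, hQ⟩ := hder d
      refine ⟨P.a i.succ - P.a j, nb, d, hnb, fun l hl => ?_, fun l m _ => ?_, ?_⟩
      · rw [hQ, h1]
        have : ∀ j' l', d (P.cc l j' l') = 0 := by
          intro j' l'
          apply h2'
          intro h
          rw [Prod.mk.injEq] at h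
          exact (ne_of_gt hl) h.1
        simp [this]
      · rw [hnb]
        show K.j (d (P.θ l m)) = 0
        rw [h3, map_zero]
      · rw [hQ, h1]
        have : ∀ m, nb * K.j (K.θ i m) - K.j (K.θ i m) * nb = 0 := by
          intro m
          rw [hnb]
          show K.j (d (P.θ i m)) = 0
          rw [h3, map_zero]
        simp only [this]
        rw [Finset.sum_eq_single j, Finset.sum_eq_single k, h2]
        · simp
          rfl
        · intro l' _ hl'
          rw [h2' i j l' (by intro h; rw [Prod.mk.injEq, Prod.mk.injEq] at h; exact hl' h.2.2)]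
          simp
        · simp
        · intro j' _ hj'
          apply Finset.sum_eq_zero
          intro l' _
          rw [h2' i j' l' (by intro h; rw [Prod.mk.injEq, Prod.mk.injEq] at h; exact hj' h.2.1)]
          simp
        · intro h
          exact (h (Finset.mem_filter.2 ⟨mem_univ j, hij⟩)).elim
    · intro i m him
      obtain ⟨d, h1, h2, ⟨h3, h3'⟩⟩ := P.dθ i m
      obtain ⟨nb, hnb, hQ⟩ := hder d
      refine ⟨nb, d, hnb, fun l hl => ?_, fun l m' hl => ?_, ?_⟩
      · rw [hQ, h1]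
        simp [h2]
      · rw [hnb]
        show K.j (d (P.θ l m')) = 0
        rw [h3' l m' (by intro h; rw [Prod.mk.injEq] at h; exact (ne_of_gt hl) h.1), map_zero]
      · rw [hQ, h1]
        have e1 : ∀ m', m' ≠ m → nb * K.j (K.θ i m') - K.j (K.θ i m') * nb = 0 := by
          intro m' hm'
          rw [hnb]
          show K.j (d (P.θ i m')) = 0
          rw [h3' i m' (by intro h; rw [Prod.mk.injEq] at h; exact hm' h.2), map_zero]
        have e2 : nb * K.j (K.θ i m) - K.j (K.θ i m) * nb = 1 := by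
          rw [hnb]
          show K.j (d (P.θ i m)) = 1
          rw [h3, map_one]
        rw [Finset.sum_eq_single m (fun m' _ hm' => by rw [e1 m' hm', zero_mul])
          (fun h => absurd (Finset.mem_filter.2 ⟨mem_univ _, him⟩) h), e2]
        simp [h2]
  have hcoc : K.IsCoc 0 ζ := by
    refine ⟨fun l _ => ?_, fun l m _ _ => hζ.comm l m, fun l _ => ?_⟩
    · rw [KData.mem_Lin]
      intro u
      rw [hj]
      exact hζ.lin l u
    · show Dn (lf (w l)) (ζ l) (P.b l) = ∑ m ∈ univ.filter (fun m => l < m),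
        phi g τ (MvPolynomial.C (P.θ l m)) * Dn (lf (w m)) (ζ m) (P.b l)
      rw [hζ.rel l, Finset.sum_filter]
      refine Finset.sum_congr rfl fun m _ => ?_
      rw [phi_C]
      unfold th
      split_ifs
      · rfl
      · simp
  obtain ⟨M, η, hη, h1⟩ := h0 ζ hcoc
  refine ⟨M, Px.hc (d + M) η, Px.hc_mem_Sup_univ _ _, ?_, ?_⟩
  · intro u
    rw [KData.mem_Lin] at hη
    have h2 := hη u
    rw [hj] at h2
    have h3 : (cst σ (τ u) : PA R σ) ∈ Px.Sup R Set.univ 0 := Px.C_mem_Sup _ _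
    have h4 := congrArg (Px.hc (0 + (d + M))) h2.eq
    rw [Px.hc_mul h3, Px.hc_mul' h3] at h4
    exact h4
  · intro l
    have h2 := h1 l (Nat.zero_le _)
    rw [hx] at h2
    have h3 : (lf (w l)) ∈ Px.Sup R (Set.univ : Set σ) 1 := Px.lf_mem_Sup _
    have h4 := congrArg (Px.hc (1 + (d + M))) h2
    have h5 : var R v ^ M * ζ l ∈ Px.Sup R (Set.univ : Set σ) (1 + (d + M)) := by
      have := Px.mul_mem_Sup (Px.pow_mem_Sup (Px.X_mem_Sup (A := R) (Set.mem_univ v)) M) (hd l)
      have e : M * 1 + (d + 1) = 1 + (d + M) := by ring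
      rwa [e] at this
    rw [Px.hc_of_mem h5] at h4
    rw [h4, map_sub]
    show Px.hc (1 + (d + M)) (lf (w l) * η) - Px.hc (1 + (d + M)) (η * lf (w l)) = _
    rw [Px.hc_mul h3, Px.hc_mul' h3]

end Prm

end

end Crest.Agent.R181.H
end

-- ▼ part R181/AS5
section

/-!
# The final theorem for a tuple indexed by the operators `2, …, n`
-/

set_option autoImplicit false

namespace Crest.Agent.R181.AS

open Module Finset
open Crest.Agent.R181.AE
open Crest.AlgebraR.LPP
open Crest Crest.AlgebraR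

/-- The last step of the tower, general right hand sides. -/
theorem lpp_of_relations' {n : ℕ} {D : Type*} [DivisionRing D] [Algebra ℂ D] (a : Fin n → ℕ)
    (ha : Monotone a) (hpos : ∀ i, 0 < a i)
    (i0 : Fin n) (hi0 : ∀ i, i0 ≤ i)
    (I : Ideal (MvPolynomial (Fin n) ℂ))
    (hI : ∀ g ∈ I, ∀ d : ℕ, MvPolynomial.homogeneousComponent d g ∈ I)
    (f : Fin n → MvPolynomial (Fin n) ℂ) (hf : ∀ i, (f i).IsHomogeneous (a i))
    (hfI : ∀ i, f i ∈ I)
    (hreg : RingTheory.Sequence.IsRegular (MvPolynomial (Fin n) ℂ) (List.ofFn f))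
    (w : Fin n → PD D n) (hw : ∀ i, i ≠ i0 → w i ∈ hd D n 1)
    (hcw : ∀ i k, i ≠ i0 → k ≠ i0 → w i * w k = w k * w i)
    (hrel : ∀ i, i ≠ i0 → ∃ (c0 : D) (g : Fin n → PD D n) (th : Fin n → D), c0 ≠ 0 ∧
      w i ^ a i = c0 • iota D (f i) +
      (∑ j ∈ Finset.univ.filter (fun j => j < i), g j * iota D (f j)) +
      ∑ l ∈ Finset.univ.filter (fun l => i < l), th l • w l ^ a i) :
    ∃ U : ℕ → Set (Fin n →₀ ℕ), (∀ d, IsLexSegment n d (U d)) ∧
      (∀ d, Module.finrank ℂ (lppPiece a (U d) d) = Module.finrank ℂ (degreePiece I d)) ∧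
      ∃ J : Ideal (MvPolynomial (Fin n) ℂ),
        (∀ g ∈ J, ∀ d : ℕ, MvPolynomial.homogeneousComponent d g ∈ J) ∧
        (∀ d, degreePiece J d = lppPiece a (U d) d) ∧
        ∀ p j : ℕ, gradedBetti I p j ≤ gradedBetti J p j := by
  classical
  have hpow : ∀ (i l : Fin n), w l ^ a i = w l ^ (a i - 1) * w l := fun i l => by
    rw [← pow_succ, Nat.sub_add_cancel (hpos i)]
  obtain ⟨N, hN⟩ := exists_monomial_mem f a hf hreg
  set B : Finset (Fin n) := Finset.univ.filter (fun i => i ≠ i0) with hB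
  have hBmem : ∀ i, i ≠ i0 → i ∈ B := fun i hi => by
    rw [hB, Finset.mem_filter]; exact ⟨Finset.mem_univ _, hi⟩
  -- all the `f j` are in the left ideal
  have hfLI : ∀ (k : ℕ) (j : Fin n), (j : ℕ) < k → iota D (f j) ∈ LI (iota D (f i0)) B w := by
    intro k
    induction k with
    | zero => intro j hj; omega
    | succ k ih =>
      intro j hj
      by_cases hji : j = i0
      · rw [hji]; exact self_mem_LI _ _ _
      · obtain ⟨c0, g, th, hc0, h1⟩ := hrel j hji
        have h2 : c0 • iota D (f j) ∈ LI (iota D (f i0)) B w := by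
          have h3 : c0 • iota D (f j) = w j ^ a j -
              (∑ j' ∈ Finset.univ.filter (fun j' => j' < j), g j' * iota D (f j')) -
              ∑ l ∈ Finset.univ.filter (fun l => j < l), th l • w l ^ a j := by
            rw [h1]; abel
          rw [h3]
          refine AddSubgroup.sub_mem _ (AddSubgroup.sub_mem _ ?_ ?_) ?_
          · rw [hpow]
            exact mul_mem_LI _ (w_mem_LI _ w (hBmem j hji))
          · refine AddSubgroup.sum_mem _ fun j' hj' => ?_
            rw [Finset.mem_filter] at hj'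
            refine mul_mem_LI _ (ih j' ?_)
            have := hj'.2
            rw [Fin.lt_def] at this
            omega
          · refine AddSubgroup.sum_mem _ fun l hl => smul_mem_LI _ ?_
            rw [Finset.mem_filter] at hl
            rw [hpow]
            refine mul_mem_LI _ (w_mem_LI _ w (hBmem l ?_))
            rintro rfl
            exact absurd (hi0 j) (not_le.2 hl.2)
        have h4 := smul_mem_LI c0⁻¹ h2
        rwa [smul_smul, inv_mul_cancel₀ hc0, one_smul] at h4
  have hLI : ∀ g ∈ Ideal.span (Set.range f), iota D g ∈ LI (iota D (f i0)) B w := by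
    intro g hg
    induction hg using Submodule.span_induction with
    | mem x hx =>
      obtain ⟨j, rfl⟩ := hx
      exact hfLI n j j.2
    | zero => rw [map_zero]; exact AddSubgroup.zero_mem _
    | add x y _ _ hx hy => rw [map_add]; exact AddSubgroup.add_mem _ hx hy
    | smul a x _ hx => rw [smul_eq_mul, map_mul]; exact mul_mem_LI _ hx
  refine lpp_of_tuple a ha hpos i0 hi0 I hI w hw hcw ?_ (f i0) (hf i0) (hfI i0) N ?_
  · intro i hi
    obtain ⟨c0, g, th, hc0, hr⟩ := hrel i hi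
    refine ⟨fun l => th l • w l ^ (a i - 1), ?_⟩
    have h1 : w i ^ a i - ∑ k ∈ Finset.univ.filter (fun k => i < k),
        (th k • w k ^ (a i - 1)) * w k = c0 • iota D (f i) +
      (∑ j ∈ Finset.univ.filter (fun j => j < i), g j * iota D (f j)) := by
      rw [hr]
      have h2 : ∑ k ∈ Finset.univ.filter (fun k => i < k), (th k • w k ^ (a i - 1)) * w k =
          ∑ l ∈ Finset.univ.filter (fun l => i < l), th l • w l ^ a i :=
        Finset.sum_congr rfl fun l _ => by rw [AE.smul_mul', ← hpow]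
      rw [h2]
      abel
    rw [h1]
    have h3 : ∀ j, iota D (f j) ∈ exD D (Submodule.restrictScalars ℂ I) := fun j =>
      Submodule.subset_span ⟨f j, hfI j, rfl⟩
    refine Submodule.add_mem _ (Submodule.smul_mem _ _ (h3 i))
      (Submodule.sum_mem _ fun j _ => ?_)
    rw [← iota_comm]
    exact exD_mul I (h3 j) _
  · intro m hm
    have h1 := hLI _ (hN m hm.ge)
    have h2 : iota D (MvPolynomial.monomial m (1 : ℂ)) = AddMonoidAlgebra.single m 1 := by
      ext m'
      rw [coeff_iota, MvPolynomial.coeff_monomial, AddMonoidAlgebra.coeff_single,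
        Finsupp.single_apply]
      split_ifs <;> simp
    rw [h2] at h1
    exact h1

/-- **Final theorem** for operators indexed by `Fin r` (`n = r + 1` variables), over any parameter
field `F ⊇ ℂ`. -/
theorem result_of_isTuple {r : ℕ} (a : Fin (r + 1) → ℕ) (ha : Monotone a) (hpos : ∀ i, 0 < a i)
    (I : Ideal (MvPolynomial (Fin (r + 1)) ℂ))
    (hI : ∀ g ∈ I, ∀ d : ℕ, MvPolynomial.homogeneousComponent d g ∈ I)
    (f : Fin (r + 1) → MvPolynomial (Fin (r + 1)) ℂ) (hf : ∀ i, (f i).IsHomogeneous (a i))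
    (hfI : ∀ i, f i ∈ I)
    (hreg : RingTheory.Sequence.IsRegular (MvPolynomial (Fin (r + 1)) ℂ) (List.ofFn f))
    {F : Type*} [Field F] [Algebra ℂ F] {D : Type*} [DivisionRing D] [Algebra F D]
    (c0 : Fin r → F) (hc0 : ∀ i, c0 i ≠ 0) (th : Fin r → Fin r → F)
    (hth : ∀ i l, ¬ i < l → th i l = 0) (Q : Fin r → MvPolynomial (Fin (r + 1)) F)
    (hQ : ∀ i, Q i - MvPolynomial.C (c0 i) * MvPolynomial.map (algebraMap ℂ F) (f i.succ) ∈
      Ideal.span ((fun j => MvPolynomial.map (algebraMap ℂ F) (f j)) '' {j | j ≤ i.castSucc}))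
    (w : Fin r → Fin (r + 1) → D)
    (hw : UR.IsTuple (fun i : Fin r => a i.succ) th Q (algebraMap F D) w) :
    ∃ U : ℕ → Set (Fin (r + 1) →₀ ℕ), (∀ d, IsLexSegment (r + 1) d (U d)) ∧
      (∀ d, Module.finrank ℂ (lppPiece a (U d) d) = Module.finrank ℂ (degreePiece I d)) ∧
      ∃ J : Ideal (MvPolynomial (Fin (r + 1)) ℂ),
        (∀ g ∈ J, ∀ d : ℕ, MvPolynomial.homogeneousComponent d g ∈ J) ∧
        (∀ d, degreePiece J d = lppPiece a (U d) d) ∧
        ∀ p j : ℕ, gradedBetti I p j ≤ gradedBetti J p j := by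
  classical
  let _ : Algebra ℂ D := Algebra.compHom D (algebraMap ℂ F)
  have halg : ∀ x : ℂ, algebraMap ℂ D x = algebraMap F D (algebraMap ℂ F x) := fun x => rfl
  set τ : F →+* D := algebraMap F D with hτ
  let φ : MvPolynomial (Fin (r + 1)) F →+* PD D (r + 1) := UR.mp (Fin (r + 1)) τ
  have hφf : ∀ j, φ (MvPolynomial.map (algebraMap ℂ F) (f j)) = iota D (f j) := by
    intro j
    ext m
    change (UR.mp (Fin (r + 1)) τ _).coeff m = _
    rw [UR.mp_coeff, coeff_iota, halg]
    exact congrArg τ (MvPolynomial.coeff_map _ _ _)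
  have hφC : ∀ (c : F) (g : MvPolynomial (Fin (r + 1)) F), φ (MvPolynomial.C c * g) = τ c • φ g := by
    intro c g
    ext m
    change (UR.mp (Fin (r + 1)) τ _).coeff m = _
    rw [UR.mp_coeff, AddMonoidAlgebra.coeff_smul, Finsupp.smul_apply]
    change _ = τ c • (UR.mp (Fin (r + 1)) τ _).coeff m
    rw [UR.mp_coeff, smul_eq_mul, ← map_mul]
    exact congrArg τ (MvPolynomial.coeff_C_mul _ _ _)
  let w' : Fin (r + 1) → PD D (r + 1) := Fin.cons 0 (fun i => UR.lf (w i))
  have hw's : ∀ i : Fin r, w' i.succ = UR.lf (w i) := fun i => Fin.cons_succ _ _ _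
  refine lpp_of_relations' a ha hpos 0 (fun i => Fin.zero_le i) I hI f hf hfI hreg w' ?_ ?_ ?_
  · intro i hi
    obtain ⟨i, rfl⟩ := Fin.exists_succ_eq.2 hi
    rw [hw's]
    unfold UR.lf
    exact Submodule.sum_mem _ fun v _ => single_mem_hd (Finsupp.degree_single _ _) _
  · intro i k hi hk
    obtain ⟨i, rfl⟩ := Fin.exists_succ_eq.2 hi
    obtain ⟨k, rfl⟩ := Fin.exists_succ_eq.2 hk
    rw [hw's, hw's]
    exact hw.comm i k
  · intro i hi
    obtain ⟨i, rfl⟩ := Fin.exists_succ_eq.2 hi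
    -- the coefficients of `Q i`
    have hmem : ∀ q ∈ Ideal.span ((fun j => MvPolynomial.map (algebraMap ℂ F) (f j)) ''
        {j : Fin (r + 1) | j ≤ i.castSucc}), ∃ g : Fin (r + 1) → PD D (r + 1),
        φ q = ∑ j ∈ Finset.univ.filter (fun j => j < i.succ), g j * iota D (f j) := by
      intro q hq
      induction hq using Submodule.span_induction with
      | mem x hx =>
        obtain ⟨j, hj, rfl⟩ := hx
        refine ⟨fun j' => if j' = j then 1 else 0, ?_⟩
        rw [Finset.sum_eq_single j]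
        · simp only [if_true, one_mul]
          exact hφf j
        · intro b _ hb
          simp only [if_neg hb, zero_mul]
        · intro h
          exfalso
          apply h
          rw [Finset.mem_filter]
          refine ⟨Finset.mem_univ _, ?_⟩
          have h5 : j ≤ i.castSucc := hj
          rw [Fin.lt_def, Fin.val_succ]
          rw [Fin.le_def, Fin.val_castSucc] at h5
          omega
      | zero => exact ⟨0, by rw [map_zero]; simp⟩
      | add x y _ _ hx hy =>
        obtain ⟨g, hg⟩ := hx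
        obtain ⟨g', hg'⟩ := hy
        refine ⟨g + g', ?_⟩
        rw [map_add, hg, hg', ← Finset.sum_add_distrib]
        exact Finset.sum_congr rfl fun j _ => (add_mul _ _ _).symm
      | smul p x _ hx =>
        obtain ⟨g, hg⟩ := hx
        refine ⟨fun j => φ p * g j, ?_⟩
        rw [smul_eq_mul, map_mul, hg, Finset.mul_sum]
        exact Finset.sum_congr rfl fun j _ => (mul_assoc _ _ _).symm
    obtain ⟨g, hg⟩ := hmem _ (hQ i)
    refine ⟨τ (c0 i), g, Fin.cons 0 (fun l => τ (th i l)), ?_, ?_⟩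
    · rw [Ne, map_eq_zero]
      exact hc0 i
    · rw [hw's, hw.rel i]
      congr 1
      · rw [← hg, ← hφf, ← hφC, ← map_add, add_sub_cancel]
      · rw [Finset.sum_filter, Fin.sum_univ_succ, if_neg (by simp), zero_add]
        refine Finset.sum_congr rfl fun l _ => ?_
        rw [hw's, Fin.cons_succ]
        simp only [Fin.succ_lt_succ_iff]
        split_ifs with h
        · rw [Algebra.algebraMap_self_apply, UR.cst_apply]
          exact Cs_mul _ _
        · rw [hth i l h, map_zero, map_zero, map_zero, zero_mul]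

end Crest.Agent.R181.AS
end

-- ▼ part R181/KL279a
section

/-!
R181 (helper279): the killing lemma in the form consumed by H9, for every level of the tower, and
the data of the tower attached to the parameters.  (The proof of `kill0` is 788's.)
-/

set_option autoImplicit false
set_option linter.unusedSectionVars false

namespace Crest.Agent.R181.KL

open Finset
open Crest.Agent.R181.UR
open Crest.Agent.R181.H Crest.Agent.R181.H.Prm
open Crest.Agent.R181.HT (Cf Hg IsCoc)

noncomputable section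

section kill0

variable {r : ℕ} {F : Type} [Field F] [Algebra ℂ F] (P : Prm r F)
variable {σ : Type} [Fintype σ] {g : Fin (r + 1) → MvPolynomial σ F} {R : Type*} [Ring R]
  {τ : F →+* R} {w : Fin r → σ → R}

/-- The abstract killing statement for tuples of linear forms (788's proof). -/
theorem kill0 (hg : IsSub g) (hτ : Conn τ) (hw : P.Tup g τ w)
    (hF : ∀ i v u, Commute (τ u) (w i v)) (k : Fin (r + 1)) :
    (P.toKData hg hw hF k).Kill 0 := by
  have : CharZero F := charZero_of_injective_algebraMap (algebraMap ℂ F).injective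
  set K := P.toKData hg hw hF k with hK
  have hj : ∀ u, K.j u = cst σ (τ u) := fun u => phi_C g τ u
  -- derivatives of q_i
  have hder : ∀ (d : Derivation ℂ F F), ∃ nb : PA R σ, (∀ u, nb * K.j u - K.j u * nb = K.j (d u)) ∧
      ∀ i, nb * K.φ (K.Q i) - K.φ (K.Q i) * nb =
      phi g τ (MvPolynomial.C (d (P.c i)) * P.fF i.succ +
        ∑ j ∈ univ.filter (fun j => j ≤ i.castSucc), ∑ l,
        MvPolynomial.C (d (P.cc i j l)) * (MvPolynomial.X l ^ (P.a i.succ - P.a j) * P.fF j)) := by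
    intro d
    obtain ⟨nb, hnb⟩ := hτ d
    refine ⟨cst σ nb, fun u => ?_, fun i => P.br_Q hg hnb i⟩
    rw [hj, hj, ← map_mul, ← map_mul, ← map_sub, hnb]
  show K.Kill 0
  · apply K.kill
    · intro i
      obtain ⟨d, ⟨h1, h1'⟩, h2, h3⟩ := P.dc i
      obtain ⟨nb, hnb, hQ⟩ := hder d
      refine ⟨nb, d, hnb, fun l hl => ?_, fun l m _ => ?_, ?_⟩
      · rw [hQ, h1' l (ne_of_gt hl)]
        simp [h2]
      · rw [hnb]
        show K.j (d (P.θ l m)) = 0
        rw [h3, map_zero]
      · rw [hQ, h1]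
        have : ∀ m, nb * K.j (K.θ i m) - K.j (K.θ i m) * nb = 0 := by
          intro m
          rw [hnb]
          show K.j (d (P.θ i m)) = 0
          rw [h3, map_zero]
        simp only [this, h2]
        simp
        rfl
    · intro i j hij
      obtain ⟨d, h1, ⟨h2, h2'⟩, h3⟩ := P.dcc i j k
      obtain ⟨nb, hnb, hQ⟩ := hder d
      refine ⟨P.a i.succ - P.a j, nb, d, hnb, fun l hl => ?_, fun l m _ => ?_, ?_⟩
      · rw [hQ, h1]
        have : ∀ j' l', d (P.cc l j' l') = 0 := by
          intro j' l'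
          apply h2'
          intro h
          rw [Prod.mk.injEq] at h
          exact (ne_of_gt hl) h.1
        simp [this]
      · rw [hnb]
        show K.j (d (P.θ l m)) = 0
        rw [h3, map_zero]
      · rw [hQ, h1]
        have : ∀ m, nb * K.j (K.θ i m) - K.j (K.θ i m) * nb = 0 := by
          intro m
          rw [hnb]
          show K.j (d (P.θ i m)) = 0
          rw [h3, map_zero]
        simp only [this]
        rw [Finset.sum_eq_single j, Finset.sum_eq_single k, h2]
        · simp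
          rfl
        · intro l' _ hl'
          rw [h2' i j l' (by intro h; rw [Prod.mk.injEq, Prod.mk.injEq] at h; exact hl' h.2.2)]
          simp
        · simp
        · intro j' _ hj'
          apply Finset.sum_eq_zero
          intro l' _
          rw [h2' i j' l' (by intro h; rw [Prod.mk.injEq, Prod.mk.injEq] at h; exact hj' h.2.1)]
          simp
        · intro h
          exact (h (Finset.mem_filter.2 ⟨mem_univ j, hij⟩)).elim
    · intro i m him
      obtain ⟨d, h1, h2, ⟨h3, h3'⟩⟩ := P.dθ i m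
      obtain ⟨nb, hnb, hQ⟩ := hder d
      refine ⟨nb, d, hnb, fun l hl => ?_, fun l m' hl => ?_, ?_⟩
      · rw [hQ, h1]
        simp [h2]
      · rw [hnb]
        show K.j (d (P.θ l m')) = 0
        rw [h3' l m' (by intro h; rw [Prod.mk.injEq] at h; exact (ne_of_gt hl) h.1), map_zero]
      · rw [hQ, h1]
        have e1 : ∀ m', m' ≠ m → nb * K.j (K.θ i m') - K.j (K.θ i m') * nb = 0 := by
          intro m' hm'
          rw [hnb]
          show K.j (d (P.θ i m')) = 0
          rw [h3' i m' (by intro h; rw [Prod.mk.injEq] at h; exact hm' h.2), map_zero]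
        have e2 : nb * K.j (K.θ i m) - K.j (K.θ i m) * nb = 1 := by
          rw [hnb]
          show K.j (d (P.θ i m)) = 1
          rw [h3, map_one]
        rw [Finset.sum_eq_single m (fun m' _ hm' => by rw [e1 m' hm', zero_mul])
          (fun h => absurd (Finset.mem_filter.2 ⟨mem_univ _, him⟩) h), e2]
        simp [h2]

end kill0

/-- coefficients in the centralizer of `τ` -/
theorem cf_iff {F R σ : Type*} [CommRing F] [Ring R] (τ : F →+* R) (f : PA R σ) :
    Cf (Subring.centralizer (Set.range τ)) f ↔ ∀ u, Commute (cst σ (τ u)) f := by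
  constructor
  · intro h u
    apply HT.cst_comm
    intro m
    have := h m
    rw [Subring.mem_centralizer_iff] at this
    exact this _ ⟨u, rfl⟩
  · intro h m
    rw [Subring.mem_centralizer_iff]
    rintro _ ⟨u, rfl⟩
    have h1 := congrArg (fun y : PA R σ => y.coeff m) (h u).eq
    simp only [cst_apply, AddMonoidAlgebra.coeff_single_zero_mul,
      AddMonoidAlgebra.coeff_mul_single_zero] at h1
    exact h1

section

variable {r : ℕ} {F : Type} [Field F] [Algebra ℂ F] (P : Prm r F)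

/-- The data of the tower. -/
def dat : TW.Dat F (Fin r) (r + 1) where
  a := P.b
  th := P.th
  Q := P.Q
  ha i := P.ha _
  hQ := P.Q_hom

/-- the substitution of level `i` -/
theorem isSub_vars (i : ℕ) : IsSub (TW.vars F i : Fin (r + 1) → MvPolynomial (TW.Vr i) F) := by
  intro t
  by_cases h : (t : ℕ) < i
  · obtain ⟨v, _, hv⟩ := TW.vars_of_lt F i t h
    exact Or.inr ⟨v, hv⟩
  · exact Or.inl (TW.vars_eq_zero F i t (not_lt.1 h))

theorem conn {E : Type*} [AddCommGroup E] (τ : F →+* AddMonoid.End E) : Conn τ :=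
  fun d => exists_conn d τ

/-- **(KILL)** for the ring `T` of level `i`. -/
theorem kill {i : ℕ} (hi : i < r + 1) {E : Type*} [AddCommGroup E] (τ : F →+* AddMonoid.End E)
    (w : Fin r → Option (TW.Vr i) → AddMonoid.End E) (hF : ∀ l v u, Commute (τ u) (w l v))
    (hw : IsTuple (dat P).a (dat P).th ((dat P).Ql i (TW.dl F i)) τ w)
    (ζ : Fin r → PA (AddMonoid.End E) (Option (TW.Vr i)))
    (hζ : ∀ l, Cf (Subring.centralizer (Set.range τ)) (ζ l))
    (hc : IsCoc (dat P).a (dat P).th τ (fun l => lf (w l)) ζ) :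
    ∃ (M : ℕ) (η : PA (AddMonoid.End E) (Option (TW.Vr i))),
      Cf (Subring.centralizer (Set.range τ)) η ∧
      ∀ l, var (AddMonoid.End E) (none : Option (TW.Vr i)) ^ M * ζ l =
        lf (w l) * η - η * lf (w l) := by
  have hg : IsSub (TW.vars F (i + 1) : Fin (r + 1) → MvPolynomial (TW.Vr (i + 1)) F) :=
    isSub_vars (i + 1)
  have hw' : P.Tup (TW.vars F (i + 1) : Fin (r + 1) → MvPolynomial (TW.Vr (i + 1)) F) τ w := by
    rw [TW.Dat.Ql_dl] at hw
    exact hw
  have hK := kill0 P hg (conn τ) hw' hF ⟨i, hi⟩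
  set K := P.toKData hg hw' hF ⟨i, hi⟩ with hKdef
  have hj : ∀ u, K.j u = cst (TW.Vr (i + 1)) (τ u) := fun u => phi_C _ τ u
  have hx : K.x = var (AddMonoid.End E) (none : Option (TW.Vr i)) := by
    show phi _ τ (MvPolynomial.X (⟨i, hi⟩ : Fin (r + 1))) = _
    rw [phi_X]
    have : TW.vars F (i + 1) (⟨i, hi⟩ : Fin (r + 1)) = MvPolynomial.X none := if_pos rfl
    rw [this, mp_MvX]
  have hcoc : K.IsCoc 0 ζ := by
    refine ⟨fun l _ => ?_, fun l m _ _ => hc.comm l m, fun l _ => ?_⟩
    · rw [KData.mem_Lin]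
      intro u
      rw [hj]
      exact (cf_iff τ (ζ l)).1 (hζ l) u
    · show Dn (lf (w l)) (ζ l) (P.b l) = ∑ m ∈ univ.filter (fun m => l < m),
        phi _ τ (MvPolynomial.C (P.θ l m)) * Dn (lf (w m)) (ζ m) (P.b l)
      have h1 := hc.rel l
      change Dn (lf (w l)) (ζ l) (P.b l) = ∑ m, cst _ (τ (P.th l m)) *
        Dn (lf (w m)) (ζ m) (P.b l) at h1
      rw [h1, Finset.sum_filter]
      refine Finset.sum_congr rfl fun m _ => ?_
      rw [phi_C]
      unfold th
      split_ifs
      · rfl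
      · simp
  obtain ⟨M, η, hη, h1⟩ := hK ζ hcoc
  refine ⟨M, η, ?_, fun l => ?_⟩
  · rw [cf_iff]
    intro u
    rw [KData.mem_Lin] at hη
    have := hη u
    rwa [hj] at this
  · have h2 := h1 l (Nat.zero_le _)
    rw [hx] at h2
    exact h2

end

end

end Crest.Agent.R181.KL
end

-- ▼ part R181/KL279b
section

/-!
R181 (helper279): from the top level of the tower to the statement S0271.
-/

set_option autoImplicit false
set_option linter.unusedSectionVars false

namespace Crest.Agent.R181.KL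

open Finset
open Crest.Agent.R181.UR
open Crest.Agent.R181.H Crest.Agent.R181.H.Prm
open Crest.AlgebraR.LPP
open Crest Crest.AlgebraR

noncomputable section

/-- The conclusion of S0271. -/
def Concl (n : ℕ) (a : Fin n → ℕ) (I : Ideal (MvPolynomial (Fin n) ℂ)) : Prop :=
  ∃ U : ℕ → Set (Fin n →₀ ℕ), (∀ d, IsLexSegment n d (U d)) ∧
    (∀ d, Module.finrank ℂ (lppPiece a (U d) d) = Module.finrank ℂ (degreePiece I d)) ∧
    ∃ J : Ideal (MvPolynomial (Fin n) ℂ), (∀ g ∈ J, ∀ d : ℕ,
        MvPolynomial.homogeneousComponent d g ∈ J) ∧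
      (∀ d, degreePiece J d = lppPiece a (U d) d) ∧
      ∀ p j : ℕ, gradedBetti I p j ≤ gradedBetti J p j

section

variable {r : ℕ} {F : Type} [Field F] [Algebra ℂ F] (P : Prm r F)

theorem result_of_prm (I : Ideal (MvPolynomial (Fin (r + 1)) ℂ))
    (hI : ∀ g ∈ I, ∀ d : ℕ, MvPolynomial.homogeneousComponent d g ∈ I)
    (hfI : ∀ i, P.f i ∈ I)
    (hreg : RingTheory.Sequence.IsRegular (MvPolynomial (Fin (r + 1)) ℂ) (List.ofFn P.f))
    {D : Type*} [DivisionRing D] [Algebra F D] (w : Fin r → Fin (r + 1) → D)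
    (hw : UR.IsTuple P.b P.th P.Q (algebraMap F D) w) : Concl (r + 1) P.a I := by
  refine AS.result_of_isTuple P.a P.mono (fun i => by have := P.ha i; omega) I hI P.f P.hom hfI
    hreg P.c P.hc P.th (fun i l h => if_neg h) P.Q (fun i => ?_) w hw
  unfold Q
  rw [show MvPolynomial.C (P.c i) * P.fF i.succ + _ -
    MvPolynomial.C (P.c i) * MvPolynomial.map (algebraMap ℂ F) (P.f i.succ) = _ from
      add_sub_cancel_left _ _]
  refine Ideal.sum_mem _ fun j hj => Ideal.sum_mem _ fun l _ => ?_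
  apply Ideal.mul_mem_left
  apply Ideal.mul_mem_left
  apply Ideal.subset_span
  rw [mem_filter] at hj
  exact ⟨j, hj.2, rfl⟩




end


end

end Crest.Agent.R181.KL
end

-- ▼ part R181/KL279c
section

/-!
R181 (helper279): the killing property in 776's form `HL.Kill`, for every level of the tower.
-/

set_option autoImplicit false
set_option linter.unusedSectionVars false

namespace Crest.Agent.R181.KL

open Finset
open Crest.Agent.R181.UR
open Crest.Agent.R181.H Crest.Agent.R181.H.Prm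
open Crest.Agent.R181.HT (Cf Hg IsCoc sv)

noncomputable section

section hc

variable {A σ : Type*} [Ring A]

/-- The homogeneous component of degree `n`. -/
def hc (n : ℕ) : PA A σ →+ PA A σ where
  toFun f := AddMonoidAlgebra.ofCoeff (f.coeff.filter (fun m => m.degree = n))
  map_zero' := by
    ext m
    show (Finsupp.filter (fun m : σ →₀ ℕ => m.degree = n) (0 : (σ →₀ ℕ) →₀ A)) m = 0
    rw [Finsupp.filter_apply]
    simp
  map_add' f g := by
    ext m
    simp [Finsupp.filter_add]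

theorem coeff_hc (n : ℕ) (f : PA A σ) (m : σ →₀ ℕ) :
    (hc n f).coeff m = if m.degree = n then f.coeff m else 0 := by
  show (f.coeff.filter (fun m => m.degree = n)) m = _
  rw [Finsupp.filter_apply]

theorem hg_hc (n : ℕ) (f : PA A σ) : Hg n (hc n f) := by
  intro m hm
  rw [coeff_hc] at hm
  by_contra h
  rw [if_neg h] at hm
  exact hm rfl

theorem hc_of_hg {n : ℕ} {f : PA A σ} (hf : Hg n f) : hc n f = f := by
  ext m
  rw [coeff_hc]
  split_ifs with h
  · rfl
  · by_contra h'
    exact h (hf m (fun h0 => h' h0.symm))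

theorem hc_of_hg_ne {n n' : ℕ} (h : n' ≠ n) {f : PA A σ} (hf : Hg n' f) : hc n f = 0 := by
  ext m
  rw [coeff_hc]
  split_ifs with h1
  · by_contra h'
    exact h ((hf m (fun h0 => h' h0)).symm.trans h1)
  · rfl

theorem hc_mul_left {d : ℕ} (n : ℕ) {f : PA A σ} (hf : Hg d f) (g : PA A σ) :
    hc (d + n) (f * g) = f * hc n g := by
  induction g using AddMonoidAlgebra.induction_linear with
  | zero => simp
  | add p q hp hq => rw [mul_add, map_add, hp, hq, map_add, mul_add]
  | single m a =>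
    by_cases h : m.degree = n
    · rw [hc_of_hg (HT.hg_single h a), hc_of_hg (hf.mul (HT.hg_single h a))]
    · rw [hc_of_hg_ne h (HT.hg_single rfl a), mul_zero,
        hc_of_hg_ne (fun h' => h (Nat.add_left_cancel h')) (hf.mul (HT.hg_single rfl a))]

theorem hc_mul_right {d : ℕ} (n : ℕ) {f : PA A σ} (hf : Hg d f) (g : PA A σ) :
    hc (n + d) (g * f) = hc n g * f := by
  induction g using AddMonoidAlgebra.induction_linear with
  | zero => simp
  | add p q hp hq => rw [add_mul, map_add, hp, hq, map_add, add_mul]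
  | single m a =>
    by_cases h : m.degree = n
    · rw [hc_of_hg (HT.hg_single h a), hc_of_hg ((HT.hg_single h a).mul hf)]
    · rw [hc_of_hg_ne h (HT.hg_single rfl a), zero_mul,
        hc_of_hg_ne (fun h' => h (Nat.add_right_cancel h')) ((HT.hg_single rfl a).mul hf)]

theorem cf_hc {S : Subring A} {f : PA A σ} (hf : Cf S f) (n : ℕ) : Cf S (hc n f) := by
  intro m
  rw [coeff_hc]
  split_ifs
  · exact hf m
  · exact S.zero_mem

end hc

variable {r : ℕ} {F : Type} [Field F] [Algebra ℂ F] (P : Prm r F)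

/-- **(KILL)** in the form of H9. -/
theorem kill_HL {i : ℕ} (hi : i < r + 1) :
    HL.Kill (σ := TW.Vr i) (dat P).a (dat P).th ((dat P).Ql i (TW.dl F i)) := by
  intro E _ τ u hF hu z hzF hz
  obtain ⟨M, η, hη, h⟩ := kill P hi τ u (fun l v c => hF l v c) hu _
    (fun l => by
      rw [cf_iff]
      intro c
      show Commute (cst _ (τ c)) (cst _ (z l))
      exact (hzF l c).map (cst _)) hz
  have hs : ∀ f : PA (AddMonoid.End E) (Option (TW.Vr i)),
      Commute (sv (AddMonoid.End E) (TW.Vr i)) f := fun f => UR.var_comm (none : Option (TW.Vr i)) f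
  have hsη : Cf (Subring.centralizer (Set.range τ)) (sv (AddMonoid.End E) (TW.Vr i) * η) := by
    rw [cf_iff] at hη ⊢
    intro c
    exact (hs _).symm.mul_right (hη c)
  refine ⟨M, hc M (sv (AddMonoid.End E) (TW.Vr i) * η), hg_hc _ _, cf_hc hsη M, fun l => ?_⟩
  have h1 := h l
  change sv (AddMonoid.End E) (TW.Vr i) ^ M * cst _ (z l) = _ at h1
  have h2 : sv (AddMonoid.End E) (TW.Vr i) ^ (M + 1) * cst (Option (TW.Vr i)) (z l) =
      lf (u l) * (sv (AddMonoid.End E) (TW.Vr i) * η) -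
        (sv (AddMonoid.End E) (TW.Vr i) * η) * lf (u l) := by
    rw [pow_succ', mul_assoc, h1, mul_sub, ← mul_assoc, (hs (lf (u l))).eq]
    simp only [mul_assoc]
  have h3 : Hg (M + 1) (sv (AddMonoid.End E) (TW.Vr i) ^ (M + 1) *
      cst (Option (TW.Vr i)) (z l)) := by
    have h4 : ∀ n : ℕ, Hg n (sv (AddMonoid.End E) (TW.Vr i) ^ n) := by
      intro n
      induction n with
      | zero => rw [pow_zero]; exact HT.hg_cst (σ := Option (TW.Vr i)) (1 : AddMonoid.End E)
      | succ n ih =>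
        rw [pow_succ]
        exact ih.mul (HT.hg_var _)
    have h5 := (h4 (M + 1)).mul (HT.hg_cst (σ := Option (TW.Vr i)) (z l))
    rwa [add_zero] at h5
  rw [← hc_of_hg h3, h2, map_sub, hc_mul_right M (HT.hg_lf (u l)), add_comm M 1,
    hc_mul_left M (HT.hg_lf (u l))]

end

end Crest.Agent.R181.KL
end

-- ▼ part R181/AS7

/-!
# The concrete data of the tower: parameters of block H, killing, final theorem
-/

set_option autoImplicit false
set_option linter.unusedSectionVars false

namespace Crest.Agent.R181.AS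

open Finset
open Crest.Agent.R181.UR
open Crest.Agent.R181.H

noncomputable section

variable {r : ℕ} (a : Fin (r + 1) → ℕ) (f : Fin (r + 1) → MvPolynomial (Fin (r + 1)) ℂ)
  (ha : Monotone a) (ha2 : ∀ i, 2 ≤ a i) (hf : ∀ i, (f i).IsHomogeneous (a i))

/-- The parameters of block H over the concrete field. -/
def prm (hX : ∀ t, ∃ M : ℕ, (MvPolynomial.X t : MvPolynomial (Fin (r + 1)) ℂ) ^ M ∈
      Ideal.span (Set.range f)) : Prm r (Fld (r + 1)) where
  a := a
  f := f
  c i := cF i.succ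
  cc i j l := ccF i.succ j l
  θ i m := par (Sum.inr (Sum.inr (i.succ, m.succ)))
  ha := ha2
  mono := ha
  hom := hf
  hf := hX
  hc i := cF_ne_zero _
  dc i := by
    obtain ⟨d, h1, h2⟩ := exists_der (Par (r + 1)) (Sum.inl i.succ)
    refine ⟨d, ⟨h1, fun i' h => h2 _ fun h' => h (Fin.succ_injective _ (Sum.inl_injective h'))⟩,
      fun i' j l => h2 _ (by simp), fun i' m => h2 _ (by simp)⟩
  dcc i j l := by
    obtain ⟨d, h1, h2⟩ := exists_der (Par (r + 1)) (Sum.inr (Sum.inl (i.succ, j, l)))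
    refine ⟨d, fun i' => h2 _ (by simp), ⟨h1, fun i' j' l' h => h2 _ fun h' => h ?_⟩,
      fun i' m => h2 _ fun h' => Sum.inr_ne_inl (Sum.inr_injective h')⟩
    have h3 := Sum.inl_injective (Sum.inr_injective h')
    simp only [Prod.mk.injEq, Fin.succ_inj] at h3 ⊢
    exact h3
  dθ i m := by
    obtain ⟨d, h1, h2⟩ := exists_der (Par (r + 1)) (Sum.inr (Sum.inr (i.succ, m.succ)))
    refine ⟨d, fun i' => h2 _ (by simp), fun i' j' l' => h2 _ fun h' =>
      Sum.inl_ne_inr (Sum.inr_injective h'), h1, fun i' m' h => h2 _ fun h' => h ?_⟩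
    have h3 := Sum.inr_injective (Sum.inr_injective h')
    simp only [Prod.mk.injEq, Fin.succ_inj] at h3 ⊢
    exact h3

variable (hX : ∀ t, ∃ M : ℕ, (MvPolynomial.X t : MvPolynomial (Fin (r + 1)) ℂ) ^ M ∈
      Ideal.span (Set.range f))

theorem prm_b : (prm a f ha ha2 hf hX).b = fun i => a i.succ := rfl

theorem prm_th : (prm a f ha ha2 hf hX).th = fun i l => thF i.succ l.succ := by
  funext i l
  unfold Prm.th thF
  by_cases h : i < l
  · rw [if_pos h, if_pos (Fin.succ_lt_succ_iff.2 h)]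
    rfl
  · rw [if_neg h, if_neg (fun h' => h (Fin.succ_lt_succ_iff.1 h'))]

theorem prm_Q_aux {K : Type} [Field K] (c : K) (q : MvPolynomial (Fin (r + 1)) K) (i : Fin r)
    (cc : Fin (r + 1) → Fin (r + 1) → K) (a : Fin (r + 1) → ℕ)
    (g : Fin (r + 1) → MvPolynomial (Fin (r + 1)) K) :
    MvPolynomial.C c * q + ∑ j ∈ univ.filter (fun j => j ≤ i.castSucc), ∑ l,
      MvPolynomial.C (cc j l) * (MvPolynomial.X l ^ (a i.succ - a j) * g j) =
    MvPolynomial.C c * q + ∑ j ∈ univ.filter (fun j => j < i.succ), ∑ l,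
      MvPolynomial.C (cc j l) * (g j * MvPolynomial.X l ^ (a i.succ - a j)) := by
  congr 1
  have h1 : (univ.filter (fun j : Fin (r + 1) => j ≤ i.castSucc)) =
      univ.filter (fun j => j < i.succ) := by
    ext j
    simp only [mem_filter, mem_univ, true_and, Fin.le_def, Fin.lt_def, Fin.val_castSucc,
      Fin.val_succ]
    omega
  rw [h1]
  refine Finset.sum_congr rfl fun j _ => Finset.sum_congr rfl fun v _ => ?_
  rw [mul_comm (g j)]

theorem prm_Q : (prm a f ha ha2 hf hX).Q = fun i => QF a f i.succ := by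
  funext i
  exact prm_Q_aux (cF i.succ) (fF f i.succ) i (fun j l => ccF i.succ j l) a (fF f)

/-- The data of the tower is the data of the parameters. -/
theorem dat_prm : KL.dat (prm a f ha ha2 hf hX) = dat a f ha ha2 hf := by
  have h1 : ∀ d d' : TW.Dat (Fld (r + 1)) (Fin r) (r + 1), d.a = d'.a → d.th = d'.th →
      d.Q = d'.Q → d = d' := by
    rintro ⟨_, _, _, _, _⟩ ⟨_, _, _, _, _⟩ rfl rfl rfl
    rfl
  exact h1 _ _ rfl (prm_th a f ha ha2 hf hX) (prm_Q a f ha ha2 hf hX)

include hX in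
/-- **(KILL)** for the concrete data. -/
theorem kill {i : ℕ} (hi : i < r + 1) :
    HL.Kill (σ := TW.Vr i) (dat a f ha ha2 hf).a (dat a f ha ha2 hf).th
      ((dat a f ha ha2 hf).Ql i (TW.dl (Fld (r + 1)) i)) := by
  have h := KL.kill_HL (prm a f ha ha2 hf hX) hi
  rw [dat_prm] at h
  exact h

end

/-- **The final theorem** from the tower of the concrete data. -/
theorem result_of_dat
    (htower : ∀ (r : ℕ) (a : Fin (r + 1) → ℕ) (f : Fin (r + 1) → MvPolynomial (Fin (r + 1)) ℂ)
      (ha : Monotone a) (ha2 : ∀ i, 2 ≤ a i) (hf : ∀ i, (f i).IsHomogeneous (a i))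
      (_ : ∃ N : ℕ, ∀ t, (MvPolynomial.X t : MvPolynomial (Fin (r + 1)) ℂ) ^ N ∈
        Ideal.span (Set.range f)),
      ∃ (D : Type) (_ : DivisionRing D) (_ : Algebra (Fld (r + 1)) D) (w : Fin r → Fin (r + 1) → D),
        IsTuple (dat a f ha ha2 hf).a (dat a f ha ha2 hf).th (dat a f ha ha2 hf).Q
          (algebraMap (Fld (r + 1)) D) w)
    (n : ℕ) (hn : 1 ≤ n) (a : Fin n → ℕ)
    (ha : Monotone a) (ha2 : ∀ i, 2 ≤ a i) (I : Ideal (MvPolynomial (Fin n) ℂ))
    (hI : ∀ g ∈ I, ∀ d : ℕ, MvPolynomial.homogeneousComponent d g ∈ I)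
    (f : Fin n → MvPolynomial (Fin n) ℂ) (hf : ∀ i, (f i).IsHomogeneous (a i)) (hfI : ∀ i, f i ∈ I)
    (hreg : RingTheory.Sequence.IsRegular (MvPolynomial (Fin n) ℂ) (List.ofFn f)) :
    KL.Concl n a I := by
  obtain ⟨r, rfl⟩ : ∃ r, n = r + 1 := ⟨n - 1, by omega⟩
  obtain ⟨N, hN⟩ := exists_X_pow_mem f a hf hreg
  obtain ⟨D, _, _, w, hw⟩ := htower r a f ha ha2 hf ⟨N, hN⟩
  refine KL.result_of_prm (prm a f ha ha2 hf (fun t => ⟨N, hN t⟩)) I hI hfI hreg w ?_
  rw [prm_b, prm_th, prm_Q]
  exact hw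

end Crest.Agent.R181.AS
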