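import Mathlib

-- ▼ part R181/CU735a
section

/-!
# Lemma 3 of the V-chain: the affine chart inside the ring `DD = O[1/π]`

`DD` is a ring with a central unit `π`, `O` a subring containing `π` with `DD = ⋃ π^{-m} O`,
`q : O → Del` is onto with kernel `π O`, `j : V → DD` a ring homomorphism from a filtered ring.
If the symbol maps `F_l V → Del`, `v ↦ q (π^l j v)` are injective modulo `F_{l-1} V`, then `j` is
injective and strict, and lifts of bases of `Del / s_l (F_l V)` give bases of `DD / (V + π^t O)`.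
-/

set_option autoImplicit false

namespace Crest.Agent.R181.CU

/-- The data of a chart. -/
structure Chart (DD V Del : Type*) [Ring DD] [Ring V] [Ring Del] where
  /-- the complete subring -/
  O : Subring DD
  /-- the central unit -/
  pi : DDˣ
  pi_comm : ∀ y : DD, (pi : DD) * y = y * pi
  pi_mem : (pi : DD) ∈ O
  exh : ∀ y : DD, ∃ m : ℕ, (pi : DD) ^ m * y ∈ O
  /-- the residue map -/
  q : O →+* Del
  q_surj : Function.Surjective q
  q_ker : ∀ o : O, q o = 0 → ∃ o' : O, (o : DD) = pi * o'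
  q_pi : q ⟨pi, pi_mem⟩ = 0
  /-- the affine chart -/
  j : V →+* DD
  /-- the filtration of the affine chart -/
  F : ℕ → AddSubgroup V
  F_mono : Monotone F
  F_exh : ∀ v, ∃ l, v ∈ F l
  F_one : 1 ∈ F 0
  F_mul : ∀ k l v w, v ∈ F k → w ∈ F l → v * w ∈ F (k + l)
  F_O : ∀ l v, v ∈ F l → (pi : DD) ^ l * j v ∈ O

namespace Chart

variable {DD V Del : Type*} [Ring DD] [Ring V] [Ring Del] (C : Chart DD V Del)


/-- the symbol map -/
def s (l : ℕ) : C.F l →+ Del where
  toFun v := C.q ⟨(C.pi : DD) ^ l * C.j v, C.F_O l v v.2⟩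
  map_zero' := by
    rw [show (⟨(C.pi : DD) ^ l * C.j ((0 : C.F l) : V), C.F_O l _ (0 : C.F l).2⟩ : C.O) = 0 from
      Subtype.ext (by simp), map_zero]
  map_add' v w := by
    rw [← map_add]
    congr 1
    exact Subtype.ext (by simp [mul_add])

theorem s_apply (l : ℕ) (v : C.F l) :
    C.s l v = C.q ⟨(C.pi : DD) ^ l * C.j v, C.F_O l v v.2⟩ := rfl

/-- the hypothesis on symbols -/
def Inj : Prop :=
  (∀ v : C.F 0, C.s 0 v = 0 → v = 0) ∧ ∀ l, ∀ v : C.F (l + 1), C.s (l + 1) v = 0 → (v : V) ∈ C.F l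

theorem q_of_pi_mul {o : C.O} {o' : C.O} (h : (o : DD) = C.pi * o') : C.q o = 0 := by
  have : o = ⟨C.pi, C.pi_mem⟩ * o' := Subtype.ext h
  rw [this, map_mul, C.q_pi, zero_mul]

theorem pow_mem (m : ℕ) : (C.pi : DD) ^ m ∈ C.O := C.O.pow_mem C.pi_mem m

theorem pow_mul_mem {y : DD} {m l : ℕ} (h : (C.pi : DD) ^ l * y ∈ C.O) (hl : l ≤ m) :
    (C.pi : DD) ^ m * y ∈ C.O := by
  obtain ⟨k, rfl⟩ := Nat.exists_eq_add_of_le hl
  rw [add_comm, pow_add, mul_assoc]
  exact C.O.mul_mem (C.pow_mem k) h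


variable {C}

theorem mem_F_of_pow_mul_mem (hC : C.Inj) {l : ℕ} {v : V} (h : (C.pi : DD) ^ l * C.j v ∈ C.O) :
    v ∈ C.F l := by
  obtain ⟨m, hm⟩ := C.F_exh v
  induction m with
  | zero => exact C.F_mono (Nat.zero_le l) hm
  | succ m ih =>
    by_cases hml : m + 1 ≤ l
    · exact C.F_mono hml hm
    · apply ih
      have hlm : l ≤ m := by omega
      have h1 : C.s (m + 1) ⟨v, hm⟩ = 0 := by
        rw [s_apply]
        refine C.q_of_pi_mul (o' := ⟨(C.pi : DD) ^ m * C.j v, C.pow_mul_mem h hlm⟩) ?_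
        change (C.pi : DD) ^ (m + 1) * C.j v = C.pi * ((C.pi : DD) ^ m * C.j v)
        rw [pow_succ', mul_assoc]
      exact hC.2 m _ h1

theorem mem_F_iff (hC : C.Inj) {l : ℕ} {v : V} :
    v ∈ C.F l ↔ (C.pi : DD) ^ l * C.j v ∈ C.O :=
  ⟨C.F_O l v, mem_F_of_pow_mul_mem hC⟩

theorem mem_F_zero_iff (hC : C.Inj) {v : V} : v ∈ C.F 0 ↔ C.j v ∈ C.O := by
  rw [mem_F_iff hC, pow_zero, one_mul]

/-- `V ∩ π O = 0` -/
theorem eq_zero_of_eq_pi_mul (hC : C.Inj) {v : V} (o : C.O) (h : C.j v = C.pi * o) : v = 0 := by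
  have h0 : v ∈ C.F 0 := by
    rw [mem_F_zero_iff hC, h]
    exact C.O.mul_mem C.pi_mem o.2
  have h1 : C.s 0 ⟨v, h0⟩ = 0 := by
    rw [s_apply]
    refine C.q_of_pi_mul (o' := o) ?_
    change (C.pi : DD) ^ 0 * C.j v = _
    rw [pow_zero, one_mul, h]
  exact congrArg Subtype.val (hC.1 _ h1)

theorem j_injective (hC : C.Inj) : Function.Injective C.j := by
  rw [injective_iff_map_eq_zero]
  intro v hv
  refine eq_zero_of_eq_pi_mul hC 0 ?_
  rw [hv]
  simp

variable (C)

/-- the ring `E = V ∩ O` -/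
def E : Subring V where
  carrier := C.F 0
  mul_mem' {a b} ha hb := by
    have := C.F_mul 0 0 a b ha hb
    simpa using this
  one_mem' := C.F_one
  add_mem' ha hb := (C.F 0).add_mem ha hb
  zero_mem' := (C.F 0).zero_mem
  neg_mem' ha := (C.F 0).neg_mem ha


theorem j_mem_O_of_mem_E {v : V} (h : v ∈ C.E) : C.j v ∈ C.O := by
  have := C.F_O 0 v h
  rwa [pow_zero, one_mul] at this

/-- the ring `E` maps to `O` -/
def jE : C.E →+* C.O where
  toFun e := ⟨C.j e, C.j_mem_O_of_mem_E e.2⟩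
  map_one' := Subtype.ext (by simp)
  map_mul' a b := Subtype.ext (by simp)
  map_zero' := Subtype.ext (by simp)
  map_add' a b := Subtype.ext (by simp)

@[simp] theorem coe_jE (e : C.E) : ((C.jE e : C.O) : DD) = C.j e := rfl

/-- the ring homomorphism `E → Del` -/
def qE : C.E →+* Del := C.q.comp C.jE

theorem qE_apply (e : C.E) : C.qE e = C.q (C.jE e) := rfl

variable {C}

theorem qE_injective (hC : C.Inj) : Function.Injective C.qE := by
  rw [injective_iff_map_eq_zero]
  intro e he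
  obtain ⟨o', ho'⟩ := C.q_ker _ he
  exact Subtype.ext (eq_zero_of_eq_pi_mul hC o' ho')

theorem mem_E_iff (hC : C.Inj) {v : V} : v ∈ C.E ↔ C.j v ∈ C.O := mem_F_zero_iff hC

/-! ### Bases of `DD / (V + π^t O)` -/

variable (C)

/-- A pair of compatible actions of `E` on `DD` and on `Del` (left or right multiplication). -/
structure Act where
  /-- the action on `DD` -/
  A : C.E → DD →+ DD
  /-- the action on `Del` -/
  A' : C.E → Del →+ Del
  comm : ∀ e y, A e (C.pi * y) = C.pi * A e y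
  memO : ∀ e (o : C.O), A e o ∈ C.O
  q_A : ∀ e (o : C.O), C.q ⟨A e o, memO e o⟩ = A' e (C.q o)
  zero : ∀ y, A 0 y = 0
  add : ∀ e e' y, A (e + e') y = A e y + A e' y

/-- left multiplication -/
def leftAct : C.Act where
  A e := AddMonoidHom.mulLeft (C.j e)
  A' e := AddMonoidHom.mulLeft (C.qE e)
  comm e y := by
    change C.j e * (C.pi * y) = C.pi * (C.j e * y)
    rw [← mul_assoc, ← C.pi_comm, mul_assoc]
  memO e o := C.O.mul_mem (C.j_mem_O_of_mem_E e.2) o.2
  q_A e o := by
    change C.q ⟨C.j e * o, _⟩ = C.qE e * C.q o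
    rw [qE_apply, ← map_mul]
    rfl
  zero y := by
    change C.j (0 : C.E) * y = 0
    simp
  add e e' y := by
    change C.j ((e + e' : C.E) : V) * y = C.j e * y + C.j e' * y
    simp [add_mul]

/-- right multiplication -/
def rightAct : C.Act where
  A e := AddMonoidHom.mulRight (C.j e)
  A' e := AddMonoidHom.mulRight (C.qE e)
  comm e y := by
    change (C.pi * y) * C.j e = C.pi * (y * C.j e)
    rw [mul_assoc]
  memO e o := C.O.mul_mem o.2 (C.j_mem_O_of_mem_E e.2)
  q_A e o := by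
    change C.q ⟨o * C.j e, _⟩ = C.q o * C.qE e
    rw [qE_apply, ← map_mul]
    rfl
  zero y := by
    change y * C.j (0 : C.E) = 0
    simp
  add e e' y := by
    change y * C.j ((e + e' : C.E) : V) = y * C.j e + y * C.j e'
    simp [mul_add]

variable {C}

theorem Act.comm_pow (T : C.Act) (m : ℕ) (e : C.E) (y : DD) :
    T.A e ((C.pi : DD) ^ m * y) = (C.pi : DD) ^ m * T.A e y := by
  induction m with
  | zero => simp
  | succ m ih => rw [pow_succ', mul_assoc, T.comm, ih, mul_assoc]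

/-- the inverse of `π ^ m` -/
def ipow (C : Chart DD V Del) (m : ℕ) : DD := ((C.pi⁻¹ ^ m : DDˣ) : DD)

theorem pow_mul_ipow (m : ℕ) (y : DD) : (C.pi : DD) ^ m * (C.ipow m * y) = y := by
  unfold ipow
  rw [← mul_assoc, ← Units.val_pow_eq_pow_val, ← Units.val_mul]
  simp


/-- Lifts of a basis of `Del / s_l (F_l)` for all `l`. -/
structure BasisData (T : C.Act) where
  /-- index types -/
  K : ℕ → Type
  /-- lifts -/
  b : ∀ l, K l → C.O
  span : ∀ l (d : Del), ∃ (v : C.F l) (e : K l →₀ C.E),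
    d = C.s l v + e.sum fun k c => T.A' c (C.q (b l k))
  indep : ∀ l (v : C.F l) (e : K l →₀ C.E),
    (e.sum fun k c => T.A' c (C.q (b l k))) = C.s l v → e = 0

variable {T : C.Act} (B : BasisData T)

/-- the index type of the basis of `DD / (V + π^t O)`: the pairs `(l, k)` with `l + t ≥ 1` -/
abbrev BasisData.G (t : ℕ) : Type := Σ l : {l : ℕ // 1 ≤ l + t}, B.K l.1

/-- the basis elements -/
def BasisData.g (t : ℕ) (x : B.G t) : DD := C.ipow x.1.1 * B.b x.1.1 x.2


theorem Act.sum_mem (T : C.Act) {K : Type} (b : K → C.O) (e : K →₀ C.E) :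
    (e.sum fun k c => T.A c (b k : DD)) ∈ C.O :=
  C.O.sum_mem fun _ _ => T.memO _ _

theorem Act.q_sum (T : C.Act) {K : Type} (b : K → C.O) (e : K →₀ C.E) :
    C.q ⟨e.sum fun k c => T.A c (b k : DD), T.sum_mem b e⟩ =
      e.sum fun k c => T.A' c (C.q (b k)) := by
  have : (⟨e.sum fun k c => T.A c (b k : DD), T.sum_mem b e⟩ : C.O) =
      e.sum fun k c => (⟨T.A c (b k : DD), T.memO _ _⟩ : C.O) := by
    apply Subtype.ext
    simp only [Finsupp.sum]
    push_cast
    rfl
  rw [this, Finsupp.sum, map_sum]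
  exact Finset.sum_congr rfl fun k _ => T.q_A _ _

/-- one step of the generation -/
theorem BasisData.step (l : ℕ) (y : DD) (hy : (C.pi : DD) ^ l * y ∈ C.O) :
    ∃ (v : V) (o : C.O) (e : B.K l →₀ C.E),
      (C.pi : DD) ^ l * (y - C.j v - e.sum fun k c => T.A c (C.ipow l * B.b l k)) =
        C.pi * o := by
  obtain ⟨v, e, h⟩ := B.span l (C.q ⟨(C.pi : DD) ^ l * y, hy⟩)
  have h1 : (C.pi : DD) ^ l * (e.sum fun k c => T.A c (C.ipow l * B.b l k)) =
      e.sum fun k c => T.A c (B.b l k : DD) := by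
    rw [Finsupp.sum, Finset.mul_sum]
    refine Finset.sum_congr rfl fun k _ => ?_
    rw [← T.comm_pow, pow_mul_ipow]
  have h2 : C.q (⟨(C.pi : DD) ^ l * y, hy⟩ - ⟨(C.pi : DD) ^ l * C.j v, C.F_O l v v.2⟩ -
      ⟨e.sum fun k c => T.A c (B.b l k : DD), T.sum_mem _ e⟩) = 0 := by
    rw [map_sub, map_sub, T.q_sum, h, s_apply]
    abel
  obtain ⟨o, ho⟩ := C.q_ker _ h2
  refine ⟨v, o, e, ?_⟩
  rw [mul_sub, mul_sub, h1]
  exact ho

/-- the elements of level `l` -/
def BasisData.emb (t l : ℕ) (hl : 1 ≤ l + t) : B.K l ↪ B.G t :=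
  ⟨fun k => ⟨⟨l, hl⟩, k⟩, fun a b h => by
    have := (Sigma.mk.injEq _ _ _ _).mp h
    exact eq_of_heq this.2⟩

theorem BasisData.sum_mapDomain (t l : ℕ) (hl : 1 ≤ l + t) (e : B.K l →₀ C.E) :
    ((e.mapDomain (B.emb t l hl)).sum fun x c => T.A c (B.g t x)) =
      e.sum fun k c => T.A c (C.ipow l * B.b l k) := by
  rw [Finsupp.sum_mapDomain_index (h := fun x c => T.A c (B.g t x)) (fun x => T.zero _)
    (fun x c c' => T.add _ _ _)]
  rfl

/-- **generation** of `DD / (V + π^t O)` -/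
theorem BasisData.exists_rep (t : ℕ) (ht : t ≤ 1) (y : DD) :
    ∃ (v : V) (o : C.O) (e : B.G t →₀ C.E),
      y = C.j v + (C.pi : DD) ^ t * o + e.sum fun x c => T.A c (B.g t x) := by
  classical
  have main : ∀ (l : ℕ) (y : DD), (C.pi : DD) ^ l * y ∈ C.O →
      ∃ (v : V) (o : C.O) (e : B.G t →₀ C.E),
      y = C.j v + (C.pi : DD) ^ t * o + e.sum fun x c => T.A c (B.g t x) := by
    intro l
    induction l with
    | zero =>
      intro y hy
      rcases Nat.le_one_iff_eq_zero_or_eq_one.1 ht with rfl | rfl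
      · refine ⟨0, ⟨y, by rwa [pow_zero, one_mul] at hy⟩, 0, ?_⟩
        simp
      · obtain ⟨v, o, e, h⟩ := B.step 0 y hy
        refine ⟨v, o, e.mapDomain (B.emb 1 0 (by omega)), ?_⟩
        rw [B.sum_mapDomain]
        rw [pow_zero, one_mul] at h
        rw [pow_one, ← h]
        abel
    | succ l ih =>
      intro y hy
      obtain ⟨v, o, e, h⟩ := B.step (l + 1) y hy
      obtain ⟨v', o', e', h'⟩ := ih (y - C.j v - e.sum fun k c =>
        T.A c (C.ipow (l + 1) * B.b (l + 1) k)) (by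
          rw [pow_succ', mul_assoc] at h
          have h3 := C.pi.isUnit.mul_left_cancel h
          rw [h3]
          exact o.2)
      refine ⟨v' + v, o', e' + e.mapDomain (B.emb t (l + 1) (by omega)), ?_⟩
      rw [Finsupp.sum_add_index' (h := fun x c => T.A c (B.g t x)) (fun x => T.zero _)
        (fun x c c' => T.add _ _ _),
        B.sum_mapDomain, map_add]
      have h4 := sub_eq_iff_eq_add.1 (sub_eq_iff_eq_add.1 h')
      rw [h4]
      abel
  obtain ⟨m, hm⟩ := C.exh y
  exact main m y hm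

/-- **independence** in `DD / (V + π^t O)` -/
theorem BasisData.eq_zero (hC : C.Inj) (t : ℕ) (e : B.G t →₀ C.E) (v : V) (o : C.O)
    (h : (e.sum fun x c => T.A c (B.g t x)) = C.j v + (C.pi : DD) ^ t * o) : e = 0 := by
  classical
  by_contra hne
  have hsupp : e.support.Nonempty := Finsupp.support_nonempty_iff.2 hne
  obtain ⟨x₀, hx₀, hmax⟩ := Finset.exists_max_image e.support (fun x => x.1.1) hsupp
  obtain ⟨⟨m, hm⟩, k₀⟩ := x₀
  simp only at hmax
  -- the terms
  have hterm : ∀ x ∈ e.support, (C.pi : DD) ^ m * T.A (e x) (B.g t x) =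
      (C.pi : DD) ^ (m - x.1.1) * T.A (e x) (B.b x.1.1 x.2 : DD) := by
    intro x hx
    have hxm := hmax x hx
    have h5 : (C.pi : DD) ^ m = (C.pi : DD) ^ (m - x.1.1) * (C.pi : DD) ^ x.1.1 := by
      rw [← pow_add]; congr 1; omega
    rw [h5, mul_assoc, ← T.comm_pow]
    unfold BasisData.g
    rw [pow_mul_ipow]
  let tm : B.G t → C.O := fun x => ⟨(C.pi : DD) ^ (m - x.1.1) * T.A (e x) (B.b x.1.1 x.2 : DD),
    C.O.mul_mem (C.pow_mem _) (T.memO _ _)⟩
  have htm : ∀ x, x.1.1 < m → C.q (tm x) = 0 := by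
    intro x hx
    obtain ⟨r, hr⟩ : ∃ r, m - x.1.1 = r + 1 := ⟨m - x.1.1 - 1, by omega⟩
    refine C.q_of_pi_mul (o' := ⟨(C.pi : DD) ^ r * T.A (e x) (B.b x.1.1 x.2 : DD),
      C.O.mul_mem (C.pow_mem _) (T.memO _ _)⟩) ?_
    change (C.pi : DD) ^ (m - x.1.1) * _ = C.pi * ((C.pi : DD) ^ r * _)
    rw [hr, pow_succ', mul_assoc]
  have htm' : ∀ k, C.q (tm ⟨⟨m, hm⟩, k⟩) =
      T.A' (e ⟨⟨m, hm⟩, k⟩) (C.q (B.b m k)) := by
    intro k
    rw [← T.q_A]
    congr 1
    apply Subtype.ext
    change (C.pi : DD) ^ (m - m) * _ = _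
    rw [Nat.sub_self, pow_zero, one_mul]
  have hsum : (C.pi : DD) ^ m * (C.j v + (C.pi : DD) ^ t * o) =
      ((∑ x ∈ e.support, tm x : C.O) : DD) := by
    rw [← h, Finsupp.sum, Finset.mul_sum]
    push_cast
    exact Finset.sum_congr rfl hterm
  have hv : (C.pi : DD) ^ m * C.j v ∈ C.O := by
    have : (C.pi : DD) ^ m * C.j v = ((∑ x ∈ e.support, tm x : C.O) : DD) -
        (C.pi : DD) ^ m * ((C.pi : DD) ^ t * o) := by
      rw [← hsum, mul_add]; abel
    rw [this]
    exact C.O.sub_mem (Subtype.mem _) (C.O.mul_mem (C.pow_mem m)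
      (C.O.mul_mem (C.pow_mem t) o.2))
  have hvF : v ∈ C.F m := mem_F_of_pow_mul_mem hC hv
  have hq : C.s m ⟨v, hvF⟩ = ∑ x ∈ e.support, C.q (tm x) := by
    rw [← map_sum, s_apply]
    obtain ⟨r, hr⟩ : ∃ r, m + t = r + 1 := ⟨m + t - 1, by omega⟩
    have h6 : C.q (⟨(C.pi : DD) ^ m * ((C.pi : DD) ^ t * o), C.O.mul_mem (C.pow_mem m)
      (C.O.mul_mem (C.pow_mem t) o.2)⟩) = 0 := by
      refine C.q_of_pi_mul (o' := ⟨(C.pi : DD) ^ r * o, C.O.mul_mem (C.pow_mem _) o.2⟩) ?_
      change (C.pi : DD) ^ m * ((C.pi : DD) ^ t * o) = C.pi * ((C.pi : DD) ^ r * o)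
      rw [← mul_assoc, ← pow_add, hr, pow_succ', mul_assoc]
    rw [← add_zero (C.q _), ← h6, ← map_add]
    congr 1
    apply Subtype.ext
    rw [← hsum, mul_add]
    rfl
  -- restriction to level `m`
  let em : B.K m →₀ C.E := e.comapDomain (B.emb t m hm) (B.emb t m hm).injective.injOn
  have hem : (em.sum fun k c => T.A' c (C.q (B.b m k))) = C.s m ⟨v, hvF⟩ := by
    rw [hq]
    have h7 : ∑ x ∈ e.support, C.q (tm x) =
        ∑ x ∈ em.support.map (B.emb t m hm), C.q (tm x) := by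
      symm
      apply Finset.sum_subset
      · intro x hx
        rw [Finset.mem_map] at hx
        obtain ⟨k, hk, rfl⟩ := hx
        rw [Finsupp.mem_support_iff] at hk ⊢
        exact hk
      · intro x hx hx'
        apply htm
        refine lt_of_le_of_ne (hmax x hx) ?_
        intro hxm
        apply hx'
        obtain ⟨⟨l, hl⟩, k⟩ := x
        simp only at hxm
        subst hxm
        rw [Finset.mem_map]
        refine ⟨k, ?_, rfl⟩
        rw [Finsupp.mem_support_iff] at hx ⊢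
        exact hx
    rw [h7, Finset.sum_map, Finsupp.sum]
    refine Finset.sum_congr rfl fun k _ => ?_
    exact (htm' k).symm
  have h0 : em = 0 := B.indep m _ em hem
  have h8 : em k₀ = 0 := by rw [h0]; rfl
  rw [Finsupp.mem_support_iff] at hx₀
  exact hx₀ h8

end Chart

end Crest.Agent.R181.CU
end

-- ▼ part R181/CU735b

/-!
# Gradings by coactions, and the injectivity of symbols (abstract form)
-/

set_option autoImplicit false

namespace Crest.Agent.R181.CU

open Polynomial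

/-- A grading of the ring `R` in degrees `≥ 0`, given by the ring homomorphism
`r ↦ ∑ r_n X^n`. -/
structure Gr (R : Type*) [Ring R] where
  /-- the coaction -/
  γ : R →+* R[X]
  hom : ∀ r n, γ ((γ r).coeff n) = Polynomial.monomial n ((γ r).coeff n)
  sum : ∀ r, (γ r).eval 1 = r

namespace Gr

variable {R : Type*} [Ring R]



variable (G : Gr R)

/-- the homogeneous elements of degree `l` -/
def deg (l : ℕ) : AddSubgroup R where
  carrier := {r | G.γ r = Polynomial.monomial l r}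
  add_mem' {a b} ha hb := by
    change G.γ (a + b) = _
    rw [map_add, ha, hb, map_add]
  zero_mem' := by change G.γ 0 = _; simp
  neg_mem' {a} ha := by
    change G.γ (-a) = _
    rw [map_neg, ha, map_neg]

variable {G}

theorem mem_deg {l : ℕ} {r : R} : r ∈ G.deg l ↔ G.γ r = Polynomial.monomial l r := Iff.rfl

theorem coeff_mem_deg (r : R) (n : ℕ) : (G.γ r).coeff n ∈ G.deg n := G.hom r n

theorem one_mem_deg : (1 : R) ∈ G.deg 0 := by
  rw [mem_deg, map_one]
  rfl

theorem mul_mem_deg {k l : ℕ} {r s : R} (hr : r ∈ G.deg k) (hs : s ∈ G.deg l) :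
    r * s ∈ G.deg (k + l) := by
  rw [mem_deg] at *
  rw [map_mul, hr, hs, Polynomial.monomial_mul_monomial]

theorem coeff_of_mem_deg {l : ℕ} {r : R} (hr : r ∈ G.deg l) (n : ℕ) :
    (G.γ r).coeff n = if l = n then r else 0 := by
  rw [mem_deg.1 hr, Polynomial.coeff_monomial]


theorem sum_coeff (r : R) : ∑ n ∈ Finset.range ((G.γ r).natDegree + 1), (G.γ r).coeff n = r := by
  conv_rhs => rw [← G.sum r]
  rw [Polynomial.eval_eq_sum_range]
  simp

/-- a homogeneous multiple of a homogeneous central element of degree one -/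
theorem exists_of_mul {u : R} (hu : u ∈ G.deg 1) {l : ℕ} {r y : R} (hr : r ∈ G.deg l)
    (h : r = u * y) : (l = 0 ∧ r = 0) ∨ ∃ l' r', l = l' + 1 ∧ r' ∈ G.deg l' ∧ r = u * r' := by
  have h1 : (G.γ r).coeff l = r := by rw [coeff_of_mem_deg hr, if_pos rfl]
  have h2 : G.γ r = Polynomial.monomial 1 u * G.γ y := by
    rw [h, map_mul, mem_deg.1 hu]
  rcases l with _ | l
  · left
    refine ⟨rfl, ?_⟩
    rw [← h1, h2]
    simp [Polynomial.mul_coeff_zero]
  · right
    refine ⟨l, (G.γ y).coeff l, rfl, coeff_mem_deg y l, ?_⟩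
    rw [← h1, h2, Polynomial.coeff_monomial_mul]

/-- if `x` is a regular element of degree one, no homogeneous element is a multiple of `x - 1` -/
theorem eq_zero_of_eq_sub_one_mul {x : R} (hx : x ∈ G.deg 1) (hreg : ∀ y, x * y = 0 → y = 0)
    {l : ℕ} {z y : R} (hz : z ∈ G.deg l) (h : z = (x - 1) * y) : z = 0 := by
  have h2 : G.γ z = Polynomial.monomial 1 x * G.γ y - G.γ y := by
    rw [h, map_mul, map_sub, mem_deg.1 hx, map_one, sub_mul, one_mul]
  have h0 : (G.γ y).coeff 0 = - if l = 0 then z else 0 := by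
    have := congrArg (fun p => Polynomial.coeff p 0) h2
    simp only [Polynomial.coeff_sub] at this
    rw [coeff_of_mem_deg hz] at this
    rw [this]
    simp [Polynomial.mul_coeff_zero]
  have hs : ∀ k, (G.γ y).coeff (k + 1) = x * (G.γ y).coeff k - if l = k + 1 then z else 0 := by
    intro k
    have := congrArg (fun p => Polynomial.coeff p (k + 1)) h2
    simp only [Polynomial.coeff_sub] at this
    rw [coeff_of_mem_deg hz, Polynomial.coeff_monomial_mul] at this
    rw [this]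
    abel
  have hlt : ∀ k, k < l → (G.γ y).coeff k = 0 := by
    intro k
    induction k with
    | zero =>
      intro hk
      rw [h0, if_neg (by omega), neg_zero]
    | succ k ih =>
      intro hk
      rw [hs, ih (by omega), if_neg (by omega)]
      simp
  have hl : (G.γ y).coeff l = -z := by
    rcases l with _ | l
    · rw [h0, if_pos rfl]
    · rw [hs, hlt l (by omega), if_pos rfl]
      simp
  have hge : ∀ k, (G.γ y).coeff (l + k) = -(x ^ k * z) := by
    intro k
    induction k with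
    | zero => simpa using hl
    | succ k ih =>
      rw [← add_assoc, hs, ih, if_neg (by omega), pow_succ', mul_assoc]
      simp
  have hk : x ^ ((G.γ y).natDegree + 1) * z = 0 := by
    have h3 := hge ((G.γ y).natDegree + 1)
    rw [Polynomial.coeff_eq_zero_of_natDegree_lt (by omega)] at h3
    exact neg_eq_zero.1 h3.symm
  have hreg' : ∀ m, ∀ z, x ^ m * z = 0 → z = 0 := by
    intro m
    induction m with
    | zero => intro z hz; simpa using hz
    | succ m ih =>
      intro z hz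
      rw [pow_succ', mul_assoc] at hz
      exact ih z (hreg _ hz)
  exact hreg' _ z hk


end Gr

/-! ### The filtration of the affine chart -/

section filt

variable {R V : Type*} [Ring R] [Ring V] (G : Gr R) (e : R →+* V)

/-- the image filtration -/
def filt (l : ℕ) : AddSubgroup V := (G.deg l).map e.toAddMonoidHom

variable {G e}


theorem filt_mono {u : R} (hu : u ∈ G.deg 1) (heu : e u = 1) : Monotone (filt G e) := by
  refine monotone_nat_of_le_succ fun l v hv => ?_
  obtain ⟨r, hr, rfl⟩ := hv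
  refine ⟨r * u, Gr.mul_mem_deg hr hu, ?_⟩
  change e (r * u) = e r
  rw [map_mul, heu, mul_one]

theorem filt_exh {u : R} (hu : u ∈ G.deg 1) (heu : e u = 1) (he : Function.Surjective e) (v : V) :
    ∃ l, v ∈ filt G e l := by
  obtain ⟨r, rfl⟩ := he v
  refine ⟨(G.γ r).natDegree, ?_⟩
  have h1 : ∑ n ∈ Finset.range ((G.γ r).natDegree + 1), e ((G.γ r).coeff n) = e r := by
    rw [← map_sum, Gr.sum_coeff (G := G) r]
  rw [← h1]
  refine sum_mem fun n hn => ?_
  rw [Finset.mem_range] at hn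
  exact filt_mono hu heu (Nat.lt_succ_iff.1 hn) ⟨_, Gr.coeff_mem_deg r n, rfl⟩

theorem filt_one : (1 : V) ∈ filt G e 0 := ⟨1, Gr.one_mem_deg, map_one e⟩

theorem filt_mul (k l : ℕ) (v w : V) (hv : v ∈ filt G e k) (hw : w ∈ filt G e l) :
    v * w ∈ filt G e (k + l) := by
  obtain ⟨r, hr, rfl⟩ := hv
  obtain ⟨s, hs, rfl⟩ := hw
  exact ⟨r * s, Gr.mul_mem_deg hr hs, map_mul e r s⟩

end filt

/-- the data of a chart without the affine part -/
structure OData (DD Del : Type*) [Ring DD] [Ring Del] where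
  /-- the complete subring -/
  O : Subring DD
  /-- the central unit -/
  pi : DDˣ
  pi_comm : ∀ y : DD, (pi : DD) * y = y * pi
  pi_mem : (pi : DD) ∈ O
  exh : ∀ y : DD, ∃ m : ℕ, (pi : DD) ^ m * y ∈ O
  /-- the residue map -/
  q : O →+* Del
  q_surj : Function.Surjective q
  q_ker : ∀ o : O, q o = 0 → ∃ o' : O, (o : DD) = pi * o'
  q_pi : q ⟨pi, pi_mem⟩ = 0

section chart

variable {DD Del R V : Type*} [Ring DD] [Ring Del] [Ring R] [Ring V]

/-- The chart attached to a graded ring `R` (with `V = R / (u - 1)`) and `B : R → O` with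
`B r = π ^ l * j (e r)` for `r` homogeneous of degree `l`. -/
def mkChart (A : OData DD Del) (G : Gr R) (e : R →+* V) (he : Function.Surjective e)
    (u : R) (hu : u ∈ G.deg 1) (heu : e u = 1) (j : V →+* DD) (B : R →+* A.O)
    (hB : ∀ l, ∀ r ∈ G.deg l, (A.pi : DD) ^ l * j (e r) = B r) : Chart DD V Del where
  O := A.O
  pi := A.pi
  pi_comm := A.pi_comm
  pi_mem := A.pi_mem
  exh := A.exh
  q := A.q
  q_surj := A.q_surj
  q_ker := A.q_ker
  q_pi := A.q_pi
  j := j
  F := filt G e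
  F_mono := filt_mono hu heu
  F_exh := filt_exh hu heu he
  F_one := filt_one
  F_mul := filt_mul
  F_O := by
    rintro l _ ⟨r, hr, rfl⟩
    have := hB l r hr
    rw [show (e.toAddMonoidHom r : V) = e r from rfl, this]
    exact (B r).2

theorem mkChart_s (A : OData DD Del) (G : Gr R) (e : R →+* V) (he : Function.Surjective e)
    (u : R) (hu : u ∈ G.deg 1) (heu : e u = 1) (j : V →+* DD) (B : R →+* A.O)
    (hB : ∀ l, ∀ r ∈ G.deg l, (A.pi : DD) ^ l * j (e r) = B r) {l : ℕ} {r : R}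
    (hr : r ∈ G.deg l) (v : (mkChart A G e he u hu heu j B hB).F l) (hv : (v : V) = e r) :
    (mkChart A G e he u hu heu j B hB).s l v = A.q (B r) := by
  rw [Chart.s_apply]
  change A.q _ = A.q _
  congr 1
  apply Subtype.ext
  change (A.pi : DD) ^ l * j v = B r
  rw [hv, hB l r hr]

/-- **Lemma 3, injectivity of symbols** -/
theorem mkChart_inj (A : OData DD Del) (G : Gr R) (e : R →+* V) (he : Function.Surjective e)
    (u : R) (hu : u ∈ G.deg 1) (heu : e u = 1) (j : V →+* DD) (B : R →+* A.O)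
    (hB : ∀ l, ∀ r ∈ G.deg l, (A.pi : DD) ^ l * j (e r) = B r)
    (hinj : ∀ l, ∀ r ∈ G.deg l, A.q (B r) = 0 → ∃ y, r = u * y) :
    (mkChart A G e he u hu heu j B hB).Inj := by
  constructor
  · rintro ⟨_, ⟨r, hr, rfl⟩⟩ hs
    rw [mkChart_s A G e he u hu heu j B hB hr _ rfl] at hs
    obtain ⟨y, hy⟩ := hinj 0 r hr hs
    rcases Gr.exists_of_mul hu hr hy with ⟨-, h0⟩ | ⟨l', r', h1, -, -⟩
    · apply Subtype.ext
      change e r = 0
      rw [h0, map_zero]
    · omega
  · rintro l ⟨_, ⟨r, hr, rfl⟩⟩ hs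
    rw [mkChart_s A G e he u hu heu j B hB hr _ rfl] at hs
    obtain ⟨y, hy⟩ := hinj _ r hr hs
    rcases Gr.exists_of_mul hu hr hy with ⟨h0, -⟩ | ⟨l', r', h1, h2, h3⟩
    · omega
    · obtain rfl : l = l' := by omega
      change e r ∈ filt G e l
      rw [h3, map_mul, heu, one_mul]
      exact ⟨r', h2, rfl⟩

end chart

end Crest.Agent.R181.CU
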