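import Crest.Agent.R181.V868a

/-!
# R181, V-chain, block V1: the opposite layer

* `VL.Line.op`: the opposite line;
* `VL.lsOp : (LaurentSeries T)ᵐᵒᵖ ≃+* LaurentSeries Tᵐᵒᵖ`, `VL.psOp : (PowerSeries A)ᵐᵒᵖ ≃+* PowerSeries Aᵐᵒᵖ`
  (coefficientwise);
* `VL.UnivT.op : UnivT L T → UnivT L.op Tᵐᵒᵖ`.
-/

namespace Crest.Agent.R181.VL

open Crest.Agent.R181.V868 MulOpposite

universe u

noncomputable section

/-! ## Laurent series and power series over the opposite ring -/

section Series

variable (T : Type*) [Ring T]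

/-- coefficientwise `op` on Laurent series -/
def lop (x : LaurentSeries T) : LaurentSeries Tᵐᵒᵖ where
  coeff n := op (x.coeff n)
  isPWO_support' := by
    have : (Function.support fun n => op (x.coeff n)) = x.support := by
      ext n; simp
    rw [this]
    exact x.isPWO_support

/-- coefficientwise `unop` on Laurent series -/
def lunop (x : LaurentSeries Tᵐᵒᵖ) : LaurentSeries T where
  coeff n := unop (x.coeff n)
  isPWO_support' := by
    have : (Function.support fun n => unop (x.coeff n)) = x.support := by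
      ext n; simp
    rw [this]
    exact x.isPWO_support

variable {T}

@[simp] theorem coeff_lop (x : LaurentSeries T) (n : ℤ) : (lop T x).coeff n = op (x.coeff n) := rfl

@[simp] theorem coeff_lunop (x : LaurentSeries Tᵐᵒᵖ) (n : ℤ) :
    (lunop T x).coeff n = unop (x.coeff n) := rfl

theorem support_lop (x : LaurentSeries T) : (lop T x).support = x.support := by
  ext n; simp

theorem lop_mul (x y : LaurentSeries T) : lop T (x * y) = lop T y * lop T x := by
  ext n
  rw [coeff_lop, HahnSeries.coeff_mul, HahnSeries.coeff_mul, Finset.op_sum]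
  refine Finset.sum_bij' (fun ij _ => ij.swap) (fun ij _ => ij.swap) ?_ ?_ ?_ ?_ ?_
  · intro ij h
    rw [Finset.mem_antidiagonal] at h
    rw [Finset.mem_antidiagonal]
    refine ⟨?_, ?_, ?_⟩
    · rw [support_lop]; exact h.2.1
    · rw [support_lop]; exact h.1
    · rw [Prod.fst_swap, Prod.snd_swap, add_comm]; exact h.2.2
  · intro ij h
    rw [Finset.mem_antidiagonal] at h
    rw [Finset.mem_antidiagonal]
    refine ⟨?_, ?_, ?_⟩
    · have := h.2.1; rw [support_lop] at this; exact this
    · have := h.1; rw [support_lop] at this; exact this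
    · rw [Prod.fst_swap, Prod.snd_swap, add_comm]; exact h.2.2
  · intro ij _; rfl
  · intro ij _; rfl
  · intro ij _
    simp

variable (T) in
/-- `(LaurentSeries T)ᵐᵒᵖ ≃+* LaurentSeries Tᵐᵒᵖ`, coefficientwise -/
def lsOp : (LaurentSeries T)ᵐᵒᵖ ≃+* LaurentSeries Tᵐᵒᵖ where
  toFun x := lop T x.unop
  invFun x := op (lunop T x)
  left_inv x := by
    apply unop_injective
    ext n; rfl
  right_inv x := by ext n; rfl
  map_mul' x y := by
    rw [unop_mul, lop_mul]
  map_add' x y := by
    ext n; simp

@[simp] theorem coeff_lsOp (x : (LaurentSeries T)ᵐᵒᵖ) (n : ℤ) :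
    (lsOp T x).coeff n = op (x.unop.coeff n) := rfl

@[simp] theorem coeff_lsOp_symm (x : LaurentSeries Tᵐᵒᵖ) (n : ℤ) :
    ((lsOp T).symm x).unop.coeff n = unop (x.coeff n) := rfl

theorem lsOp_single (n : ℤ) (a : T) :
    lsOp T (op (HahnSeries.single n a)) = HahnSeries.single n (op a) := by
  ext m
  rw [coeff_lsOp, unop_op, HahnSeries.coeff_single, HahnSeries.coeff_single]
  split_ifs
  · rfl
  · rfl

variable (T) in
/-- `(PowerSeries A)ᵐᵒᵖ ≃+* PowerSeries Aᵐᵒᵖ`, coefficientwise -/
def psOp : (PowerSeries T)ᵐᵒᵖ ≃+* PowerSeries Tᵐᵒᵖ where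
  toFun x := PowerSeries.mk fun n => op (PowerSeries.coeff n x.unop)
  invFun x := op (PowerSeries.mk fun n => unop (PowerSeries.coeff n x))
  left_inv x := by
    apply unop_injective
    ext n; simp
  right_inv x := by ext n; simp
  map_mul' x y := by
    ext n
    rw [PowerSeries.coeff_mk, unop_mul, PowerSeries.coeff_mul, PowerSeries.coeff_mul,
      Finset.op_sum]
    refine Finset.sum_bij' (fun ij _ => ij.swap) (fun ij _ => ij.swap) ?_ ?_ ?_ ?_ ?_
    · intro ij h
      rw [Finset.HasAntidiagonal.mem_antidiagonal] at h ⊢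
      rw [Prod.fst_swap, Prod.snd_swap, add_comm]; exact h
    · intro ij h
      rw [Finset.HasAntidiagonal.mem_antidiagonal] at h ⊢
      rw [Prod.fst_swap, Prod.snd_swap, add_comm]; exact h
    · intro ij _; rfl
    · intro ij _; rfl
    · intro ij _
      simp
  map_add' x y := by
    ext n; simp

@[simp] theorem coeff_psOp (x : (PowerSeries T)ᵐᵒᵖ) (n : ℕ) :
    PowerSeries.coeff n (psOp T x) = op (PowerSeries.coeff n x.unop) := by
  simp [psOp]

@[simp] theorem coeff_psOp_symm (x : PowerSeries Tᵐᵒᵖ) (n : ℕ) :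
    PowerSeries.coeff n ((psOp T).symm x).unop = unop (PowerSeries.coeff n x) := by
  simp [psOp]


end Series

/-! ## the opposite line -/

variable {DD : Type u} [Ring DD]

/-- the opposite line -/
def _root_.Crest.Agent.R181.V868.Line.op (L : Line DD) : Line DDᵐᵒᵖ where
  V := L.V.op
  O := L.O.op
  x := MulOpposite.op L.x
  p := MulOpposite.op L.p
  xp := by rw [← MulOpposite.op_mul, L.px, MulOpposite.op_one]
  px := by rw [← MulOpposite.op_mul, L.xp, MulOpposite.op_one]
  xc d := by
    apply unop_injective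
    rw [unop_mul, unop_mul, unop_op, L.xc]
  pc d := by
    apply unop_injective
    rw [unop_mul, unop_mul, unop_op, L.pc]
  xV := L.xV
  pO := L.pO
  exh d := by
    obtain ⟨m, hm⟩ := L.exh d.unop
    refine ⟨m, ?_⟩
    rw [Subring.mem_op, unop_mul, unop_pow, unop_op]
    have : Commute L.p d.unop := L.pc _
    rw [← (this.pow_left m).eq]
    exact hm
  disj o ho h := by
    rw [Subring.mem_op, unop_mul, unop_op, ← L.pc] at h
    have := L.disj o.unop ho h
    exact unop_injective this




theorem op_p (L : Line DD) : L.op.p = op L.p := rfl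

/-- `O → (O^op)^op` -/
def oEquiv (L : Line DD) : L.O ≃+* (L.op.O)ᵐᵒᵖ := L.O.ringEquivOpMop


/-- **the opposite of a universal ring is universal** -/
def _root_.Crest.Agent.R181.V868.UnivT.op {L : Line DD} {T : Type u} [Ring T] (U : UnivT L T) :
    UnivT L.op Tᵐᵒᵖ where
  Θ := (lsOp T).toRingHom.comp U.Θ.op
  Θx := by
    show lsOp T (MulOpposite.op (U.Θ L.x)) = _
    rw [U.Θx, lsOp_single]; rfl
  ΘV v hv n hn := by
    show (lsOp T (MulOpposite.op (U.Θ v.unop))).coeff n = 0
    rw [coeff_lsOp, unop_op, U.ΘV v.unop hv n hn]; rfl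
  ΘO o ho n hn := by
    show (lsOp T (MulOpposite.op (U.Θ o.unop))).coeff n = 0
    rw [coeff_lsOp, unop_op, U.ΘO o.unop ho n hn]; rfl
  gen := by
    have h := congrArg Subring.op U.gen
    rw [Subring.op_closure, Subring.op_top] at h
    rw [← h]
    congr 1
    ext t
    constructor
    · rintro ⟨d, n, rfl⟩
      exact ⟨d.unop, n, rfl⟩
    · rintro ⟨d, n, h⟩
      exact ⟨MulOpposite.op d, n, unop_injective h⟩
  univ A _ θ hp hV := by
    -- transport to a hom `O →+* PowerSeries Aᵐᵒᵖ`
    let θ' : L.O →+* PowerSeries Aᵐᵒᵖ :=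
      (psOp A).toRingHom.comp (θ.op.comp (oEquiv L).toRingHom)
    have hθ' : ∀ (o : L.O) (n : ℕ), PowerSeries.coeff n (θ' o) =
        MulOpposite.op (PowerSeries.coeff n (θ (oEquiv L o).unop)) := by
      intro o n
      show PowerSeries.coeff n (psOp A (MulOpposite.op (θ (oEquiv L o).unop))) = _
      rw [coeff_psOp, unop_op]
    obtain ⟨f, hf⟩ := U.univ Aᵐᵒᵖ θ' (by
      ext n
      rw [hθ']
      have e : (oEquiv L ⟨L.p, L.pO⟩).unop = ⟨L.op.p, L.op.pO⟩ := rfl
      rw [e, hp, PowerSeries.coeff_X, PowerSeries.coeff_X]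
      split_ifs <;> rfl) (by
      intro v hv l n h hln
      rw [hθ']
      have hv' : L.op.p ^ l * MulOpposite.op v = MulOpposite.op (L.p ^ l * v) := by
        apply unop_injective
        rw [unop_mul, unop_pow, op_p, unop_op, unop_op, unop_op]
        have : Commute L.p v := L.pc _
        rw [(this.pow_left l).eq]
      have h' : L.op.p ^ l * MulOpposite.op v ∈ L.op.O := by
        rw [hv']; exact h
      have e : (oEquiv L ⟨L.p ^ l * v, h⟩).unop = ⟨L.op.p ^ l * MulOpposite.op v, h'⟩ :=
        Subtype.ext hv'.symm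
      rw [e, hV (MulOpposite.op v) hv l n h' hln, MulOpposite.op_zero])
    refine ⟨{ toFun := fun t => (f t.unop).unop
              map_one' := by simp
              map_mul' := fun a b => by simp
              map_zero' := by simp
              map_add' := fun a b => by simp }, fun o n => ?_⟩
    have h1 := hf ((oEquiv L).symm (MulOpposite.op o)) n
    rw [hθ', RingEquiv.apply_symm_apply, MulOpposite.unop_op] at h1
    show PowerSeries.coeff n (θ o) = (f ((lsOp T (MulOpposite.op (U.Θ (o : DDᵐᵒᵖ).unop))).coeff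
      (n : ℤ)).unop).unop
    rw [coeff_lsOp, MulOpposite.unop_op, MulOpposite.unop_op]
    have h2 : (((oEquiv L).symm (MulOpposite.op o) : L.O) : DD) = (o : DDᵐᵒᵖ).unop := rfl
    rw [h2] at h1
    rw [← h1, MulOpposite.unop_op]

end

end Crest.Agent.R181.VL
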