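import Mathlib

/-!
# R181, V-chain, block V1: definitions

`Line DD`: a ring with subrings `V`, `O` and a central unit `p` (`x = p⁻¹`), "the line".
`LB L`: left bases of `DD/(V+O)` and `DD/(V+pO)` over `E = V ∩ O`.
`UnivT L T`: `T` is the universal ring with `DD → T((p))`, `V → T[x]`, `O → T[[p]]`.
-/

namespace Crest.Agent.R181.V868

universe u

structure Line (DD : Type u) [Ring DD] where
  V : Subring DD
  O : Subring DD
  x : DD
  p : DD
  xp : x * p = 1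
  px : p * x = 1
  xc : ∀ d, x * d = d * x
  pc : ∀ d, p * d = d * p
  xV : x ∈ V
  pO : p ∈ O
  exh : ∀ d, ∃ m : ℕ, p ^ m * d ∈ O
  disj : ∀ o ∈ O, p * o ∈ V → o = 0

/-- left bases of `Γ₀ = DD/(V+O)` and `Γ₁ = DD/(V+pO)` over `E = V ∩ O` -/
structure LB {DD : Type u} [Ring DD] (L : Line DD) where
  I0 : Type u
  I1 : Type u
  g0 : I0 → DD
  g1 : I1 → DD
  span0 : ∀ d, ∃ c : I0 →₀ DD, (∀ i, c i ∈ L.V ⊓ L.O) ∧
    ∃ v ∈ L.V, ∃ o ∈ L.O, d = v + o + c.sum (fun i e => e * g0 i)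
  ind0 : ∀ c : I0 →₀ DD, (∀ i, c i ∈ L.V ⊓ L.O) → ∀ v ∈ L.V, ∀ o ∈ L.O,
    c.sum (fun i e => e * g0 i) = v + o → c = 0
  span1 : ∀ d, ∃ c : I1 →₀ DD, (∀ i, c i ∈ L.V ⊓ L.O) ∧
    ∃ v ∈ L.V, ∃ o ∈ L.O, d = v + L.p * o + c.sum (fun i e => e * g1 i)
  ind1 : ∀ c : I1 →₀ DD, (∀ i, c i ∈ L.V ⊓ L.O) → ∀ v ∈ L.V, ∀ o ∈ L.O,
    c.sum (fun i e => e * g1 i) = v + L.p * o → c = 0

/-- `T` is the universal ring with `DD → T((p))`, `V → T[x]`, `O → T[[p]]` -/
structure UnivT {DD : Type u} [Ring DD] (L : Line DD) (T : Type u) [Ring T] where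
  Θ : DD →+* LaurentSeries T
  Θx : Θ L.x = HahnSeries.single (-1) 1
  ΘV : ∀ v ∈ L.V, ∀ n : ℤ, 0 < n → (Θ v).coeff n = 0
  ΘO : ∀ o ∈ L.O, ∀ n : ℤ, n < 0 → (Θ o).coeff n = 0
  gen : Subring.closure {t : T | ∃ (d : DD) (n : ℤ), t = (Θ d).coeff n} = ⊤
  univ : ∀ (A : Type u) [Ring A] (θ : L.O →+* PowerSeries A),
    θ ⟨L.p, L.pO⟩ = PowerSeries.X →
    (∀ v ∈ L.V, ∀ (l n : ℕ) (h : L.p ^ l * v ∈ L.O), l < n →
      PowerSeries.coeff n (θ ⟨L.p ^ l * v, h⟩) = 0) →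
    ∃ f : T →+* A, ∀ (o : L.O) (n : ℕ),
      PowerSeries.coeff n (θ o) = f ((Θ (o : DD)).coeff (n : ℤ))

namespace LB

variable {DD : Type u} [Ring DD] {L : Line DD} (B : LB L)

/-- nonroot words -/
abbrev Wd : Type u := List B.I0 × B.I1

/-- all words; `none` is the root `1` -/
abbrev W : Type u := Option B.Wd

/-- parent of a word -/
def par : B.Wd → B.W
  | ([], _) => none
  | (_ :: l, j) => some (l, j)

/-- label of a word (lift of its first letter) -/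
def lab : B.Wd → DD
  | ([], j) => B.g1 j
  | (i :: _, _) => B.g0 i

/-- level -/
def lev : B.W → ℕ
  | none => 0
  | some κ => κ.1.length + 1

/-- the big left module -/
abbrev MM : Type u := B.W →₀ DD

/-- `G_aff` -/
def Gaff : Submodule ℤ B.MM where
  carrier := {f | ∀ w, f w ∈ L.V}
  add_mem' := fun {a b} ha hb w => by
    rw [Finsupp.add_apply]; exact L.V.add_mem (ha w) (hb w)
  zero_mem' := fun w => by rw [Finsupp.zero_apply]; exact L.V.zero_mem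
  smul_mem' := fun n f hf w => by
    rw [Finsupp.smul_apply]; exact L.V.zsmul_mem (hf w) n

/-- the coordinates of `p • G_inf` -/
def H : Submodule ℤ B.MM where
  carrier := {f | (∃ o ∈ L.O, f none = L.p * o) ∧ ∀ κ, f (some κ) ∈ L.O}
  add_mem' := by
    rintro a b ⟨⟨o, ho, h1⟩, h2⟩ ⟨⟨o', ho', h1'⟩, h2'⟩
    refine ⟨⟨o + o', L.O.add_mem ho ho', ?_⟩, fun κ => ?_⟩
    · rw [Finsupp.add_apply, h1, h1', mul_add]
    · rw [Finsupp.add_apply]; exact L.O.add_mem (h2 κ) (h2' κ)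
  zero_mem' := ⟨⟨0, L.O.zero_mem, by simp⟩, fun κ => by
    rw [Finsupp.zero_apply]; exact L.O.zero_mem⟩
  smul_mem' := by
    rintro n a ⟨⟨o, ho, h1⟩, h2⟩
    refine ⟨⟨n • o, L.O.zsmul_mem ho n, ?_⟩, fun κ => ?_⟩
    · rw [Finsupp.smul_apply, h1, mul_smul_comm]
    · rw [Finsupp.smul_apply]; exact L.O.zsmul_mem (h2 κ) n

/-- `κ ↦ κ - lab κ • par κ`, root `↦` root -/
noncomputable def vec : B.W → B.MM
  | none => Finsupp.single none 1
  | some κ => Finsupp.single (some κ) 1 - Finsupp.single (B.par κ) (B.lab κ)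

/-- the `DD`-linear change of basis -/
noncomputable def dP : B.MM →ₗ[DD] B.MM := Finsupp.linearCombination DD B.vec

/-- `p • G_inf` -/
noncomputable def BB : Submodule ℤ B.MM := B.H.map (B.dP.restrictScalars ℤ)

end LB

end Crest.Agent.R181.V868
private theorem rz_9efc408358 : type_of% @_root_.Crest.Agent.R181.V868.LB.lab.eq_1 := @_root_.Crest.Agent.R181.V868.LB.lab.eq_1 -- L74
private theorem rz_0a089a71f0 : type_of% @_root_.Crest.Agent.R181.V868.LB.lev.eq_1 := @_root_.Crest.Agent.R181.V868.LB.lev.eq_1 -- L79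
private theorem rz_0f2008fee9 : type_of% @_root_.Crest.Agent.R181.V868.LB.par.eq_1 := @_root_.Crest.Agent.R181.V868.LB.par.eq_1 -- L69
private theorem rz_91931b7391 : type_of% @_root_.Crest.Agent.R181.V868.LB.vec.eq_1 := @_root_.Crest.Agent.R181.V868.LB.vec.eq_1 -- L112
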