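import Crest.Agent.R181.UR396d

/-!
R181 (helper396): gradings as coactions `Δ : R →+* R[z]`, and the coaction of `U` for homogeneous
data.
-/

set_option autoImplicit false
set_option linter.unusedSectionVars false

namespace Crest.Agent.R181.UR

open AddMonoidAlgebra
open scoped Polynomial

/-- A grading of a ring by `ℕ`, as a coaction. -/
structure Gr {R : Type*} [Ring R] (Δ : R →+* R[X]) : Prop where
  counit : ∀ r, (Δ r).sum (fun _ a => a) = r
  coassoc : ∀ r n, Δ ((Δ r).coeff n) = Polynomial.monomial n ((Δ r).coeff n)

/-- homogeneous elements of degree `n` -/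
def hom {R : Type*} [Ring R] (Δ : R →+* R[X]) (n : ℕ) : AddSubgroup R where
  carrier := {r | Δ r = Polynomial.monomial n r}
  zero_mem' := by simp
  add_mem' := by
    intro x y hx hy
    simp only [Set.mem_ofPred_eq] at *
    rw [map_add, map_add, hx, hy]
  neg_mem' := by
    intro x hx
    simp only [Set.mem_ofPred_eq] at *
    rw [map_neg, map_neg, hx]

section Gr

variable {R : Type*} [Ring R] {Δ : R →+* R[X]}

theorem mem_hom {n : ℕ} {r : R} : r ∈ hom Δ n ↔ Δ r = Polynomial.monomial n r := Iff.rfl

theorem Gr.comp_mem (h : Gr Δ) (r : R) (n : ℕ) : (Δ r).coeff n ∈ hom Δ n := h.coassoc r n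





/-- decomposition into homogeneous components -/
theorem Gr.sum_comp (h : Gr Δ) (r : R) (N : ℕ) (hN : (Δ r).natDegree ≤ N) :
    ∑ n ∈ Finset.range (N + 1), (Δ r).coeff n = r := by
  conv_rhs => rw [← h.counit r]
  rw [Polynomial.sum_over_range' (Δ r) (f := fun _ a => a) (fun _ => rfl) (N + 1)
    (Nat.lt_succ_of_le hN)]

theorem Gr.exists_sum (h : Gr Δ) (r : R) : ∃ N : ℕ, ∃ c : ℕ → R, (∀ n, c n ∈ hom Δ n) ∧
    r = ∑ n ∈ Finset.range (N + 1), c n :=
  ⟨(Δ r).natDegree, fun n => (Δ r).coeff n, fun n => h.comp_mem r n,
    (h.sum_comp r _ le_rfl).symm⟩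




end Gr

section Coaction

variable {F D L I σ : Type} [CommRing F] [Ring D] [Algebra F D] [CommRing L] [Algebra F L]
  [Fintype I] [Fintype σ]
  (a : I → ℕ) (th : I → I → F) (Q : I → MvPolynomial (Option σ) L) (w : I → σ → D)

/-- the substitution `s ↦ z * s` -/
def Xz [DecidableEq σ] {L' : Type} [CommRing L'] (z : L') : Option σ → Option σ → L'
  | none, none => z
  | none, some _ => 0
  | some _, none => 0
  | some v, some v' => if v = v' then 1 else 0

/-- homogeneity of the data -/
structure Hmg [DecidableEq σ] (δ : L →+* L[X]) : Prop extends Gr δ where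
  base : ∀ c : F, δ (algebraMap F L c) = Polynomial.C (algebraMap F L c)
  Q_eq : ∀ i, mp (Option σ) δ (Q i) = subL Polynomial.C (Xz Polynomial.X) (Q i)

variable {Q} [DecidableEq σ] {δ : L →+* L[X]}

theorem exists_coact (h : Hmg (F := F) Q δ) :
    ∃ Δ : U a th Q w →+* (U a th Q w)[X],
      (∀ d, Δ (iD a th Q w d) = Polynomial.C (iD a th Q w d)) ∧
      (∀ x, Δ (iL a th Q w x) = Polynomial.map (iL a th Q w) (δ x)) ∧
      ∀ i, Δ (eta a th Q w i) = Polynomial.monomial 1 (eta a th Q w i) := by
  have hcen : ∀ (x : L[X]) (y : (U a th Q w)[X]),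
      Commute (Polynomial.mapRingHom (iL a th Q w) x) y := by
    intro x y
    induction x using Polynomial.induction_on' with
    | add p q hp hq => rw [map_add]; exact hp.add_left hq
    | monomial n c =>
      rw [Polynomial.coe_mapRingHom, Polynomial.map_monomial]
      show _ * _ = _ * _
      ext m
      rw [← Polynomial.C_mul_X_pow_eq_monomial, mul_assoc, Polynomial.X_pow_mul, ← mul_assoc,
        ← mul_assoc, Polynomial.coeff_mul_X_pow', Polynomial.coeff_mul_X_pow']
      split_ifs with hnm
      · rw [Polynomial.coeff_C_mul, Polynomial.coeff_mul_C]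
        exact (iL_comm a th Q w c _).eq
      · rfl
  have h1 := (isTuple_wU a th Q w).subst (Polynomial.C : U a th Q w →+* _)
    (Polynomial.C : L →+* L[X]) _ (Polynomial.mapRingHom (iL a th Q w)) hcen
    (Xz Polynomial.X) (by ext x; simp) (fun c => rfl)
  have h2 : IsTuple a th (fun i => mp (Option σ) δ (Q i)) (Polynomial.mapRingHom (iL a th Q w))
      (ext' (fun i v => Polynomial.C (iD a th Q w (w i v)))
        (fun i => Polynomial.monomial 1 (eta a th Q w i))) := by
    have e : (fun i v' => ∑ v, Polynomial.C (wU a th Q w i v) *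
        Polynomial.mapRingHom (iL a th Q w) (Xz Polynomial.X v v')) =
        (ext' (fun i v => Polynomial.C (iD a th Q w (w i v)))
        (fun i => Polynomial.monomial 1 (eta a th Q w i))) := by
      funext i v'
      rw [Fintype.sum_option]
      rcases v' with _ | v'
      · simp [Xz, wU, Polynomial.C_mul_X_eq_monomial]
      · simp only [Xz, wU]
        simp [apply_ite]
    rw [e] at h1
    simp only [h.Q_eq]
    exact h1
  rw [isTuple_map_iff (Q := Q) a th δ h.base (fun i => rfl)] at h2
  obtain ⟨Δ, hD, hL, hη⟩ := exists_lift (a := a) (th := th) (Q := Q) (w := w)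
    ((Polynomial.C : U a th Q w →+* _).comp (iD a th Q w))
    ((Polynomial.mapRingHom (iL a th Q w)).comp δ)
    (fun i => Polynomial.monomial 1 (eta a th Q w i)) (by
      intro c
      rw [RingHom.comp_apply, RingHom.comp_apply, h.base, iD_base]
      simp) (fun _ _ => hcen _ _) (fun _ _ => hcen _ _) h2
  exact ⟨Δ, hD, hL, hη⟩

/-- the coaction -/
noncomputable def coact (h : Hmg (F := F) Q δ) : U a th Q w →+* (U a th Q w)[X] :=
  (exists_coact a th w h).choose

variable (h : Hmg (F := F) Q δ)

@[simp] theorem coact_iD (d : D) : coact a th w h (iD a th Q w d) = Polynomial.C (iD a th Q w d) :=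
  (exists_coact a th w h).choose_spec.1 d

theorem coact_iL (x : L) : coact a th w h (iL a th Q w x) =
    Polynomial.map (iL a th Q w) (δ x) :=
  (exists_coact a th w h).choose_spec.2.1 x

@[simp] theorem coact_eta (i : I) : coact a th w h (eta a th Q w i) =
    Polynomial.monomial 1 (eta a th Q w i) :=
  (exists_coact a th w h).choose_spec.2.2 i

theorem gr_coact : Gr (coact a th w h) where
  counit r := by
    let e : (U a th Q w)[X] →+* U a th Q w :=
      Polynomial.eval₂RingHom' (RingHom.id _) 1 (fun _ => Commute.one_right _)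
    have hs : ∀ p : (U a th Q w)[X], p.sum (fun _ a => a) = e p := by
      intro p
      show _ = Polynomial.eval₂ _ _ _
      rw [Polynomial.eval₂_eq_sum]; simp
    have he : e.comp (coact a th w h) = RingHom.id _ := by
      refine hom_ext' (A := U a th Q w) a th Q w (fun d => ?_) (fun x => ?_) (fun i => ?_)
      · rw [RingHom.comp_apply, coact_iD]
        show Polynomial.eval₂ _ _ _ = _
        simp
      · rw [RingHom.comp_apply, coact_iL]
        have h1 := h.counit x
        have hs' : (δ x).sum (fun _ a => a) = (δ x).eval 1 := by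
          rw [Polynomial.eval_eq_sum]; simp
        rw [hs'] at h1
        show Polynomial.eval 1 _ = _
        conv_rhs => rw [← h1]
        rw [← map_one (iL a th Q w), Polynomial.eval_map, Polynomial.eval₂_at_apply]
        rfl
      · rw [RingHom.comp_apply, coact_eta]
        show Polynomial.eval₂ _ _ _ = _
        simp
    rw [hs]
    exact RingHom.congr_fun he r
  coassoc r := by
    refine generation a th Q w (fun r => ∀ n, coact a th w h ((coact a th w h r).coeff n) =
      Polynomial.monomial n ((coact a th w h r).coeff n)) ?_ ?_ ?_ ?_ ?_ r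
    · intro d n
      show coact a th w h ((coact a th w h (iD a th Q w d)).coeff n) = _
      rw [coact_iD, Polynomial.coeff_C]
      split_ifs with hn
      · subst hn; rw [coact_iD]; rfl
      · simp
    · intro x n
      show coact a th w h ((coact a th w h (iL a th Q w x)).coeff n) =
        Polynomial.monomial n ((coact a th w h (iL a th Q w x)).coeff n)
      rw [coact_iL, Polynomial.coeff_map, coact_iL, h.coassoc, Polynomial.map_monomial]
    · intro i n
      show coact a th w h ((coact a th w h (eta a th Q w i)).coeff n) =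
        Polynomial.monomial n ((coact a th w h (eta a th Q w i)).coeff n)
      rw [coact_eta, Polynomial.coeff_monomial]
      split_ifs with hn
      · subst hn; rw [coact_eta]
      · simp
    · intro x y hx hy n
      show coact a th w h ((coact a th w h (x + y)).coeff n) =
        Polynomial.monomial n ((coact a th w h (x + y)).coeff n)
      rw [map_add, Polynomial.coeff_add, map_add, hx n, hy n, map_add]
    · intro x y hx hy n
      show coact a th w h ((coact a th w h (x * y)).coeff n) =
        Polynomial.monomial n ((coact a th w h (x * y)).coeff n)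
      rw [map_mul, Polynomial.coeff_mul, map_sum, map_sum]
      refine Finset.sum_congr rfl fun p hp => ?_
      rw [map_mul, hx, hy, Polynomial.monomial_mul_monomial, Finset.HasAntidiagonal.mem_antidiagonal.1 hp]

theorem iD_mem_hom (d : D) : iD a th Q w d ∈ hom (coact a th w h) 0 := by
  rw [mem_hom, coact_iD]; rfl

theorem eta_mem_hom (i : I) : eta a th Q w i ∈ hom (coact a th w h) 1 := by
  rw [mem_hom, coact_eta]

theorem iL_mem_hom {x : L} {n : ℕ} (hx : x ∈ hom δ n) :
    iL a th Q w x ∈ hom (coact a th w h) n := by
  rw [mem_hom, coact_iL, mem_hom.1 hx, Polynomial.map_monomial]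

end Coaction

end Crest.Agent.R181.UR
private theorem rz_9ccee48946 : type_of% @_root_.Crest.Agent.R181.UR.Xz.eq_1 := @_root_.Crest.Agent.R181.UR.Xz.eq_1 -- L108
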