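import Crest.Agent.R181.CU735d
import Crest.Agent.R181.OR836b
import Crest.Agent.R181.UR396e

/-!
# Symbol data from a Rees ring, and the chart inside `OR.DD h`
-/

set_option autoImplicit false

namespace Crest.Agent.R181.CU

open Crest.Agent.R181.UR AddMonoidAlgebra
open scoped Polynomial


section sym

variable {R D : Type} [Ring R] [Ring D] {τ : Type} (G : Gr R) (Ψ : R →+* PA D τ)

/-- the constants which are symbols of degree `n` -/
def symS (n : ℕ) : AddSubgroup D where
  carrier := {d | ∃ r ∈ G.deg n, Ψ r = cst τ d}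
  zero_mem' := ⟨0, (G.deg n).zero_mem, by simp⟩
  add_mem' := by
    rintro a b ⟨r, hr, h⟩ ⟨r', hr', h'⟩
    exact ⟨r + r', (G.deg n).add_mem hr hr', by rw [map_add, h, h', map_add]⟩
  neg_mem' := by
    rintro a ⟨r, hr, h⟩
    exact ⟨-r, (G.deg n).neg_mem hr, by rw [map_neg, h, map_neg]⟩

variable {G Ψ}

theorem mem_symS {n : ℕ} {d : D} : d ∈ symS G Ψ n ↔ ∃ r ∈ G.deg n, Ψ r = cst τ d := Iff.rfl

theorem symS_mul {k l : ℕ} {d d' : D} (h : d ∈ symS G Ψ k) (h' : d' ∈ symS G Ψ l) :
    d * d' ∈ symS G Ψ (k + l) := by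
  obtain ⟨r, hr, h1⟩ := h
  obtain ⟨r', hr', h1'⟩ := h'
  exact ⟨r * r', Gr.mul_mem_deg hr hr', by rw [map_mul, h1, h1', map_mul]⟩

variable (G Ψ)

/-- the predicate to be proved by induction on generators -/
def PS (r : R) : Prop := ∀ n m, (Ψ ((G.γ r).coeff n)).coeff m ∈ symS G Ψ n

/-- the predicate for degree `0` -/
def P0 {D' : Type} [Ring D'] (κ : D' →+* D) (r : R) : Prop :=
  ∀ m, (Ψ ((G.γ r).coeff 0)).coeff m ∈ κ.range

variable {G Ψ}

theorem PS.add {r s : R} (hr : PS G Ψ r) (hs : PS G Ψ s) : PS G Ψ (r + s) := by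
  intro n m
  rw [map_add, Polynomial.coeff_add, map_add, coeff_add, Finsupp.add_apply]
  exact (symS G Ψ n).add_mem (hr n m) (hs n m)

theorem coeff_mul_mem {H : AddSubgroup D} {f g : PA D τ}
    (h : ∀ m m', f.coeff m * g.coeff m' ∈ H) (m : τ →₀ ℕ) : (f * g).coeff m ∈ H := by
  classical
  rw [AddMonoidAlgebra.coeff_mul, Finsupp.sum]
  refine sum_mem fun x _ => ?_
  rw [Finsupp.sum]
  refine sum_mem fun y _ => ?_
  split_ifs
  · exact h _ _
  · exact H.zero_mem

theorem PS.mul {r s : R} (hr : PS G Ψ r) (hs : PS G Ψ s) : PS G Ψ (r * s) := by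
  intro n m
  rw [map_mul, Polynomial.coeff_mul, map_sum, coeff_sum, Finsupp.finsetSum_apply]
  refine sum_mem fun p hp => ?_
  rw [Finset.HasAntidiagonal.mem_antidiagonal] at hp
  rw [map_mul]
  apply coeff_mul_mem
  intro m m'
  rw [← hp]
  exact symS_mul (hr _ _) (hs _ _)

theorem P0.add {D' : Type} [Ring D'] {κ : D' →+* D} {r s : R} (hr : P0 G Ψ κ r)
    (hs : P0 G Ψ κ s) : P0 G Ψ κ (r + s) := by
  intro m
  rw [map_add, Polynomial.coeff_add, map_add, coeff_add, Finsupp.add_apply]
  exact add_mem (hr m) (hs m)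

theorem P0.mul {D' : Type} [Ring D'] {κ : D' →+* D} {r s : R} (hr : P0 G Ψ κ r)
    (hs : P0 G Ψ κ s) : P0 G Ψ κ (r * s) := by
  intro m
  rw [map_mul, Polynomial.mul_coeff_zero, map_mul]
  exact coeff_mul_mem (H := κ.range.toAddSubgroup)
    (fun m m' => κ.range.mul_mem (hr m) (hs m')) m

end sym

section data

variable {DD D D' R V : Type} [Ring DD] [DivisionRing D] [DivisionRing D'] [Ring R] [Ring V]
  {τ : Type}

/-- **symbol data of the chart attached to a graded ring** -/
theorem symData (A : OData DD (PA D τ)) (G : Gr R) (e : R →+* V) (he : Function.Surjective e)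
    (u : R) (hu : u ∈ G.deg 1) (heu : e u = 1) (j : V →+* DD) (B : R →+* A.O)
    (hB : ∀ l, ∀ r ∈ G.deg l, (A.pi : DD) ^ l * j (e r) = B r) (κ : D' →+* D)
    (hκ : ∀ x, ∃ r ∈ G.deg 0, A.q (B r) = cst τ (κ x))
    (hmon : ∀ m : τ →₀ ℕ, ∃ r ∈ G.deg 0, A.q (B r) = single m 1)
    (hPS : ∀ r, PS G (A.q.comp B) r) (hP0 : ∀ r, P0 G (A.q.comp B) κ r) :
    SymData (mkChart A G e he u hu heu j B hB) κ (symS G (A.q.comp B)) where
  range l d := by
    constructor
    · rintro ⟨⟨_, ⟨r, hr, rfl⟩⟩, rfl⟩ m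
      rw [mkChart_s A G e he u hu heu j B hB hr _ rfl]
      have := hPS r l m
      rwa [Gr.coeff_of_mem_deg hr, if_pos rfl] at this
    · intro h
      choose r hr hr' using fun m => mem_symS.1 (h m)
      choose r0 hr0 hr0' using hmon
      let z : R := ∑ m ∈ d.coeff.support, r m * r0 m
      have hz : z ∈ G.deg l := sum_mem fun m _ => by
        have := Gr.mul_mem_deg (hr m) (hr0 m)
        rwa [add_zero] at this
      refine ⟨⟨e z, ⟨z, hz, rfl⟩⟩, ?_⟩
      rw [mkChart_s A G e he u hu heu j B hB hz _ rfl]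
      change (A.q.comp B) z = d
      rw [map_sum]
      have h1 : ∀ m, (A.q.comp B) (r m * r0 m) = single m (d.coeff m) := by
        intro m
        rw [map_mul, hr', RingHom.comp_apply, hr0', cst_apply, single_mul_single, zero_add,
          mul_one]
      rw [Finset.sum_congr rfl fun m _ => h1 m]
      ext m
      rw [coeff_sum, Finsupp.finsetSum_apply]
      by_cases hm : m ∈ d.coeff.support
      · rw [Finset.sum_eq_single m]
        · rw [coeff_single, Finsupp.single_eq_same]
        · intro m' _ hm'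
          rw [coeff_single, Finsupp.single_eq_of_ne (Ne.symm hm')]
        · intro h; exact absurd hm h
      · rw [Finset.sum_eq_zero, Finsupp.notMem_support_iff.1 hm]
        intro m' hm'
        rw [coeff_single, Finsupp.single_eq_of_ne]
        rintro rfl
        exact hm hm'
  zero d := by
    constructor
    · rintro ⟨r, hr, h⟩
      have := hP0 r 0
      rw [Gr.coeff_of_mem_deg hr, if_pos rfl, h, cst_apply, coeff_single,
        Finsupp.single_eq_same] at this
      exact this
    · rintro ⟨x, rfl⟩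
      exact hκ x
  left l x d hd := by
    have := symS_mul (mem_symS.2 (hκ x)) hd
    rwa [zero_add] at this
  right l x d hd := by
    have := symS_mul hd (mem_symS.2 (hκ x))
    rwa [add_zero] at this

end data

/-! ### the ring `O` of `OR.DD h` -/

section OR

open Crest.Agent.R181.RO Crest.Agent.R181.OR

variable {T S Δ : Type} [Ring T] [Ring S] [Ring Δ]
variable {j : S →+* PowerSeries T} {δ : S →+* Δ} {i : Δ →+* T} {p : S}

theorem toOD_injective (h : Dat j δ i p) : Function.Injective (toOD h) := by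
  intro a b hab
  apply Subtype.ext
  apply HahnSeries.ofPowerSeries_injective (Γ := ℤ)
  have := congrArg (fun z : OD h => ((z : DD h) : LaurentSeries T)) hab
  exact this

/-- `O j δ ≃ OD h` -/
noncomputable def eqOD (h : Dat j δ i p) : O j δ ≃+* OD h :=
  RingEquiv.ofBijective (toOD h) ⟨toOD_injective h, toOD_surjective h⟩

/-- the residue map of `OD h` -/
noncomputable def qOD (h : Dat j δ i p) : OD h →+* Δ := (q h).comp (eqOD h).symm.toRingHom

theorem qOD_toOD (h : Dat j δ i p) (g : O j δ) : qOD h (toOD h g) = q h g := by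
  change q h ((eqOD h).symm (eqOD h g)) = _
  rw [RingEquiv.symm_apply_apply]

/-- the data `O`, `π`, `q` inside `DD h` -/
noncomputable def oData (h : Dat j δ i p) : OData (DD h) Δ where
  O := OD h
  pi := ⟨pD h, xD h, pD_mul_xD h, xD_mul_pD h⟩
  pi_comm y := pD_comm h y
  pi_mem := pD_mem_OD h
  exh y := exists_pD_pow_mul_mem h y
  q := qOD h
  q_surj d := by
    obtain ⟨g, hg⟩ := q_surjective h d
    exact ⟨toOD h g, by rw [qOD_toOD, hg]⟩
  q_ker o ho := by
    obtain ⟨g, rfl⟩ := toOD_surjective h o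
    rw [qOD_toOD, q_eq_zero_iff] at ho
    obtain ⟨g', rfl⟩ := ho
    refine ⟨toOD h g', ?_⟩
    rw [(toOD h).map_mul, toOD_pi]
    rfl
  q_pi := by
    rw [show (⟨pD h, pD_mem_OD h⟩ : OD h) = toOD h (pi h) from (toOD_pi h).symm, qOD_toOD,
      q_eq_zero_iff]
    exact ⟨1, (mul_one _).symm⟩

@[simp] theorem oData_O (h : Dat j δ i p) : (oData h).O = OD h := rfl
@[simp] theorem oData_pi (h : Dat j δ i p) : ((oData h).pi : DD h) = pD h := rfl

/-- `S → OD h` -/
noncomputable def jOD (h : Dat j δ i p) : S →+* OD h :=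
  (toOD h).comp (j.codRestrict (O j δ) fun s => j_mem_O s)

theorem qOD_jOD (h : Dat j δ i p) (s : S) : qOD h (jOD h s) = δ s := by
  change qOD h (toOD h ⟨j s, _⟩) = δ s
  rw [qOD_toOD, q_j]


end OR

end Crest.Agent.R181.CU
namespace Crest.Agent.R181.CU.Gr
end Crest.Agent.R181.CU.Gr
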