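import Mathlib

/-! R181, V-chain (helper868 #11990): calculus of finite free resolutions over an arbitrary ring. -/

set_option autoImplicit false
set_option linter.dupNamespace false

namespace Crest.Agent.R181.FFR

open Function

universe u

/-- finitely generated free -/
structure FinFree (R : Type*) [Ring R] (F : Type*) [AddCommGroup F] [Module R F] : Prop where
  free : Module.Free R F
  fin : Module.Finite R F

/-- stably free (finitely generated) -/
def StFree (R : Type u) [Ring R] (M : Type u) [AddCommGroup M] [Module R M] : Prop :=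
  ∃ (F : Type u) (_ : AddCommGroup F) (_ : Module R F) (G : Type u) (_ : AddCommGroup G)
    (_ : Module R G), FinFree R F ∧ FinFree R G ∧ Nonempty ((M × F) ≃ₗ[R] G)

/-- resolution of length `≤ n` by finitely generated free modules, the last one stably free -/
def FF (R : Type u) [Ring R] : ℕ → ∀ (M : Type u) [AddCommGroup M] [Module R M], Prop
  | 0, M, _, _ => StFree R M
  | n + 1, M, _, _ => ∃ (F : Type u) (_ : AddCommGroup F) (_ : Module R F), FinFree R F ∧
      ∃ f : F →ₗ[R] M, Surjective f ∧ FF R n (LinearMap.ker f)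

/-- has a finite free resolution -/
def FFR (R : Type u) [Ring R] (M : Type u) [AddCommGroup M] [Module R M] : Prop :=
  ∃ n, FF R n M

variable {R : Type u} [Ring R]
variable {A B C M N F G : Type u} [AddCommGroup A] [Module R A] [AddCommGroup B] [Module R B]
  [AddCommGroup C] [Module R C] [AddCommGroup M] [Module R M] [AddCommGroup N] [Module R N]
  [AddCommGroup F] [Module R F] [AddCommGroup G] [Module R G]

section FinFree

theorem FinFree.iso (h : FinFree R F) (e : F ≃ₗ[R] G) : FinFree R G := by
  have := h.free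
  have := h.fin
  exact ⟨Module.Free.of_equiv e, Module.Finite.equiv e⟩

theorem FinFree.prod (h : FinFree R F) (h' : FinFree R G) : FinFree R (F × G) := by
  have := h.free
  have := h.fin
  have := h'.free
  have := h'.fin
  exact ⟨inferInstance, inferInstance⟩

theorem FinFree.pi (k : ℕ) : FinFree R (Fin k → R) := ⟨inferInstance, inferInstance⟩

theorem FinFree.self : FinFree R R := ⟨inferInstance, inferInstance⟩

theorem FinFree.proj (h : FinFree R F) : Module.Projective R F := by
  have := h.free
  infer_instance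

theorem FinFree.of_subsingleton [Subsingleton M] : FinFree R M := by
  refine (FinFree.pi (R := R) 0).iso ?_
  exact
    { toFun := fun _ => 0
      invFun := fun _ => 0
      map_add' := by intros; simp
      map_smul' := by intros; simp
      left_inv := fun x => Subsingleton.elim _ _
      right_inv := fun x => Subsingleton.elim _ _ }


end FinFree

section basic

/-- splitting of a short exact sequence with projective end -/
theorem exists_split_equiv {i : A →ₗ[R] B} {p : B →ₗ[R] C} (hi : Injective i) (hp : Surjective p)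
    (hex : ∀ x, p x = 0 ↔ ∃ a, i a = x) (hC : Module.Projective R C) :
    Nonempty (B ≃ₗ[R] (A × C)) := by
  obtain ⟨s, hs⟩ := p.exists_rightInverse_of_surjective (LinearMap.range_eq_top.2 hp)
  have hs' : ∀ c, p (s c) = c := fun c => by
    have := LinearMap.congr_fun hs c
    simpa using this
  let φ : (A × C) →ₗ[R] B := LinearMap.coprod i s
  have hφ : ∀ x, φ x = i x.1 + s x.2 := fun x => by simp [φ]
  have hinj : Injective φ := by
    rw [injective_iff_map_eq_zero]
    rintro ⟨a, c⟩ h
    rw [hφ] at h
    have h1 : p (i a) = 0 := (hex _).2 ⟨a, rfl⟩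
    have h2 : c = 0 := by
      have := congrArg p h
      simpa [h1, hs'] using this
    subst h2
    have h3 : i a = 0 := by simpa using h
    have h4 : a = 0 := hi (by simpa using h3)
    simp [h4]
  have hsurj : Surjective φ := by
    intro b
    obtain ⟨a, ha⟩ := (hex (b - s (p b))).1 (by simp [hs'])
    exact ⟨(a, p b), by rw [hφ]; simp [ha]⟩
  exact ⟨(LinearEquiv.ofBijective φ ⟨hinj, hsurj⟩).symm⟩

theorem StFree.iso (h : StFree R M) (e : M ≃ₗ[R] N) : StFree R N := by
  obtain ⟨F, _, _, G, _, _, hF, hG, ⟨g⟩⟩ := h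
  exact ⟨F, _, _, G, _, _, hF, hG, ⟨(e.symm.prodCongr (LinearEquiv.refl R F)).trans g⟩⟩

theorem FinFree.stFree (h : FinFree R F) : StFree R F := by
  refine ⟨(Fin 0 → R), _, _, F, _, _, FinFree.pi 0, h, ⟨?_⟩⟩
  exact
    { toFun := fun x => x.1
      invFun := fun x => (x, 0)
      map_add' := by intros; simp
      map_smul' := by intros; simp
      left_inv := fun x => Prod.ext rfl (Subsingleton.elim _ _)
      right_inv := fun x => rfl }

theorem StFree.proj (h : StFree R M) : Module.Projective R M := by
  obtain ⟨F, _, _, G, _, _, hF, hG, ⟨g⟩⟩ := h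
  have := hG.proj
  refine Module.Projective.of_split (LinearMap.comp g.toLinearMap (LinearMap.inl R M F))
    (LinearMap.comp (LinearMap.fst R M F) g.symm.toLinearMap) ?_
  ext x
  simp

theorem StFree.fin (h : StFree R M) : Module.Finite R M := by
  obtain ⟨F, _, _, G, _, _, hF, hG, ⟨g⟩⟩ := h
  have := hG.fin
  refine Module.Finite.of_surjective
    (LinearMap.comp (LinearMap.fst R M F) g.symm.toLinearMap) ?_
  intro x
  exact ⟨g (x, 0), by simp⟩

theorem StFree.prod_free (h : StFree R M) (hF : FinFree R F) : StFree R (M × F) := by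
  obtain ⟨F', _, _, G, _, _, hF', hG, ⟨g⟩⟩ := h
  refine ⟨F', _, _, G × F, _, _, hF', hG.prod hF, ⟨?_⟩⟩
  -- (M × F) × F' ≃ (M × F') × F ≃ G × F
  exact
    { toFun := fun x => (g (x.1.1, x.2), x.1.2)
      invFun := fun y => (((g.symm y.1).1, y.2), (g.symm y.1).2)
      map_add' := by
        intro x y
        have : g (x.1.1 + y.1.1, x.2 + y.2) = g (x.1.1, x.2) + g (y.1.1, y.2) := by
          rw [← map_add]; rfl
        ext <;> simp [this]
      map_smul' := by
        intro c x
        have : g (c • x.1.1, c • x.2) = c • g (x.1.1, x.2) := by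
          rw [← map_smul]; rfl
        ext <;> simp [this]
      left_inv := by
        intro x
        simp
      right_inv := by
        intro y
        simp }

theorem StFree.of_prod_free (hF : FinFree R F) (h : StFree R (M × F)) : StFree R M := by
  obtain ⟨F', _, _, G, _, _, hF', hG, ⟨g⟩⟩ := h
  exact ⟨F × F', _, _, G, _, _, hF.prod hF', hG, ⟨(LinearEquiv.prodAssoc R M F F').symm.trans g⟩⟩

theorem StFree.prod (h : StFree R M) (h' : StFree R N) : StFree R (M × N) := by
  obtain ⟨F', _, _, G', _, _, hF', hG', ⟨g⟩⟩ := h'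
  -- (M × N) × F' ≃ M × G'
  refine StFree.of_prod_free hF' ?_
  exact (h.prod_free hG').iso
    ((LinearEquiv.prodAssoc R M N F').trans ((LinearEquiv.refl R M).prodCongr g)).symm

/-- cancellation of a stably free summand -/
theorem StFree.of_prod (h' : StFree R N) (h : StFree R (M × N)) : StFree R M := by
  obtain ⟨F', _, _, G', _, _, hF', hG', ⟨g⟩⟩ := h'
  refine StFree.of_prod_free hG' ?_
  exact (h.prod_free hF').iso
    ((LinearEquiv.prodAssoc R M N F').trans ((LinearEquiv.refl R M).prodCongr g))

end basic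

section FF

theorem FF.iso {n : ℕ} (h : FF R n M) (e : M ≃ₗ[R] N) : FF R n N := by
  cases n with
  | zero => exact StFree.iso h e
  | succ n =>
    obtain ⟨F, _, _, hF, f, hf, hk⟩ := h
    refine ⟨F, _, _, hF, e.toLinearMap.comp f, e.surjective.comp hf, ?_⟩
    have : LinearMap.ker (e.toLinearMap.comp f) = LinearMap.ker f := by
      ext x
      simp
    rw [this]
    exact hk

theorem FF.fin {n : ℕ} (h : FF R n M) : Module.Finite R M := by
  cases n with
  | zero => exact StFree.fin h
  | succ n =>
    obtain ⟨F, _, _, hF, f, hf, hk⟩ := h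
    have := hF.fin
    exact Module.Finite.of_surjective f hf

/-- `FF (n+1)` from an exact sequence -/
theorem FF.of_exact {n : ℕ} {i : A →ₗ[R] F} {p : F →ₗ[R] M} (hi : Injective i)
    (hp : Surjective p) (hex : ∀ x, p x = 0 ↔ ∃ a, i a = x) (hF : FinFree R F)
    (hA : FF R n A) : FF R (n + 1) M := by
  refine ⟨F, _, _, hF, p, hp, hA.iso ?_⟩
  have h1 : LinearMap.range i = LinearMap.ker p := by
    ext x
    rw [LinearMap.mem_range, LinearMap.mem_ker, hex]
  exact (LinearEquiv.ofInjective i hi).trans (LinearEquiv.ofEq _ _ h1)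

theorem FF.add_free {n : ℕ} (h : FF R n M) (hF : FinFree R F) : FF R n (M × F) := by
  cases n with
  | zero => exact StFree.prod_free h hF
  | succ n =>
    obtain ⟨F', _, _, hF', f, hf, hk⟩ := h
    refine FF.of_exact (F := F' × F) (A := LinearMap.ker f)
      (i := (LinearMap.inl R F' F).comp (LinearMap.ker f).subtype)
      (p := f.prodMap LinearMap.id) ?_ ?_ ?_ (hF'.prod hF) hk
    · exact LinearMap.inl_injective.comp (Submodule.subtype_injective _)
    · exact Prod.map_surjective.2 ⟨hf, surjective_id⟩
    · rintro ⟨x, y⟩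
      constructor
      · intro h
        have h1 : f x = 0 := congrArg Prod.fst h
        have h2 : y = 0 := congrArg Prod.snd h
        exact ⟨⟨x, h1⟩, by simp [h2]⟩
      · rintro ⟨a, ha⟩
        have h1 : (a : F') = x := congrArg Prod.fst ha
        have h2 : (0 : F) = y := congrArg Prod.snd ha
        subst h1 h2
        simp

theorem FF.of_add_free : ∀ {n : ℕ} {M F : Type u} [AddCommGroup M] [Module R M]
    [AddCommGroup F] [Module R F] (_ : FinFree R F) (_ : FF R n (M × F)), FF R n M
  | 0, _, _, _, _, _, _, hF, h => StFree.of_prod_free hF h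
  | n + 1, M, F, _, _, _, _, hF, h => by
    obtain ⟨F', _, _, hF', f, hf, hk⟩ := h
    -- `h = fst ∘ f`, kernel is an extension of `F` by `ker f`
    let h := (LinearMap.fst R M F).comp f
    have hh : Surjective h := by
      intro m
      obtain ⟨x, hx⟩ := hf (m, 0)
      exact ⟨x, by simp [h, hx]⟩
    refine ⟨F', _, _, hF', h, hh, ?_⟩
    have hle : LinearMap.ker f ≤ LinearMap.ker h := by
      intro x hx
      simp only [LinearMap.mem_ker] at hx
      simp [h, hx]
    let i := Submodule.inclusion hle
    let p : LinearMap.ker h →ₗ[R] F := ((LinearMap.snd R M F).comp f).comp (LinearMap.ker h).subtype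
    have hp : Surjective p := by
      intro y
      obtain ⟨x, hx⟩ := hf (0, y)
      refine ⟨⟨x, ?_⟩, ?_⟩
      · simp [h, hx]
      · simp [p, hx]
    obtain ⟨e⟩ := exists_split_equiv (i := i) (p := p) (Submodule.inclusion_injective hle) hp (by
      rintro ⟨x, hx⟩
      constructor
      · intro h1
        have h2 : (f x).2 = 0 := h1
        have h3 : (f x).1 = 0 := by simpa [h] using hx
        exact ⟨⟨x, by rw [LinearMap.mem_ker]; exact Prod.ext h3 h2⟩, rfl⟩
      · rintro ⟨⟨a, ha⟩, hax⟩
        have h1 : a = x := congrArg Subtype.val hax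
        subst h1
        have : f a = 0 := ha
        simp [p, this]) hF.proj
    exact (hk.add_free hF).iso e.symm

/-- Schanuel -/
theorem schanuel {f : F →ₗ[R] M} {g : G →ₗ[R] M} (hf : Surjective f) (hg : Surjective g)
    (hF : Module.Projective R F) (hG : Module.Projective R G) :
    Nonempty ((LinearMap.ker f × G) ≃ₗ[R] (LinearMap.ker g × F)) := by
  -- the pullback
  let P : Submodule R (F × G) := LinearMap.ker (f.comp (LinearMap.fst R F G) -
    g.comp (LinearMap.snd R F G))
  have hP : ∀ x : F × G, x ∈ P ↔ f x.1 = g x.2 := by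
    intro x
    simp [P, sub_eq_zero]
  have h1 : Nonempty (P ≃ₗ[R] (LinearMap.ker f × G)) := by
    let i : LinearMap.ker f →ₗ[R] P :=
      LinearMap.codRestrict P ((LinearMap.inl R F G).comp (LinearMap.ker f).subtype) (by
        intro c
        rw [hP]
        simp)
    refine exists_split_equiv (i := i) (p := (LinearMap.snd R F G).comp P.subtype) ?_ ?_ ?_ hG
    · intro x y hxy
      have := congrArg (fun z : P => z.1.1) hxy
      exact Subtype.ext this
    · intro y
      obtain ⟨x, hx⟩ := hf (g y)
      exact ⟨⟨(x, y), (hP _).2 hx⟩, rfl⟩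
    · rintro ⟨⟨x, y⟩, hxy⟩
      constructor
      · intro h
        have h2 : y = 0 := h
        subst h2
        have h3 : f x = 0 := by simpa using (hP _).1 hxy
        exact ⟨⟨x, h3⟩, rfl⟩
      · rintro ⟨a, ha⟩
        have := congrArg (fun z : P => z.1.2) ha
        exact this.symm
  have h2 : Nonempty (P ≃ₗ[R] (LinearMap.ker g × F)) := by
    let i : LinearMap.ker g →ₗ[R] P :=
      LinearMap.codRestrict P ((LinearMap.inr R F G).comp (LinearMap.ker g).subtype) (by
        intro c
        rw [hP]
        simp)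
    refine exists_split_equiv (i := i) (p := (LinearMap.fst R F G).comp P.subtype) ?_ ?_ ?_ hF
    · intro x y hxy
      have := congrArg (fun z : P => z.1.2) hxy
      exact Subtype.ext this
    · intro y
      obtain ⟨x, hx⟩ := hg (f y)
      exact ⟨⟨(y, x), (hP _).2 hx.symm⟩, rfl⟩
    · rintro ⟨⟨x, y⟩, hxy⟩
      constructor
      · intro h
        have h2 : x = 0 := h
        subst h2
        have h3 : g y = 0 := by simpa using ((hP _).1 hxy).symm
        exact ⟨⟨y, h3⟩, rfl⟩
      · rintro ⟨a, ha⟩
        have := congrArg (fun z : P => z.1.1) ha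
        exact this.symm
  obtain ⟨e1⟩ := h1
  obtain ⟨e2⟩ := h2
  exact ⟨e1.symm.trans e2⟩

/-- independence of the chosen free cover -/
theorem FF.ker {n : ℕ} (h : FF R (n + 1) M) (hF : FinFree R F) {f : F →ₗ[R] M}
    (hf : Surjective f) : FF R n (LinearMap.ker f) := by
  obtain ⟨G, _, _, hG, g, hg, hk⟩ := h
  obtain ⟨e⟩ := schanuel hg hf hG.proj hF.proj
  exact FF.of_add_free hG ((hk.add_free hF).iso e)

theorem FF.succ : ∀ {n : ℕ} {M : Type u} [AddCommGroup M] [Module R M], FF R n M → FF R (n + 1) M
  | 0, M, _, _, h => by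
    obtain ⟨F, _, _, G, _, _, hF, hG, ⟨g⟩⟩ := h
    refine FF.of_exact (F := G) (A := F)
      (i := g.toLinearMap.comp (LinearMap.inr R M F))
      (p := (LinearMap.fst R M F).comp g.symm.toLinearMap) ?_ ?_ ?_ hG hF.stFree
    · exact g.injective.comp LinearMap.inr_injective
    · intro m
      exact ⟨g (m, 0), by simp⟩
    · intro x
      constructor
      · intro h
        refine ⟨(g.symm x).2, ?_⟩
        have h1 : (g.symm x).1 = 0 := h
        have h2 : g.symm x = (0, (g.symm x).2) := Prod.ext h1 rfl
        change g (0, (g.symm x).2) = x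
        rw [← h2]
        simp
      · rintro ⟨a, rfl⟩
        simp
  | n + 1, M, _, _, h => by
    obtain ⟨F, _, _, hF, f, hf, hk⟩ := h
    exact ⟨F, _, _, hF, f, hf, hk.succ⟩

theorem FF.mono {n m : ℕ} (hnm : n ≤ m) (h : FF R n M) : FF R m M := by
  induction hnm with
  | refl => exact h
  | step _ ih => exact ih.succ

/-- horseshoe -/
theorem FF.ext : ∀ {n : ℕ} {A B C : Type u} [AddCommGroup A] [Module R A] [AddCommGroup B]
    [Module R B] [AddCommGroup C] [Module R C] {i : A →ₗ[R] B} {p : B →ₗ[R] C}
    (_ : Injective i) (_ : Surjective p) (_ : ∀ x, p x = 0 ↔ ∃ a, i a = x)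
    (_ : FF R n A) (_ : FF R n C), FF R n B
  | 0, A, B, C, _, _, _, _, _, _, i, p, hi, hp, hex, hA, hC => by
    obtain ⟨e⟩ := exists_split_equiv hi hp hex (StFree.proj hC)
    exact (StFree.prod hA hC).iso e.symm
  | n + 1, A, B, C, _, _, _, _, _, _, i, p, hi, hp, hex, hA, hC => by
    obtain ⟨F, _, _, hF, f, hf, hkf⟩ := hA
    obtain ⟨G, _, _, hG, g, hg, hkg⟩ := hC
    have := hG.proj
    obtain ⟨s, hs⟩ := Module.projective_lifting_property p g hp
    have hs' : ∀ y, p (s y) = g y := fun y => LinearMap.congr_fun hs y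
    let φ : (F × G) →ₗ[R] B := LinearMap.coprod (i.comp f) s
    have hφ : ∀ x, φ x = i (f x.1) + s x.2 := fun x => by simp [φ]
    have hpi : ∀ a, p (i a) = 0 := fun a => (hex _).2 ⟨a, rfl⟩
    have hφs : Surjective φ := by
      intro b
      obtain ⟨y, hy⟩ := hg (p b)
      obtain ⟨a, ha⟩ := (hex (b - s y)).1 (by simp [hs', hy])
      obtain ⟨x, rfl⟩ := hf a
      exact ⟨(x, y), by rw [hφ]; simp [ha]⟩
    refine ⟨F × G, _, _, hF.prod hG, φ, hφs, ?_⟩
    -- 0 → ker f → ker φ → ker g → 0
    let i' : LinearMap.ker f →ₗ[R] LinearMap.ker φ :=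
      LinearMap.codRestrict (LinearMap.ker φ)
        ((LinearMap.inl R F G).comp (LinearMap.ker f).subtype) (by
          intro c
          rw [LinearMap.mem_ker, hφ]
          simp)
    let p' : LinearMap.ker φ →ₗ[R] LinearMap.ker g :=
      LinearMap.codRestrict (LinearMap.ker g)
        ((LinearMap.snd R F G).comp (LinearMap.ker φ).subtype) (by
          intro c
          have hc := c.2
          rw [LinearMap.mem_ker, hφ] at hc
          have := congrArg p hc
          simpa [hpi, hs'] using this)
    refine FF.ext (i := i') (p := p') ?_ ?_ ?_ hkf hkg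
    · intro x y hxy
      have := congrArg (fun z : LinearMap.ker φ => z.1.1) hxy
      exact Subtype.ext this
    · rintro ⟨y, hy⟩
      have h1 : p (s y) = 0 := by rw [hs']; exact hy
      obtain ⟨a, ha⟩ := (hex _).1 h1
      obtain ⟨x, rfl⟩ := hf a
      refine ⟨⟨(-x, y), ?_⟩, rfl⟩
      rw [LinearMap.mem_ker, hφ]
      simp [ha]
    · rintro ⟨⟨x, y⟩, hxy⟩
      constructor
      · intro h
        have h2 : y = 0 := congrArg (fun z : LinearMap.ker g => z.1) h
        subst h2
        have h3 : i (f x) = 0 := by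
          have := hxy
          rw [LinearMap.mem_ker, hφ] at this
          simpa using this
        have h4 : f x = 0 := hi (by simpa using h3)
        exact ⟨⟨x, h4⟩, rfl⟩
      · rintro ⟨a, ha⟩
        have := congrArg (fun z : LinearMap.ker φ => z.1.2) ha
        exact Subtype.ext this.symm

/-- kernel of the composite `F → B → C` is an extension -/
private theorem ker_comp_aux {i : A →ₗ[R] B} {p : B →ₗ[R] C} (hi : Injective i)
    (hex : ∀ x, p x = 0 ↔ ∃ a, i a = x) {g : F →ₗ[R] B} (hg : Surjective g) :
    ∃ (j : LinearMap.ker g →ₗ[R] LinearMap.ker (p.comp g))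
      (q : LinearMap.ker (p.comp g) →ₗ[R] A), Injective j ∧ Surjective q ∧
        ∀ x, q x = 0 ↔ ∃ a, j a = x := by
  have hle : LinearMap.ker g ≤ LinearMap.ker (p.comp g) := by
    intro x hx
    rw [LinearMap.mem_ker] at hx ⊢
    simp [hx]
  have hr : ∀ x : LinearMap.ker (p.comp g), g x ∈ LinearMap.range i := by
    rintro ⟨x, hx⟩
    exact (hex _).1 hx
  let q : LinearMap.ker (p.comp g) →ₗ[R] A :=
    (LinearEquiv.ofInjective i hi).symm.toLinearMap.comp
      (LinearMap.codRestrict (LinearMap.range i) (g.comp (LinearMap.ker (p.comp g)).subtype) hr)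
  have hq : ∀ x, i (q x) = g x := by
    intro x
    have := LinearEquiv.ofInjective_apply i (h := hi) (q x)
    rw [← this]
    first
      | (simp [q]; done)
      | (simp [q]; rfl)
  refine ⟨Submodule.inclusion hle, q, Submodule.inclusion_injective hle, ?_, ?_⟩
  · intro a
    obtain ⟨x, hx⟩ := hg (i a)
    refine ⟨⟨x, ?_⟩, ?_⟩
    · rw [LinearMap.mem_ker]
      change p (g x) = 0
      rw [hx]
      exact (hex _).2 ⟨a, rfl⟩
    · apply hi
      rw [hq]
      exact hx
  · intro x
    constructor
    · intro h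
      have h1 : g x = 0 := by rw [← hq, h, map_zero]
      exact ⟨⟨x, h1⟩, rfl⟩
    · rintro ⟨a, rfl⟩
      apply hi
      rw [hq, map_zero]
      exact a.2

theorem FF.quot {n : ℕ} {i : A →ₗ[R] B} {p : B →ₗ[R] C} (hi : Injective i)
    (hp : Surjective p) (hex : ∀ x, p x = 0 ↔ ∃ a, i a = x) (hA : FF R n A) (hB : FF R n B) :
    FF R (n + 1) C := by
  cases n with
  | zero =>
    obtain ⟨F, _, _, G, _, _, hF, hG, ⟨g⟩⟩ := hB
    refine FF.of_add_free hF ?_
    -- 0 → A → G → C × F → 0
    refine FF.of_exact (F := G) (A := A)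
      (i := g.toLinearMap.comp ((LinearMap.inl R B F).comp i))
      (p := (p.prodMap LinearMap.id).comp g.symm.toLinearMap) ?_ ?_ ?_ hG hA
    · exact g.injective.comp (LinearMap.inl_injective.comp hi)
    · exact (Prod.map_surjective.2 ⟨hp, surjective_id⟩).comp g.symm.surjective
    · intro x
      constructor
      · intro h
        have h1 : p (g.symm x).1 = 0 := congrArg Prod.fst h
        have h2 : (g.symm x).2 = 0 := congrArg Prod.snd h
        obtain ⟨a, ha⟩ := (hex _).1 h1
        refine ⟨a, ?_⟩
        change g (i a, 0) = x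
        have : g.symm x = (i a, 0) := Prod.ext ha.symm h2
        rw [← this]
        simp
      · rintro ⟨a, rfl⟩
        have : p (i a) = 0 := (hex _).2 ⟨a, rfl⟩
        simp [this]
  | succ n =>
    obtain ⟨F, _, _, hF, g, hg, hk⟩ := hB
    obtain ⟨j, q, hj, hq, hjq⟩ := ker_comp_aux hi hex hg
    refine ⟨F, _, _, hF, p.comp g, hp.comp hg, ?_⟩
    exact FF.ext hj hq hjq hk.succ hA

theorem FF.sub {n : ℕ} {i : A →ₗ[R] B} {p : B →ₗ[R] C} (hi : Injective i)
    (hp : Surjective p) (hex : ∀ x, p x = 0 ↔ ∃ a, i a = x) (hB : FF R n B) (hC : FF R n C) :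
    FF R n A := by
  cases n with
  | zero =>
    obtain ⟨e⟩ := exists_split_equiv hi hp hex (StFree.proj hC)
    exact StFree.of_prod hC (StFree.iso hB e)
  | succ n =>
    have hfin := hB.fin
    obtain ⟨F, _, _, hF, g, hg, hk⟩ := hB
    have hkC : FF R n (LinearMap.ker (p.comp g)) := FF.ker hC hF (hp.comp hg)
    obtain ⟨j, q, hj, hq, hjq⟩ := ker_comp_aux hi hex hg
    exact FF.quot hj hq hjq hk hkC

end FF

section FFR

theorem FFR.iso (h : FFR R M) (e : M ≃ₗ[R] N) : FFR R N := by
  obtain ⟨n, h⟩ := h
  exact ⟨n, h.iso e⟩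

theorem StFree.ffr (h : StFree R M) : FFR R M := ⟨0, h⟩

theorem FinFree.ffr (h : FinFree R M) : FFR R M := h.stFree.ffr

theorem FFR.zero [Subsingleton M] : FFR R M := FinFree.of_subsingleton.ffr

theorem FFR.fin (h : FFR R M) : Module.Finite R M := by
  obtain ⟨n, h⟩ := h
  exact h.fin

/-- two out of three: the middle -/
theorem FFR.ext {i : A →ₗ[R] B} {p : B →ₗ[R] C} (hi : Injective i) (hp : Surjective p)
    (hex : ∀ x, p x = 0 ↔ ∃ a, i a = x) (hA : FFR R A) (hC : FFR R C) : FFR R B := by
  obtain ⟨n, hA⟩ := hA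
  obtain ⟨m, hC⟩ := hC
  exact ⟨max n m, FF.ext hi hp hex (hA.mono (le_max_left _ _)) (hC.mono (le_max_right _ _))⟩

/-- two out of three: the quotient -/
theorem FFR.quot {i : A →ₗ[R] B} {p : B →ₗ[R] C} (hi : Injective i) (hp : Surjective p)
    (hex : ∀ x, p x = 0 ↔ ∃ a, i a = x) (hA : FFR R A) (hB : FFR R B) : FFR R C := by
  obtain ⟨n, hA⟩ := hA
  obtain ⟨m, hB⟩ := hB
  exact ⟨max n m + 1,
    FF.quot hi hp hex (hA.mono (le_max_left _ _)) (hB.mono (le_max_right _ _))⟩

/-- two out of three: the submodule -/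
theorem FFR.sub {i : A →ₗ[R] B} {p : B →ₗ[R] C} (hi : Injective i) (hp : Surjective p)
    (hex : ∀ x, p x = 0 ↔ ∃ a, i a = x) (hB : FFR R B) (hC : FFR R C) : FFR R A := by
  obtain ⟨n, hB⟩ := hB
  obtain ⟨m, hC⟩ := hC
  exact ⟨max n m, FF.sub hi hp hex (hB.mono (le_max_left _ _)) (hC.mono (le_max_right _ _))⟩

theorem FFR.prod (hM : FFR R M) (hN : FFR R N) : FFR R (M × N) :=
  FFR.ext (i := LinearMap.inl R M N) (p := LinearMap.snd R M N) LinearMap.inl_injective
    LinearMap.snd_surjective (by
      rintro ⟨x, y⟩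
      constructor
      · intro h
        have h : y = 0 := h
        exact ⟨x, by simp [h]⟩
      · rintro ⟨a, ha⟩
        have := congrArg Prod.snd ha
        simpa using this.symm) hM hN

theorem FFR.ker (h : FFR R M) (hF : FFR R F) {f : F →ₗ[R] M} (hf : Surjective f) :
    FFR R (LinearMap.ker f) :=
  FFR.sub (i := (LinearMap.ker f).subtype) (p := f) (Submodule.subtype_injective _) hf
    (fun x => by simp [LinearMap.mem_ker]) hF h

theorem FF.stFree_of_projective : ∀ {n : ℕ} {M : Type u} [AddCommGroup M] [Module R M],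
    FF R n M → Module.Projective R M → StFree R M
  | 0, _, _, _, h, _ => h
  | n + 1, M, _, _, h, hM => by
    obtain ⟨F, _, _, hF, f, hf, hk⟩ := h
    obtain ⟨e⟩ := exists_split_equiv (i := (LinearMap.ker f).subtype) (p := f)
      (Submodule.subtype_injective _) hf (fun x => by simp [LinearMap.mem_ker]) hM
    have hkp : Module.Projective R (LinearMap.ker f) := by
      have := hF.proj
      refine Module.Projective.of_split
        (e.symm.toLinearMap.comp (LinearMap.inl R (LinearMap.ker f) M))
        ((LinearMap.fst R (LinearMap.ker f) M).comp e.toLinearMap) ?_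
      ext x
      simp
    have hks : StFree R (LinearMap.ker f) := hk.stFree_of_projective hkp
    refine StFree.of_prod hks ?_
    exact (hF.stFree).iso (e.trans (LinearEquiv.prodComm R _ _))

/-- projective with a finite free resolution = stably free -/
theorem FFR.stFree (h : FFR R M) (hM : Module.Projective R M) : StFree R M := by
  obtain ⟨n, h⟩ := h
  exact h.stFree_of_projective hM

/-- matrix form of `StFree` -/
theorem StFree.exists_fin (h : StFree R M) :
    ∃ m n : ℕ, Nonempty ((M × (Fin m → R)) ≃ₗ[R] (Fin n → R)) := by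
  classical
  obtain ⟨F, _, _, G, _, _, hF, hG, ⟨g⟩⟩ := h
  have key : ∀ {F : Type u} [AddCommGroup F] [Module R F], FinFree R F →
      ∃ m : ℕ, Nonempty (F ≃ₗ[R] (Fin m → R)) := by
    intro F _ _ hF
    have := hF.free
    have := hF.fin
    cases subsingleton_or_nontrivial R with
    | inl hR =>
      have : Subsingleton F := Module.subsingleton R F
      exact ⟨0, ⟨
        { toFun := fun _ => 0
          invFun := fun _ => 0
          map_add' := by intros; simp
          map_smul' := by intros; simp
          left_inv := fun x => Subsingleton.elim _ _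
          right_inv := fun x => Subsingleton.elim _ _ }⟩⟩
    | inr hR =>
      let b := Module.Free.chooseBasis R F
      have : Fintype (Module.Free.ChooseBasisIndex R F) := inferInstance
      exact ⟨Fintype.card (Module.Free.ChooseBasisIndex R F),
        ⟨(b.reindex (Fintype.equivFin _)).equivFun⟩⟩
  obtain ⟨m, ⟨e⟩⟩ := key hF
  obtain ⟨n, ⟨e'⟩⟩ := key hG
  exact ⟨m, n, ⟨((LinearEquiv.refl R M).prodCongr e.symm).trans (g.trans e')⟩⟩

theorem StFree.of_fin {m n : ℕ} (e : (M × (Fin m → R)) ≃ₗ[R] (Fin n → R)) : StFree R M :=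
  ⟨(Fin m → R), _, _, (Fin n → R), _, _, FinFree.pi m, FinFree.pi n, ⟨e⟩⟩

end FFR

end Crest.Agent.R181.FFR
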