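import Mathlib

/-!
# R181: finite free resolutions over noncommutative rings (left modules)

`Res R n M`: `M` has a resolution of length `n` by finitely generated free modules;
`FFR R M := ∃ n, Res R n M`; `StFree R M`: `M × R^m ≃ R^n`.
2-of-3 in short exact sequences, projective + FFR ↔ stably free, filtrations.
-/

namespace Crest.Agent.R181.FR

universe u

/-- resolution of length `n` by f.g. free modules -/
def Res (R : Type u) [Ring R] : ℕ → ∀ (M : Type u) [AddCommGroup M] [Module R M], Prop
  | 0, M, _, _ => ∃ k : ℕ, Nonempty (M ≃ₗ[R] (Fin k → R))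
  | n + 1, M, _, _ => ∃ (k : ℕ) (f : (Fin k → R) →ₗ[R] M),
      Function.Surjective f ∧ Res R n (LinearMap.ker f)

/-- `M` has a finite resolution by f.g. free modules -/
def FFR (R : Type u) [Ring R] (M : Type u) [AddCommGroup M] [Module R M] : Prop :=
  ∃ n, Res R n M

/-- `M` is (f.g.) stably free -/
def StFree (R : Type u) [Ring R] (M : Type u) [AddCommGroup M] [Module R M] : Prop :=
  ∃ m n : ℕ, Nonempty ((M × (Fin m → R)) ≃ₗ[R] (Fin n → R))

variable {R : Type u} [Ring R]

section Basic

variable {M N : Type u} [AddCommGroup M] [Module R M] [AddCommGroup N] [Module R N]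

/-- `R^a × R^b ≃ R^(a+b)` -/
noncomputable def powProd (R : Type u) [Ring R] (a b : ℕ) :
    ((Fin a → R) × (Fin b → R)) ≃ₗ[R] (Fin (a + b) → R) :=
  (LinearEquiv.sumArrowLequivProdArrow (Fin a) (Fin b) R R).symm.trans
    (LinearEquiv.funCongrLeft R R finSumFinEquiv.symm)

theorem Res.of_equiv : ∀ {n : ℕ} {M N : Type u} [AddCommGroup M] [Module R M] [AddCommGroup N]
    [Module R N], (M ≃ₗ[R] N) → Res R n M → Res R n N
  | 0, M, N, _, _, _, _, e, ⟨k, ⟨g⟩⟩ => ⟨k, ⟨e.symm.trans g⟩⟩
  | n + 1, M, N, _, _, _, _, e, ⟨k, f, hf, h⟩ => by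
    refine ⟨k, e.toLinearMap.comp f, e.surjective.comp hf, ?_⟩
    have h1 : LinearMap.ker (e.toLinearMap.comp f) = LinearMap.ker f := by
      rw [LinearEquiv.ker_comp]
    exact Res.of_equiv (LinearEquiv.ofEq _ _ h1.symm) h

theorem Res.of_free (k : ℕ) : ∀ n, Res R n (Fin k → R)
  | 0 => ⟨k, ⟨LinearEquiv.refl R _⟩⟩
  | n + 1 => by
    refine ⟨k, LinearMap.id, Function.surjective_id, ?_⟩
    have h1 : (LinearMap.ker (LinearMap.id : (Fin k → R) →ₗ[R] (Fin k → R))) = ⊥ := LinearMap.ker_id
    refine Res.of_equiv ?_ (Res.of_free 0 n)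
    haveI : Subsingleton (LinearMap.ker (LinearMap.id : (Fin k → R) →ₗ[R] (Fin k → R))) := by
      rw [h1]; infer_instance
    exact LinearEquiv.ofSubsingleton _ _

theorem Res.succ : ∀ {n : ℕ} {M : Type u} [AddCommGroup M] [Module R M],
    Res R n M → Res R (n + 1) M
  | 0, _, _, _, ⟨k, ⟨e⟩⟩ => Res.of_equiv e.symm (Res.of_free k 1)
  | _ + 1, _, _, _, ⟨k, f, hf, h⟩ => ⟨k, f, hf, Res.succ h⟩

theorem Res.mono {n m : ℕ} (hnm : n ≤ m) (h : Res R n M) : Res R m M := by
  induction m, hnm using Nat.le_induction with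
  | base => exact h
  | succ m _ ih => exact ih.succ

/-- build a resolution from a surjection from a module isomorphic to `R^k` -/
theorem Res.of_surj {n k : ℕ} (e : N ≃ₗ[R] (Fin k → R)) (f : N →ₗ[R] M)
    (hf : Function.Surjective f) (h : Res R n (LinearMap.ker f)) : Res R (n + 1) M := by
  refine ⟨k, f.comp e.symm.toLinearMap, hf.comp e.symm.surjective, ?_⟩
  refine Res.of_equiv ?_ h
  have h1 : LinearMap.ker (f.comp e.symm.toLinearMap) = (LinearMap.ker f).map e.toLinearMap := by
    ext x
    simp only [LinearMap.mem_ker, LinearMap.comp_apply, Submodule.mem_map]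
    constructor
    · intro hx
      exact ⟨e.symm x, hx, by simp⟩
    · rintro ⟨y, hy, rfl⟩
      simpa using hy
  exact (e.submoduleMap (LinearMap.ker f)).trans (LinearEquiv.ofEq _ _ h1.symm)

end Basic

section Exact

/-- the horseshoe lemma -/
theorem Res.mid : ∀ {n : ℕ} {A B C : Type u} [AddCommGroup A] [Module R A] [AddCommGroup B]
    [Module R B] [AddCommGroup C] [Module R C] {f : A →ₗ[R] B} {g : B →ₗ[R] C},
    Function.Injective f → Function.Surjective g → Function.Exact f g →
    Res R n A → Res R n C → Res R n B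
  | 0, A, B, C, _, _, _, _, _, _, f, g, hf, hg, hfg, ⟨a, ⟨ea⟩⟩, ⟨c, ⟨ec⟩⟩ => by
    have : Module.Projective R C := Module.Projective.of_equiv ec.symm
    obtain ⟨s, hs⟩ := Module.projective_lifting_property g LinearMap.id hg
    have hs' : ∀ x, g (s x) = x := fun x => LinearMap.congr_fun hs x
    have e : (A × C) ≃ₗ[R] B := LinearEquiv.ofBijective (f.coprod s) (by
      constructor
      · rw [injective_iff_map_eq_zero]
        rintro ⟨x, y⟩ hxy
        simp only [LinearMap.coprod_apply] at hxy
        have h1 : y = 0 := by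
          have := congrArg g hxy
          rw [map_add, hfg.apply_apply_eq_zero, hs', map_zero, zero_add] at this
          exact this
        subst h1
        rw [map_zero, add_zero] at hxy
        have h2 : x = 0 := hf (by rw [hxy, map_zero])
        rw [h2]; rfl
      · intro b
        have h1 : g (b - s (g b)) = 0 := by rw [map_sub, hs', sub_self]
        obtain ⟨x, hx⟩ := (hfg _).mp h1
        exact ⟨(x, g b), by simp [hx]⟩)
    exact ⟨a + c, ⟨e.symm.trans ((LinearEquiv.prodCongr ea ec).trans (powProd R a c))⟩⟩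
  | n + 1, A, B, C, _, _, _, _, _, _, f, g, hf, hg, hfg, ⟨a, α, hα, ha⟩, ⟨c, γ, hγ, hc⟩ => by
    obtain ⟨γ', hγ'⟩ := Module.projective_lifting_property g γ hg
    have hγ'' : ∀ x, g (γ' x) = γ x := fun x => LinearMap.congr_fun hγ' x
    let β : ((Fin a → R) × (Fin c → R)) →ₗ[R] B := (f.comp α).coprod γ'
    have hβdef : ∀ x y, β (x, y) = f (α x) + γ' y := fun x y => by simp [β]
    have hβ : Function.Surjective β := by
      intro b
      obtain ⟨y, hy⟩ := hγ (g b)
      have h1 : g (b - γ' y) = 0 := by rw [map_sub, hγ'', hy, sub_self]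
      obtain ⟨x, hx⟩ := (hfg _).mp h1
      obtain ⟨x', rfl⟩ := hα x
      exact ⟨(x', y), by rw [hβdef, hx]; simp⟩
    have hgβ : ∀ x y, g (β (x, y)) = γ y := by
      intro x y
      rw [hβdef, map_add, hfg.apply_apply_eq_zero, zero_add, hγ'']
    refine Res.of_surj (powProd R a c) β hβ ?_
    let i : LinearMap.ker α →ₗ[R] LinearMap.ker β :=
      LinearMap.codRestrict _ ((LinearMap.inl R (Fin a → R) (Fin c → R)).comp
        (LinearMap.ker α).subtype) (by
        intro x
        rw [LinearMap.mem_ker]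
        show β (x.1, 0) = 0
        rw [hβdef, LinearMap.mem_ker.mp x.2]; simp)
    let p : LinearMap.ker β →ₗ[R] LinearMap.ker γ :=
      LinearMap.codRestrict _ ((LinearMap.snd R (Fin a → R) (Fin c → R)).comp
        (LinearMap.ker β).subtype) (by
        rintro ⟨⟨x, y⟩, hxy⟩
        rw [LinearMap.mem_ker]
        show γ y = 0
        rw [← hgβ x y, LinearMap.mem_ker.mp hxy, map_zero])
    refine Res.mid (f := i) (g := p) ?_ ?_ ?_ ha hc
    · intro x y hxy
      have h1 : ((x : Fin a → R), (0 : Fin c → R)) = ((y : Fin a → R), 0) := congrArg Subtype.val hxy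
      exact Subtype.ext (Prod.ext_iff.mp h1).1
    · rintro ⟨y, hy⟩
      have h1 : g (γ' y) = 0 := by rw [hγ'']; exact hy
      obtain ⟨x, hx⟩ := (hfg _).mp h1
      obtain ⟨x', rfl⟩ := hα x
      refine ⟨⟨(-x', y), ?_⟩, rfl⟩
      rw [LinearMap.mem_ker, hβdef, map_neg, map_neg, hx, neg_add_cancel]
    · rintro ⟨⟨x, y⟩, hxy⟩
      constructor
      · intro h
        have h1 : y = 0 := congrArg Subtype.val h
        subst h1
        have h2 : f (α x) = 0 := by
          have := LinearMap.mem_ker.mp hxy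
          rw [hβdef, map_zero, add_zero] at this
          exact this
        refine ⟨⟨x, ?_⟩, rfl⟩
        rw [LinearMap.mem_ker]
        exact hf (by rw [h2, map_zero])
      · rintro ⟨z, hz⟩
        have h1 : ((z : Fin a → R), (0 : Fin c → R)) = (x, y) := congrArg Subtype.val hz
        have h2 : y = 0 := (Prod.ext_iff.mp h1).2.symm
        subst h2
        rfl

variable {A B C : Type u} [AddCommGroup A] [Module R A] [AddCommGroup B]
    [Module R B] [AddCommGroup C] [Module R C]

theorem FFR.of_equiv (e : A ≃ₗ[R] B) (h : FFR R A) : FFR R B := by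
  obtain ⟨n, h⟩ := h
  exact ⟨n, h.of_equiv e⟩

theorem FFR.of_free (k : ℕ) : FFR R (Fin k → R) := ⟨0, Res.of_free k 0⟩

theorem FFR.of_subsingleton [Subsingleton A] : FFR R A :=
  ⟨0, 0, ⟨LinearEquiv.ofSubsingleton _ _⟩⟩

theorem FFR.self : FFR R R :=
  FFR.of_equiv (LinearEquiv.funUnique (Fin 1) R R) (FFR.of_free 1)

/-- 2-of-3, middle term -/
theorem FFR.mid {f : A →ₗ[R] B} {g : B →ₗ[R] C} (hf : Function.Injective f)
    (hg : Function.Surjective g) (hfg : Function.Exact f g) (hA : FFR R A) (hC : FFR R C) :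
    FFR R B := by
  obtain ⟨n, hn⟩ := hA
  obtain ⟨m, hm⟩ := hC
  exact ⟨max n m, Res.mid hf hg hfg (hn.mono (le_max_left _ _)) (hm.mono (le_max_right _ _))⟩

theorem FFR.prod (hA : FFR R A) (hC : FFR R C) : FFR R (A × C) :=
  FFR.mid (f := LinearMap.inl R A C) (g := LinearMap.snd R A C) LinearMap.inl_injective
    LinearMap.snd_surjective (by
      rintro ⟨x, y⟩
      constructor
      · intro h
        have h1 : y = 0 := h
        exact ⟨x, by rw [h1]; rfl⟩
      · rintro ⟨z, hz⟩
        rw [← hz]; rfl) hA hC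

/-- surjection from a free module with FFR kernel -/
theorem FFR.of_surj {k : ℕ} (f : (Fin k → R) →ₗ[R] A) (hf : Function.Surjective f)
    (h : FFR R (LinearMap.ker f)) : FFR R A := by
  obtain ⟨n, h⟩ := h
  exact ⟨n + 1, k, f, hf, h⟩

theorem FFR.exists_surj (h : FFR R A) : ∃ (k : ℕ) (f : (Fin k → R) →ₗ[R] A),
    Function.Surjective f ∧ FFR R (LinearMap.ker f) := by
  obtain ⟨n, h⟩ := h
  obtain ⟨k, f, hf, h⟩ := h.succ
  exact ⟨k, f, hf, n, h⟩

/-- 2-of-3, right term -/
theorem FFR.right {f : A →ₗ[R] B} {g : B →ₗ[R] C} (hf : Function.Injective f)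
    (hg : Function.Surjective g) (hfg : Function.Exact f g) (hA : FFR R A) (hB : FFR R B) :
    FFR R C := by
  obtain ⟨b, β, hβ, hk⟩ := hB.exists_surj
  refine FFR.of_surj (g.comp β) (hg.comp hβ) ?_
  -- `0 → ker β → ker (g β) → ker g ≃ A → 0`
  let i : LinearMap.ker β →ₗ[R] LinearMap.ker (g.comp β) :=
    Submodule.inclusion (LinearMap.ker_le_ker_comp β g)
  let p : LinearMap.ker (g.comp β) →ₗ[R] LinearMap.ker g :=
    LinearMap.codRestrict _ (β.comp (LinearMap.ker (g.comp β)).subtype) (fun x => x.2)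
  have hr : LinearMap.range f = LinearMap.ker g := (LinearMap.exact_iff.mp hfg).symm
  have e : A ≃ₗ[R] LinearMap.ker g :=
    (LinearEquiv.ofInjective f hf).trans (LinearEquiv.ofEq _ _ hr)
  refine FFR.mid (f := i) (g := p) (Submodule.inclusion_injective _) ?_ ?_ hk (hA.of_equiv e)
  · rintro ⟨y, hy⟩
    obtain ⟨x, rfl⟩ := hβ y
    exact ⟨⟨x, hy⟩, rfl⟩
  · rintro ⟨x, hx⟩
    constructor
    · intro h
      have h1 : β x = 0 := congrArg Subtype.val h
      exact ⟨⟨x, h1⟩, rfl⟩
    · rintro ⟨z, hz⟩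
      have h1 : (z : Fin b → R) = x := congrArg Subtype.val hz
      apply Subtype.ext
      show β x = 0
      rw [← h1]; exact z.2

/-- cancelling a free summand -/
theorem FFR.of_prod_free {k : ℕ} (h : FFR R (A × (Fin k → R))) : FFR R A :=
  FFR.right (f := LinearMap.inr R A (Fin k → R)) (g := LinearMap.fst R A (Fin k → R))
    LinearMap.inr_injective LinearMap.fst_surjective (by
      rintro ⟨x, y⟩
      constructor
      · intro h
        have h1 : x = 0 := h
        exact ⟨y, by rw [h1]; rfl⟩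
      · rintro ⟨z, hz⟩
        rw [← hz]; rfl) (FFR.of_free k) h

/-- 2-of-3, left term -/
theorem FFR.left {f : A →ₗ[R] B} {g : B →ₗ[R] C} (hf : Function.Injective f)
    (hg : Function.Surjective g) (hfg : Function.Exact f g) (hB : FFR R B) (hC : FFR R C) :
    FFR R A := by
  obtain ⟨c, γ, hγ, hk⟩ := hC.exists_surj
  obtain ⟨γ', hγ'⟩ := Module.projective_lifting_property g γ hg
  have hγ'' : ∀ x, g (γ' x) = γ x := fun x => LinearMap.congr_fun hγ' x
  apply FFR.of_prod_free (k := c)
  let φ : (A × (Fin c → R)) →ₗ[R] B := f.coprod γ'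
  have hφdef : ∀ x y, φ (x, y) = f x + γ' y := fun x y => by simp [φ]
  have hφ : Function.Surjective φ := by
    intro b
    obtain ⟨y, hy⟩ := hγ (g b)
    have h1 : g (b - γ' y) = 0 := by rw [map_sub, hγ'', hy, sub_self]
    obtain ⟨x, hx⟩ := (hfg _).mp h1
    exact ⟨(x, y), by rw [hφdef, hx]; simp⟩
  let p : LinearMap.ker φ →ₗ[R] LinearMap.ker γ :=
    LinearMap.codRestrict _ ((LinearMap.snd R A (Fin c → R)).comp
      (LinearMap.ker φ).subtype) (by
      rintro ⟨⟨x, y⟩, hxy⟩
      rw [LinearMap.mem_ker]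
      show γ y = 0
      have h1 := congrArg g (LinearMap.mem_ker.mp hxy)
      rw [hφdef, map_add, hfg.apply_apply_eq_zero, zero_add, hγ'', map_zero] at h1
      exact h1)
  have hp : Function.Bijective p := by
    constructor
    · rw [injective_iff_map_eq_zero]
      rintro ⟨⟨x, y⟩, hxy⟩ h
      have h1 : y = 0 := congrArg Subtype.val h
      subst h1
      have h2 : f x = 0 := by
        have := LinearMap.mem_ker.mp hxy
        rw [hφdef, map_zero, add_zero] at this
        exact this
      have h3 : x = 0 := hf (by rw [h2, map_zero])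
      subst h3
      rfl
    · rintro ⟨y, hy⟩
      have h1 : g (γ' y) = 0 := by rw [hγ'']; exact hy
      obtain ⟨x, hx⟩ := (hfg _).mp h1
      refine ⟨⟨(-x, y), ?_⟩, rfl⟩
      rw [LinearMap.mem_ker, hφdef, map_neg, hx, neg_add_cancel]
  have hkφ : FFR R (LinearMap.ker φ) := hk.of_equiv (LinearEquiv.ofBijective p hp).symm
  exact FFR.mid (f := (LinearMap.ker φ).subtype) (g := φ) (Submodule.subtype_injective _) hφ
    (LinearMap.exact_subtype_ker_map φ) hkφ hB

/-- every surjection from a free module onto an FFR module has FFR kernel -/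
theorem FFR.ker {k : ℕ} (f : (Fin k → R) →ₗ[R] A) (hf : Function.Surjective f) (h : FFR R A) :
    FFR R (LinearMap.ker f) :=
  FFR.left (f := (LinearMap.ker f).subtype) (g := f) (Submodule.subtype_injective _) hf
    (LinearMap.exact_subtype_ker_map f) (FFR.of_free k) h







end Exact

section Projective

variable {A B : Type u} [AddCommGroup A] [Module R A] [AddCommGroup B] [Module R B]

theorem StFree.of_equiv (e : A ≃ₗ[R] B) (h : StFree R A) : StFree R B := by
  obtain ⟨m, n, ⟨f⟩⟩ := h
  exact ⟨m, n, ⟨(LinearEquiv.prodCongr e.symm (LinearEquiv.refl R _)).trans f⟩⟩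

theorem StFree.of_free (k : ℕ) : StFree R (Fin k → R) :=
  ⟨0, k + 0, ⟨powProd R k 0⟩⟩


/-- stably free modules are projective -/
theorem StFree.projective (h : StFree R A) : Module.Projective R A := by
  obtain ⟨m, n, ⟨f⟩⟩ := h
  exact Module.Projective.of_split
    (f.toLinearMap.comp (LinearMap.inl R A (Fin m → R)))
    ((LinearMap.fst R A (Fin m → R)).comp f.symm.toLinearMap) (by
      ext x; simp)

/-- stably free modules have finite free resolutions -/
theorem StFree.ffr (h : StFree R A) : FFR R A := by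
  obtain ⟨m, n, ⟨f⟩⟩ := h
  exact FFR.of_prod_free ((FFR.of_free n).of_equiv f.symm)

/-- sums of stably free modules -/
theorem StFree.prod (hA : StFree R A) (hB : StFree R B) : StFree R (A × B) := by
  obtain ⟨m, n, ⟨f⟩⟩ := hA
  obtain ⟨m', n', ⟨f'⟩⟩ := hB
  refine ⟨m + m', n + n', ⟨?_⟩⟩
  have e1 : ((A × B) × (Fin (m + m') → R)) ≃ₗ[R] ((A × B) × ((Fin m → R) × (Fin m' → R))) :=
    LinearEquiv.prodCongr (LinearEquiv.refl R _) (powProd R m m').symm
  have e2 : ((A × B) × ((Fin m → R) × (Fin m' → R))) ≃ₗ[R]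
      ((A × (Fin m → R)) × (B × (Fin m' → R))) :=
    LinearEquiv.prodProdProdComm R A B (Fin m → R) (Fin m' → R)
  have e3 : ((A × (Fin m → R)) × (B × (Fin m' → R))) ≃ₗ[R] ((Fin n → R) × (Fin n' → R)) :=
    LinearEquiv.prodCongr f f'
  exact (e1.trans e2).trans (e3.trans (powProd R n n'))

/-- cancelling a stably free summand -/
theorem StFree.of_prod (h : StFree R (A × B)) (hB : StFree R B) : StFree R A := by
  obtain ⟨m, n, ⟨f⟩⟩ := h
  obtain ⟨m', n', ⟨f'⟩⟩ := hB
  -- `A × R^{n'+m} ≃ A × ((B × R^{m'}) × R^m) ≃ ((A × B) × R^m) × R^{m'}`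
  refine ⟨n' + m, n + m', ⟨?_⟩⟩
  have e0 : (Fin (n' + m) → R) ≃ₗ[R] ((B × (Fin m' → R)) × (Fin m → R)) :=
    (powProd R n' m).symm.trans (LinearEquiv.prodCongr f'.symm (LinearEquiv.refl R (Fin m → R)))
  have e1 : (A × (Fin (n' + m) → R)) ≃ₗ[R] A × ((B × (Fin m' → R)) × (Fin m → R)) :=
    LinearEquiv.prodCongr (LinearEquiv.refl R A) e0
  have e2 : (A × ((B × (Fin m' → R)) × (Fin m → R))) ≃ₗ[R]
      (((A × B) × (Fin m → R)) × (Fin m' → R)) :=
    { toFun := fun x => (((x.1, x.2.1.1), x.2.2), x.2.1.2)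
      invFun := fun x => (x.1.1.1, ((x.1.1.2, x.2), x.1.2))
      map_add' := fun _ _ => rfl
      map_smul' := fun _ _ => rfl
      left_inv := fun _ => rfl
      right_inv := fun _ => rfl }
  have e3 : (((A × B) × (Fin m → R)) × (Fin m' → R)) ≃ₗ[R] ((Fin n → R) × (Fin m' → R)) :=
    LinearEquiv.prodCongr f (LinearEquiv.refl R _)
  exact (e1.trans e2).trans (e3.trans (powProd R n m'))

/-- projective modules with a finite free resolution are stably free -/
theorem Res.stFree : ∀ {n : ℕ} {A : Type u} [AddCommGroup A] [Module R A],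
    Module.Projective R A → Res R n A → StFree R A
  | 0, A, _, _, _, ⟨k, ⟨e⟩⟩ => (StFree.of_free k).of_equiv e.symm
  | n + 1, A, _, _, hP, ⟨k, f, hf, h⟩ => by
    obtain ⟨s, hs⟩ := Module.projective_lifting_property f LinearMap.id hf
    have hs' : ∀ x, f (s x) = x := fun x => LinearMap.congr_fun hs x
    have e : (A × LinearMap.ker f) ≃ₗ[R] (Fin k → R) :=
      LinearEquiv.ofBijective (s.coprod (LinearMap.ker f).subtype) (by
        constructor
        · rw [injective_iff_map_eq_zero]
          rintro ⟨x, ⟨y, hy⟩⟩ hxy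
          simp only [LinearMap.coprod_apply, Submodule.subtype_apply] at hxy
          have h1 : x = 0 := by
            have := congrArg f hxy
            rw [map_add, hs', LinearMap.mem_ker.mp hy, add_zero, map_zero] at this
            exact this
          subst h1
          rw [map_zero, zero_add] at hxy
          subst hxy
          rfl
        · intro y
          refine ⟨(f y, ⟨y - s (f y), ?_⟩), by simp⟩
          rw [LinearMap.mem_ker, map_sub, hs', sub_self])
    have hK : Module.Projective R (LinearMap.ker f) :=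
      Module.Projective.of_split
        (e.toLinearMap.comp (LinearMap.inr R A (LinearMap.ker f)))
        ((LinearMap.snd R A (LinearMap.ker f)).comp e.symm.toLinearMap) (by
          ext x; simp)
    exact StFree.of_prod (((StFree.of_free k).of_equiv e.symm)) (Res.stFree hK h)

theorem FFR.stFree [hP : Module.Projective R A] (h : FFR R A) : StFree R A := by
  obtain ⟨n, h⟩ := h
  exact h.stFree hP



end Projective

end Crest.Agent.R181.FR
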