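import Crest.Agent.R181.LC598a

-- ▼ part R181/LC598b
section

/-!
R181 (helper598), block B9: `LU` for matrix rings, for families and for `Rg`; the ring of upper
triangular matrices.
-/

set_option autoImplicit false
set_option linter.unusedSectionVars false

namespace Crest.Agent.R181.PO

open UR LOC

noncomputable section

section LUm

variable {S S' : Type} [Ring S] [Ring S']

theorem LU_mapMatrix {m : Type} [Fintype m] [DecidableEq m] {f : S →+* S'} (hf : LU f) :
    LU (f.mapMatrix : Matrix m m S →+* Matrix m m S') := by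
  intro n A hA
  have h1 : IsUnit ((Matrix.compRingEquiv (Fin n) m S A).map f) := by
    have := hA.map (Matrix.compRingEquiv (Fin n) m S')
    have e : Matrix.compRingEquiv (Fin n) m S' (A.map f.mapMatrix) =
        (Matrix.compRingEquiv (Fin n) m S A).map f := by
      ext i j; rfl
    rwa [e] at this
  have h2 := hf.isUnit _ h1
  exact (MulEquiv.isUnit_map (Matrix.compRingEquiv (Fin n) m S)).1 h2

/-- matrices over a product -/
def matPi (m P B : Type) [Fintype m] [DecidableEq m] [Ring B] :
    Matrix m m (P → B) ≃+* (P → Matrix m m B) where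
  toFun M p i j := M i j p
  invFun M i j p := M p i j
  left_inv _ := rfl
  right_inv _ := rfl
  map_mul' M N := by
    funext p
    ext i j
    show (M * N) i j p =
      ((show Matrix m m B from fun i j => M i j p) * (show Matrix m m B from fun i j => N i j p)) i j
    rw [Matrix.mul_apply, Matrix.mul_apply, Finset.sum_apply]
    rfl
  map_add' M N := rfl

theorem LU_pi_mapMatrix {m : Type} [Fintype m] [DecidableEq m] {P : Type} {d : P → (S →+* S')}
    (h : LU (RingHom.pi d)) :
    LU (RingHom.pi (fun p => ((d p).mapMatrix : Matrix m m S →+* Matrix m m S'))) := by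
  have e : RingHom.pi (fun p => ((d p).mapMatrix : Matrix m m S →+* Matrix m m S')) =
      ((matPi m P S' : Matrix m m (P → S') ≃+* (P → Matrix m m S')) :
        Matrix m m (P → S') →+* (P → Matrix m m S')).comp (RingHom.pi d).mapMatrix := by
    ext x p i j
    rfl
  rw [e]
  exact LU.comp (LU.equiv _) (LU_mapMatrix h)

theorem surj_pi_mapMatrix {m : Type} [Fintype m] [DecidableEq m] {P : Type} {d : P → (S →+* S')}
    (h : Function.Surjective (RingHom.pi d)) :
    Function.Surjective
      (RingHom.pi (fun p => ((d p).mapMatrix : Matrix m m S →+* Matrix m m S'))) := by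
  intro y
  choose g hg using h
  refine ⟨fun i j => g (fun p => y p i j), ?_⟩
  funext p
  ext i j
  exact congrFun (hg (fun p => y p i j)) p

end LUm

section Rgm

variable {I ι ν : Type} [DecidableEq I] (a : I → ℕ)

theorem Rg.map_LU (Ls : List (Stp I ι)) : ∀ {B C : Type} [Ring B] [Ring C] (f : B →+* C)
    (_ : LU f), LU (Rg.map a Ls f) := by
  induction Ls with
  | nil => intro B C _ _ f hf; exact hf
  | cons s Ls ih =>
    intro B C _ _ f hf
    exact ih (B := Matrix (Sz a s) (Sz a s) B) (C := Matrix (Sz a s) (Sz a s) C) f.mapMatrix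
      (LU_mapMatrix hf)

theorem Rg.pi_LU (Ls : List (Stp I ι)) {P : Type} : ∀ {B C : Type} [Ring B] [Ring C]
    (d : P → (B →+* C)) (_ : LU (RingHom.pi d)), LU (RingHom.pi (fun p => Rg.map a Ls (d p))) := by
  induction Ls with
  | nil => intro B C _ _ f hf; exact hf
  | cons s Ls ih =>
    intro B C _ _ f hf
    exact ih (B := Matrix (Sz a s) (Sz a s) B) (C := Matrix (Sz a s) (Sz a s) C)
      (fun p => (f p).mapMatrix) (LU_pi_mapMatrix hf)

theorem Rg.pi_surjective (Ls : List (Stp I ι)) {P : Type} : ∀ {B C : Type} [Ring B] [Ring C]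
    (d : P → (B →+* C)) (_ : Function.Surjective (RingHom.pi d)),
    Function.Surjective (RingHom.pi (fun p => Rg.map a Ls (d p))) := by
  induction Ls with
  | nil => intro B C _ _ f hf; exact hf
  | cons s Ls ih =>
    intro B C _ _ f hf
    exact ih (B := Matrix (Sz a s) (Sz a s) B) (C := Matrix (Sz a s) (Sz a s) C)
      (fun p => (f p).mapMatrix) (surj_pi_mapMatrix hf)

end Rgm

section UT

variable (n : ℕ) (B : Type) [Ring B]

/-- upper triangular matrices -/
def UT : Subring (Matrix (Fin n) (Fin n) B) where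
  carrier := {M | ∀ p q, q < p → M p q = 0}
  mul_mem' := by
    intro M N hM hN p q hpq
    rw [Matrix.mul_apply]
    refine Finset.sum_eq_zero fun r _ => ?_
    by_cases h : r < p
    · rw [hM p r h, zero_mul]
    · rw [hN r q (lt_of_lt_of_le hpq (not_lt.1 h)), mul_zero]
  one_mem' := by
    intro p q hpq
    exact Matrix.one_apply_ne (ne_of_gt hpq)
  add_mem' := by
    intro M N hM hN p q hpq
    rw [Matrix.add_apply, hM p q hpq, hN p q hpq, add_zero]
  zero_mem' := by intro p q _; rfl
  neg_mem' := by
    intro M hM p q hpq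
    rw [Matrix.neg_apply, hM p q hpq, neg_zero]

variable {n B}


/-- the diagonal entry -/
def dg (p : Fin n) : UT n B →+* B where
  toFun M := M.1 p p
  map_one' := by simp
  map_zero' := rfl
  map_add' M N := rfl
  map_mul' M N := by
    show (M.1 * N.1) p p = M.1 p p * N.1 p p
    rw [Matrix.mul_apply, Finset.sum_eq_single p]
    · intro r _ hr
      rcases lt_or_gt_of_ne hr with h | h
      · rw [M.2 p r h, zero_mul]
      · rw [N.2 r p h, mul_zero]
    · intro h; exact absurd (Finset.mem_univ p) h

@[simp] theorem dg_apply (p : Fin n) (M : UT n B) : dg p M = M.1 p p := rfl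

theorem surj_dg : Function.Surjective (RingHom.pi (fun p : Fin n => (dg p : UT n B →+* B))) := by
  intro y
  refine ⟨⟨Matrix.diagonal y, fun p q h => Matrix.diagonal_apply_ne _ (ne_of_gt h)⟩, ?_⟩
  funext p
  show (Matrix.diagonal y) p p = y p
  simp

theorem nil_UT (M : UT n B) (h : ∀ p, dg p M = 0) : IsNilpotent M := by
  have key : ∀ k : ℕ, ∀ p q : Fin n, (q : ℕ) < p + k → (M.1 ^ k) p q = 0 := by
    intro k
    induction k with
    | zero =>
      intro p q hpq
      rw [pow_zero]
      exact Matrix.one_apply_ne (fun e => by subst e; omega)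
    | succ k ih =>
      intro p q hpq
      rw [pow_succ, Matrix.mul_apply]
      refine Finset.sum_eq_zero fun r _ => ?_
      by_cases h1 : (r : ℕ) < p + k
      · rw [ih p r h1, zero_mul]
      · by_cases h2 : q < r
        · rw [M.2 r q h2, mul_zero]
        · have h3 : r = q := by
            apply le_antisymm
            · exact not_lt.1 h2
            · rw [Fin.le_def]; omega
          subst h3
          have := h r
          rw [dg_apply] at this
          rw [this, mul_zero]
  refine ⟨n, Subtype.ext ?_⟩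
  show ((M ^ n : UT n B) : Matrix (Fin n) (Fin n) B) = 0
  rw [SubmonoidClass.coe_pow]
  ext p q
  rw [key n p q (by have := q.2; omega)]
  rfl

theorem LU_dg : LU (RingHom.pi (fun p : Fin n => (dg p : UT n B →+* B))) := by
  apply LU.of_nil surj_dg
  intro M hM
  exact nil_UT M (fun p => congrFun hM p)

end UT

end

end Crest.Agent.R181.PO
end

-- ▼ part R181/LC598c
section

/-!
R181 (helper598), block B9: a step whose last entry vanishes is upper triangular; locality can be
checked on the diagonal pieces.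
-/

set_option autoImplicit false
set_option linter.unusedSectionVars false

namespace Crest.Agent.R181.PO

open UR LOC

noncomputable section

section Tri

variable {I ι ν : Type} [DecidableEq I] (a : I → ℕ)

/-- `W i` is multiplied by `om i ^ k` -/
def tws {B : Type} [Ring B] (i : I) (k : ℕ) (S : St I ι ν B) : St I ι ν B :=
  { S with W := fun l u => if l = i then S.om i ^ k * S.W l u else S.W l u }

variable {B C : Type} [Ring B] [Ring C]

@[simp] theorem tws_om (i : I) (k : ℕ) (S : St I ι ν B) : (tws i k S).om = S.om := rfl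
@[simp] theorem tws_th (i : I) (k : ℕ) (S : St I ι ν B) : (tws i k S).th = S.th := rfl
@[simp] theorem tws_tl (i : I) (k : ℕ) (S : St I ι ν B) : (tws i k S).tl = S.tl := rfl
@[simp] theorem tws_vec (i : I) (k : ℕ) (S : St I ι ν B) : (tws i k S).vec = S.vec := rfl
@[simp] theorem tws_W0 (i : I) (k : ℕ) (S : St I ι ν B) : (tws i k S).W0 = S.W0 := rfl

theorem tws_zero (i : I) (S : St I ι ν B) : tws i 0 S = S := by
  refine St.ext rfl rfl rfl rfl rfl ?_
  funext l u
  simp [tws]

theorem tws_tws (i : I) (k k' : ℕ) (S : St I ι ν B) : tws i k (tws i k' S) = tws i (k + k') S := by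
  refine St.ext rfl rfl rfl rfl rfl ?_
  funext l u
  simp only [tws]
  split_ifs with h
  · rw [pow_add, mul_assoc]
  · rfl

/-- the last entry of the block vanishes -/
def Last0 (s : Stp I ι) (S : St I ι ν B) : Prop := ∀ u, ent a s S (a s.op - 1) u = 0

/-- no step compares an operator with itself -/
def Stp.good : Stp I ι → Prop
  | .mono _ _ => True
  | .pair i l => l ≠ i

theorem Last0.tws {s : Stp I ι} {S : St I ι ν B} (h : Last0 a s S) (hg : s.good) (k : ℕ) :
    Last0 a s (tws s.op k S) := by
  cases s with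
  | mono i k' => exact h
  | pair i l =>
    intro u
    have := h u
    simp only [ent, Stp.op_pair] at this ⊢
    simpa [PO.tws, show l ≠ i from hg] using this

theorem scalar_mem_UT {n : ℕ} (x : B) : Matrix.scalar (Fin n) x ∈ UT n B := by
  intro p q h
  rw [Matrix.scalar_apply]
  exact Matrix.diagonal_apply_ne _ (ne_of_gt h)

/-- the scalars -/
def scU (n : ℕ) (B : Type) [Ring B] : B →+* UT n B :=
  (Matrix.scalar (Fin n)).codRestrict _ scalar_mem_UT

theorem scU_comm {n : ℕ} (x : B) (hx : ∀ y, Commute x y) (z : UT n B) :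
    Commute (scU n B x) z := by
  apply Subtype.ext
  exact Matrix.scalar_commute x (fun r => hx r) z.1

theorem blk_mem_UT {m : ℕ} (om y : B) (e : ℕ → B) (he : e m = 0) :
    blk (n := m + 1) om y e ∈ UT (m + 1) B := by
  intro p q h
  simp only [blk]
  rw [if_neg (ne_of_lt h), zero_add]
  split_ifs with h1
  · have hp : p = Fin.last m := by
      by_contra hne
      have h2 : p < Fin.last m := lt_of_le_of_ne (Fin.le_last p) hne
      have h3 : p < p + 1 := Fin.lt_add_one_iff.2 h2
      rw [← h1] at h3
      exact absurd h (not_lt.2 h3.le)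
    rw [hp, Fin.val_last, he]
  · rfl

/-- the step with values in the upper triangular matrices -/
def runU (s : Stp I ι) (S : St I ι ν B) (h : Last0 a s S) :
    St I ι ν (UT (a s.op - 1 + 1) B) where
  om i := ⟨(run a s S).om i, scalar_mem_UT _⟩
  th i l := ⟨(run a s S).th i l, scalar_mem_UT _⟩
  tl i := ⟨(run a s S).tl i, scalar_mem_UT _⟩
  vec k u := ⟨(run a s S).vec k u, scalar_mem_UT _⟩
  W0 i u := ⟨(run a s S).W0 i u, scalar_mem_UT _⟩
  W i u := ⟨(run a s S).W i u, by
    simp only [run]
    split_ifs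
    · exact blk_mem_UT _ _ _ (h u)
    · exact scalar_mem_UT _⟩


theorem blk_diag {m : ℕ} (om y : B) (e : ℕ → B) (he : e m = 0) (p : Fin (m + 1)) :
    blk (n := m + 1) om y e p p = om ^ (p : ℕ) * y := by
  simp only [blk, if_true]
  split_ifs with h1
  · have hp : p = Fin.last m := by
      by_contra hne
      have h2 : p < Fin.last m := lt_of_le_of_ne (Fin.le_last p) hne
      have h3 : p < p + 1 := Fin.lt_add_one_iff.2 h2
      rw [← h1] at h3
      exact lt_irrefl _ h3
    rw [hp, Fin.val_last, he, add_zero]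
  · rw [add_zero]

theorem runU_dg (s : Stp I ι) (S : St I ι ν B) (h : Last0 a s S) (p : Fin (a s.op - 1 + 1)) :
    (runU a s S h).map (dg p) = tws s.op p S := by
  refine St.ext ?_ ?_ ?_ ?_ ?_ ?_
  · funext i
    show (Matrix.scalar _ (S.om i)) p p = _
    simp
  · funext i l
    show (Matrix.scalar _ (S.th i l)) p p = _
    simp
  · funext i
    show (Matrix.scalar _ (S.tl i)) p p = _
    simp
  · funext k u
    show (Matrix.scalar _ (S.vec k u)) p p = _
    simp
  · funext i u
    show (Matrix.scalar _ (S.W0 i u)) p p = _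
    simp
  · funext i u
    show (run a s S).W i u p p = (tws s.op p S).W i u
    simp only [run, tws]
    split_ifs with h1
    · rw [blk_diag _ _ _ (h u), h1]
    · simp

/-- functoriality of `UT` -/
def UT.map {n : ℕ} (f : B →+* C) : UT n B →+* UT n C :=
  (f.mapMatrix.comp (UT n B).subtype).codRestrict _ (fun M p q h => by
    show f (M.1 p q) = 0
    rw [M.2 p q h, map_zero])

theorem UT.map_injective {n : ℕ} (f : B →+* C) (hf : Function.Injective f) :
    Function.Injective (UT.map (n := n) f) := by
  intro x y h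
  apply Subtype.ext
  ext p q
  exact hf (congrFun (congrFun (congrArg Subtype.val h) p) q)

theorem Last0.map {s : Stp I ι} {S : St I ι ν B} (h : Last0 a s S) (f : B →+* C) :
    Last0 a s (S.map f) := by
  intro u
  rw [ent_map, h u, map_zero]

theorem runU_map (f : B →+* C) (s : Stp I ι) (S : St I ι ν B) (h : Last0 a s S) :
    runU a s (S.map f) (h.map a f) = (runU a s S h).map (UT.map f) := by
  have := run_map a f s S
  refine St.ext ?_ ?_ ?_ ?_ ?_ ?_
  · funext i; exact Subtype.ext (congrFun (congrArg St.om this) i)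
  · funext i l; exact Subtype.ext (congrFun (congrFun (congrArg St.th this) i) l)
  · funext i; exact Subtype.ext (congrFun (congrArg St.tl this) i)
  · funext i l; exact Subtype.ext (congrFun (congrFun (congrArg St.vec this) i) l)
  · funext i l; exact Subtype.ext (congrFun (congrFun (congrArg St.W0 this) i) l)
  · funext i l; exact Subtype.ext (congrFun (congrFun (congrArg St.W this) i) l)

theorem Last0.pull {ν' : Type} {s : Stp I ι} {S : St I ι ν B} (h : Last0 a s S) (g : ν' → ν) :
    Last0 a s (S.pull g) := by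
  intro u
  have : ent a s (S.pull g) (a s.op - 1) u = ent a s S (a s.op - 1) (g u) := by
    cases s <;> rfl
  rw [this, h]

theorem runU_pull {ν' : Type} (g : ν' → ν) (s : Stp I ι) (S : St I ι ν B) (h : Last0 a s S) :
    runU a s (S.pull g) (h.pull a g) = (runU a s S h).pull g := by
  have := run_pull a g s S
  refine St.ext rfl rfl rfl rfl rfl ?_
  funext i l; exact Subtype.ext (congrFun (congrFun (congrArg St.W this) i) l)



end Tri

section Tri2

variable {F D I σ ι : Type} [Field F] [DivisionRing D] [Algebra F D] [Fintype I] [Fintype σ]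
  [DecidableEq I] {a : I → ℕ} {th : I → I → F} {ω : I → F} {T : TwD a th ω}
  {Q0 : I → MvPolynomial σ F} {w : I → σ → D}

/-- the final tuple is local as soon as it is a tuple -/
def LocFin (a : I → ℕ) (th : I → I → F) (Q0 : I → MvPolynomial σ F) (w : I → σ → D)
    (Ls : List (Stp I ι)) {B : Type} [Ring B] (lam : F →+* B)
    (S : St I ι σ B) : Prop :=
  IsTuple a th Q0 ((sc a Ls).comp lam) (fin a Ls S).W →
    IsLoc w ((sc a Ls).comp lam) (fin a Ls S).W

variable {B C : Type} [Ring B] [Ring C]

/-- the final tuple over `C` from the final tuple over `B` -/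
theorem fin_tuple_map {ν : Type} [Fintype ν] {Q : I → MvPolynomial ν F} (Ls : List (Stp I ι))
    (f : B →+* C) (lam : F →+* B)
    (S : St I ι ν B) (h : IsTuple a th Q ((sc a Ls).comp lam) (fin a Ls S).W) :
    IsTuple a th Q ((sc a Ls).comp (f.comp lam)) (fin a Ls (S.map f)).W := by
  have h1 := h.map (Rg.map a Ls f)
  rw [fin_map]
  have e : (Rg.map a Ls f).comp ((sc a Ls).comp lam) = (sc a Ls).comp (f.comp lam) := by
    ext c; exact Rg.map_sc a Ls f (lam c)
  rw [e] at h1
  exact h1

theorem fin_tuple_of_injective {ν : Type} [Fintype ν] {Q : I → MvPolynomial ν F}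
    (Ls : List (Stp I ι)) (f : B →+* C)
    (hf : Function.Injective f) (lam : F →+* B)
    (S : St I ι ν B) (h : IsTuple a th Q ((sc a Ls).comp (f.comp lam)) (fin a Ls (S.map f)).W) :
    IsTuple a th Q ((sc a Ls).comp lam) (fin a Ls S).W := by
  rw [fin_map] at h
  have e : (Rg.map a Ls f).comp ((sc a Ls).comp lam) = (sc a Ls).comp (f.comp lam) := by
    ext c; exact Rg.map_sc a Ls f (lam c)
  rw [← e] at h
  exact IsTuple.of_injective (Rg.map a Ls f) (Rg.map_injective a Ls f hf) h

theorem fin_loc_map (Ls : List (Stp I ι)) (f : B →+* C) (lam : F →+* B)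
    (S : St I ι σ B) (h : IsLoc w ((sc a Ls).comp lam) (fin a Ls S).W) :
    IsLoc w ((sc a Ls).comp (f.comp lam)) (fin a Ls (S.map f)).W := by
  have h1 := h.map (Rg.map a Ls f)
  rw [fin_map]
  have e : (Rg.map a Ls f).comp ((sc a Ls).comp lam) = (sc a Ls).comp (f.comp lam) := by
    ext c; exact Rg.map_sc a Ls f (lam c)
  rw [e] at h1
  exact h1

/-- locality lifts along a surjection `f : B → C` which reflects invertibility -/
theorem LocFin.of_LU (hL : LocHyp T Q0 w) (Ls : List (Stp I ι)) (f : B →+* C)
    (hf : Function.Surjective f) (hf' : LU f) (lam : F →+* B) (hlam : ∀ c x, Commute (lam c) x)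
    (S : St I ι σ B) (h : LocFin a th Q0 w Ls (f.comp lam) (S.map f)) :
    LocFin a th Q0 w Ls lam S := by
  intro ht
  have h1 := h (fin_tuple_map Ls f lam S ht)
  refine hL.rad (Rg.map a Ls f) (Rg.map_surjective a Ls f hf) (Rg.map_LU a Ls f hf') _
    (fun c x => sc_comm a Ls _ (hlam c) x) _ ht ?_
  rw [fin_map] at h1
  have e : (Rg.map a Ls f).comp ((sc a Ls).comp lam) = (sc a Ls).comp (f.comp lam) := by
    ext c; exact Rg.map_sc a Ls f (lam c)
  rw [e]
  exact h1

/-- locality lifts along a family -/
theorem LocFin.of_family (hL : LocHyp T Q0 w) (Ls : List (Stp I ι)) {P : Type} (f : P → (B →+* C))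
    (hf : Function.Surjective (RingHom.pi f)) (hf' : LU (RingHom.pi f)) (lam : F →+* B)
    (hlam : ∀ c x, Commute (lam c) x)
    (S : St I ι σ B) (h : ∀ p, LocFin a th Q0 w Ls ((f p).comp lam) (S.map (f p))) :
    LocFin a th Q0 w Ls lam S := by
  intro ht
  refine hL.rad (RingHom.pi (fun p => Rg.map a Ls (f p))) (Rg.pi_surjective a Ls f hf)
    (Rg.pi_LU a Ls f hf') _
    (fun c x => sc_comm a Ls _ (hlam c) x) _ ht ?_
  refine IsLoc.pi fun p => ?_
  have h1 := h p (fin_tuple_map Ls (f p) lam S ht)
  rw [fin_map] at h1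
  have e : (Rg.map a Ls (f p)).comp ((sc a Ls).comp lam) = (sc a Ls).comp ((f p).comp lam) := by
    ext c; exact Rg.map_sc a Ls (f p) (lam c)
  rw [← e] at h1
  exact h1

/-- one triangular step, over the ring of upper triangular matrices -/
theorem LocFin.runU (hL : LocHyp T Q0 w) (s : Stp I ι) (Ls : List (Stp I ι)) (lam : F →+* B)
    (hlam : ∀ c x, Commute (lam c) x) (S : St I ι σ B) (hs : Last0 a s S)
    (h : ∀ p : ℕ, LocFin a th Q0 w Ls lam (tws s.op p S)) :
    LocFin a th Q0 w Ls ((scU (a s.op - 1 + 1) B).comp lam) (runU a s S hs) := by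
  refine LocFin.of_family hL Ls (fun p : Fin (a s.op - 1 + 1) => dg p) surj_dg LU_dg _
    (fun c x => scU_comm _ (hlam c) x) _ fun p => ?_
  rw [runU_dg]
  have e : (dg p).comp ((scU (a s.op - 1 + 1) B).comp lam) = lam := by
    ext c
    show (Matrix.scalar _ (lam c)) p p = _
    simp
  rw [e]
  exact h p

theorem LocFin.cons (hL : LocHyp T Q0 w) (s : Stp I ι) (Ls : List (Stp I ι)) (lam : F →+* B)
    (hlam : ∀ c x, Commute (lam c) x) (S : St I ι σ B) (hs : Last0 a s S)
    (h : ∀ p : ℕ, LocFin a th Q0 w Ls lam (tws s.op p S)) :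
    LocFin a th Q0 w (s :: Ls) lam S := by
  intro ht
  have h1 := LocFin.runU hL s Ls lam hlam S hs h
  have h2 : IsTuple a th Q0 ((sc a Ls).comp ((scU (a s.op - 1 + 1) B).comp lam))
      (fin a Ls (PO.runU a s S hs)).W := by
    refine fin_tuple_of_injective Ls (UT (a s.op - 1 + 1) B).subtype Subtype.val_injective _ _ ?_
    exact ht
  have h3 := fin_loc_map Ls (UT (a s.op - 1 + 1) B).subtype _ _ (h1 h2)
  exact h3

/-- the steps of one operator -/
theorem LocFin.tri (hL : LocHyp T Q0 w) (l : I) (Ls2 : List (Stp I ι)) (lam : F →+* B)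
    (hlam : ∀ c x, Commute (lam c) x) :
    ∀ (Ls1 : List (Stp I ι)) (_ : ∀ s ∈ Ls1, s.op = l ∧ s.good) (S : St I ι σ B)
    (_ : ∀ s ∈ Ls1, Last0 a s S)
    (_ : ∀ k : ℕ, LocFin a th Q0 w Ls2 lam (tws l k S)),
    LocFin a th Q0 w (Ls1 ++ Ls2) lam S := by
  intro Ls1
  induction Ls1 with
  | nil =>
    intro _ S _ h
    have := h 0
    rw [tws_zero] at this
    exact this
  | cons s Ls1 ih =>
    intro hop S hlast h
    have hs := hop s List.mem_cons_self
    refine LocFin.cons hL s (Ls1 ++ Ls2) lam hlam S (hlast s List.mem_cons_self) fun p => ?_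
    rw [hs.1]
    refine ih (fun s' h' => hop s' (List.mem_cons_of_mem _ h')) (tws l p S) ?_ ?_
    · intro s' h'
      have h1 := hop s' (List.mem_cons_of_mem _ h')
      have := (hlast s' (List.mem_cons_of_mem _ h')).tws a h1.2 p
      rwa [h1.1] at this
    · intro k
      rw [tws_tws]
      exact h _

end Tri2

end

end Crest.Agent.R181.PO
end

-- ▼ part R181/LC598d

/-!
R181 (helper598), block B9: twisted homs `F → R` (`HasTw`).
-/

set_option autoImplicit false
set_option linter.unusedSectionVars false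

namespace Crest.Agent.R181.PO

open UR LOC

noncomputable section

section Tw

variable {F I : Type} [Field F] [Fintype I] {a : I → ℕ} {th : I → I → F} {ω : I → F}
  {T : TwD a th ω} {R R' : Type} [Ring R] [Ring R']

theorem HasTw.map {lam : F →+* R} {tl : I → R} {lam' : F →+* R} (h : HasTw T lam tl lam')
    (g : R →+* R') : HasTw T (g.comp lam) (fun l => g (tl l)) (g.comp lam') := by
  obtain ⟨c, h1, h2, h3⟩ := h
  exact ⟨g.comp c, fun x => congrArg g (h1 x), fun l => congrArg g (h2 l),
    fun x => congrArg g (h3 x)⟩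

theorem frac_ext {Lam : Type} [CommRing Lam] [IsDomain Lam] [Algebra Lam F] [IsFractionRing Lam F]
    {f g : F →+* R} (h : ∀ x : Lam, f (algebraMap Lam F x) = g (algebraMap Lam F x)) : f = g := by
  ext x
  obtain ⟨p, q, hq, rfl⟩ := IsFractionRing.div_surjective (A := Lam) x
  have hq0 : algebraMap Lam F q ≠ 0 := by
    rw [Ne, IsFractionRing.to_map_eq_zero_iff]
    exact nonZeroDivisors.ne_zero hq
  rw [div_eq_mul_inv, map_mul, map_mul, h]
  congr 1
  have h1 : f (algebraMap Lam F q)⁻¹ * f (algebraMap Lam F q) = 1 := by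
    rw [← map_mul, inv_mul_cancel₀ hq0, map_one]
  have h2 : g (algebraMap Lam F q) * g (algebraMap Lam F q)⁻¹ = 1 := by
    rw [← map_mul, mul_inv_cancel₀ hq0, map_one]
  calc f (algebraMap Lam F q)⁻¹ = f (algebraMap Lam F q)⁻¹ *
      (g (algebraMap Lam F q) * g (algebraMap Lam F q)⁻¹) := by rw [h2, mul_one]
    _ = g (algebraMap Lam F q)⁻¹ := by rw [← mul_assoc, ← h, h1, one_mul]

theorem HasTw.unique {lam : F →+* R} {tl : I → R} {lam1 lam2 : F →+* R}
    (h1 : HasTw T lam tl lam1) (h2 : HasTw T lam tl lam2) : lam1 = lam2 := by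
  obtain ⟨c, h3, h4, h5⟩ := h1
  obtain ⟨c', h3', h4', h5'⟩ := h2
  have e : c = c' := by
    apply MvPolynomial.ringHom_ext
    · intro x; rw [h3, h3']
    · intro l; rw [h4, h4']
  apply frac_ext (Lam := T.Lam)
  intro x
  rw [h5, h5', e]

/-- the hom `F[τ] → R` given by central elements -/
theorem exists_central_eval (lam : F →+* R) (hlam : ∀ c x, Commute (lam c) x) (tl : I → R)
    (htl : ∀ l x, Commute (tl l) x) : ∃ c : MvPolynomial I F →+* R,
    (∀ x, c (MvPolynomial.C x) = lam x) ∧ (∀ l, c (MvPolynomial.X l) = tl l) ∧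
    ∀ p x, Commute (c p) x := by
  let lz : F →+* Subring.center R := lam.codRestrict _ (fun c => by
    rw [Subring.mem_center_iff]; exact fun g => (hlam c g).eq.symm)
  let tz : I → Subring.center R := fun l => ⟨tl l, by
    rw [Subring.mem_center_iff]; exact fun g => (htl l g).eq.symm⟩
  refine ⟨(Subring.center R).subtype.comp (MvPolynomial.eval₂Hom lz tz), ?_, ?_, ?_⟩
  · intro x
    simp [lz]
  · intro l
    simp [tz]
  · intro p x
    have := Subring.mem_center_iff.1 (MvPolynomial.eval₂Hom lz tz p).2 x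
    exact this.symm

theorem isUnit_of_LU {g : R →+* R'} (hg : LU g) {y : R} (hy : IsUnit (g y)) : IsUnit y := by
  have h1 : IsUnit ((Matrix.scalar (Fin 1) y).map g) := by
    have := hy.map (Matrix.scalar (Fin 1) : R' →+* _)
    have e : (Matrix.scalar (Fin 1) y).map g = Matrix.scalar (Fin 1) (g y) := by
      ext i j
      simp [Matrix.scalar_apply, Matrix.diagonal_apply, apply_ite g]
    rwa [e]
  have h2 := hg 1 _ h1
  obtain ⟨u, hu⟩ := h2
  refine ⟨⟨y, u⁻¹.val 0 0, ?_, ?_⟩, rfl⟩
  · have h3 := congrFun (congrFun (u.mul_inv) 0) 0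
    rw [hu] at h3
    simpa [Matrix.mul_apply] using h3
  · have h3 := congrFun (congrFun (u.inv_mul) 0) 0
    rw [hu] at h3
    simpa [Matrix.mul_apply] using h3

/-- extension of a central hom from `Lam` to `F` -/
theorem exists_frac_lift {Lam : Type} [CommRing Lam] [IsDomain Lam] [Algebra Lam F]
    [IsFractionRing Lam F] (f : Lam →+* R) (hf : ∀ p x, Commute (f p) x)
    (hu : ∀ p, p ≠ 0 → IsUnit (f p)) : ∃ g : F →+* R, (∀ p, g (algebraMap Lam F p) = f p) ∧
    ∀ c x, Commute (g c) x := by
  let fz : Lam →+* Subring.center R := f.codRestrict _ (fun c => by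
    rw [Subring.mem_center_iff]; exact fun g => (hf c g).eq.symm)
  have hz : ∀ y : nonZeroDivisors Lam, IsUnit (fz y) := by
    intro y
    obtain ⟨u, hu'⟩ := hu y.1 (nonZeroDivisors.ne_zero y.2)
    have hc : (u⁻¹).val ∈ Subring.center R := by
      rw [Subring.mem_center_iff]
      intro g
      have h1 : Commute u.val g := by rw [hu']; exact hf _ g
      exact (h1.units_inv_left).eq.symm
    refine ⟨⟨fz y, ⟨(u⁻¹).val, hc⟩, ?_, ?_⟩, rfl⟩
    · apply Subtype.ext
      show f y.1 * (u⁻¹).val = 1
      rw [← hu', Units.mul_inv]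
    · apply Subtype.ext
      show (u⁻¹).val * f y.1 = 1
      rw [← hu', Units.inv_mul]
  refine ⟨(Subring.center R).subtype.comp (IsLocalization.lift (M := nonZeroDivisors Lam) hz),
    ?_, ?_⟩
  · intro p
    rw [RingHom.comp_apply, IsLocalization.lift_eq]
    rfl
  · intro c x
    have := Subring.mem_center_iff.1
      ((IsLocalization.lift (M := nonZeroDivisors Lam) hz : F →+* Subring.center R) c).2 x
    exact this.symm

/-- twisted homs lift along homs reflecting invertibility -/
theorem HasTw.lift {g : R →+* R'} (hg : LU g) {lam : F →+* R} (hlam : ∀ c x, Commute (lam c) x)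
    {tl : I → R} (htl : ∀ l x, Commute (tl l) x) {lam2 : F →+* R'}
    (h : HasTw T (g.comp lam) (fun l => g (tl l)) lam2) :
    ∃ lam1 : F →+* R, HasTw T lam tl lam1 ∧ (∀ c x, Commute (lam1 c) x) ∧ g.comp lam1 = lam2 := by
  obtain ⟨c, hc1, hc2, hc3⟩ := exists_central_eval lam hlam tl htl
  obtain ⟨c', h1, h2, h3⟩ := h
  have e : g.comp c = c' := by
    apply MvPolynomial.ringHom_ext
    · intro x; rw [RingHom.comp_apply, hc1, h1]; rfl
    · intro l; rw [RingHom.comp_apply, hc2, h2]
  let f : T.Lam →+* R := (c.comp (MvPolynomial.map (algebraMap T.Lam F))).comp T.Δ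
  have hu : ∀ p : T.Lam, p ≠ 0 → IsUnit (f p) := by
    intro p hp
    apply isUnit_of_LU hg
    have e2 : g (f p) = lam2 (algebraMap T.Lam F p) := by
      rw [h3, ← e]; rfl
    rw [e2]
    apply IsUnit.map
    rw [isUnit_iff_ne_zero, Ne, IsFractionRing.to_map_eq_zero_iff]
    exact hp
  obtain ⟨lam1, hl1, hl2⟩ := exists_frac_lift (F := F) f (fun p x => hc3 _ x) hu
  refine ⟨lam1, ⟨c, hc1, hc2, fun x => hl1 x⟩, hl2, ?_⟩
  apply frac_ext (Lam := T.Lam)
  intro x
  rw [RingHom.comp_apply, hl1, h3, ← e]
  rfl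

/-- the twist by roots of unity -/
theorem HasTw.base {D : Type} [Ring D] [Algebra F D] (e : I → ℕ) (α : F ≃+* F)
    (hα : ∀ x : T.Lam, α (algebraMap T.Lam F x) =
      MvPolynomial.eval (fun l => (ω l ^ e l)⁻¹) (MvPolynomial.map (algebraMap T.Lam F) (T.Δ x))) :
    HasTw T (algebraMap F D) (fun l => algebraMap F D ((ω l ^ e l)⁻¹))
      ((algebraMap F D).comp (α : F →+* F)) := by
  refine ⟨(algebraMap F D).comp (MvPolynomial.eval (fun l => (ω l ^ e l)⁻¹)), ?_, ?_, ?_⟩
  · intro x; simp
  · intro l; simp
  · intro x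
    show algebraMap F D (α (algebraMap T.Lam F x)) = _
    rw [hα]
    rfl

end Tw

end

end Crest.Agent.R181.PO
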