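import Crest.Agent.R181.UR396b

/-!
R181 (helper598), block B9: the matrix models.  Steps, states, the run.

A *state* over a ring `B` (index set `I` of operators, `ι` of auxiliary vectors, `ν` of variables):
central elements `om i, th i l, tl i`, central vectors `vec k : ν → B`, the starting point
`W0 : I → ν → B` and the current point `W : I → ν → B`.  A step for the operator `i` replaces `B` by
the matrix ring of size `a i` and `W i` by a cyclic block; everything else becomes scalar.
-/

set_option autoImplicit false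
set_option linter.unusedSectionVars false

namespace Crest.Agent.R181.PO

/-- a step of the construction -/
inductive Stp (I ι : Type)
  | mono (i : I) (k : ℕ → ι)
  | pair (i l : I)

/-- the operator of a step -/
def Stp.op {I ι : Type} : Stp I ι → I
  | mono i _ => i
  | pair i _ => i

@[simp] theorem Stp.op_mono {I ι : Type} (i : I) (k : ℕ → ι) : (Stp.mono i k).op = i := rfl
@[simp] theorem Stp.op_pair {I ι : Type} (i l : I) : (Stp.pair i l : Stp I ι).op = i := rfl

/-- the steps for the operator `i` -/
def opSteps {I ι : Type} (ml : I → List (ℕ → ι)) (pl : I → List I) (i : I) : List (Stp I ι) :=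
  (ml i).map (Stp.mono i) ++ (pl i).map (Stp.pair i)

/-- all steps -/
def allSteps {I ι : Type} (ml : I → List (ℕ → ι)) (pl : I → List I) (ops : List I) :
    List (Stp I ι) :=
  ops.flatMap (opSteps ml pl)

/-- a state over the ring `B` -/
@[ext] structure St (I ι ν B : Type) where
  om : I → B
  th : I → I → B
  tl : I → B
  vec : ι → ν → B
  W0 : I → ν → B
  W : I → ν → B

namespace St

variable {I ι ν ν' B C C' : Type}

/-- change of the ring -/
def map (f : B → C) (S : St I ι ν B) : St I ι ν C where
  om i := f (S.om i)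
  th i l := f (S.th i l)
  tl i := f (S.tl i)
  vec k u := f (S.vec k u)
  W0 i u := f (S.W0 i u)
  W i u := f (S.W i u)

/-- change of the variables -/
def pull (g : ν' → ν) (S : St I ι ν B) : St I ι ν' B where
  om := S.om
  th := S.th
  tl := S.tl
  vec k u := S.vec k (g u)
  W0 i u := S.W0 i (g u)
  W i u := S.W i (g u)

@[simp] theorem map_om (f : B → C) (S : St I ι ν B) (i) : (S.map f).om i = f (S.om i) := rfl
@[simp] theorem map_th (f : B → C) (S : St I ι ν B) (i l) : (S.map f).th i l = f (S.th i l) := rfl
@[simp] theorem map_tl (f : B → C) (S : St I ι ν B) (i) : (S.map f).tl i = f (S.tl i) := rfl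
@[simp] theorem map_vec (f : B → C) (S : St I ι ν B) (i u) :
    (S.map f).vec i u = f (S.vec i u) := rfl
@[simp] theorem map_W0 (f : B → C) (S : St I ι ν B) (i u) : (S.map f).W0 i u = f (S.W0 i u) := rfl
@[simp] theorem map_W (f : B → C) (S : St I ι ν B) (i u) : (S.map f).W i u = f (S.W i u) := rfl

@[simp] theorem pull_om (g : ν' → ν) (S : St I ι ν B) (i) : (S.pull g).om i = S.om i := rfl
@[simp] theorem pull_th (g : ν' → ν) (S : St I ι ν B) (i l) : (S.pull g).th i l = S.th i l := rfl
@[simp] theorem pull_tl (g : ν' → ν) (S : St I ι ν B) (i) : (S.pull g).tl i = S.tl i := rfl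
@[simp] theorem pull_vec (g : ν' → ν) (S : St I ι ν B) (i u) :
    (S.pull g).vec i u = S.vec i (g u) := rfl
@[simp] theorem pull_W0 (g : ν' → ν) (S : St I ι ν B) (i u) :
    (S.pull g).W0 i u = S.W0 i (g u) := rfl
@[simp] theorem pull_W (g : ν' → ν) (S : St I ι ν B) (i u) : (S.pull g).W i u = S.W i (g u) := rfl

theorem map_map (f : B → C) (g : C → C') (S : St I ι ν B) :
    (S.map f).map g = S.map (g ∘ f) := rfl



end St

section Run

variable {I ι ν ν' : Type} [DecidableEq I] (a : I → ℕ)

/-- the size of the matrices of a step -/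
abbrev Sz (s : Stp I ι) : Type := Fin (a s.op - 1 + 1)

/-- the entries of the cyclic block -/
def ent {B : Type} [Ring B] (s : Stp I ι) (S : St I ι ν B) (p : ℕ) (u : ν) : B :=
  match s with
  | .mono _ k => S.vec (k p) u
  | .pair i l => (if p = a i - 1 then S.th i l else 1) *
      (S.tl l * S.W l u - S.om i ^ (p + 1) * S.W0 l u)

/-- the cyclic block: `y, om * y, om ^ 2 * y, ...` on the diagonal, `e p` at `(p, p + 1)` -/
def blk {B : Type} [Ring B] {n : ℕ} [NeZero n] (om y : B) (e : ℕ → B) :
    Matrix (Fin n) (Fin n) B := fun p q =>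
  (if q = p then om ^ (p : ℕ) * y else 0) + (if q = p + 1 then e p else 0)

/-- one step -/
def run {B : Type} [Ring B] (s : Stp I ι) (S : St I ι ν B) :
    St I ι ν (Matrix (Sz a s) (Sz a s) B) where
  om i := Matrix.scalar _ (S.om i)
  th i l := Matrix.scalar _ (S.th i l)
  tl i := Matrix.scalar _ (S.tl i)
  vec k u := Matrix.scalar _ (S.vec k u)
  W0 i u := Matrix.scalar _ (S.W0 i u)
  W i u := if i = s.op then blk (S.om s.op) (S.W s.op u) (fun p => ent a s S p u)
    else Matrix.scalar _ (S.W i u)

/-- the ring after the steps of a list -/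
def Rg (a : I → ℕ) : List (Stp I ι) → Type → Type
  | [], B => B
  | s :: Ls, B => Rg a Ls (Matrix (Sz a s) (Sz a s) B)

instance Rg.instRing : ∀ (Ls : List (Stp I ι)) (B : Type) [Ring B], Ring (Rg a Ls B)
  | [], B, _ => inferInstanceAs (Ring B)
  | s :: Ls, B, _ => Rg.instRing Ls (Matrix (Sz a s) (Sz a s) B)

/-- the state after the steps of a list -/
def fin : (Ls : List (Stp I ι)) → {B : Type} → [Ring B] → St I ι ν B → St I ι ν (Rg a Ls B)
  | [], _, _, S => S
  | s :: Ls, _, _, S => fin Ls (run a s S)

/-- functoriality of the ring -/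
def Rg.map : (Ls : List (Stp I ι)) → {B C : Type} → [Ring B] → [Ring C] → (B →+* C) →
    (Rg a Ls B →+* Rg a Ls C)
  | [], _, _, _, _, f => f
  | _ :: Ls, _, _, _, _, f => Rg.map Ls f.mapMatrix

/-- the scalars -/
def sc : (Ls : List (Stp I ι)) → {B : Type} → [Ring B] → (B →+* Rg a Ls B)
  | [], B, _ => RingHom.id B
  | s :: Ls, _, _ => (sc Ls).comp (Matrix.scalar (Sz a s))

variable {B C C' : Type} [Ring B] [Ring C] [Ring C']

theorem blk_map {n : ℕ} [NeZero n] (f : B →+* C) (om y : B) (e : ℕ → B) :
    f.mapMatrix (blk (n := n) om y e) = blk (f om) (f y) (fun p => f (e p)) := by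
  ext p q
  simp only [blk, RingHom.mapMatrix_apply, Matrix.map_apply, map_add]
  congr 1 <;> split_ifs <;> simp

theorem scalar_map {n : Type} [Fintype n] [DecidableEq n] (f : B →+* C) (x : B) :
    f.mapMatrix (Matrix.scalar n x) = Matrix.scalar n (f x) := by
  ext p q
  simp only [RingHom.mapMatrix_apply, Matrix.map_apply, Matrix.scalar_apply, Matrix.diagonal_apply]
  split_ifs <;> simp

theorem ent_map (f : B →+* C) (s : Stp I ι) (S : St I ι ν B) (p : ℕ) (u : ν) :
    ent a s (S.map f) p u = f (ent a s S p u) := by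
  cases s with
  | mono i k => rfl
  | pair i l =>
    simp only [ent, St.map_th, St.map_tl, St.map_W, St.map_om, St.map_W0, map_mul, map_sub, map_pow]
    split_ifs <;> simp

theorem run_map (f : B →+* C) (s : Stp I ι) (S : St I ι ν B) :
    run a s (S.map f) = (run a s S).map f.mapMatrix := by
  refine St.ext ?_ ?_ ?_ ?_ ?_ ?_
  · funext i; exact (scalar_map f _).symm
  · funext i l; exact (scalar_map f _).symm
  · funext i; exact (scalar_map f _).symm
  · funext k u; exact (scalar_map f _).symm
  · funext k u; exact (scalar_map f _).symm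
  · funext i u
    simp only [run, St.map_W]
    split_ifs with h
    · rw [blk_map]
      simp only [St.map_om, ent_map]
    · exact (scalar_map f _).symm

theorem run_pull (g : ν' → ν) (s : Stp I ι) (S : St I ι ν B) :
    run a s (S.pull g) = (run a s S).pull g := by
  refine St.ext rfl rfl rfl rfl rfl ?_
  funext i u
  simp only [run, St.pull_W]
  have : ∀ p, ent a s (S.pull g) p u = ent a s S p (g u) := by
    intro p
    cases s <;> rfl
  simp only [this]
  rfl

theorem fin_map (Ls : List (Stp I ι)) : ∀ {B C : Type} [Ring B] [Ring C] (f : B →+* C)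
    (S : St I ι ν B), fin a Ls (S.map f) = (fin a Ls S).map (Rg.map a Ls f) := by
  induction Ls with
  | nil => intros; rfl
  | cons s Ls ih =>
    intro B C _ _ f S
    show fin a Ls (run a s (S.map f)) = (fin a Ls (run a s S)).map (Rg.map a Ls f.mapMatrix)
    rw [run_map, ih]

theorem fin_pull (g : ν' → ν) (Ls : List (Stp I ι)) : ∀ {B : Type} [Ring B]
    (S : St I ι ν B), fin a Ls (S.pull g) = (fin a Ls S).pull g := by
  induction Ls with
  | nil => intros; rfl
  | cons s Ls ih =>
    intro B _ S
    show fin a Ls (run a s (S.pull g)) = (fin a Ls (run a s S)).pull g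
    rw [run_pull, ih]






theorem run_W_of_ne (s : Stp I ι) (S : St I ι ν B) (i : I) (h : i ≠ s.op) (u : ν) :
    (run a s S).W i u = Matrix.scalar _ (S.W i u) := by
  simp [run, h]

theorem run_W_self (s : Stp I ι) (S : St I ι ν B) (u : ν) :
    (run a s S).W s.op u = blk (S.om s.op) (S.W s.op u) (fun p => ent a s S p u) := by
  simp [run]

theorem fin_W (Ls : List (Stp I ι)) (i : I) (h : ∀ s ∈ Ls, i ≠ s.op) :
    ∀ {B : Type} [Ring B] (S : St I ι ν B) (u : ν),
    (fin a Ls S).W i u = sc a Ls (S.W i u) := by
  induction Ls with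
  | nil => intros; rfl
  | cons s Ls ih =>
    intro B _ S u
    have h1 := ih (fun s' hs' => h s' (List.mem_cons_of_mem _ hs')) (run a s S) u
    rw [run_W_of_ne a s S i (h s List.mem_cons_self)] at h1
    exact h1

theorem Rg.map_comp (Ls : List (Stp I ι)) : ∀ {B C C' : Type} [Ring B] [Ring C] [Ring C']
    (f : B →+* C) (g : C →+* C'),
    (Rg.map a Ls g).comp (Rg.map a Ls f) = Rg.map a Ls (g.comp f) := by
  induction Ls with
  | nil => intros; rfl
  | cons s Ls ih =>
    intro B C C' _ _ _ f g
    exact ih (B := Matrix (Sz a s) (Sz a s) B) (C := Matrix (Sz a s) (Sz a s) C)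
      (C' := Matrix (Sz a s) (Sz a s) C') f.mapMatrix g.mapMatrix

theorem Rg.map_sc (Ls : List (Stp I ι)) : ∀ {B C : Type} [Ring B] [Ring C] (f : B →+* C) (x : B),
    Rg.map a Ls f (sc a Ls x) = sc a Ls (f x) := by
  induction Ls with
  | nil => intros; rfl
  | cons s Ls ih =>
    intro B C _ _ f x
    show Rg.map a Ls f.mapMatrix (sc a Ls (Matrix.scalar (Sz a s) x)) =
      sc a Ls (Matrix.scalar (Sz a s) (f x))
    rw [ih, scalar_map]

theorem Rg.map_injective (Ls : List (Stp I ι)) : ∀ {B C : Type} [Ring B] [Ring C] (f : B →+* C)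
    (_ : Function.Injective f), Function.Injective (Rg.map a Ls f) := by
  induction Ls with
  | nil => intro B C _ _ f hf; exact hf
  | cons s Ls ih =>
    intro B C _ _ f hf
    refine ih (B := Matrix (Sz a s) (Sz a s) B) (C := Matrix (Sz a s) (Sz a s) C) f.mapMatrix ?_
    intro x y h
    ext p q
    exact hf (congrFun (congrFun h p) q)

theorem Rg.map_surjective (Ls : List (Stp I ι)) : ∀ {B C : Type} [Ring B] [Ring C] (f : B →+* C)
    (_ : Function.Surjective f), Function.Surjective (Rg.map a Ls f) := by
  induction Ls with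
  | nil => intro B C _ _ f hf; exact hf
  | cons s Ls ih =>
    intro B C _ _ f hf
    refine ih (B := Matrix (Sz a s) (Sz a s) B) (C := Matrix (Sz a s) (Sz a s) C) f.mapMatrix ?_
    intro x
    choose g hg using hf
    exact ⟨fun p q => g (x p q), by ext p q; exact hg _⟩


theorem sc_comm (Ls : List (Stp I ι)) : ∀ {B : Type} [Ring B] (x : B) (_ : ∀ y, Commute x y)
    (z : Rg a Ls B), Commute (sc a Ls x) z := by
  induction Ls with
  | nil => intro B _ x hx z; exact hx z
  | cons s Ls ih =>
    intro B _ x hx z
    exact ih (B := Matrix (Sz a s) (Sz a s) B) (Matrix.scalar (Sz a s) x)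
      (fun y => Matrix.scalar_commute x (fun r => hx r) y) z

/-- a central element that is regular stays regular -/
theorem sc_regular (Ls : List (Stp I ι)) : ∀ {B : Type} [Ring B] (x : B)
    (_ : ∀ y, x * y = 0 → y = 0) (z : Rg a Ls B), sc a Ls x * z = 0 → z = 0 := by
  induction Ls with
  | nil => intro B _ x hx z; exact hx z
  | cons s Ls ih =>
    intro B _ x hx z
    refine ih (B := Matrix (Sz a s) (Sz a s) B) (Matrix.scalar (Sz a s) x) ?_ z
    intro y hy
    ext p q
    apply hx
    have := congrFun (congrFun hy p) q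
    simpa [Matrix.scalar_apply, Matrix.diagonal_mul] using this

end Run

end Crest.Agent.R181.PO
private theorem rz_b704ddbaa5 : type_of% @_root_.Crest.Agent.R181.PO.ent.eq_1 := @_root_.Crest.Agent.R181.PO.ent.eq_1 -- L105
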