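import Crest.Agent.R181.UR396g
import Crest.Agent.R181.BM553a
import Crest.Agent.R181.RN598a
import Crest.Agent.R181.LC598d
import Crest.Agent.R181.HT279a

-- ▼ part R181/RE459a
section

/-!
R181, block B9 (helper459): (REES).  `T = U(D, w; F, Q)`, `TX = U(D, w; F[X], Q(s ↦ X s))`,
`K = U(D, w; F, Q(s ↦ 0))`; `T` embeds into any ring `C` which receives `TX` with `X` invertible and
a reduction of the image compatible with `TX → K`.
-/

set_option autoImplicit false
set_option linter.unusedSectionVars false

namespace Crest.Agent.R181.RE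

open AddMonoidAlgebra Crest.Agent.R181.UR
open scoped Polynomial

section Rees

variable {F D I σ : Type} [CommRing F] [Ring D] [Algebra F D] [Fintype I] [Fintype σ]
  [DecidableEq σ]
  (a : I → ℕ) (th : I → I → F) (Q : I → MvPolynomial (Option σ) F) (w : I → σ → D)

/-- `Q` with `s ↦ X * s` -/
noncomputable def QX (i : I) : MvPolynomial (Option σ) F[X] :=
  subL (Polynomial.C : F →+* F[X]) (Xz Polynomial.X) (Q i)

/-- `Q` with `s ↦ 0` -/
noncomputable def Q0 (i : I) : MvPolynomial (Option σ) F :=
  MvPolynomial.rename some (BM.res0 (Q i))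

/-- the ring over `F[X]` -/
abbrev TX : Type := U a th (QX Q) w

/-- the ring at `X = 0` -/
abbrev K : Type := U a th (Q0 Q) w

theorem mp_QX (i : I) : Q0 Q i = mp (Option σ) (Polynomial.evalRingHom (0 : F)) (QX Q i) := by
  rw [QX, mp_subL, Q0]
  have h : (MvPolynomial.rename (some : σ → Option σ)).toRingHom.comp
      (BM.res0 (R := F) (σ := σ)).toRingHom =
      subL ((Polynomial.evalRingHom (0 : F)).comp Polynomial.C)
        (fun v v' => Polynomial.evalRingHom (0 : F) (Xz (σ := σ) Polynomial.X v v')) := by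
    apply MvPolynomial.ringHom_ext
    · intro c
      rw [subL_C, RingHom.comp_apply]
      show MvPolynomial.rename some (BM.res0 (MvPolynomial.C c)) = _
      rw [show (MvPolynomial.C c : MvPolynomial (Option σ) F) = algebraMap F _ c from rfl,
        AlgHom.commutes, AlgHom.commutes]
      simp
    · intro v
      rw [subL_X, RingHom.comp_apply]
      show MvPolynomial.rename some (BM.res0 (MvPolynomial.X v)) = _
      rw [Fintype.sum_option]
      rcases v with _ | v
      · simp [Xz]
      · simp [Xz, apply_ite]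
  exact RingHom.congr_fun h (Q i)

/-- `TX → K`, `X ↦ 0` -/
noncomputable def pi : TX a th Q w →+* K a th Q w :=
  Umap a th w (Polynomial.evalRingHom (0 : F))
    (fun c => by
      rw [Polynomial.algebraMap_apply, Polynomial.coe_evalRingHom, Polynomial.eval_C])
    (mp_QX Q)

@[simp] theorem pi_iD (d : D) : pi a th Q w (iD a th (QX Q) w d) = iD a th (Q0 Q) w d :=
  Umap_iD _ _ _ _ _ _ d

@[simp] theorem pi_iL (x : F[X]) : pi a th Q w (iL a th (QX Q) w x) =
    iL a th (Q0 Q) w (Polynomial.evalRingHom 0 x) :=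
  Umap_iL _ _ _ _ _ _ x

@[simp] theorem pi_eta (i : I) : pi a th Q w (eta a th (QX Q) w i) = eta a th (Q0 Q) w i :=
  Umap_eta _ _ _ _ _ _ i

/-- the variable `X` of `TX` -/
noncomputable def xX : TX a th Q w := iL a th (QX Q) w Polynomial.X

/-- (R2) -/
theorem pi_ker (r : TX a th Q w) (h : pi a th Q w r = 0) : ∃ r', r = xX a th Q w * r' := by
  refine Umap_ker a th w (Polynomial.evalRingHom (0 : F)) _ _ (fun c => ⟨Polynomial.C c, by simp⟩)
    Polynomial.X ?_ r h
  intro x hx
  have : (Polynomial.X : F[X]) ∣ x := by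
    rw [Polynomial.X_dvd_iff, Polynomial.coeff_zero_eq_eval_zero]
    exact hx
  obtain ⟨y, hy⟩ := this
  exact ⟨y, hy⟩

theorem exists_phi : ∃ Φ : TX a th Q w →+* (U a th Q w)[X],
    (∀ d, Φ (iD a th (QX Q) w d) = Polynomial.C (iD a th Q w d)) ∧
    (∀ x, Φ (iL a th (QX Q) w x) = Polynomial.map (iL a th Q w) x) ∧
    ∀ i, Φ (eta a th (QX Q) w i) = Polynomial.C (eta a th Q w i) * Polynomial.X := by
  have hcen : ∀ (x : F[X]) (y : (U a th Q w)[X]),
      Commute (Polynomial.mapRingHom (iL a th Q w) x) y := by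
    intro x y
    induction x using Polynomial.induction_on' with
    | add p q hp hq => rw [map_add]; exact hp.add_left hq
    | monomial n c =>
      rw [Polynomial.coe_mapRingHom, Polynomial.map_monomial]
      show _ * _ = _ * _
      ext m
      rw [← Polynomial.C_mul_X_pow_eq_monomial, mul_assoc, Polynomial.X_pow_mul, ← mul_assoc,
        ← mul_assoc, Polynomial.coeff_mul_X_pow', Polynomial.coeff_mul_X_pow']
      split_ifs with hnm
      · rw [Polynomial.coeff_C_mul, Polynomial.coeff_mul_C]
        exact (iL_comm a th Q w c _).eq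
      · rfl
  have h1 := (isTuple_wU a th Q w).subst (Polynomial.C : U a th Q w →+* _)
    (Polynomial.C : F →+* F[X]) _ (Polynomial.mapRingHom (iL a th Q w)) hcen
    (Xz Polynomial.X) (by ext x; simp) (fun c => rfl)
  have e : (fun i v' => ∑ v, Polynomial.C (wU a th Q w i v) *
      Polynomial.mapRingHom (iL a th Q w) (Xz Polynomial.X v v')) =
      (ext' (fun i v => (Polynomial.C.comp (iD a th Q w)) (w i v))
      (fun i => Polynomial.C (eta a th Q w i) * Polynomial.X)) := by
    funext i v'
    rw [Fintype.sum_option]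
    rcases v' with _ | v'
    · simp [Xz, wU]
    · simp only [Xz, wU]
      simp [apply_ite]
  rw [e] at h1
  exact exists_lift (a := a) (th := th) (Q := QX Q) (w := w)
    ((Polynomial.C : U a th Q w →+* _).comp (iD a th Q w))
    (Polynomial.mapRingHom (iL a th Q w))
    (fun i => Polynomial.C (eta a th Q w i) * Polynomial.X) (by
      intro c
      rw [RingHom.comp_apply, iD_base, Polynomial.algebraMap_apply, Polynomial.coe_mapRingHom,
        Polynomial.map_C]) (fun _ _ => hcen _ _) (fun _ _ => hcen _ _) h1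

/-- `TX → T[X]` -/
noncomputable def phi : TX a th Q w →+* (U a th Q w)[X] := (exists_phi a th Q w).choose

@[simp] theorem phi_iD (d : D) : phi a th Q w (iD a th (QX Q) w d) =
    Polynomial.C (iD a th Q w d) := (exists_phi a th Q w).choose_spec.1 d

@[simp] theorem phi_iL (x : F[X]) : phi a th Q w (iL a th (QX Q) w x) =
    Polynomial.map (iL a th Q w) x := (exists_phi a th Q w).choose_spec.2.1 x

@[simp] theorem phi_eta (i : I) : phi a th Q w (eta a th (QX Q) w i) =
    Polynomial.C (eta a th Q w i) * Polynomial.X := (exists_phi a th Q w).choose_spec.2.2 i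

@[simp] theorem phi_xX : phi a th Q w (xX a th Q w) = Polynomial.X := by
  rw [xX, phi_iL, Polynomial.map_X]

/-- (R1) -/
theorem exists_lead (u : U a th Q w) : ∃ (d : ℕ) (r : TX a th Q w),
    phi a th Q w r = Polynomial.C u * Polynomial.X ^ d := by
  refine generation a th Q w (fun u => ∃ (d : ℕ) (r : TX a th Q w),
    phi a th Q w r = Polynomial.C u * Polynomial.X ^ d) ?_ ?_ ?_ ?_ ?_ u
  · intro d
    exact ⟨0, iD a th (QX Q) w d, by rw [phi_iD, pow_zero, mul_one]⟩
  · intro x
    exact ⟨0, iL a th (QX Q) w (Polynomial.C x), by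
      rw [phi_iL, Polynomial.map_C, pow_zero, mul_one]⟩
  · intro i
    exact ⟨1, eta a th (QX Q) w i, by rw [phi_eta, pow_one]⟩
  · rintro x y ⟨d, r, hr⟩ ⟨e, t, ht⟩
    refine ⟨d + e, xX a th Q w ^ e * r + xX a th Q w ^ d * t, ?_⟩
    rw [map_add, map_mul, map_mul, map_pow, map_pow, phi_xX, hr, ht, map_add, add_mul,
      Polynomial.X_pow_mul, Polynomial.X_pow_mul, mul_assoc, mul_assoc, ← pow_add, ← pow_add,
      add_comm e d]
  · rintro x y ⟨d, r, hr⟩ ⟨e, t, ht⟩
    refine ⟨d + e, r * t, ?_⟩
    rw [map_mul, hr, ht, map_mul, mul_assoc, ← mul_assoc (Polynomial.X ^ d),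
      Polynomial.X_pow_mul, mul_assoc, ← pow_add, ← mul_assoc]

variable {C : Type} {C1 C' : Type*} [Ring C] [Ring C1] [Ring C']

variable {a th Q w} in
/-- (R3) -/
theorem lead_zero (θ1 : TX a th Q w →+* C1)
    (hreg : ∀ c, θ1 (xX a th Q w) * c = 0 → c = 0) (g : C1 →+* C')
    (fK : K a th Q w →+* C') (hfK : Function.Injective fK)
    (hg : g.comp θ1 = fK.comp (pi a th Q w)) (d : ℕ) :
    ∀ (u : U a th Q w) (r : TX a th Q w), phi a th Q w r = Polynomial.C u * Polynomial.X ^ d →
      θ1 r = 0 → u = 0 := by
  have key : ∀ r : TX a th Q w, θ1 r = 0 → ∃ r', r = xX a th Q w * r' ∧ θ1 r' = 0 := by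
    intro r hr
    have h1 : pi a th Q w r = 0 := by
      apply hfK
      rw [map_zero, ← RingHom.comp_apply, ← hg, RingHom.comp_apply, hr, map_zero]
    obtain ⟨r', hr'⟩ := pi_ker a th Q w r h1
    refine ⟨r', hr', hreg _ ?_⟩
    rw [← map_mul, ← hr', hr]
  induction d with
  | zero =>
    intro u r hu hr
    obtain ⟨r', hr', -⟩ := key r hr
    have h2 : (phi a th Q w r).coeff 0 = 0 := by
      rw [hr', map_mul, phi_xX, Polynomial.X_mul, Polynomial.coeff_mul_X_zero]
    rw [hu, pow_zero, mul_one, Polynomial.coeff_C_zero] at h2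
    exact h2
  | succ d ih =>
    intro u r hu hr
    obtain ⟨r', hr', h1⟩ := key r hr
    refine ih u r' ?_ h1
    ext n
    have h2 : (phi a th Q w r).coeff (n + 1) = (phi a th Q w r').coeff n := by
      rw [hr', map_mul, phi_xX, Polynomial.X_mul, Polynomial.coeff_mul_X]
    rw [← h2, hu, pow_succ, ← mul_assoc, Polynomial.coeff_mul_X]

/-- (R4), the map -/
theorem exists_hom (θ : TX a th Q w →+* C) (hy : IsUnit (θ (xX a th Q w))) :
    ∃ h : U a th Q w →+* C, (∀ d, h (iD a th Q w d) = θ (iD a th (QX Q) w d)) ∧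
      (∀ x, h (iL a th Q w x) = θ (iL a th (QX Q) w (Polynomial.C x))) ∧
      ∀ i, h (eta a th Q w i) * θ (xX a th Q w) = θ (eta a th (QX Q) w i) := by
  obtain ⟨y, hy⟩ := hy
  -- the centralizer of the image of `F[X]`
  let C0 : Subring C := Subring.centralizer (Set.range fun p => θ (iL a th (QX Q) w p))
  have hθ0 : ∀ r, θ r ∈ C0 := by
    intro r
    rw [Subring.mem_centralizer_iff]
    rintro _ ⟨p, rfl⟩
    exact ((iL_comm a th (QX Q) w p r).map θ).eq
  let θ0 : TX a th Q w →+* C0 := θ.codRestrict C0 hθ0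
  have hcen : ∀ (p : F[X]) (z : C0), Commute (θ0 (iL a th (QX Q) w p)) z := by
    intro p z
    apply Subtype.ext
    have := z.2
    rw [Subring.mem_centralizer_iff] at this
    exact this _ ⟨p, rfl⟩
  have hyi : (↑y⁻¹ : C) ∈ C0 := by
    rw [Subring.mem_centralizer_iff]
    rintro _ ⟨p, rfl⟩
    have h1 : Commute (θ (iL a th (QX Q) w p)) (y : C) := by
      rw [hy]
      exact (iL_comm a th (QX Q) w p (xX a th Q w)).map θ
    exact h1.units_inv_right.eq
  let z : C0 := ⟨(↑y⁻¹ : C), hyi⟩
  have hz : ∀ x : C0, Commute z x := by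
    intro x
    apply Subtype.ext
    have h1 := x.2
    rw [Subring.mem_centralizer_iff] at h1
    have h2 : Commute (y : C) (x : C) := by
      rw [hy]
      exact h1 _ ⟨Polynomial.X, rfl⟩
    exact h2.units_inv_left.eq
  have hzx : θ0 (xX a th Q w) * z = 1 := by
    apply Subtype.ext
    show θ (xX a th Q w) * (↑y⁻¹ : C) = 1
    rw [← hy, Units.mul_inv]
  -- the central ring
  let τ' : Subring.center C0 →+* C0 := (Subring.center C0).subtype
  have hτ' : ∀ (x : Subring.center C0) (y : C0), Commute (τ' x) y := fun x y =>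
    ((Subring.mem_center_iff.1 x.2 y).symm : _)
  let g' : F[X] →+* Subring.center C0 := (θ0.comp (iL a th (QX Q) w)).codRestrict _ (fun p => by
    rw [Subring.mem_center_iff]
    intro x
    exact (hcen p x).symm.eq)
  let zc : Subring.center C0 := ⟨z, by
    rw [Subring.mem_center_iff]
    intro x
    exact (hz x).symm.eq⟩
  let : Algebra F (Subring.center C0) := (g'.comp Polynomial.C).toAlgebra
  have h1 := ((isTuple_wU a th (QX Q) w).map θ0).subst (RingHom.id C0) g'
    (θ0.comp (iL a th (QX Q) w)) τ' hτ' (Xz zc) (by ext x <;> rfl) (fun c => rfl)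
  have hQ : (fun i => subL g' (Xz zc) (QX Q i)) =
      fun i => mp (Option σ) (g'.comp Polynomial.C) (Q i) := by
    funext i
    rw [QX, subL_subL]
    have hX : (fun v v'' => ∑ v', g' (Xz (σ := σ) Polynomial.X v v') * Xz zc v' v'') =
        fun v v'' => if v = v'' then 1 else 0 := by
      have hgz : g' Polynomial.X * zc = 1 := Subtype.ext hzx
      funext v v''
      rw [Fintype.sum_option]
      rcases v with _ | v <;> rcases v'' with _ | v''
      · simp [Xz, hgz]
      · simp [Xz]
      · simp [Xz]
      · by_cases hvv : v = v'' <;> simp [Xz, apply_ite, hvv]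
    rw [hX]
    have h3 : (subL (g'.comp Polynomial.C) (fun v v'' : Option σ => if v = v'' then 1 else 0) :
        MvPolynomial (Option σ) F →+* _) = MvPolynomial.map (g'.comp Polynomial.C) := by
      apply MvPolynomial.ringHom_ext
      · intro c; simp
      · intro v; simp
    rw [h3]
    rfl
  rw [hQ] at h1
  have h2 := (isTuple_map_iff (L := F) (Q := Q) a th (g'.comp Polynomial.C) (fun c => rfl)
    (fun i => rfl) τ' _).1 h1
  have e : (fun i v' => ∑ v, (RingHom.id C0) (θ0 (wU a th (QX Q) w i v)) *
      τ' (Xz zc v v')) =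
      ext' (fun i v => (θ0.comp (iD a th (QX Q) w)) (w i v))
        (fun i => θ0 (eta a th (QX Q) w i) * z) := by
    funext i v'
    rw [Fintype.sum_option]
    rcases v' with _ | v'
    · simp [Xz, wU, τ', zc]
    · simp [Xz, wU, apply_ite]
  rw [e] at h2
  obtain ⟨h, hD, hL, hη⟩ := exists_lift (a := a) (th := th) (Q := Q) (w := w)
    (θ0.comp (iD a th (QX Q) w)) (τ'.comp (g'.comp Polynomial.C))
    (fun i => θ0 (eta a th (QX Q) w i) * z) (by
      intro c
      rw [RingHom.comp_apply, iD_base]
      rfl) (fun _ _ => hτ' _ _) (fun _ _ => hτ' _ _) h2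
  refine ⟨C0.subtype.comp h, fun d => ?_, fun x => ?_, fun i => ?_⟩
  · rw [RingHom.comp_apply, hD]; rfl
  · rw [RingHom.comp_apply, hL]; rfl
  · rw [RingHom.comp_apply, hη]
    show θ (eta a th (QX Q) w i) * (↑y⁻¹ : C) * θ (xX a th Q w) = _
    rw [← hy, mul_assoc, Units.inv_mul, mul_one]

/-- (REES) -/
theorem rees (θ : TX a th Q w →+* C) (hy : IsUnit (θ (xX a th Q w)))
    (θ1 : TX a th Q w →+* C1) (h01 : ∀ r, θ r = 0 → θ1 r = 0)
    (hreg : ∀ c, θ1 (xX a th Q w) * c = 0 → c = 0) (g : C1 →+* C')
    (fK : K a th Q w →+* C') (hfK : Function.Injective fK)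
    (hg : g.comp θ1 = fK.comp (pi a th Q w)) :
    ∃ h : U a th Q w →+* C, Function.Injective h ∧
      (∀ d, h (iD a th Q w d) = θ (iD a th (QX Q) w d)) ∧
      (∀ x, h (iL a th Q w x) = θ (iL a th (QX Q) w (Polynomial.C x))) ∧
      ∀ i, h (eta a th Q w i) * θ (xX a th Q w) = θ (eta a th (QX Q) w i) := by
  obtain ⟨h, hD, hL, hη⟩ := exists_hom a th Q w θ hy
  refine ⟨h, ?_, hD, hL, hη⟩
  have hc : ∀ u, Commute (h u) (θ (xX a th Q w)) := by
    intro u
    refine generation a th Q w (fun u => Commute (h u) (θ (xX a th Q w))) ?_ ?_ ?_ ?_ ?_ u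
    · intro d
      show Commute (h _) _
      rw [hD]
      exact ((iL_comm a th (QX Q) w _ _).map θ).symm
    · intro x
      show Commute (h _) _
      rw [hL]
      exact ((iL_comm a th (QX Q) w _ _).map θ).symm
    · intro i
      obtain ⟨y, hy⟩ := hy
      have h1 : h (eta a th Q w i) = θ (eta a th (QX Q) w i) * ↑y⁻¹ := by
        rw [← hη, ← hy, mul_assoc, Units.mul_inv, mul_one]
      show Commute (h _) _
      rw [h1, ← hy]
      have h2 : Commute (θ (eta a th (QX Q) w i)) (y : C) := by
        rw [hy]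
        exact ((iL_comm a th (QX Q) w _ _).map θ).symm
      exact h2.mul_left (Commute.refl (y : C)).units_inv_left
    · intro x y hx hy
      show Commute (h _) _
      rw [map_add]; exact hx.add_left hy
    · intro x y hx hy
      show Commute (h _) _
      rw [map_mul]; exact hx.mul_left hy
  have hθ : (Polynomial.eval₂RingHom' h (θ (xX a th Q w)) hc).comp (phi a th Q w) = θ := by
    apply hom_ext' a th (QX Q) w
    · intro d
      rw [RingHom.comp_apply, phi_iD]
      show Polynomial.eval₂ _ _ _ = _
      rw [Polynomial.eval₂_C, hD]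
    · intro x
      rw [RingHom.comp_apply, phi_iL]
      show Polynomial.eval₂ _ _ _ = _
      induction x using Polynomial.induction_on' with
      | add p q hp hq => rw [Polynomial.map_add, Polynomial.eval₂_add, hp, hq, map_add, map_add]
      | monomial n c =>
        rw [Polynomial.map_monomial, Polynomial.eval₂_monomial, hL, xX, ← map_pow, ← map_mul,
          ← map_pow, ← map_mul, Polynomial.C_mul_X_pow_eq_monomial]
    · intro i
      rw [RingHom.comp_apply, phi_eta]
      show Polynomial.eval₂ _ _ _ = _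
      rw [Polynomial.eval₂_mul_X, Polynomial.eval₂_C, hη]
  rw [injective_iff_map_eq_zero]
  intro u hu
  obtain ⟨d, r, hr⟩ := exists_lead a th Q w u
  refine lead_zero θ1 hreg g fK hfK hg d u r hr (h01 _ ?_)
  rw [← hθ, RingHom.comp_apply, hr]
  show Polynomial.eval₂ _ _ _ = _
  rw [Polynomial.eval₂_mul_noncomm _ _ (fun n => (hc _)), Polynomial.eval₂_C, hu, zero_mul]

/-- (REES) with the conclusion on stable finiteness -/
theorem rees_stablyFinite [Nontrivial C] (hC : IsStablyFiniteRing C) (θ : TX a th Q w →+* C)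
    (hy : IsUnit (θ (xX a th Q w)))
    (θ1 : TX a th Q w →+* C1) (h01 : ∀ r, θ r = 0 → θ1 r = 0)
    (hreg : ∀ c, θ1 (xX a th Q w) * c = 0 → c = 0) (g : C1 →+* C')
    (fK : K a th Q w →+* C') (hfK : Function.Injective fK)
    (hg : g.comp θ1 = fK.comp (pi a th Q w)) :
    Nontrivial (U a th Q w) ∧ IsStablyFiniteRing (U a th Q w) := by
  obtain ⟨h, hi, -⟩ := rees a th Q w θ hy θ1 h01 hreg g fK hfK hg
  exact ⟨h.domain_nontrivial, IsStablyFiniteRing.of_injective h hi⟩

/-- the matrix form of stable finiteness -/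
theorem isStablyFiniteRing_iff' {R : Type*} [Ring R] : IsStablyFiniteRing R ↔
    ∀ (m : ℕ) (X Y : Matrix (Fin m) (Fin m) R), X * Y = 1 → Y * X = 1 := by
  constructor
  · intro h m X Y hXY
    exact mul_eq_one_symm hXY
  · intro h
    exact ⟨fun m => ⟨fun {X Y} hXY => h m X Y hXY⟩⟩

end Rees

end Crest.Agent.R181.RE
end

-- ▼ part R181/VAL279a
section

/-!
R181 (helper279), block B9: the cyclic block, algebra.

* `prod_sub`: `∏_{p < n} (X - om ^ p * Y) = X ^ n - Y ^ n` for commuting `X`, `Y` and a central
  "primitive root of unity" `om`.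
* `blk_pow`: `(blk om y e) ^ n = scalar (y ^ n + ∏_{p < n} e p)`.
-/

set_option autoImplicit false
set_option linter.unusedSectionVars false

namespace Crest.Agent.R181.PO

open UR

/-- `om` comes from a primitive `n`-th root of unity of a commutative domain. -/
def Rt {A : Type} [Ring A] (n : ℕ) (om : A) : Prop :=
  ∃ (K : Type) (_ : CommRing K) (_ : IsDomain K) (f : K →+* A) (z : K), f z = om ∧
    IsPrimitiveRoot z n

theorem Rt.map {A B : Type} [Ring A] [Ring B] {n : ℕ} {om : A} (h : Rt n om) (g : A →+* B) :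
    Rt n (g om) := by
  obtain ⟨K, _, _, f, z, h1, h2⟩ := h
  exact ⟨K, inferInstance, inferInstance, g.comp f, z, by rw [← h1]; rfl, h2⟩

theorem Rt.pow {A : Type} [Ring A] {n : ℕ} {om : A} (h : Rt n om) : om ^ n = 1 := by
  obtain ⟨K, _, _, f, z, rfl, h2⟩ := h
  rw [← map_pow, h2.pow_eq_one, map_one]

/-- one may take a domain with central image -/
theorem Rt.central {A : Type} [Ring A] {n : ℕ} {om : A} (h : Rt n om) (hc : ∀ x, Commute om x) :
    ∃ (K : Type) (_ : CommRing K) (_ : IsDomain K) (_ : Algebra K A) (z : K),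
      algebraMap K A z = om ∧ IsPrimitiveRoot z n := by
  obtain ⟨K, _, _, f, z, h1, h2⟩ := h
  let K0 : Subalgebra ℤ K := Algebra.adjoin ℤ {z}
  let z0 : K0 := ⟨z, Algebra.subset_adjoin rfl⟩
  have hz0 : IsPrimitiveRoot z0 n :=
    IsPrimitiveRoot.of_map_of_injective (f := K0.val) h2 Subtype.val_injective
  let f0 : K0 →+* A := f.comp K0.val.toRingHom
  have hf0 : ∀ (c : K0) (x : A), f0 c * x = x * f0 c := by
    rintro ⟨c, hc'⟩ x
    show f c * x = x * f c
    induction hc' using Algebra.adjoin_induction with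
    | mem c hc1 =>
      rw [Set.mem_singleton_iff] at hc1
      subst hc1
      rw [h1]
      exact hc x
    | algebraMap k =>
      rw [show algebraMap ℤ K k = (k : K) from rfl, map_intCast]
      exact Int.cast_commute k x
    | add c d _ _ h3 h4 => rw [map_add, add_mul, mul_add, h3, h4]
    | mul c d _ _ h3 h4 => rw [map_mul, mul_assoc, h4, ← mul_assoc, h3, mul_assoc]
  refine ⟨K0, inferInstance, inferInstance, RingHom.toAlgebra' f0 hf0, z0, h1, hz0⟩

theorem prod_range_list {M : Type*} [CommMonoid M] (n : ℕ) (g : ℕ → M) :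
    ((List.range n).map g).prod = ∏ p ∈ Finset.range n, g p := by
  induction n with
  | zero => simp
  | succ n ih => rw [List.range_succ, List.map_append, List.prod_append, ih,
      Finset.prod_range_succ]; simp

/-- `∏_{p < n} (X - om ^ p * Y) = X ^ n - Y ^ n` -/
theorem prod_sub {A : Type} [Ring A] {n : ℕ} (hn : 0 < n) {om : A} (h : Rt n om)
    (hc : ∀ x, Commute om x) {X Y : A} (hXY : Commute X Y) :
    ((List.range n).map (fun p => X - om ^ p * Y)).prod = X ^ n - Y ^ n := by
  obtain ⟨K, _, _, _, z, h1, h2⟩ := h.central hc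
  -- the identity in `K[T][X]`
  have h3 : (Polynomial.X ^ n - Polynomial.C ((Polynomial.X : Polynomial K) ^ n)) =
      ∏ i ∈ Finset.range n, (Polynomial.X - Polynomial.C ((Polynomial.C z) ^ i * Polynomial.X)) :=
    X_pow_sub_C_eq_prod (R := Polynomial K) (h2.map_of_injective Polynomial.C_injective) hn rfl
  -- a commutative subalgebra
  let S : Subalgebra K A := Algebra.adjoin K {X, Y}
  let _ : CommRing S := Algebra.adjoinCommRingOfComm K (s := {X, Y}) (by
    rintro a (rfl | rfl) b (rfl | rfl)
    · rfl
    · exact hXY.eq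
    · exact hXY.eq.symm
    · rfl)
  let x : S := ⟨X, Algebra.subset_adjoin (by simp)⟩
  let y : S := ⟨Y, Algebra.subset_adjoin (by simp)⟩
  let e : Polynomial (Polynomial K) →+* S :=
    Polynomial.eval₂RingHom (Polynomial.eval₂RingHom (algebraMap K S) y) x
  have h4 := congrArg e h3
  have e1 : ∀ q : Polynomial K, e (Polynomial.C q) =
    Polynomial.eval₂RingHom (algebraMap K S) y q := fun q => Polynomial.eval₂_C _ _
  have e2 : e Polynomial.X = x := Polynomial.eval₂_X _ _
  have h5 : e (Polynomial.X ^ n - Polynomial.C ((Polynomial.X : Polynomial K) ^ n)) =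
      x ^ n - y ^ n := by
    rw [map_sub, e1, map_pow, e2, map_pow]
    simp
  have h6 : e (∏ i ∈ Finset.range n,
      (Polynomial.X - Polynomial.C ((Polynomial.C z) ^ i * Polynomial.X))) =
      ∏ i ∈ Finset.range n, (x - (algebraMap K S z) ^ i * y) := by
    rw [map_prod]
    refine Finset.prod_congr rfl fun i _ => ?_
    rw [map_sub, e1, e2, map_mul, map_pow]
    simp
  rw [h5, h6, ← prod_range_list] at h4
  have h7 := congrArg S.subtype h4
  rw [map_list_prod, List.map_map] at h7
  have h8 : S.subtype (x ^ n - y ^ n) = X ^ n - Y ^ n := by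
    rw [map_sub, map_pow, map_pow]; rfl
  rw [h8] at h7
  rw [h7]
  congr 1
  refine List.map_congr_left fun p _ => ?_
  show _ = S.subtype (x - algebraMap K S z ^ p * y)
  rw [map_sub, map_mul, map_pow, ← h1]
  rfl

section Blk

variable {A : Type} [Ring A]

theorem mul_rot {n : ℕ} (e : ℕ → A) (he : ∀ p q, Commute (e p) (e q)) (p : ℕ) :
    ((List.range n).map (fun j => e ((p + j) % n))).prod = ((List.range n).map e).prod := by
  have h1 : (List.range n).map (fun j => e ((p + j) % n)) = ((List.range n).rotate p).map e := by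
    apply List.ext_getElem
    · simp
    · intro j hj hj'
      simp [List.getElem_rotate, add_comm]
  rw [h1]
  refine List.Perm.prod_eq' ((List.rotate_perm _ _).map e) ?_
  rw [List.pairwise_map]
  exact List.pairwise_iff_getElem.2 fun i j _ _ _ => he _ _

variable {n : ℕ} [NeZero n] (om y : A) (e : ℕ → A)

/-- a factor, entrywise -/
theorem blk_sub_apply (hn : om ^ n = 1) (k : ℕ) (p q : Fin n) (hp : (p : ℕ) = k % n) :
    (blk (n := n) om y e - Matrix.scalar (Fin n) (om ^ k * y)) p q =
      if q = p + 1 then e p else 0 := by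
  have h1 : om ^ k = om ^ (p : ℕ) := by
    rw [hp]
    conv_lhs => rw [← Nat.div_add_mod k n, pow_add, pow_mul, hn, one_pow, one_mul]
  rw [Matrix.sub_apply, Matrix.scalar_apply, Matrix.diagonal_apply, blk, h1]
  by_cases h : q = p
  · subst h; simp
  · have h' : p ≠ q := fun h' => h h'.symm
    rw [if_neg h, if_neg h', zero_add, sub_zero]

/-- the product of the factors, row by row -/
theorem row_prod (hn : om ^ n = 1) (p : Fin n) (k : ℕ)
    (q : Fin n) :
    (((List.range k).map (fun j => blk (n := n) om y e -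
      Matrix.scalar (Fin n) (om ^ ((p : ℕ) + j) * y))).prod) p q =
      if (q : ℕ) = ((p : ℕ) + k) % n then ((List.range k).map (fun j => e (((p : ℕ) + j) % n))).prod
        else 0 := by
  induction k generalizing q with
  | zero =>
    simp only [List.range_zero, List.map_nil, List.prod_nil, add_zero, Nat.mod_eq_of_lt p.2]
    rw [Matrix.one_apply]
    by_cases h : p = q
    · rw [if_pos h, if_pos (by rw [h])]
    · rw [if_neg h, if_neg (fun h' => h (Fin.ext h'.symm))]
  | succ k ih =>
    rw [List.range_succ, List.map_append, List.prod_append, Matrix.mul_apply, List.map_append,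
      List.prod_append]
    simp only [List.map_cons, List.map_nil, List.prod_cons, List.prod_nil, mul_one]
    have hpos : 0 < n := Nat.pos_of_ne_zero (NeZero.ne n)
    let t0 : Fin n := ⟨((p : ℕ) + k) % n, Nat.mod_lt _ hpos⟩
    rw [Finset.sum_eq_single t0]
    · rw [ih, if_pos rfl, blk_sub_apply om y e hn ((p : ℕ) + k) t0 q rfl]
      have h1 : q = t0 + 1 ↔ (q : ℕ) = ((p : ℕ) + (k + 1)) % n := by
        rw [Fin.ext_iff, Fin.val_add]
        have : ((t0 : Fin n) : ℕ) = ((p : ℕ) + k) % n := rfl
        rw [this, Fin.val_one', ← Nat.add_mod, add_assoc]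
      by_cases h : q = t0 + 1
      · rw [if_pos h, if_pos (h1.1 h)]
      · rw [if_neg h, if_neg (fun h' => h (h1.2 h')), mul_zero]
    · intro t _ ht
      rw [ih, if_neg (fun h' => ht (Fin.ext h')), zero_mul]
    · intro h; exact absurd (Finset.mem_univ _) h

/-- **The power of the cyclic block.** -/
theorem blk_pow (hR : Rt n om) (hom : ∀ x, Commute om x) (hye : ∀ p, Commute y (e p))
    (he : ∀ p q, Commute (e p) (e q)) :
    (blk (n := n) om y e) ^ n =
      Matrix.scalar (Fin n) (y ^ n + ((List.range n).map e).prod) := by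
  have hpos : 0 < n := Nat.pos_of_ne_zero (NeZero.ne n)
  have hn := hR.pow
  -- `blk` commutes with `y`
  have hcy : Commute (blk (n := n) om y e) (Matrix.scalar (Fin n) y) := by
    ext p q
    rw [Matrix.scalar_apply, Matrix.mul_diagonal, Matrix.diagonal_mul, blk, add_mul, mul_add]
    congr 1
    · split_ifs
      · exact ((hom y).pow_left _).mul_left (Commute.refl y)
      · simp
    · split_ifs
      · exact (hye _).symm
      · simp
  have hR' : Rt n (Matrix.scalar (Fin n) om) := hR.map (Matrix.scalar (Fin n))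
  have hom' : ∀ x, Commute (Matrix.scalar (Fin n) om) x :=
    fun x => Matrix.scalar_commute om (fun r => hom r) x
  have key : ∀ p q : Fin n, ((blk (n := n) om y e) ^ n - (Matrix.scalar (Fin n) y) ^ n) p q =
      (Matrix.scalar (Fin n) (((List.range n).map e).prod)) p q := by
    intro p q
    have h1 := prod_sub hpos hR' hom' (X := blk (n := n) om y e)
      (Y := Matrix.scalar (Fin n) (om ^ (p : ℕ) * y)) (by
        rw [map_mul, map_pow]
        exact ((hom' _).symm.pow_right _).mul_right hcy)
    have h2 : (Matrix.scalar (Fin n) (om ^ (p : ℕ) * y)) ^ n = (Matrix.scalar (Fin n) y) ^ n := by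
      rw [map_mul, Commute.mul_pow, ← map_pow, ← pow_mul, mul_comm, pow_mul, hn, one_pow, map_one,
        one_mul]
      rw [map_pow]
      exact (hom' _).pow_left _
    have h3 : (List.range n).map (fun j => blk (n := n) om y e -
        Matrix.scalar (Fin n) om ^ j * Matrix.scalar (Fin n) (om ^ (p : ℕ) * y)) =
        (List.range n).map (fun j => blk (n := n) om y e -
          Matrix.scalar (Fin n) (om ^ ((p : ℕ) + j) * y)) := by
      refine List.map_congr_left fun j _ => ?_
      rw [← map_pow, ← map_mul, ← mul_assoc, ← pow_add, add_comm]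
    rw [h2, h3] at h1
    rw [← h1, row_prod om y e hn p n q, Nat.add_mod_right, Nat.mod_eq_of_lt p.2, mul_rot e he,
      Matrix.scalar_apply, Matrix.diagonal_apply]
    by_cases h : p = q
    · rw [if_pos h, if_pos (by rw [h])]
    · rw [if_neg h, if_neg (fun h' => h (Fin.ext h'.symm))]
  have h4 : (blk (n := n) om y e) ^ n - (Matrix.scalar (Fin n) y) ^ n =
      Matrix.scalar (Fin n) (((List.range n).map e).prod) := by
    ext p q; exact key p q
  rw [map_add, map_pow, ← h4]
  abel

end Blk

end Crest.Agent.R181.PO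
end

-- ▼ part R181/VAL279b
section

/-!
R181 (helper279), block B9: the value theorem.
-/

set_option autoImplicit false
set_option linter.unusedSectionVars false

namespace Crest.Agent.R181.PO

open UR AddMonoidAlgebra

section central

variable {B ν : Type} [Ring B]

theorem cst_central {c : B} (hc : ∀ y, Commute c y) (x : PA B ν) : Commute (cst ν c) x := by
  induction x using AddMonoidAlgebra.induction_linear with
  | zero => exact Commute.zero_right _
  | add x y hx hy => exact hx.add_right hy
  | single α b =>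
    show cst ν c * single α b = single α b * cst ν c
    rw [cst_apply, single_mul_single, single_mul_single, zero_add, add_zero, (hc b).eq]

theorem single_one_comm (α : ν →₀ ℕ) (x : PA B ν) : Commute (single α (1 : B) : PA B ν) x := by
  induction x using AddMonoidAlgebra.induction_linear with
  | zero => exact Commute.zero_right _
  | add x y hx hy => exact hx.add_right hy
  | single β b =>
    show (single α 1 : PA B ν) * single β b = single β b * single α 1
    rw [single_mul_single, single_mul_single, add_comm, one_mul, mul_one]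

variable [Fintype ν]

theorem lf_central {v : ν → B} (hv : ∀ u y, Commute (v u) y) (x : PA B ν) : Commute (lf v) x := by
  rw [lf_eq]
  exact Commute.sum_left _ _ _ fun u _ => (cst_central (hv u) x).mul_left (var_comm u x)

theorem lf_smul (c : B) (w : ν → B) : lf (fun u => c * w u) = cst ν c * lf w := by
  rw [lf_eq, lf_eq, Finset.mul_sum]
  refine Finset.sum_congr rfl fun u _ => ?_
  rw [map_mul, mul_assoc]

theorem lf_sub (w w' : ν → B) : lf (fun u => w u - w' u) = lf w - lf w' := by
  rw [lf_eq, lf_eq, lf_eq, ← Finset.sum_sub_distrib]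
  refine Finset.sum_congr rfl fun u _ => ?_
  rw [map_sub, sub_mul]

theorem lf_zero : lf (fun _ : ν => (0 : B)) = 0 := by
  rw [lf_eq]; simp

end central

section PM

variable {B ν m : Type} [Ring B] [Fintype m] [DecidableEq m]

/-- Polynomials with matrix coefficients are matrices of polynomials. -/
noncomputable def PM : PA (Matrix m m B) ν →+* Matrix m m (PA B ν) :=
  liftNCRingHom (cst ν : B →+* PA B ν).mapMatrix
    ((Matrix.scalar m : PA B ν →+* Matrix m m (PA B ν)).toMonoidHom.comp (of B (ν →₀ ℕ)))
    (fun x α => (Matrix.scalar_commute (single α.toAdd (1 : B) : PA B ν)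
      (fun r => single_one_comm _ r) _).symm)

theorem PM_single (α : ν →₀ ℕ) (M : Matrix m m B) :
    PM (single α M) = Matrix.of fun p q => (single α (M p q) : PA B ν) := by
  have h : PM (single α M) = (cst ν : B →+* PA B ν).mapMatrix M *
      Matrix.scalar m (single α (1 : B)) := by
    unfold PM
    exact liftNCRingHom_single ..
  rw [h]
  apply Matrix.ext
  intro p q
  rw [Matrix.scalar_apply, Matrix.mul_diagonal]
  show cst ν (M p q) * single α 1 = single α (M p q)
  rw [cst_apply, single_mul_single, zero_add, mul_one]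

theorem PM_coeff (f : PA (Matrix m m B) ν) (p q : m) (α : ν →₀ ℕ) :
    (PM f p q).coeff α = f.coeff α p q := by
  classical
  induction f using AddMonoidAlgebra.induction_linear with
  | zero => rw [map_zero]; rfl
  | add x y hx hy =>
    rw [map_add, Matrix.add_apply, coeff_add, Finsupp.add_apply, hx, hy, coeff_add,
      Finsupp.add_apply, Matrix.add_apply]
  | single β M =>
    rw [PM_single, Matrix.of_apply, coeff_single, coeff_single, Finsupp.single_apply,
      Finsupp.single_apply]
    split_ifs <;> rfl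

theorem PM_injective : Function.Injective (PM : PA (Matrix m m B) ν →+* Matrix m m (PA B ν)) := by
  intro f g h
  ext α p q
  rw [← PM_coeff, h, PM_coeff]

theorem PM_mp_scalar (g : PA B ν) : PM (mp ν (Matrix.scalar m) g) = Matrix.scalar m g := by
  ext p q α
  rw [PM_coeff, mp_coeff, Matrix.scalar_apply, Matrix.scalar_apply, Matrix.diagonal_apply,
    Matrix.diagonal_apply]
  split_ifs <;> rfl

variable [Fintype ν]

theorem PM_lf (W : ν → Matrix m m B) :
    PM (lf W) = Matrix.of fun p q => lf (fun u => W u p q) := by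
  unfold lf
  rw [map_sum]
  apply Matrix.ext
  intro p q
  rw [Matrix.sum_apply, Matrix.of_apply]
  refine Finset.sum_congr rfl fun u _ => ?_
  rw [PM_single, Matrix.of_apply]

theorem PM_lf_blk {n : ℕ} [NeZero n] (om : B) (y : ν → B) (e : ℕ → ν → B) :
    PM (lf (fun u => blk (n := n) om (y u) (fun p => e p u))) =
      blk (cst ν om) (lf y) (fun p => lf (e p)) := by
  rw [PM_lf]
  apply Matrix.ext
  intro p q
  rw [Matrix.of_apply]
  simp only [blk]
  have h1 : lf (fun u => (if q = p then om ^ (p : ℕ) * y u else 0) +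
      (if q = p + 1 then e p u else 0)) =
      lf (fun u => if q = p then om ^ (p : ℕ) * y u else 0) +
      lf (fun u => if q = p + 1 then e p u else 0) := lf_add _ _
  rw [h1]
  refine congrArg₂ (· + ·) ?_ ?_
  · split_ifs
    · rw [lf_smul, map_pow]
    · exact lf_zero
  · split_ifs
    · rfl
    · exact lf_zero

theorem lf_blk_pow {n N : ℕ} [NeZero n] (hN : n = N) {om : B} {y : ν → B} {e : ℕ → ν → B}
    (hR : Rt N om) (hom : ∀ x, Commute om x) (hye : ∀ p, Commute (lf y) (lf (e p)))
    (he : ∀ p q, Commute (lf (e p)) (lf (e q))) :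
    lf (fun u => blk (n := n) om (y u) (fun p => e p u)) ^ N =
      mp ν (Matrix.scalar (Fin n)) (lf y ^ N + ((List.range N).map (fun p => lf (e p))).prod) := by
  subst hN
  apply PM_injective
  rw [map_pow, PM_lf_blk, PM_mp_scalar]
  exact blk_pow _ _ _ (hR.map (cst ν)) (fun x => cst_central hom x) hye he

theorem scalar_comm_blk {A : Type} [Ring A] {n : ℕ} [NeZero n] {om x y : A} {e : ℕ → A}
    (h1 : Commute x om) (h2 : Commute x y) (h3 : ∀ p, Commute x (e p)) :
    Commute (Matrix.scalar (Fin n) x) (blk (n := n) om y e) := by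
  ext p q
  rw [Matrix.scalar_apply, Matrix.mul_diagonal, Matrix.diagonal_mul, blk, add_mul, mul_add]
  congr 1
  · split_ifs
    · exact ((h1.pow_right _).mul_right h2)
    · simp
  · split_ifs
    · exact h3 _
    · simp

theorem comm_lf_blk {n : ℕ} [NeZero n] {om : B} {y : ν → B} {e : ℕ → ν → B} {x : PA B ν}
    (hom : ∀ x, Commute om x) (h2 : Commute x (lf y)) (h3 : ∀ p, Commute x (lf (e p))) :
    Commute (mp ν (Matrix.scalar (Fin n)) x)
      (lf (fun u => blk (n := n) om (y u) (fun p => e p u))) := by
  apply PM_injective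
  rw [map_mul, map_mul, PM_lf_blk, PM_mp_scalar]
  exact scalar_comm_blk (cst_central hom x).symm h2 h3

end PM

section St

variable {I ι ν : Type} [DecidableEq I] [Fintype ν] (a : I → ℕ)

/-- The commutation properties of a state. -/
structure Com {B : Type} [Ring B] (S : St I ι ν B) : Prop where
  om : ∀ i y, Commute (S.om i) y
  th : ∀ i l y, Commute (S.th i l) y
  tl : ∀ l y, Commute (S.tl l) y
  vec : ∀ k u y, Commute (S.vec k u) y
  WW : ∀ i j, Commute (lf (S.W i)) (lf (S.W j))
  WW0 : ∀ i j, Commute (lf (S.W i)) (lf (S.W0 j))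
  W0W0 : ∀ i j, Commute (lf (S.W0 i)) (lf (S.W0 j))

/-- The `om i` come from primitive roots of unity. -/
def Root {B : Type} [Ring B] (S : St I ι ν B) : Prop :=
  ∃ (K : Type) (_ : CommRing K) (_ : IsDomain K) (f : K →+* B) (z : I → K),
    (∀ i, S.om i = f (z i)) ∧ ∀ i, IsPrimitiveRoot (z i) (a i)

variable {a}

theorem Root.rt {B : Type} [Ring B] {S : St I ι ν B} (h : Root a S) (i : I) :
    Rt (a i) (S.om i) := by
  obtain ⟨K, _, _, f, z, h1, h2⟩ := h
  exact ⟨K, inferInstance, inferInstance, f, z i, (h1 i).symm, h2 i⟩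

theorem Root.run {B : Type} [Ring B] {S : St I ι ν B} (h : Root a S) (s : Stp I ι) :
    Root a (run a s S) := by
  obtain ⟨K, _, _, f, z, h1, h2⟩ := h
  exact ⟨K, inferInstance, inferInstance, (Matrix.scalar (Sz a s)).comp f, z,
    fun i => by
      show Matrix.scalar (Sz a s) (S.om i) = Matrix.scalar (Sz a s) (f (z i))
      rw [h1], h2⟩

variable {B : Type} [Ring B]

theorem lf_ent_mono (i : I) (k : ℕ → ι) (S : St I ι ν B) (p : ℕ) :
    lf (fun u => ent a (Stp.mono i k) S p u) = lf (S.vec (k p)) := rfl

theorem lf_ent_pair (i l : I) (S : St I ι ν B) (p : ℕ) :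
    lf (fun u => ent a (Stp.pair i l) S p u) = (if p = a i - 1 then cst ν (S.th i l) else 1) *
      (cst ν (S.tl l) * lf (S.W l) - cst ν (S.om i) ^ (p + 1) * lf (S.W0 l)) := by
  show lf (fun u => (if p = a i - 1 then S.th i l else 1) *
      (S.tl l * S.W l u - S.om i ^ (p + 1) * S.W0 l u)) = _
  rw [lf_smul, lf_sub, lf_smul, lf_smul, map_pow]
  congr 1
  split_ifs
  · rfl
  · exact map_one _

theorem Com.comm_ent {S : St I ι ν B} (h : Com S) (s : Stp I ι) (p : ℕ) {x : PA B ν}
    (h1 : ∀ j, Commute x (lf (S.W j))) (h2 : ∀ j, Commute x (lf (S.W0 j))) :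
    Commute x (lf (fun u => ent a s S p u)) := by
  cases s with
  | mono i k =>
    rw [lf_ent_mono]
    exact (lf_central (h.vec (k p)) x).symm
  | pair i l =>
    rw [lf_ent_pair]
    refine Commute.mul_right ?_ (Commute.sub_right ?_ ?_)
    · split_ifs
      · exact (cst_central (h.th i l) x).symm
      · exact Commute.one_right x
    · exact (cst_central (h.tl l) x).symm.mul_right (h1 l)
    · exact ((cst_central (h.om i) x).symm.pow_right _).mul_right (h2 l)

theorem lf_run_W_of_ne (s : Stp I ι) (S : St I ι ν B) {i : I} (h : i ≠ s.op) :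
    lf ((run a s S).W i) = mp ν (Matrix.scalar (Sz a s)) (lf (S.W i)) := by
  rw [mp_lf]
  congr 1
  funext u
  exact run_W_of_ne a s S i h u

theorem lf_run_W0 (s : Stp I ι) (S : St I ι ν B) (i : I) :
    lf ((run a s S).W0 i) = mp ν (Matrix.scalar (Sz a s)) (lf (S.W0 i)) := by
  rw [mp_lf]
  rfl

theorem lf_run_W_self (s : Stp I ι) (S : St I ι ν B) :
    lf ((run a s S).W s.op) = lf (fun u => blk (n := a s.op - 1 + 1) (S.om s.op) (S.W s.op u)
      (fun p => ent a s S p u)) := by
  congr 1
  funext u
  exact run_W_self a s S u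

theorem Com.run {S : St I ι ν B} (h : Com S) (s : Stp I ι) : Com (run a s S) := by
  have hsc : ∀ {x : B} (_ : ∀ y, Commute x y) (y : Matrix (Sz a s) (Sz a s) B),
      Commute (Matrix.scalar (Sz a s) x) y := fun hx y => Matrix.scalar_commute _ (fun r => hx r) y
  -- everything from below commutes with the new point
  have key : ∀ x : PA B ν, (∀ j, Commute x (lf (S.W j))) → (∀ j, Commute x (lf (S.W0 j))) →
      ∀ i, Commute (mp ν (Matrix.scalar (Sz a s)) x) (lf ((PO.run a s S).W i)) := by
    intro x h1 h2 i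
    by_cases hi : i = s.op
    · subst hi
      rw [lf_run_W_self]
      exact comm_lf_blk (h.om _) (h1 _) (fun p => h.comm_ent s p h1 h2)
    · rw [lf_run_W_of_ne s S hi]
      exact (h1 i).map _
  refine ⟨fun i y => hsc (h.om i) y, fun i l y => hsc (h.th i l) y, fun l y => hsc (h.tl l) y,
    fun k u y => hsc (h.vec k u) y, fun i j => ?_, fun i j => ?_, fun i j => ?_⟩
  · by_cases hi : i = s.op
    · by_cases hj : j = s.op
      · rw [hi, hj]
      · rw [lf_run_W_of_ne s S hj]
        exact (key _ (fun l => h.WW j l) (fun l => h.WW0 j l) i).symm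
    · rw [lf_run_W_of_ne s S hi]
      exact key _ (fun l => h.WW i l) (fun l => h.WW0 i l) j
  · rw [lf_run_W0]
    exact (key _ (fun l => (h.WW0 l j).symm) (fun l => h.W0W0 j l) i).symm
  · rw [lf_run_W0, lf_run_W0]
    exact (h.W0W0 i j).map _

theorem Com.fin {S : St I ι ν B} (h : Com S) (Ls : List (Stp I ι)) : Com (fin a Ls S) := by
  induction Ls generalizing B with
  | nil => exact h
  | cons s Ls ih => exact ih (h.run s)

variable (a) in
/-- The value of a step. -/
noncomputable def sval (s : Stp I ι) (S : St I ι ν B) : PA B ν :=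
  ((List.range (a s.op)).map (fun p => lf (fun u => ent a s S p u))).prod

/-- one step -/
theorem lf_run_pow {S : St I ι ν B} (h : Com S) (hR : Root a S) (s : Stp I ι)
    (ha : 0 < a s.op) : lf ((run a s S).W s.op) ^ a s.op =
      mp ν (Matrix.scalar (Sz a s)) (lf (S.W s.op) ^ a s.op + sval a s S) := by
  rw [lf_run_W_self]
  exact lf_blk_pow (n := a s.op - 1 + 1) (by omega) (hR.rt _) (h.om _)
    (fun p => h.comm_ent s p (fun j => h.WW _ j) (fun j => h.WW0 _ j))
    (fun p q => h.comm_ent s q (fun j => (h.comm_ent s p (fun l => h.WW j l)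
      (fun l => h.WW0 j l)).symm) (fun j => (h.comm_ent s p (fun l => (h.WW0 l j).symm)
      (fun l => h.W0W0 j l)).symm))

/-- the value of a pair step -/
theorem sval_pair {S : St I ι ν B} (h : Com S) (hR : Root a S) (i l : I) (ha : 0 < a i) :
    sval a (Stp.pair i l) S = cst ν (S.th i l * S.tl l ^ a i) * lf (S.W l) ^ a i -
      cst ν (S.th i l) * lf (S.W0 l) ^ a i := by
  have hth : ∀ x, Commute (cst ν (S.th i l)) x := fun x => cst_central (h.th i l) x
  have htl : ∀ x, Commute (cst ν (S.tl l)) x := fun x => cst_central (h.tl l) x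
  have hom : ∀ x, Commute (cst ν (S.om i)) x := fun x => cst_central (h.om i) x
  set X := cst ν (S.tl l) * lf (S.W l) with hX
  set Y := cst ν (S.om i) * lf (S.W0 l) with hY
  have hXY : Commute X Y := by
    refine Commute.mul_left (htl _) (Commute.mul_right (hom _).symm (h.WW0 l l))
  have h1 := prod_sub ha ((hR.rt i).map (cst ν)) hom hXY
  have h2 : ∀ n : ℕ, 0 < n → ∀ F : ℕ → PA B ν,
      ((List.range n).map (fun p => (if p = n - 1 then cst ν (S.th i l) else 1) * F p)).prod =
      cst ν (S.th i l) * ((List.range n).map F).prod := by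
    intro n hn F
    obtain ⟨n, rfl⟩ : ∃ m, n = m + 1 := ⟨n - 1, by omega⟩
    rw [List.range_succ, List.map_append, List.map_append, List.prod_append, List.prod_append]
    simp only [List.map_cons, List.map_nil, List.prod_cons, List.prod_nil, mul_one,
      Nat.add_sub_cancel, if_true]
    have h3 : (List.range n).map (fun p => (if p = n then cst ν (S.th i l) else 1) * F p) =
        (List.range n).map F := by
      refine List.map_congr_left fun p hp => ?_
      rw [List.mem_range] at hp
      rw [if_neg (by omega), one_mul]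
    rw [h3, ← mul_assoc, ← mul_assoc, (hth _).eq]
  have h3 : sval a (Stp.pair i l) S = cst ν (S.th i l) *
      ((List.range (a i)).map (fun p => X - cst ν (S.om i) ^ p * Y)).prod := by
    rw [← h2 (a i) ha]
    unfold sval
    rw [Stp.op_pair]
    congr 1
    refine List.map_congr_left fun p _ => ?_
    rw [lf_ent_pair, hX, hY, pow_succ, mul_assoc]
  have h4 : X ^ a i = cst ν (S.tl l ^ a i) * lf (S.W l) ^ a i := by
    rw [hX, (htl _).mul_pow, ← map_pow]
  have h5 : Y ^ a i = lf (S.W0 l) ^ a i := by
    rw [hY, (hom _).mul_pow, ← map_pow, (hR.rt i).pow, map_one, one_mul]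
  rw [h3, h1, mul_sub, h4, h5, map_mul, mul_assoc]

end St

end Crest.Agent.R181.PO
end

-- ▼ part R181/VAL279c
section

/-!
R181 (helper279), block B9: the value theorem.
-/

set_option autoImplicit false
set_option linter.unusedSectionVars false

namespace Crest.Agent.R181.PO

open UR AddMonoidAlgebra

section

variable {I ι ν : Type} [DecidableEq I] [Fintype ν] {a : I → ℕ}

theorem sc_cons {B : Type} [Ring B] (s : Stp I ι) (Ls : List (Stp I ι)) (x : PA B ν) :
    mp ν (sc a (s :: Ls)) x = mp ν (sc a Ls) (mp ν (Matrix.scalar (Sz a s)) x) := by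
  rw [mp_comp]
  rfl

theorem lf_fin_W (Ls : List (Stp I ι)) (i : I) (h : ∀ s ∈ Ls, i ≠ s.op) {B : Type} [Ring B]
    (S : St I ι ν B) : lf ((fin a Ls S).W i) = mp ν (sc a Ls) (lf (S.W i)) := by
  rw [mp_lf]
  congr 1
  funext u
  exact fin_W a Ls i h S u

/-- the value of a later step does not change -/
theorem sval_run {B : Type} [Ring B] (s s' : Stp I ι)
    (h : ∀ i l, s' = Stp.pair i l → l ≠ s.op) (S : St I ι ν B) :
    sval a s' (run a s S) = mp ν (Matrix.scalar (Sz a s)) (sval a s' S) := by
  unfold sval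
  rw [map_list_prod, List.map_map]
  congr 1
  refine List.map_congr_left fun p _ => ?_
  rw [Function.comp_apply, mp_lf]
  congr 1
  funext u
  cases s' with
  | mono i k => rfl
  | pair i l =>
    simp only [ent]
    rw [run_W_of_ne a s S l (h i l rfl)]
    show (if p = a i - 1 then Matrix.scalar (Sz a s) (S.th i l) else 1) *
      (Matrix.scalar (Sz a s) (S.tl l) * Matrix.scalar (Sz a s) (S.W l u) -
        Matrix.scalar (Sz a s) (S.om i) ^ (p + 1) * Matrix.scalar (Sz a s) (S.W0 l u)) = _
    rw [map_mul, map_sub, map_mul, map_mul, map_pow]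
    split_ifs
    · rfl
    · rw [map_one]

/-- the steps of one operator -/
theorem lf_fin_pow (i : I) (hi : 0 < a i) (Ls2 : List (Stp I ι)) (h2 : ∀ s ∈ Ls2, i ≠ s.op)
    (Ls1 : List (Stp I ι)) (h1 : ∀ s ∈ Ls1, s.op = i) (h1' : ∀ j l, Stp.pair j l ∈ Ls1 → l ≠ i) :
    ∀ {B : Type} [Ring B] {S : St I ι ν B}, Com S → Root a S →
    lf ((fin a (Ls1 ++ Ls2) S).W i) ^ a i =
      mp ν (sc a (Ls1 ++ Ls2)) (lf (S.W i) ^ a i + (Ls1.map (fun s => sval a s S)).sum) := by
  induction Ls1 with
  | nil =>
    intro B _ S _ _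
    rw [List.nil_append, lf_fin_W Ls2 i h2, List.map_nil, List.sum_nil, add_zero, map_pow]
  | cons s Ls1 ih =>
    intro B _ S hC hR
    have hs : s.op = i := h1 s List.mem_cons_self
    have h3 := ih (fun s' hs' => h1 s' (List.mem_cons_of_mem _ hs'))
      (fun j l hl => h1' j l (List.mem_cons_of_mem _ hl)) (hC.run s) (hR.run s)
    have h4 : ∀ j, s.op = j → 0 < a j → lf ((run a s S).W j) ^ a j =
        mp ν (Matrix.scalar (Sz a s)) (lf (S.W j) ^ a j + sval a s S) := by
      rintro _ rfl h
      exact lf_run_pow hC hR s h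
    have h4 := h4 i hs hi
    have h5 : (Ls1.map (fun s' => sval a s' (run a s S))).sum =
        mp ν (Matrix.scalar (Sz a s)) (Ls1.map (fun s' => sval a s' S)).sum := by
      rw [map_list_sum, List.map_map]
      congr 1
      refine List.map_congr_left fun s' hs' => ?_
      refine sval_run s s' (fun j l hjl => ?_) S
      rw [hs]
      exact h1' j l (List.mem_cons_of_mem _ (hjl ▸ hs'))
    rw [h4, h5, ← map_add] at h3
    rw [List.cons_append, sc_cons, List.map_cons, List.sum_cons, ← add_assoc]
    exact h3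

theorem value1 (i : I) (hi : 0 < a i) (ks : List (ℕ → ι)) (ls : List I) (hls : ∀ l ∈ ls, l ≠ i)
    (post : List (Stp I ι)) (hpost : ∀ s ∈ post, i ≠ s.op ∧ ∀ l ∈ ls, l ≠ s.op)
    (pre : List (Stp I ι)) (hpre : ∀ s ∈ pre, i ≠ s.op) :
    ∀ {B : Type} [Ring B] {S : St I ι ν B} (q : PA B ν), Com S → Root a S → S.W i = S.W0 i →
    lf (S.W0 i) ^ a i = q + (ls.map (fun l => cst ν (S.th i l) * lf (S.W0 l) ^ a i)).sum →
    lf ((fin a (pre ++ ((ks.map (Stp.mono i) ++ ls.map (Stp.pair i)) ++ post)) S).W i) ^ a i =
      mp ν (sc a (pre ++ ((ks.map (Stp.mono i) ++ ls.map (Stp.pair i)) ++ post)))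
        (q + (ks.map (fun k => ((List.range (a i)).map (fun p => lf (S.vec (k p)))).prod)).sum) +
      (ls.map (fun l => cst ν (sc a (pre ++ ((ks.map (Stp.mono i) ++ ls.map (Stp.pair i)) ++ post))
        (S.th i l * S.tl l ^ a i)) *
          lf ((fin a (pre ++ ((ks.map (Stp.mono i) ++ ls.map (Stp.pair i)) ++ post)) S).W l) ^
            a i)).sum := by
  induction pre with
  | nil =>
    intro B _ S q hC hR hW h0
    have h3 := lf_fin_pow i hi post (fun s hs => (hpost s hs).1)
      (ks.map (Stp.mono i) ++ ls.map (Stp.pair i)) (fun s hs => by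
        rcases List.mem_append.1 hs with h | h
        · obtain ⟨k, _, rfl⟩ := List.mem_map.1 h; rfl
        · obtain ⟨l, _, rfl⟩ := List.mem_map.1 h; rfl) (fun j l hl => by
        rcases List.mem_append.1 hl with h | h
        · obtain ⟨k, _, hk⟩ := List.mem_map.1 h; cases hk
        · obtain ⟨l', hl', hk⟩ := List.mem_map.1 h
          cases hk
          exact hls l hl') hC hR
    rw [List.nil_append]
    rw [h3, hW, h0]
    have h4 : ∀ l ∈ ls, lf ((fin a ((ks.map (Stp.mono i) ++ ls.map (Stp.pair i)) ++ post) S).W l) =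
        mp ν (sc a ((ks.map (Stp.mono i) ++ ls.map (Stp.pair i)) ++ post)) (lf (S.W l)) := by
      intro l hl
      refine lf_fin_W _ l (fun s hs => ?_) S
      rcases List.mem_append.1 hs with h | h
      · rcases List.mem_append.1 h with h | h
        · obtain ⟨k, _, rfl⟩ := List.mem_map.1 h; exact hls l hl
        · obtain ⟨k, _, rfl⟩ := List.mem_map.1 h; exact hls l hl
      · exact (hpost s h).2 l hl
    have h5 : (ls.map (fun l => cst ν (sc a ((ks.map (Stp.mono i) ++ ls.map (Stp.pair i)) ++ post)
        (S.th i l * S.tl l ^ a i)) *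
          lf ((fin a ((ks.map (Stp.mono i) ++ ls.map (Stp.pair i)) ++ post) S).W l) ^ a i)).sum =
        mp ν (sc a ((ks.map (Stp.mono i) ++ ls.map (Stp.pair i)) ++ post))
          (ls.map (fun l => cst ν (S.th i l * S.tl l ^ a i) * lf (S.W l) ^ a i)).sum := by
      rw [map_list_sum, List.map_map]
      congr 1
      refine List.map_congr_left fun l hl => ?_
      rw [h4 l hl, Function.comp_apply, map_mul (mp ν _), map_pow (mp ν _), mp_cst]
    rw [h5, ← map_add]
    congr 1
    rw [List.map_append, List.sum_append, List.map_map, List.map_map]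
    have h6 : (ls.map ((fun s => sval a s S) ∘ Stp.pair i)).sum =
        (ls.map (fun l => cst ν (S.th i l * S.tl l ^ a i) * lf (S.W l) ^ a i)).sum -
          (ls.map (fun l => cst ν (S.th i l) * lf (S.W0 l) ^ a i)).sum := by
      clear h5 h4 h3 h0 hpost
      induction ls with
      | nil => simp
      | cons l ls ih =>
        rw [List.map_cons, List.sum_cons, ih (fun l' hl' => hls l' (List.mem_cons_of_mem _ hl')),
          Function.comp_apply, sval_pair hC hR i l hi, List.map_cons, List.sum_cons, List.map_cons,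
          List.sum_cons]
        abel
    rw [h6]
    have h7 : ks.map ((fun s => sval a s S) ∘ Stp.mono i) =
        ks.map (fun k => ((List.range (a i)).map (fun p => lf (S.vec (k p)))).prod) := rfl
    rw [h7]
    abel
  | cons s pre ih =>
    intro B _ S q hC hR hW h0
    have hs : i ≠ s.op := hpre s List.mem_cons_self
    have h3 := ih (fun s' hs' => hpre s' (List.mem_cons_of_mem _ hs'))
      (mp ν (Matrix.scalar (Sz a s)) q) (hC.run s) (hR.run s) (by
        funext u
        rw [run_W_of_ne a s S i hs, hW]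
        rfl) (by
        rw [lf_run_W0, ← map_pow, h0, map_add, map_list_sum, List.map_map]
        congr 2
        refine List.map_congr_left fun l _ => ?_
        rw [Function.comp_apply, map_mul, map_pow, mp_cst, lf_run_W0]
        rfl)
    have h4 : (ks.map (fun k => ((List.range (a i)).map
        (fun p => lf ((run a s S).vec (k p)))).prod)).sum = mp ν (Matrix.scalar (Sz a s))
        (ks.map (fun k => ((List.range (a i)).map (fun p => lf (S.vec (k p)))).prod)).sum := by
      rw [map_list_sum, List.map_map]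
      congr 1
      refine List.map_congr_left fun k _ => ?_
      rw [Function.comp_apply, map_list_prod, List.map_map]
      congr 1
      refine List.map_congr_left fun p _ => ?_
      rw [Function.comp_apply, mp_lf]
      rfl
    have h5 : ∀ l, (run a s S).th i l * (run a s S).tl l ^ a i =
        Matrix.scalar (Sz a s) (S.th i l * S.tl l ^ a i) := by
      intro l
      rw [map_mul, map_pow]
      rfl
    simp only [h5] at h3
    rw [h4, ← map_add] at h3
    rw [List.cons_append, sc_cons]
    exact h3

/-- **The value theorem.** -/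
theorem value [LinearOrder I] {B : Type} [Ring B] {S : St I ι ν B} (hC : Com S) (hR : Root a S)
    (ha : ∀ i, 1 ≤ a i) (ml : I → List (ℕ → ι)) (pl : I → List I) (ops : List I)
    (hops : ops.Pairwise (fun x y => y < x)) (hpl : ∀ i, ∀ l ∈ pl i, i < l)
    (q : I → PA B ν) (hW : S.W = S.W0)
    (h0 : ∀ i ∈ ops, lf (S.W0 i) ^ a i =
      q i + ((pl i).map (fun l => cst ν (S.th i l) * lf (S.W0 l) ^ a i)).sum) :
    ∀ i ∈ ops, lf ((fin a (allSteps ml pl ops) S).W i) ^ a i =
      mp ν (sc a (allSteps ml pl ops)) (q i + ((ml i).map (fun k =>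
        ((List.range (a i)).map (fun p => lf (S.vec (k p)))).prod)).sum) +
      ((pl i).map (fun l => cst ν (sc a (allSteps ml pl ops) (S.th i l * S.tl l ^ a i)) *
        lf ((fin a (allSteps ml pl ops) S).W l) ^ a i)).sum := by
  intro i hi
  obtain ⟨pre, post, rfl⟩ := List.append_of_mem hi
  have h1 : allSteps ml pl (pre ++ i :: post) = allSteps ml pl pre ++
      (((ml i).map (Stp.mono i) ++ (pl i).map (Stp.pair i)) ++ allSteps ml pl post) := by
    unfold allSteps
    rw [List.flatMap_append, List.flatMap_cons]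
    rfl
  have hop : ∀ (ops : List I), ∀ s ∈ allSteps ml pl ops, s.op ∈ ops := by
    intro ops s hs
    unfold allSteps at hs
    rw [List.mem_flatMap] at hs
    obtain ⟨j, hj, hs⟩ := hs
    rcases List.mem_append.1 hs with h | h
    · obtain ⟨k, _, rfl⟩ := List.mem_map.1 h; exact hj
    · obtain ⟨k, _, rfl⟩ := List.mem_map.1 h; exact hj
  rw [List.pairwise_append] at hops
  obtain ⟨-, h2, h3⟩ := hops
  rw [List.pairwise_cons] at h2
  rw [h1]
  exact value1 i (ha i) (ml i) (pl i) (fun l hl => (hpl i l hl).ne') (allSteps ml pl post)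
    (fun s hs => ⟨(h2.1 _ (hop _ s hs)).ne', fun l hl =>
      ((h2.1 _ (hop _ s hs)).trans (hpl i l hl)).ne'⟩) (allSteps ml pl pre)
    (fun s hs => (h3 _ (hop _ s hs) _ List.mem_cons_self).ne) (q i) hC hR (by rw [hW]) (h0 i hi)

end

end Crest.Agent.R181.PO
end

-- ▼ part R181/WF459a
section

/-!
R181, block B9 (helper459): (WFG).  For a stably finite ring `E` with a tuple `w` for `q`, the ring
`K = U(E, w; F, q)` (`q` does not contain the new variable) is stably finite.
-/

set_option autoImplicit false
set_option linter.unusedSectionVars false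

namespace Crest.Agent.R181.WF

open AddMonoidAlgebra Crest.Agent.R181.UR
open scoped Polynomial

/-- an idempotent matrix of polynomials without constant coefficients vanishes -/
theorem idem_zero {R : Type*} [Ring R] {n : Type*} [Fintype n] (P : Matrix n n R[X])
    (hP : P * P = P) (h0 : ∀ i j, (P i j).coeff 0 = 0) : P = 0 := by
  have key : ∀ N : ℕ, ∀ i j, ∀ k < N, (P i j).coeff k = 0 := by
    intro N
    induction N with
    | zero => intro i j k hk; omega
    | succ N ih =>
      intro i j k hk
      rw [← hP, Matrix.mul_apply, Polynomial.finsetSum_coeff]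
      refine Finset.sum_eq_zero fun l _ => ?_
      rw [Polynomial.coeff_mul]
      refine Finset.sum_eq_zero fun x hx => ?_
      rw [Finset.HasAntidiagonal.mem_antidiagonal] at hx
      rcases Nat.eq_zero_or_pos x.2 with h | h
      · rw [h, h0, mul_zero]
      · rw [ih i l x.1 (by omega), zero_mul]
  ext i j k
  rw [key (k + 1) i j k (Nat.lt_succ_self k)]
  simp

section

variable {F E I σ : Type} [CommRing F] [Ring E] [Algebra F E] [Fintype I] [Fintype σ]
  (a : I → ℕ) (th : I → I → F) (q : I → MvPolynomial σ F) (w : I → σ → E)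

/-- the data without the new variable -/
noncomputable def qn (i : I) : MvPolynomial (Option σ) F := MvPolynomial.rename some (q i)

/-- the ring `K` -/
abbrev KE : Type := U a th (qn q) w

variable [DecidableEq σ]

theorem isTuple_ext0 {A : Type*} [Ring A] (τ : F →+* A) (hτ : ∀ x y, Commute (τ x) y)
    (u : I → σ → A) (h : IsTuple a th q τ u) :
    IsTuple a th (qn q) τ (ext' u (fun _ => 0)) := by
  have h1 := h.subst (RingHom.id A) (RingHom.id F) τ τ hτ
    (fun v v' => if some v = v' then 1 else 0) (by ext x; rfl) (fun c => rfl)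
  have hQ : (fun i => subL (RingHom.id F) (fun (v : σ) (v' : Option σ) =>
      if some v = v' then (1 : F) else 0) (q i)) = qn q := by
    funext i
    have h3 : subL (RingHom.id F) (fun (v : σ) (v' : Option σ) =>
        if some v = v' then (1 : F) else 0) = (MvPolynomial.rename (some : σ → Option σ) :
          MvPolynomial σ F →ₐ[F] MvPolynomial (Option σ) F).toRingHom := by
      apply MvPolynomial.ringHom_ext
      · intro c
        rw [subL_C]
        show _ = MvPolynomial.rename some (MvPolynomial.C c)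
        rw [MvPolynomial.rename_C]
        rfl
      · intro v
        rw [subL_X]
        show _ = MvPolynomial.rename some (MvPolynomial.X v)
        rw [MvPolynomial.rename_X]
        simp [apply_ite]
    rw [h3]
    rfl
  rw [hQ] at h1
  have e : (fun i (v' : Option σ) => ∑ v, (RingHom.id A) (u i v) *
      τ (if some v = v' then 1 else 0)) = ext' u (fun _ => 0) := by
    funext i v'
    rcases v' with _ | v'
    · simp
    · simp [apply_ite]
  rw [e] at h1
  exact h1

theorem exists_aug (h : IsTuple a th q (algebraMap F E) w) :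
    ∃ ε : KE a th q w →+* E, (∀ d, ε (iD a th (qn q) w d) = d) ∧
      (∀ x, ε (iL a th (qn q) w x) = algebraMap F E x) ∧
      ∀ i, ε (eta a th (qn q) w i) = 0 :=
  exists_lift (a := a) (th := th) (Q := qn q) (w := w) (RingHom.id E) (algebraMap F E)
    (fun _ => 0) (fun c => rfl) (fun x d => Algebra.commutes x d) (fun _ _ => Commute.zero_right _)
    (isTuple_ext0 a th q (algebraMap F E) (fun x d => Algebra.commutes x d) w h)

/-- the data is homogeneous for the trivial grading of `F` -/
theorem hmg_qn : Hmg (F := F) (qn q) (Polynomial.C : F →+* F[X]) where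
  toGr := gr_C
  base _ := rfl
  Q_eq i := by
    have h3 : (MvPolynomial.map (Polynomial.C : F →+* F[X])).comp
        (MvPolynomial.rename (some : σ → Option σ) :
          MvPolynomial σ F →ₐ[F] MvPolynomial (Option σ) F).toRingHom =
        (subL (Polynomial.C : F →+* F[X]) (Xz Polynomial.X)).comp
        (MvPolynomial.rename (some : σ → Option σ) :
          MvPolynomial σ F →ₐ[F] MvPolynomial (Option σ) F).toRingHom := by
      apply MvPolynomial.ringHom_ext
      · intro c
        rw [RingHom.comp_apply, RingHom.comp_apply]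
        show MvPolynomial.map _ (MvPolynomial.rename some (MvPolynomial.C c)) =
          subL _ _ (MvPolynomial.rename some (MvPolynomial.C c))
        rw [MvPolynomial.rename_C, MvPolynomial.map_C, subL_C]
      · intro v
        rw [RingHom.comp_apply, RingHom.comp_apply]
        show MvPolynomial.map _ (MvPolynomial.rename some (MvPolynomial.X v)) =
          subL _ _ (MvPolynomial.rename some (MvPolynomial.X v))
        rw [MvPolynomial.rename_X, MvPolynomial.map_X, subL_X, Fintype.sum_option]
        simp [Xz, apply_ite]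
    exact RingHom.congr_fun h3 (q i)

/-- the constant coefficient of the coaction -/
theorem coact_coeff_zero (ε : KE a th q w →+* E) (hD : ∀ d, ε (iD a th (qn q) w d) = d)
    (hL : ∀ x, ε (iL a th (qn q) w x) = algebraMap F E x) (hI : ∀ i, ε (eta a th (qn q) w i) = 0)
    (z : KE a th q w) : (coact a th w (hmg_qn q) z).coeff 0 = iD a th (qn q) w (ε z) := by
  have h : Polynomial.constantCoeff.comp (coact a th w (hmg_qn q)) =
      (iD a th (qn q) w).comp ε := by
    apply hom_ext' a th (qn q) w
    · intro d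
      rw [RingHom.comp_apply, RingHom.comp_apply, coact_iD, hD]
      simp
    · intro x
      rw [RingHom.comp_apply, RingHom.comp_apply, coact_iL, hL, iD_base]
      simp
    · intro i
      rw [RingHom.comp_apply, RingHom.comp_apply, coact_eta, hI, map_zero]
      simp
  exact RingHom.congr_fun h z

theorem stablyFinite_KE_of [hE : IsStablyFiniteRing E] (h : IsTuple a th q (algebraMap F E) w) :
    IsStablyFiniteRing (KE a th q w) := by
  obtain ⟨ε, hD, hL, hI⟩ := exists_aug a th q w h
  rw [RE.isStablyFiniteRing_iff']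
  intro m X Y hXY
  let Δ := coact a th w (hmg_qn q)
  have hX : (X.map ε) * (Y.map ε) = 1 := by
    rw [← Matrix.map_mul, hXY, Matrix.map_one _ (map_zero ε) (map_one ε)]
  have hY : (Y.map ε) * (X.map ε) = 1 := RE.isStablyFiniteRing_iff'.1 hE m _ _ hX
  let f : Matrix (Fin m) (Fin m) (KE a th q w) := 1 - Y * X
  have hf : f * f = f := by
    show (1 - Y * X) * (1 - Y * X) = 1 - Y * X
    have : Y * X * (Y * X) = Y * X := by
      rw [mul_assoc, ← mul_assoc X Y X, hXY, one_mul]
    rw [mul_sub, sub_mul, sub_mul, this]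
    simp
  have hfε : f.map ε = 0 := by
    show (1 - Y * X).map ε = 0
    rw [Matrix.map_sub _ (map_sub ε), Matrix.map_one _ (map_zero ε) (map_one ε), Matrix.map_mul,
      hY, sub_self]
  have hP : f.map Δ = 0 := by
    apply idem_zero
    · rw [← Matrix.map_mul, hf]
    · intro i j
      show (Δ (f i j)).coeff 0 = 0
      rw [coact_coeff_zero a th q w ε hD hL hI]
      have : ε (f i j) = 0 := congrFun (congrFun hfε i) j
      rw [this, map_zero]
  have hf0 : f = 0 := by
    ext i j
    have h1 : Δ (f i j) = 0 := congrFun (congrFun hP i) j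
    have h2 := (gr_coact a th w (hmg_qn q)).counit (f i j)
    have h3 : coact a th w (hmg_qn q) (f i j) = 0 := h1
    rw [h3] at h2
    rw [← h2]
    simp
  exact (sub_eq_zero.1 hf0).symm

end

section Skew

variable {F E I σ : Type} [CommRing F] [DivisionRing E] [Algebra F E] [Fintype I] [Fintype σ]
  [DecidableEq σ]
  (a : I → ℕ) (th : I → I → F) (q : I → MvPolynomial σ F) (w : I → σ → E)

/-- (WFG) -/
theorem stablyFinite_KE (h : IsTuple a th q (algebraMap F E) w) :
    Nontrivial (U a th (fun i => MvPolynomial.rename some (q i)) w) ∧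
      IsStablyFiniteRing (U a th (fun i => MvPolynomial.rename some (q i)) w) := by
  obtain ⟨ε, -⟩ := exists_aug a th q w h
  exact ⟨ε.domain_nontrivial, stablyFinite_KE_of a th q w h⟩

end Skew

end Crest.Agent.R181.WF
end

-- ▼ part R181/IN776a
section

/-!
R181 (helper776), block B9: the states of the matrix models, the values of the forms.
-/

set_option autoImplicit false
set_option linter.unusedSectionVars false

namespace Crest.Agent.R181.IN

open UR PO
open scoped Polynomial

noncomputable section

section Steps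

variable {F I σ : Type}

/-- the vectors of a term -/
def kk (n : ℕ) (t : F × (ℕ → Option σ)) (p : ℕ) : Option σ ⊕ F :=
  if p < n - 1 then Sum.inl (t.2 p) else Sum.inr t.1

/-- the list of the steps -/
def steps (a : I → ℕ) (ml : I → List (F × (ℕ → Option σ))) (pl : I → List I) (ops : List I) :
    List (Stp I (Option σ ⊕ F)) :=
  allSteps (fun i => (ml i).map (kk (a i))) pl ops

/-- lists of operators: all, decreasing -/
theorem exists_ops [LinearOrder I] [Fintype I] : ∃ (ops : List I) (pl : I → List I),
    ops.Pairwise (fun x y => y < x) ∧ (∀ i, i ∈ ops) ∧ (∀ i, (pl i).Nodup) ∧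
      ∀ i l, l ∈ pl i ↔ i < l := by
  refine ⟨(Finset.univ.sort (fun x y : I => x ≤ y)).reverse,
    fun i => (Finset.univ.filter (fun l => i < l)).toList, ?_, ?_, ?_, ?_⟩
  · rw [List.pairwise_reverse]
    exact (Finset.univ : Finset I).sortedLT_sort.pairwise
  · intro i
    rw [List.mem_reverse, Finset.mem_sort]
    exact Finset.mem_univ i
  · intro i
    exact Finset.nodup_toList _
  · intro i l
    rw [Finset.mem_toList, Finset.mem_filter]
    exact ⟨fun h => h.2, fun h => ⟨Finset.mem_univ l, h⟩⟩

end Steps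

section Vec

variable {F σ R : Type} [Ring R] [Field F] [DecidableEq σ]

/-- the auxiliary vectors: the variables, scaled by `y` in the new variable -/
def vecY (lam1 : F →+* R) (y : R) : Option σ ⊕ F → Option σ → R
  | .inl (some v), u => if u = some v then 1 else 0
  | .inl none, u => if u = none then y else 0
  | .inr c, u => if u = none then lam1 c * y else 0

/-- the vectors at `y = 0` -/
def v1 : Option σ ⊕ F → Option σ → F
  | .inl (some v), u => if u = some v then 1 else 0
  | .inl none, _ => 0
  | .inr _, _ => 0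

theorem vecY_zero (lam1 : F →+* R) (lam : F →+* R) (k : Option σ ⊕ F) (u : Option σ) :
    vecY lam1 0 k u = lam (v1 k u) := by
  rcases k with (_ | v) | c
  · simp [vecY, v1]
  · simp only [vecY, v1]
    split_ifs <;> simp
  · simp [vecY, v1]

theorem lf_single [Fintype σ] (r : R) (u0 : σ) : lf (fun u => if u = u0 then r else 0) =
    cst σ r * var R u0 := by
  rw [lf_eq]
  rw [Finset.sum_eq_single u0]
  · rw [if_pos rfl]
  · intro u _ hu
    rw [if_neg hu, map_zero, zero_mul]
  · intro h
    exact absurd (Finset.mem_univ u0) h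

end Vec

section Forms

variable {F σ R : Type} [Ring R] [Field F] [DecidableEq σ] [Fintype σ]

/-- `F[X] → R` -/
def LX (lam1 : F →+* R) (y : R) (hy : ∀ x, Commute y x) : F[X] →+* R :=
  Polynomial.eval₂RingHom' lam1 y (fun c => (hy (lam1 c)).symm)

@[simp] theorem LX_C (lam1 : F →+* R) (y : R) (hy : ∀ x, Commute y x) (c : F) :
    LX lam1 y hy (Polynomial.C c) = lam1 c := by
  simp [LX]

@[simp] theorem LX_X (lam1 : F →+* R) (y : R) (hy : ∀ x, Commute y x) :
    LX lam1 y hy Polynomial.X = y := by
  simp [LX]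

/-- evaluation of a form -/
def ev (lam1 : F →+* R) (y : R) (hy : ∀ x, Commute y x) :
    MvPolynomial (Option σ) F →+* PA R (Option σ) :=
  (mp (Option σ) (LX lam1 y hy)).comp (subL (Polynomial.C : F →+* F[X]) (Xz Polynomial.X))

theorem ev_C (lam1 : F →+* R) (y : R) (hy : ∀ x, Commute y x) (c : F) :
    ev (σ := σ) lam1 y hy (MvPolynomial.C c) = cst (Option σ) (lam1 c) := by
  rw [ev, RingHom.comp_apply, subL_C, mp_C, LX_C]

theorem ev_X_some (lam1 : F →+* R) (y : R) (hy : ∀ x, Commute y x) (v : σ) :
    ev lam1 y hy (MvPolynomial.X (some v)) = var R (some v) := by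
  rw [ev, RingHom.comp_apply, subL_X, Fintype.sum_option, map_add, map_sum]
  simp only [map_mul, mp_C, mp_X, Xz]
  simp [apply_ite, ite_mul]

theorem ev_X_none (lam1 : F →+* R) (y : R) (hy : ∀ x, Commute y x) :
    ev (σ := σ) lam1 y hy (MvPolynomial.X none) = cst (Option σ) y * var R none := by
  rw [ev, RingHom.comp_apply, subL_X, Fintype.sum_option, map_add, map_sum]
  simp only [map_mul, mp_C, mp_X, Xz]
  simp

theorem ev_QX (lam1 : F →+* R) (y : R) (hy : ∀ x, Commute y x) {I : Type}
    (Q : I → MvPolynomial (Option σ) F) (i : I) :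
    mp (Option σ) (LX lam1 y hy) (RE.QX Q i) = ev lam1 y hy (Q i) := rfl

/-- `rename some` on polynomials over a ring -/
theorem mp_rename (lam : F →+* R) (q : MvPolynomial σ F) :
    mp (Option σ) lam (MvPolynomial.rename some q) = HT.em (mp σ lam q) := by
  have h : (mp (Option σ) lam).comp (MvPolynomial.rename (some : σ → Option σ) :
      MvPolynomial σ F →ₐ[F] MvPolynomial (Option σ) F).toRingHom = (HT.em).comp (mp σ lam) := by
    apply MvPolynomial.ringHom_ext
    · intro c
      change mp (Option σ) lam (MvPolynomial.rename some (MvPolynomial.C c)) =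
        HT.em (mp σ lam (MvPolynomial.C c))
      rw [MvPolynomial.rename_C, mp_C, mp_C, HT.em_cst]
    · intro v
      change mp (Option σ) lam (MvPolynomial.rename some (MvPolynomial.X v)) =
        HT.em (mp σ lam (MvPolynomial.X v))
      rw [MvPolynomial.rename_X, mp_X, mp_X, var, var, HT.em_single]
      congr 1
      unfold HT.inc
      rw [Finsupp.mapDomain_single]
  exact RingHom.congr_fun h q

theorem ev_rename (lam1 : F →+* R) (y : R) (hy : ∀ x, Commute y x) (q : MvPolynomial σ F) :
    ev lam1 y hy (MvPolynomial.rename some q) = mp (Option σ) lam1 (MvPolynomial.rename some q) := by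
  have h : (ev lam1 y hy).comp (MvPolynomial.rename (some : σ → Option σ) :
      MvPolynomial σ F →ₐ[F] MvPolynomial (Option σ) F).toRingHom = (mp (Option σ) lam1).comp
      (MvPolynomial.rename (some : σ → Option σ) :
      MvPolynomial σ F →ₐ[F] MvPolynomial (Option σ) F).toRingHom := by
    apply MvPolynomial.ringHom_ext
    · intro c
      change ev lam1 y hy (MvPolynomial.rename some (MvPolynomial.C c)) =
        mp (Option σ) lam1 (MvPolynomial.rename some (MvPolynomial.C c))
      rw [MvPolynomial.rename_C, mp_C, ev_C]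
    · intro v
      change ev lam1 y hy (MvPolynomial.rename some (MvPolynomial.X v)) =
        mp (Option σ) lam1 (MvPolynomial.rename some (MvPolynomial.X v))
      rw [MvPolynomial.rename_X, mp_X, ev_X_some]
  exact RingHom.congr_fun h q

theorem prod_range_list {M : Type*} [CommMonoid M] (f : ℕ → M) (n : ℕ) :
    ∏ p ∈ Finset.range n, f p = ((List.range n).map f).prod := by
  induction n with
  | zero => simp
  | succ n ih => rw [Finset.prod_range_succ, List.prod_range_succ, ih]

/-- the value of a term -/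
theorem ev_term (lam1 : F →+* R) (y : R) (hy : ∀ x, Commute y x) {n : ℕ} (hn : 1 ≤ n)
    (t : F × (ℕ → Option σ)) :
    ev lam1 y hy (MvPolynomial.C t.1 * MvPolynomial.X none *
      ∏ p ∈ Finset.range (n - 1), MvPolynomial.X (t.2 p)) =
    ((List.range n).map (fun p => lf (vecY lam1 y (kk n t p)))).prod := by
  obtain ⟨m, rfl⟩ : ∃ m, n = m + 1 := ⟨n - 1, by omega⟩
  rw [add_tsub_cancel_right, mul_comm, prod_range_list, map_mul, map_list_prod, List.map_map,
    List.prod_range_succ]
  congr 1
  · congr 1
    refine List.map_congr_left fun p hp => ?_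
    rw [List.mem_range] at hp
    have h1 : kk (m + 1) t p = Sum.inl (t.2 p) := by
      rw [kk, if_pos (by omega)]
    rw [h1, Function.comp_apply]
    rcases t.2 p with _ | v
    · rw [ev_X_none]
      exact (lf_single y none).symm
    · rw [ev_X_some]
      have := lf_single (1 : R) (some v)
      rw [map_one, one_mul] at this
      exact this.symm
  · have h1 : kk (m + 1) t m = Sum.inr t.1 := by
      rw [kk, if_neg (by omega)]
    rw [h1, map_mul, ev_C, ev_X_none, ← mul_assoc, ← map_mul]
    exact (lf_single (lam1 t.1 * y) none).symm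

/-- the value of a form -/
theorem ev_form (lam1 : F →+* R) (y : R) (hy : ∀ x, Commute y x) {n : ℕ} (hn : 1 ≤ n)
    (Q : MvPolynomial (Option σ) F) (l : List (F × (ℕ → Option σ)))
    (h : Q = MvPolynomial.rename some (BM.res0 Q) + BM.lsum n l) :
    ev lam1 y hy Q = mp (Option σ) lam1 (MvPolynomial.rename some (BM.res0 Q)) +
      ((l.map (kk n)).map (fun k => ((List.range n).map (fun p => lf (vecY lam1 y (k p)))).prod)).sum := by
  conv_lhs => rw [h]
  rw [map_add, ev_rename, BM.lsum, map_list_sum, List.map_map, List.map_map]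
  congr 2
  refine List.map_congr_left fun t _ => ?_
  exact ev_term lam1 y hy hn t

end Forms

section Tup

variable {F I σ R : Type} [Ring R] [Field F] [DecidableEq σ] [Fintype σ]

/-- the state over a ring with a scale `y` -/
def stY (ω : I → F) (th : I → I → F) (lam lam1 : F →+* R) (tl : I → R) (y : R)
    (W0 : I → Option σ → R) : St I (Option σ ⊕ F) (Option σ) R where
  om i := lam (ω i)
  th i l := lam (th i l)
  tl := tl
  vec := vecY lam1 y
  W0 := W0
  W := W0

end Tup

section Tw

variable {F I : Type} [Field F] [Fintype I] {a : I → ℕ} {th : I → I → F} {ω : I → F}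
  {T : TwD a th ω} {R : Type} [Ring R] {lam lam1 : F →+* R} {tl : I → R}

theorem _root_.Crest.Agent.R181.PO.HasTw.th_eq (h : HasTw T lam tl lam1) (i l : I) :
    lam1 (th i l) = lam (th i l) * tl l ^ a i := by
  obtain ⟨c, h1, h2, h3⟩ := h
  obtain ⟨x, hx, hΔ⟩ := T.hth i l
  rw [← hx, h3, hΔ, map_mul, map_pow, MvPolynomial.map_C, MvPolynomial.map_X, map_mul, map_pow,
    h1, h2]

theorem _root_.Crest.Agent.R181.PO.HasTw.fixed_eq (h : HasTw T lam tl lam1) {x : F}
    (hx : x ∈ T.fixed) : lam1 x = lam x := by
  obtain ⟨c, h1, h2, h3⟩ := h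
  obtain ⟨y, hy, rfl⟩ := hx
  have hy' : T.Δ y = MvPolynomial.C y := hy
  rw [h3, hy', MvPolynomial.map_C, h1]

theorem _root_.Crest.Agent.R181.PO.HasTw.mp_eq {σ : Type} (h : HasTw T lam tl lam1)
    (q : MvPolynomial σ F) (hq : ∀ m, q.coeff m ∈ T.fixed) : mp σ lam1 q = mp σ lam q := by
  ext m
  rw [mp_coeff, mp_coeff]
  exact h.fixed_eq (hq m)

end Tw

end

end Crest.Agent.R181.IN
private theorem rz_6a7e85e6cc : type_of% @_root_.Crest.Agent.R181.IN.v1.eq_1 := @_root_.Crest.Agent.R181.IN.v1.eq_1 -- L62
private theorem rz_83b0a7792e : type_of% @_root_.Crest.Agent.R181.IN.vecY.eq_1 := @_root_.Crest.Agent.R181.IN.vecY.eq_1 -- L56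
end

-- ▼ part R181/IN776b

/-!
R181 (helper776), block B9: the tuples of the matrix models, from the value theorem.
-/

set_option autoImplicit false
set_option linter.unusedSectionVars false

namespace Crest.Agent.R181.IN

open UR PO
open scoped Polynomial

noncomputable section

section Tup

variable {F I σ R : Type} [Ring R] [Field F] [DecidableEq σ] [Fintype σ]

variable [Fintype I] {a : I → ℕ} {th : I → I → F} {ω : I → F}

theorem com_stY {lam lam1 : F →+* R} {tl : I → R} {y : R} {W0 : I → Option σ → R}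
    (hlam : ∀ c x, Commute (lam c) x) (hlam1 : ∀ c x, Commute (lam1 c) x)
    (htl : ∀ l x, Commute (tl l) x) (hy : ∀ x, Commute y x)
    (hW : ∀ i j, lf (W0 i) * lf (W0 j) = lf (W0 j) * lf (W0 i)) :
    Com (stY ω th lam lam1 tl y W0) where
  om i x := hlam _ x
  th i l x := hlam _ x
  tl := htl
  vec k u x := by
    rcases k with (_ | v) | c
    · change Commute (if u = none then y else 0) x
      split_ifs
      · exact hy x
      · exact Commute.zero_left x
    · change Commute (if u = some v then 1 else 0) x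
      split_ifs
      · exact Commute.one_left x
      · exact Commute.zero_left x
    · change Commute (if u = none then lam1 c * y else 0) x
      split_ifs
      · exact (hlam1 c x).mul_left (hy x)
      · exact Commute.zero_left x
  WW := hW
  WW0 := hW
  W0W0 := hW

variable [LinearOrder I]

/-- **(TUP)**, with the explicit hom `LX`. -/
theorem tup_LX {lam lam1 : F →+* R} {tl : I → R} {y : R} {W0 : I → Option σ → R}
    {Q : I → MvPolynomial (Option σ) F}
    (hlam : ∀ c x, Commute (lam c) x) (hlam1 : ∀ c x, Commute (lam1 c) x)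
    (htl : ∀ l x, Commute (tl l) x) (hy : ∀ x, Commute y x)
    (ha : ∀ i, 1 ≤ a i) (hω : ∀ i, IsPrimitiveRoot (ω i) (a i))
    (hth : ∀ i l, ¬ i < l → th i l = 0)
    (htw : ∀ i l, lam1 (th i l) = lam (th i l) * tl l ^ a i)
    (hQ : ∀ i, mp σ lam1 (BM.res0 (Q i)) = mp σ lam (BM.res0 (Q i)))
    (ml : I → List (F × (ℕ → Option σ)))
    (hml : ∀ i, Q i = MvPolynomial.rename some (BM.res0 (Q i)) + BM.lsum (a i) (ml i))
    (pl : I → List I) (hpl : ∀ i, (pl i).Nodup) (hpl' : ∀ i l, l ∈ pl i ↔ i < l)
    (ops : List I) (hops : ops.Pairwise (fun x y => y < x)) (hops' : ∀ i, i ∈ ops)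
    (hW : IsTuple a th (QK fun i => BM.res0 (Q i)) lam W0) :
    IsTuple a th (RE.QX Q) ((sc a (steps a ml pl ops)).comp (LX lam1 y hy))
      (fin a (steps a ml pl ops) (stY ω th lam lam1 tl y W0)).W := by
  have hC : Com (stY ω th lam lam1 tl y W0) := com_stY hlam hlam1 htl hy hW.comm
  have hR : Root a (stY (σ := σ) ω th lam lam1 tl y W0) :=
    ⟨F, inferInstance, inferInstance, lam, ω, fun i => rfl, hω⟩
  have hsum : ∀ (i : I) (f : I → PA R (Option σ)), ((pl i).map f).sum = ∑ l with i < l, f l := by
    intro i f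
    have h1 : (Finset.univ.filter (fun l => i < l)) = (pl i).toFinset := by
      ext l
      simp [hpl']
    rw [h1, List.sum_toFinset _ (hpl i)]
  have hsum' : ∀ (i : I) (f : I → PA (Rg a (steps a ml pl ops) R) (Option σ)),
      ((pl i).map f).sum = ∑ l with i < l, f l := by
    intro i f
    have h1 : (Finset.univ.filter (fun l => i < l)) = (pl i).toFinset := by
      ext l
      simp [hpl']
    rw [h1, List.sum_toFinset _ (hpl i)]
  have hv := value (a := a) hC hR ha
    (fun i => (ml i).map (kk (a i))) pl ops hops (fun i l hl => (hpl' i l).1 hl)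
    (fun i => mp (Option σ) lam (QK (fun i => BM.res0 (Q i)) i)) rfl (by
      intro i _
      have h1 := hW.rel i
      change lf (W0 i) ^ a i = mp (Option σ) lam (QK (fun i => BM.res0 (Q i)) i) +
        ((pl i).map (fun l => cst (Option σ) (lam (th i l)) * lf (W0 l) ^ a i)).sum
      rw [h1, hsum, Finset.sum_filter]
      congr 1
      refine Finset.sum_congr rfl fun l _ => ?_
      split_ifs with h
      · rfl
      · rw [hth i l h, map_zero, map_zero, map_zero, zero_mul])
  refine ⟨(hC.fin (a := a) _).WW, fun i => ?_⟩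
  have h1 := hv i (hops' i)
  change lf ((fin a (steps a ml pl ops) (stY ω th lam lam1 tl y W0)).W i) ^ a i = _ at h1
  rw [h1, ← mp_comp, ev_QX, ev_form lam1 y hy (ha i) (Q i) (ml i) (hml i)]
  congr 2
  · congr 1
    change mp (Option σ) lam (MvPolynomial.rename some (BM.res0 (Q i))) =
      mp (Option σ) lam1 (MvPolynomial.rename some (BM.res0 (Q i)))
    rw [mp_rename, mp_rename, hQ]
  · change ((pl i).map (fun l => cst (Option σ) (sc a (steps a ml pl ops)
      (lam (th i l) * tl l ^ a i)) * lf ((fin a (steps a ml pl ops)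
        (stY ω th lam lam1 tl y W0)).W l) ^ a i)).sum = _
    rw [hsum', Finset.sum_filter]
    refine Finset.sum_congr rfl fun l _ => ?_
    have hF : algebraMap F F (th i l) = th i l := rfl
    rw [Polynomial.algebraMap_apply, RingHom.comp_apply, LX_C, hF, htw]
    split_ifs with h
    · rfl
    · rw [hth i l h, map_zero, zero_mul, map_zero, map_zero, zero_mul]

/-- **(TUP)** -/
theorem tup {lam lam1 : F →+* R} {tl : I → R} {y : R} {W0 : I → Option σ → R}
    {Q : I → MvPolynomial (Option σ) F}
    (hlam : ∀ c x, Commute (lam c) x) (hlam1 : ∀ c x, Commute (lam1 c) x)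
    (htl : ∀ l x, Commute (tl l) x) (hy : ∀ x, Commute y x)
    (ha : ∀ i, 1 ≤ a i) (hω : ∀ i, IsPrimitiveRoot (ω i) (a i))
    (hth : ∀ i l, ¬ i < l → th i l = 0)
    (htw : ∀ i l, lam1 (th i l) = lam (th i l) * tl l ^ a i)
    (hQ : ∀ i, mp σ lam1 (BM.res0 (Q i)) = mp σ lam (BM.res0 (Q i)))
    (ml : I → List (F × (ℕ → Option σ)))
    (hml : ∀ i, Q i = MvPolynomial.rename some (BM.res0 (Q i)) + BM.lsum (a i) (ml i))
    (pl : I → List I) (hpl : ∀ i, (pl i).Nodup) (hpl' : ∀ i l, l ∈ pl i ↔ i < l)
    (ops : List I) (hops : ops.Pairwise (fun x y => y < x)) (hops' : ∀ i, i ∈ ops)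
    (τX : F[X] →+* R) (hτC : ∀ c, τX (Polynomial.C c) = lam1 c) (hτX : τX Polynomial.X = y)
    (hW : IsTuple a th (QK fun i => BM.res0 (Q i)) lam W0) :
    IsTuple a th (RE.QX Q) ((sc a (steps a ml pl ops)).comp τX)
      (fin a (steps a ml pl ops) (stY ω th lam lam1 tl y W0)).W := by
  have e : τX = LX lam1 y hy := by
    apply Polynomial.ringHom_ext
    · intro c
      rw [hτC, LX_C]
    · rw [hτX, LX_X]
  rw [e]
  exact tup_LX hlam hlam1 htl hy ha hω hth htw hQ ml hml pl hpl hpl' ops hops hops' hW

/-- restriction of the variables -/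
theorem _root_.Crest.Agent.R181.UR.IsTuple.res0 {F I σ A L : Type*} [CommRing F] [CommRing L]
    [Algebra F L] [Fintype I] [Fintype σ] [Ring A] {a : I → ℕ} {th : I → I → F}
    {Q : I → MvPolynomial (Option σ) L} {τ : L →+* A} {W : I → Option σ → A}
    (h : IsTuple a th Q τ W) :
    IsTuple a th (fun i => BM.res0 (Q i)) τ (fun i v => W i (some v)) where
  comm i j := by
    have := congrArg HT.r0 (h.comm i j)
    simpa only [map_mul, HT.r0_lf] using this
  rel i := by
    have h1 : ∀ q : MvPolynomial (Option σ) L, HT.r0 (mp (Option σ) τ q) = mp σ τ (BM.res0 q) := by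
      intro q
      have h2 : (HT.r0 : PA A (Option σ) →+* PA A σ).comp (mp (Option σ) τ) =
          (mp σ τ).comp (BM.res0 (R := L) (σ := σ)).toRingHom := by
        apply MvPolynomial.ringHom_ext
        · intro c
          change HT.r0 (mp (Option σ) τ (MvPolynomial.C c)) = mp σ τ (BM.res0 (MvPolynomial.C c))
          rw [mp_C, HT.r0_cst, show (MvPolynomial.C c : MvPolynomial (Option σ) L) =
            algebraMap L _ c from rfl, AlgHom.commutes]
          exact (mp_C τ c).symm
        · intro v
          change HT.r0 (mp (Option σ) τ (MvPolynomial.X v)) = mp σ τ (BM.res0 (MvPolynomial.X v))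
          rw [mp_X]
          rcases v with _ | v
          · rw [HT.r0_var_none, BM.res0_X_none, map_zero]
          · rw [BM.res0_X_some, mp_X]
            exact HT.r0_single_some v 1
      exact RingHom.congr_fun h2 q
    have h3 := congrArg HT.r0 (h.rel i)
    simp only [map_pow, map_add, map_sum, map_mul, HT.r0_lf, HT.r0_cst, h1] at h3
    exact h3

theorem res0_rename (q : MvPolynomial σ F) :
    BM.res0 (MvPolynomial.rename some q : MvPolynomial (Option σ) F) = q := by
  rw [BM.res0, MvPolynomial.aeval_rename]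
  exact MvPolynomial.aeval_X_left_apply q

section

variable {lam lam1 : F →+* R} {tl : I → R} {W0 : I → Option σ → R}
    {Q : I → MvPolynomial (Option σ) F}
    (hlam : ∀ c x, Commute (lam c) x) (hlam1 : ∀ c x, Commute (lam1 c) x)
    (htl : ∀ l x, Commute (tl l) x)
    (ha : ∀ i, 1 ≤ a i) (hω : ∀ i, IsPrimitiveRoot (ω i) (a i))
    (hth : ∀ i l, ¬ i < l → th i l = 0)
    (htw : ∀ i l, lam1 (th i l) = lam (th i l) * tl l ^ a i)
    (hQ : ∀ i, mp σ lam1 (BM.res0 (Q i)) = mp σ lam (BM.res0 (Q i)))
    (ml : I → List (F × (ℕ → Option σ)))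
    (hml : ∀ i, Q i = MvPolynomial.rename some (BM.res0 (Q i)) + BM.lsum (a i) (ml i))
    (pl : I → List I) (hpl : ∀ i, (pl i).Nodup) (hpl' : ∀ i l, l ∈ pl i ↔ i < l)
    (ops : List I) (hops : ops.Pairwise (fun x y => y < x)) (hops' : ∀ i, i ∈ ops)

include hlam hlam1 htl ha hω hth htw hQ hml hpl hpl' hops hops'

/-- **(TUP)** at `y = 0` -/
theorem tup0 (hW : IsTuple a th (QK fun i => BM.res0 (Q i)) lam W0) :
    IsTuple a th (QK fun i => BM.res0 (Q i)) ((sc a (steps a ml pl ops)).comp lam1)
      (fin a (steps a ml pl ops) (stY ω th lam lam1 tl 0 W0)).W := by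
  have h1 := tup_LX (y := 0) hlam hlam1 htl Commute.zero_left ha hω hth htw hQ ml hml pl hpl hpl'
    ops hops hops' hW
  refine (isTuple_map_iff a th (Polynomial.evalRingHom (0 : F)) (fun c => ?_) (RE.mp_QX Q) _ _).2 ?_
  · rw [Polynomial.algebraMap_apply, Polynomial.coe_evalRingHom, Polynomial.eval_C]
  · have h2 : ((sc a (steps a ml pl ops)).comp lam1).comp (Polynomial.evalRingHom (0 : F)) =
        (sc a (steps a ml pl ops)).comp (LX lam1 0 Commute.zero_left) := by
      apply Polynomial.ringHom_ext
      · intro c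
        rw [RingHom.comp_apply, RingHom.comp_apply, RingHom.comp_apply, LX_C,
          Polynomial.coe_evalRingHom, Polynomial.eval_C]
      · rw [RingHom.comp_apply, RingHom.comp_apply, RingHom.comp_apply, LX_X,
          Polynomial.coe_evalRingHom, Polynomial.eval_X, map_zero, map_zero]
    rw [h2]
    exact h1

/-- **(TUP)** restricted to the old variables -/
theorem tupσ (hW : IsTuple a th (QK fun i => BM.res0 (Q i)) lam W0) :
    IsTuple a th (fun i => BM.res0 (Q i)) ((sc a (steps a ml pl ops)).comp lam1)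
      (fin a (steps a ml pl ops) ((stY ω th lam lam1 tl 0 W0).pull some)).W := by
  have h1 := (tup0 hlam hlam1 htl ha hω hth htw hQ ml hml pl hpl hpl' ops hops hops' hW).res0
  rw [fin_pull]
  simp only [res0_rename] at h1
  exact h1

end

end Tup

section Bst

variable {F I σ : Type} [Field F] [DecidableEq σ] [Fintype σ] {th : I → I → F} {ω : I → F}

/-- the basic state at `y = 0`, all variables -/
theorem bst_eq_stY {S R : Type} [Ring S] [Ring R] (cF : F →+* S) (wS : I → Option σ → S)
    (j : S →+* R) (lam1 : F →+* R) (tl : I → R) :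
    bst ω th cF v1 wS j tl (fun i u => j (wS i u)) =
      stY ω th (j.comp cF) lam1 tl 0 (fun i u => j (wS i u)) := by
  refine St.ext rfl rfl rfl ?_ rfl rfl
  funext k u
  exact (vecY_zero lam1 (j.comp cF) k u).symm

/-- the basic state, old variables -/
theorem bst_eq_pull {S R : Type} [Ring S] [Ring R] (cF : F →+* S) (wS : I → σ → S)
    (j : S →+* R) (lam1 : F →+* R) (tl : I → R) :
    bst ω th cF (fun k u => v1 k (some u)) wS j tl (fun i u => j (wS i u)) =
      (stY ω th (j.comp cF) lam1 tl 0 (ext' (fun i u => j (wS i u)) (fun _ => 0))).pull some := by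
  refine St.ext rfl rfl rfl ?_ rfl rfl
  funext k u
  exact (vecY_zero lam1 (j.comp cF) k (some u)).symm

end Bst

section Cor

variable {F D I σ : Type} [Field F] [DivisionRing D] [Algebra F D] [DecidableEq σ] [Fintype σ]
  [Fintype I] [LinearOrder I] {a : I → ℕ} {th : I → I → F} {ω : I → F}
  {Q : I → MvPolynomial (Option σ) F} {w : I → σ → D}
  (ha : ∀ i, 1 ≤ a i) (hω : ∀ i, IsPrimitiveRoot (ω i) (a i))
  (hth : ∀ i l, ¬ i < l → th i l = 0)
  (ml : I → List (F × (ℕ → Option σ)))
  (hml : ∀ i, Q i = MvPolynomial.rename some (BM.res0 (Q i)) + BM.lsum (a i) (ml i))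
  (pl : I → List I) (hpl : ∀ i, (pl i).Nodup) (hpl' : ∀ i l, l ∈ pl i ↔ i < l)
  (ops : List I) (hops : ops.Pairwise (fun x y => y < x)) (hops' : ∀ i, i ∈ ops)

include ha hω hth hml hpl hpl' hops hops'

/-- the hypothesis of `Pkg.loc` -/
theorem tuple_loc (hw : IsTuple a th (fun i => BM.res0 (Q i)) (algebraMap F D) w)
    {E : Type} [Ring E] (j : D →+* E) (lam1 : F →+* E) (tl : I → E)
    (hF : ∀ c x, Commute (j (algebraMap F D c)) x) (hlam1 : ∀ c x, Commute (lam1 c) x)
    (htl : ∀ l x, Commute (tl l) x)
    (htw : ∀ i l, lam1 (th i l) = j (algebraMap F D (th i l)) * tl l ^ a i)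
    (hQ : ∀ i, mp σ lam1 (BM.res0 (Q i)) = mp σ (j.comp (algebraMap F D)) (BM.res0 (Q i))) :
    IsTuple a th (fun i => BM.res0 (Q i)) ((sc a (steps a ml pl ops)).comp lam1)
      (fin a (steps a ml pl ops) (bst ω th (algebraMap F D) (fun k u => v1 k (some u)) w j tl
        (fun i u => j (w i u)))).W := by
  rw [bst_eq_pull (algebraMap F D) w j lam1 tl]
  exact tupσ hF hlam1 htl ha hω hth htw hQ ml hml pl hpl hpl' ops hops hops'
    (WF.isTuple_ext0 a th _ _ hF _ (hw.map j))

/-- the hypothesis of `Pkg.inj` -/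
theorem tuple_inj {𝓛 : Type} [Ring 𝓛] (jK : KK a th (fun i => BM.res0 (Q i)) w →+* 𝓛)
    (lam1 : F →+* 𝓛) (tl : I → 𝓛)
    (hF : ∀ c x, Commute (jK (iL a th (QK fun i => BM.res0 (Q i)) w c)) x)
    (hlam1 : ∀ c x, Commute (lam1 c) x) (htl : ∀ l x, Commute (tl l) x)
    (htw : ∀ i l, lam1 (th i l) = jK (iL a th (QK fun i => BM.res0 (Q i)) w (th i l)) * tl l ^ a i)
    (hQ : ∀ i, mp σ lam1 (BM.res0 (Q i)) =
      mp σ (jK.comp (iL a th (QK fun i => BM.res0 (Q i)) w)) (BM.res0 (Q i))) :
    IsTuple a th (QK fun i => BM.res0 (Q i)) ((sc a (steps a ml pl ops)).comp lam1)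
      (fin a (steps a ml pl ops) (bst ω th (iL a th (QK fun i => BM.res0 (Q i)) w) v1
        (wU a th (QK fun i => BM.res0 (Q i)) w) jK tl
        (fun i u => jK (wU a th (QK fun i => BM.res0 (Q i)) w i u)))).W := by
  rw [bst_eq_stY (iL a th (QK fun i => BM.res0 (Q i)) w) _ jK lam1 tl]
  exact tup0 hF hlam1 htl ha hω hth htw hQ ml hml pl hpl hpl' ops hops hops'
    ((isTuple_wU a th (QK fun i => BM.res0 (Q i)) w).map jK)

end Cor

section Pk

variable {F D I σ : Type} [Field F] [DivisionRing D] [Algebra F D] [DecidableEq σ] [Fintype σ]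
  [Fintype I] [LinearOrder I] {a : I → ℕ} {th : I → I → F} {ω : I → F} {T : TwD a th ω}
  {Q : I → MvPolynomial (Option σ) F} {w : I → σ → D}
  (ha : ∀ i, 1 ≤ a i) (hω : ∀ i, IsPrimitiveRoot (ω i) (a i))
  (hth : ∀ i l, ¬ i < l → th i l = 0)
  (ml : I → List (F × (ℕ → Option σ)))
  (hml : ∀ i, Q i = MvPolynomial.rename some (BM.res0 (Q i)) + BM.lsum (a i) (ml i))
  (pl : I → List I) (hpl : ∀ i, (pl i).Nodup) (hpl' : ∀ i l, l ∈ pl i ↔ i < l)
  (ops : List I) (hops : ops.Pairwise (fun x y => y < x)) (hops' : ∀ i, i ∈ ops)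
  (hfix : ∀ i m, (BM.res0 (Q i)).coeff m ∈ T.fixed)
  (P : Pkg T (fun i => BM.res0 (Q i)) w v1 (steps a ml pl ops))

include ha hω hth hml hpl hpl' hops hops' hfix

/-- the local tuple of the package -/
theorem pkg_isLoc (hw : IsTuple a th (fun i => BM.res0 (Q i)) (algebraMap F D) w) :
    IsTuple a th (fun i => BM.res0 (Q i)) ((sc a (steps a ml pl ops)).comp P.lam')
      (fin a (steps a ml pl ops) (bst ω th (algebraMap F D) (fun k u => v1 k (some u)) w P.j P.τ
        (fun i u => P.j (w i u)))).W ∧
    IsLoc w ((sc a (steps a ml pl ops)).comp P.lam')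
      (fin a (steps a ml pl ops) (bst ω th (algebraMap F D) (fun k u => v1 k (some u)) w P.j P.τ
        (fun i u => P.j (w i u)))).W := by
  have h := tuple_loc ha hω hth ml hml pl hpl hpl' ops hops hops' hw P.j P.lam' P.τ P.hF P.hlam
    P.hτ P.htw.th_eq (fun i => P.htw.mp_eq _ (hfix i))
  exact ⟨h, P.loc h⟩


end Pk

end

end Crest.Agent.R181.IN
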