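import Crest.Agent.R181.UR396b

-- ▼ part R181/ST963a
section

/-!
# R181, V-chain, START of the induction (level 0)

`U` with no variables (`σ` empty, `D = F`): `U` is commutative and every regular element of `L`
is regular on `U` (in particular `X` on `T₁^h`, `L = F[X]`), `L → U` is injective.
-/

set_option autoImplicit false
set_option linter.unusedSectionVars false

namespace Crest.Agent.R181.ST

open AddMonoidAlgebra Crest.Agent.R181.UR

noncomputable section

/-! ## the tower of monic extensions -/

section Tower

variable {L I : Type} [CommRing L] [Fintype I] [LinearOrder I]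

/-- universal commutative `L`-algebra with roots of the triangular relations indexed by `S` -/
structure Stage (a : I → ℕ) (c : I → L) (t : I → I → L) (S : Finset I) where
  B : Type
  [ring : CommRing B]
  τ : L →+* B
  e : I → B
  rel : ∀ l ∈ S, e l ^ a l = τ (c l) + ∑ m ∈ S, τ (t l m) * e m ^ a l
  reg : ∀ x : L, x ∈ nonZeroDivisors L → τ x ∈ nonZeroDivisors B
  inj : Function.Injective τ
  univ : ∀ (C : Type) [CommRing C] (ψ : L →+* C) (e' : I → C),
    (∀ l ∈ S, e' l ^ a l = ψ (c l) + ∑ m ∈ S, ψ (t l m) * e' m ^ a l) →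
    ∃ f : B →+* C, (∀ x, f (τ x) = ψ x) ∧ ∀ l ∈ S, f (e l) = e' l

attribute [instance] Stage.ring

theorem of_mem_nonZeroDivisors_adjoinRoot {B : Type} [CommRing B] (f : Polynomial B)
    (hf : f.Monic) (x : B) (hx : x ∈ nonZeroDivisors B) :
    AdjoinRoot.of f x ∈ nonZeroDivisors (AdjoinRoot f) := by
  rw [mem_nonZeroDivisors_iff_right]
  intro y hy
  let b := (AdjoinRoot.powerBasis' hf).basis
  apply b.repr.injective
  rw [map_zero]
  ext i
  have h1 : x • y = 0 := by
    rw [Algebra.smul_def, AdjoinRoot.algebraMap_eq, mul_comm]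
    exact hy
  have h2 := DFunLike.congr_fun (congrArg b.repr h1) i
  rw [map_smul, map_zero, Finsupp.smul_apply, smul_eq_mul] at h2
  have h3 := (mem_nonZeroDivisors_iff_right.1 hx) (b.repr y i) (by rw [mul_comm]; exact h2)
  rw [h3]; rfl

theorem of_injective_adjoinRoot {B : Type} [CommRing B] (f : Polynomial B)
    (hf : f.Monic) (hd : f.natDegree ≠ 0) : Function.Injective (AdjoinRoot.of f) := by
  rw [injective_iff_map_eq_zero]
  intro x hx
  have h1 : (AdjoinRoot.mk f) (Polynomial.C x) = 0 := hx
  rw [AdjoinRoot.mk_eq_zero] at h1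
  by_contra hne
  refine hf.not_dvd_of_natDegree_lt (q := Polynomial.C x) (by simpa using hne) ?_ h1
  rw [Polynomial.natDegree_C]
  omega

theorem exists_stage (a : I → ℕ) (ha : ∀ i, a i ≠ 0) (c : I → L) (t : I → I → L)
    (ht : ∀ i l, ¬ i < l → t i l = 0) (S : Finset I) : Nonempty (Stage a c t S) := by
  classical
  refine Finset.induction_on_min S ?_ ?_
  · exact ⟨{ B := L, τ := RingHom.id L, e := fun _ => 0, rel := by simp, reg := fun x hx => hx,
             inj := Function.injective_id,
             univ := fun C _ ψ e' _ => ⟨ψ, fun _ => rfl, by simp⟩ }⟩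
  · intro i S hi ih
    obtain ⟨st⟩ := ih
    have hiS : i ∉ S := fun h => lt_irrefl _ (hi i h)
    let p : Polynomial st.B := Polynomial.X ^ a i -
      Polynomial.C (st.τ (c i) + ∑ m ∈ S, st.τ (t i m) * st.e m ^ a i)
    have hp : p.Monic := Polynomial.monic_X_pow_sub_C _ (ha i)
    have hdeg : ∀ [Nontrivial st.B], p.natDegree = a i := fun {_} =>
      Polynomial.natDegree_X_pow_sub_C
    let e' : I → AdjoinRoot p := fun l => if l = i then AdjoinRoot.root p else AdjoinRoot.of p (st.e l)
    have he'i : e' i = AdjoinRoot.root p := if_pos rfl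
    have he'S : ∀ l ∈ S, e' l = AdjoinRoot.of p (st.e l) := fun l hl =>
      if_neg fun (h : l = i) => hiS (h ▸ hl)
    have hroot : AdjoinRoot.root p ^ a i =
        AdjoinRoot.of p (st.τ (c i) + ∑ m ∈ S, st.τ (t i m) * st.e m ^ a i) := by
      have h1 : Polynomial.eval₂ (AdjoinRoot.of p) (AdjoinRoot.root p) p = 0 :=
        AdjoinRoot.eval₂_root p
      simp only [p, Polynomial.eval₂_sub, Polynomial.eval₂_pow, Polynomial.eval₂_X,
        Polynomial.eval₂_C] at h1
      exact sub_eq_zero.1 h1
    refine ⟨{ B := AdjoinRoot p, τ := (AdjoinRoot.of p).comp st.τ, e := e', rel := ?_, reg := ?_,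
              inj := ?_, univ := ?_ }⟩
    · intro l hl
      rcases Finset.mem_insert.1 hl with rfl | hl
      · rw [he'i, hroot, Finset.sum_insert hiS, ht l l (lt_irrefl _), map_zero, zero_mul, zero_add,
          map_add, map_sum]
        congr 1
        refine Finset.sum_congr rfl fun m hm => ?_
        rw [he'S m hm, map_mul, map_pow]; rfl
      · rw [he'S l hl, Finset.sum_insert hiS, ht l i (not_lt.2 (hi l hl).le), map_zero, zero_mul,
          zero_add, ← map_pow, st.rel l hl, map_add, map_sum]
        congr 1
        refine Finset.sum_congr rfl fun m hm => ?_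
        rw [he'S m hm, map_mul, map_pow]; rfl
    · intro x hx
      exact of_mem_nonZeroDivisors_adjoinRoot p hp _ (st.reg x hx)
    · rcases subsingleton_or_nontrivial st.B with h | h
      · have : Subsingleton L := st.inj.subsingleton
        exact Function.injective_of_subsingleton _
      · exact (of_injective_adjoinRoot p hp (by rw [hdeg]; exact ha i)).comp st.inj
    · intro C _ ψ e'' hrel
      obtain ⟨f, hf1, hf2⟩ := st.univ C ψ e'' (fun l hl => by
        have := hrel l (Finset.mem_insert_of_mem hl)
        rwa [Finset.sum_insert hiS, ht l i (not_lt.2 (hi l hl).le), map_zero, zero_mul,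
          zero_add] at this)
      have hev : Polynomial.eval₂ f (e'' i) p = 0 := by
        simp only [p, Polynomial.eval₂_sub, Polynomial.eval₂_pow, Polynomial.eval₂_X,
          Polynomial.eval₂_C]
        have := hrel i (Finset.mem_insert_self _ _)
        rw [Finset.sum_insert hiS, ht i i (lt_irrefl _), map_zero, zero_mul, zero_add] at this
        rw [this, map_add, hf1, map_sum, sub_eq_zero]
        congr 1
        refine Finset.sum_congr rfl fun m hm => ?_
        rw [map_mul, map_pow, hf1, hf2 m hm]
      refine ⟨AdjoinRoot.lift f (e'' i) hev, fun x => ?_, fun l hl => ?_⟩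
      · show AdjoinRoot.lift f (e'' i) hev (AdjoinRoot.of p (st.τ x)) = _
        rw [AdjoinRoot.lift_of, hf1]
      · rcases Finset.mem_insert.1 hl with rfl | hl
        · rw [he'i, AdjoinRoot.lift_root]
        · rw [he'S l hl, AdjoinRoot.lift_of, hf2 l hl]

end Tower

end

end Crest.Agent.R181.ST
end

-- ▼ part R181/ST963b

/-!
# R181, V-chain, START of the induction (level 0)

`U = U a th Q w` with `σ` empty and `D = F`: `U` is the commutative ring
`L[η_i] / (η_i ^ a_i - c_i - ∑ l, th i l η_l ^ a_i)`; if `th` is strictly triangular then `L → U` is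
injective and the regular elements of `L` are regular on `U`.
-/

set_option autoImplicit false
set_option linter.unusedSectionVars false

namespace Crest.Agent.R181.ST

open AddMonoidAlgebra Crest.Agent.R181.UR

noncomputable section

section Zero

variable {F D L I σ : Type} [CommRing F] [Ring D] [Algebra F D] [CommRing L] [Algebra F L]
  [Fintype I] [Fintype σ] [IsEmpty σ]
  (a : I → ℕ) (th : I → I → F) (Q : I → MvPolynomial (Option σ) L) (w : I → σ → D)
  (c : I → L)

/-- `Q i` is the monomial `c i * s ^ a i`. -/
def Mono : Prop := ∀ i, Q i = MvPolynomial.monomial (Finsupp.single none (a i)) (c i)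

omit [Fintype σ] in
theorem eq_single_none (α : Option σ →₀ ℕ) : α = Finsupp.single none (α none) := by
  refine Finsupp.ext fun v => ?_
  rcases v with _ | v
  · simp
  · exact isEmptyElim v

omit [Fintype σ] [Fintype I] in
theorem mono_of_isHomogeneous (h : ∀ i, (Q i).IsHomogeneous (a i)) :
    Mono a Q (fun i => (Q i).coeff (Finsupp.single none (a i))) := by
  classical
  intro i
  ext α
  rw [MvPolynomial.coeff_monomial]
  split_ifs with hα
  · rw [← hα]
  · by_contra hne
    have h1 := (h i) hne
    apply hα
    rw [eq_single_none α] at h1 ⊢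
    rw [← h1]
    simp [Finsupp.weight_single]

theorem lf_empty {A : Type*} [Ring A] (u : Option σ → A) :
    lf u = single (Finsupp.single none 1) (u none) := by
  rw [lf, Fintype.sum_option]
  simp

theorem lf_empty_pow {A : Type*} [Ring A] (u : Option σ → A) (n : ℕ) :
    lf u ^ n = single (Finsupp.single none n) (u none ^ n) := by
  rw [lf_empty, AddMonoidAlgebra.single_pow]
  simp

variable {a Q c}

theorem isTuple_empty_iff (hQ : Mono a Q c) {A : Type*} [Ring A] (τ : L →+* A)
    (u : I → Option σ → A) : IsTuple a th Q τ u ↔ (∀ i j, u i none * u j none = u j none * u i none) ∧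
      ∀ i, u i none ^ a i = τ (c i) + ∑ l, τ (algebraMap F L (th i l)) * u l none ^ a i := by
  have e1 : ∀ i, mp (Option σ) τ (Q i) = single (Finsupp.single none (a i)) (τ (c i)) := by
    intro i
    rw [hQ i]
    exact mp_single _ _ _
  have e2 : ∀ i, mp (Option σ) τ (Q i) + ∑ l, cst (Option σ) (τ (algebraMap F L (th i l))) *
      lf (u l) ^ a i = single (Finsupp.single none (a i))
        (τ (c i) + ∑ l, τ (algebraMap F L (th i l)) * u l none ^ a i) := by
    intro i
    rw [e1, single_add]
    congr 1
    rw [← AddMonoidAlgebra.singleAddHom_apply, map_sum]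
    refine Finset.sum_congr rfl fun l _ => ?_
    rw [lf_empty_pow, cst_apply, single_mul_single, zero_add]
    rfl
  constructor
  · intro h
    constructor
    · intro i j
      have := h.comm i j
      rw [lf_empty, lf_empty, single_mul_single, single_mul_single] at this
      exact AddMonoidAlgebra.single_right_injective this
    · intro i
      have := h.rel i
      rw [e2, lf_empty_pow] at this
      exact AddMonoidAlgebra.single_right_injective this
  · rintro ⟨h1, h2⟩
    refine ⟨fun i j => ?_, fun i => ?_⟩
    · rw [lf_empty, lf_empty, single_mul_single, single_mul_single, h1]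
    · rw [e2, lf_empty_pow, h2]

variable (hQ : Mono a Q c)

include hQ in
theorem eta_comm (i j : I) : eta a th Q w i * eta a th Q w j = eta a th Q w j * eta a th Q w i :=
  ((isTuple_empty_iff th hQ _ _).1 (isTuple_wU a th Q w)).1 i j

include hQ in
theorem eta_rel (i : I) : eta a th Q w i ^ a i = iL a th Q w (c i) +
    ∑ l, iL a th Q w (algebraMap F L (th i l)) * eta a th Q w l ^ a i :=
  ((isTuple_empty_iff th hQ _ _).1 (isTuple_wU a th Q w)).2 i

variable (hF : Function.Surjective (algebraMap F D))

include hF in
theorem iD_comm (d : D) (z : U a th Q w) : Commute (iD a th Q w d) z := by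
  obtain ⟨d, rfl⟩ := hF d
  rw [iD_base]
  exact iL_comm a th Q w _ _

include hQ hF in
theorem U_comm (x y : U a th Q w) : x * y = y * x := by
  change Commute x y
  refine generation a th Q w (fun x => Commute x y) ?_ ?_ ?_ ?_ ?_ x
  · intro d; exact iD_comm th w hF d y
  · intro z; exact iL_comm a th Q w z y
  · intro i
    refine generation a th Q w (fun y => Commute (eta a th Q w i) y) ?_ ?_ ?_ ?_ ?_ y
    · intro d; exact (iD_comm th w hF d _).symm
    · intro z; exact (iL_comm a th Q w z _).symm
    · intro j; exact eta_comm th w hQ i j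
    · intro y z hy hz; exact hy.add_right hz
    · intro y z hy hz; exact hy.mul_right hz
  · intro y z hy hz; exact hy.add_left hz
  · intro y z hy hz; exact hy.mul_left hz

/-- `U` is commutative. -/
@[reducible] def commRingU : CommRing (U a th Q w) :=
  { (inferInstance : Ring (U a th Q w)) with mul_comm := U_comm th w hQ hF }

/-- Homs out of `U`. -/
theorem exists_lift_zero (hF' : Function.Bijective (algebraMap F D)) {A : Type*} [CommRing A]
    (hQ : Mono a Q c) (τ : L →+* A) (e : I → A)
    (he : ∀ i, e i ^ a i = τ (c i) + ∑ l, τ (algebraMap F L (th i l)) * e l ^ a i) :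
    ∃ f : U a th Q w →+* A, (∀ x, f (iL a th Q w x) = τ x) ∧ ∀ i, f (eta a th Q w i) = e i := by
  let eF : F ≃+* D := RingEquiv.ofBijective (algebraMap F D) hF'
  let ρ : D →+* A := (τ.comp (algebraMap F L)).comp (eF.symm : D →+* F)
  have hρ : ∀ x : F, ρ (algebraMap F D x) = τ (algebraMap F L x) := by
    intro x
    have : eF.symm (algebraMap F D x) = x := eF.symm_apply_apply x
    show τ (algebraMap F L (eF.symm (algebraMap F D x))) = _
    rw [this]
  obtain ⟨f, -, h2, h3⟩ := exists_lift (a := a) (th := th) (Q := Q) (w := w) ρ τ e hρ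
    (fun _ _ => Commute.all _ _) (fun _ _ => Commute.all _ _)
    ((isTuple_empty_iff th hQ τ _).2 ⟨fun i j => mul_comm _ _, he⟩)
  exact ⟨f, h2, h3⟩

theorem hom_ext_zero (hF : Function.Surjective (algebraMap F D)) {A : Type*} [Ring A]
    {f g : U a th Q w →+* A} (hL : ∀ x, f (iL a th Q w x) = g (iL a th Q w x))
    (hI : ∀ i, f (eta a th Q w i) = g (eta a th Q w i)) : f = g := by
  refine hom_ext' a th Q w (fun d => ?_) hL hI
  obtain ⟨d, rfl⟩ := hF d
  rw [iD_base, hL]

/-- The commutative ring `L[η_i] / (η_i ^ a_i - c_i - ∑ l, th i l η_l ^ a_i)`. -/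
abbrev relIdeal (a : I → ℕ) (th : I → I → F) (c : I → L) : Ideal (MvPolynomial I L) :=
  Ideal.span (Set.range fun i => MvPolynomial.X i ^ a i - (MvPolynomial.C (c i) +
    ∑ l, MvPolynomial.C (algebraMap F L (th i l)) * MvPolynomial.X l ^ a i))

/-- `U` is the commutative ring `L[η_i] / (η_i ^ a_i - c_i - ∑ l, th i l η_l ^ a_i)`. -/
theorem exists_equiv_quot (hF' : Function.Bijective (algebraMap F D)) (hQ : Mono a Q c) :
    ∃ f : U a th Q w ≃+* (MvPolynomial I L ⧸ relIdeal a th c),
      (∀ x, f (iL a th Q w x) = Ideal.Quotient.mk _ (MvPolynomial.C x)) ∧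
      (∀ i, f (eta a th Q w i) = Ideal.Quotient.mk _ (MvPolynomial.X i)) ∧
      ∀ d : F, f (iD a th Q w (algebraMap F D d)) =
        Ideal.Quotient.mk _ (MvPolynomial.C (algebraMap F L d)) := by
  let _ : CommRing (U a th Q w) := commRingU th w hQ hF'.surjective
  obtain ⟨f, hf1, hf2⟩ := exists_lift_zero th w hF' hQ
    ((Ideal.Quotient.mk (relIdeal a th c)).comp MvPolynomial.C)
    (fun i => Ideal.Quotient.mk (relIdeal a th c) (MvPolynomial.X i)) (by
      intro i
      rw [← sub_eq_zero]
      have h1 : (MvPolynomial.X i ^ a i - (MvPolynomial.C (c i) +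
          ∑ l, MvPolynomial.C (algebraMap F L (th i l)) * MvPolynomial.X l ^ a i)) ∈
          relIdeal a th c := Ideal.subset_span ⟨i, rfl⟩
      rw [← Ideal.Quotient.eq_zero_iff_mem] at h1
      simp only [map_sub, map_add, map_sum, map_mul, map_pow] at h1
      exact h1)
  let g0 : MvPolynomial I L →+* U a th Q w :=
    MvPolynomial.eval₂Hom (iL a th Q w) (eta a th Q w)
  have hg0 : ∀ y ∈ relIdeal a th c, g0 y = 0 := by
    intro y hy
    have : relIdeal a th c ≤ RingHom.ker g0 := by
      rw [Ideal.span_le]
      rintro _ ⟨i, rfl⟩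
      rw [SetLike.mem_coe, RingHom.mem_ker, map_sub, sub_eq_zero]
      have := eta_rel th w hQ i
      simp only [g0, map_pow, map_add, map_sum, map_mul, MvPolynomial.eval₂Hom_C,
        MvPolynomial.eval₂Hom_X']
      exact this
    exact this hy
  let g : (MvPolynomial I L ⧸ relIdeal a th c) →+* U a th Q w := Ideal.Quotient.lift _ g0 hg0
  have hg1 : ∀ x, g (Ideal.Quotient.mk _ (MvPolynomial.C x)) = iL a th Q w x := by
    intro x; simp [g, g0]
  have hg2 : ∀ i, g (Ideal.Quotient.mk _ (MvPolynomial.X i)) = eta a th Q w i := by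
    intro i; simp [g, g0]
  refine ⟨RingEquiv.ofRingHom f g ?_ ?_, hf1, hf2, fun d => ?_⟩
  · apply Ideal.Quotient.ringHom_ext
    apply MvPolynomial.ringHom_ext
    · intro x
      show f (g (Ideal.Quotient.mk _ (MvPolynomial.C x))) = _
      rw [hg1, hf1]; rfl
    · intro i
      show f (g (Ideal.Quotient.mk _ (MvPolynomial.X i))) = _
      rw [hg2, hf2]; rfl
  · refine hom_ext_zero th w hF'.surjective (fun x => ?_) (fun i => ?_)
    · show g (f (iL a th Q w x)) = _
      rw [hf1]; exact hg1 x
    · show g (f (eta a th Q w i)) = _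
      rw [hf2]; exact hg2 i
  · show f (iD a th Q w (algebraMap F D d)) = _
    rw [iD_base, hf1]; rfl

section Tri

variable [LinearOrder I] (ha : ∀ i, a i ≠ 0) (ht : ∀ i l, ¬ i < l → th i l = 0)
  (hF' : Function.Bijective (algebraMap F D))

include hQ ha ht hF' in
theorem exists_embed : ∃ (B : Type) (_ : CommRing B) (f : U a th Q w →+* B),
    Function.Injective f ∧ (Function.Injective fun x => f (iL a th Q w x)) ∧
      ∀ x ∈ nonZeroDivisors L, f (iL a th Q w x) ∈ nonZeroDivisors B := by
  obtain ⟨st⟩ := exists_stage a ha c (fun i l => algebraMap F L (th i l))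
    (fun i l h => by rw [ht i l h, map_zero]) Finset.univ
  obtain ⟨f, hf1, hf2⟩ := exists_lift_zero th w hF' hQ st.τ st.e
    (fun i => st.rel i (Finset.mem_univ i))
  let _ : CommRing (U a th Q w) := commRingU th w hQ hF'.surjective
  obtain ⟨g, hg1, hg2⟩ := st.univ (U a th Q w) (iL a th Q w) (eta a th Q w)
    (fun l _ => eta_rel th w hQ l)
  have hgf : g.comp f = RingHom.id _ := by
    refine hom_ext_zero th w hF'.surjective (fun x => ?_) (fun i => ?_)
    · show g (f (iL a th Q w x)) = _
      rw [hf1, hg1]; rfl
    · show g (f (eta a th Q w i)) = _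
      rw [hf2, hg2 i (Finset.mem_univ i)]; rfl
  have hinj : Function.Injective f := by
    have : Function.LeftInverse g f := fun x => RingHom.congr_fun hgf x
    exact this.injective
  refine ⟨st.B, inferInstance, f, hinj, fun x y hxy => ?_, fun x hx => ?_⟩
  · have h1 : f (iL a th Q w x) = f (iL a th Q w y) := hxy
    rw [hf1, hf1] at h1
    exact st.inj h1
  · rw [hf1]; exact st.reg x hx



include hQ ha ht hF' in
/-- Regular elements of `L` are regular on `U`. -/
theorem iL_regular (x : L) (hx : x ∈ nonZeroDivisors L) (y : U a th Q w)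
    (h : iL a th Q w x * y = 0) : y = 0 := by
  obtain ⟨B, _, f, hf, -, h3⟩ := exists_embed th w hQ ha ht hF'
  apply hf
  rw [map_zero]
  have h4 := h3 x hx
  rw [mem_nonZeroDivisors_iff_right] at h4
  apply h4
  rw [mul_comm, ← map_mul, h, map_zero]


end Tri

end Zero

end

end Crest.Agent.R181.ST
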