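import Crest.Agent.R181.MK8

-- ▼ part R181/MK9
section

/-! Modules over the skew field of the inner rank. -/

set_option autoImplicit false
set_option linter.unusedSectionVars false
open Matrix

namespace Crest.Agent.R181.MK

universe u v w

section general
variable {T : Type} [Ring T] {M : Type u} [AddCommGroup M]

/-- the action of a matrix on columns, for an additive representation -/
def actE (ψ : T →+* AddMonoid.End M) {p κ : Type} [Fintype κ] (A : Matrix p κ T) :
    (κ → M) →+ (p → M) where
  toFun x i := ∑ j, ψ (A i j) (x j)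
  map_zero' := by ext l; simp
  map_add' u v := by ext l; simp [Finset.sum_add_distrib]

theorem actE_apply (ψ : T →+* AddMonoid.End M) {p κ : Type} [Fintype κ] (A : Matrix p κ T)
    (x : κ → M) (i : p) : actE ψ A x i = ∑ j, ψ (A i j) (x j) := rfl

theorem end_sum_apply' {α : Type} (s : Finset α) (f : α → AddMonoid.End M) (g : M) :
    (∑ a ∈ s, f a) g = ∑ a ∈ s, f a g := by
  exact AddMonoidHom.finsetSum_apply f s g

theorem isUnit_map_iff_bijective (ψ : T →+* AddMonoid.End M) {κ : Type} [Fintype κ] [DecidableEq κ]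
    (A : Matrix κ κ T) : IsUnit (A.map ψ) ↔ Function.Bijective (actE ψ A) := by
  constructor
  · rintro ⟨u, hu⟩
    rw [Function.bijective_iff_has_inverse]
    refine ⟨fun x i => ∑ j, (u⁻¹).val i j (x j), fun x => ?_, fun x => ?_⟩
    · funext i
      have h1 : ∑ j, (u⁻¹).val i j (actE ψ A x j) = ∑ k, ((u⁻¹).val * u.val) i k (x k) := by
        simp only [Matrix.mul_apply, end_sum_apply', actE_apply, map_sum]
        rw [Finset.sum_comm]
        refine Finset.sum_congr rfl fun k _ => Finset.sum_congr rfl fun j _ => ?_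
        rw [hu]; rfl
      change ∑ j, (u⁻¹).val i j (actE ψ A x j) = x i
      rw [h1, Units.inv_mul, Finset.sum_eq_single i]
      · rw [Matrix.one_apply_eq]; rfl
      · intro k _ hk; rw [Matrix.one_apply_ne (Ne.symm hk)]; rfl
      · simp
    · funext i
      have h1 : ∑ j, ψ (A i j) (∑ k, (u⁻¹).val j k (x k)) = ∑ k, (u.val * (u⁻¹).val) i k (x k) := by
        simp only [Matrix.mul_apply, end_sum_apply', map_sum]
        rw [Finset.sum_comm]
        refine Finset.sum_congr rfl fun k _ => Finset.sum_congr rfl fun j _ => ?_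
        rw [hu]; rfl
      rw [actE_apply, h1, Units.mul_inv, Finset.sum_eq_single i]
      · rw [Matrix.one_apply_eq]; rfl
      · intro k _ hk; rw [Matrix.one_apply_ne (Ne.symm hk)]; rfl
      · simp
  · intro hb
    let e : (κ → M) ≃+ (κ → M) := AddEquiv.ofBijective (actE ψ A) hb
    have he : ∀ x, e x = actE ψ A x := fun x => rfl
    let V : Matrix κ κ (AddMonoid.End M) := fun i j =>
      ((Pi.evalAddMonoidHom (fun _ => M) i).comp
        (e.symm.toAddMonoidHom.comp (AddMonoidHom.single (fun _ => M) j)) : M →+ M)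
    refine ⟨⟨A.map ψ, V, ?_, ?_⟩, rfl⟩
    · ext i j g
      rw [Matrix.mul_apply, end_sum_apply']
      have h1 : ∀ k, ((A.map ψ) i k * V k j) g = ψ (A i k) (e.symm (Pi.single j g) k) :=
        fun k => rfl
      rw [Finset.sum_congr rfl fun k _ => h1 k, ← actE_apply, ← he, AddEquiv.apply_symm_apply]
      by_cases h : i = j
      · subst h; simp
      · rw [Pi.single_eq_of_ne h, Matrix.one_apply_ne h]; rfl
    · ext i j g
      rw [Matrix.mul_apply, end_sum_apply']
      have h1 : ∀ k, (V i k * (A.map ψ) k j) g = e.symm (Pi.single k (ψ (A k j) g)) i :=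
        fun k => rfl
      have h2 : ∑ k, e.symm (Pi.single k (ψ (A k j) g)) i
          = e.symm (∑ k, Pi.single k (ψ (A k j) g)) i := by
        rw [map_sum, Finset.sum_apply]
      have h3 : ∑ k, Pi.single k (ψ (A k j) g) = e (Pi.single j g) := by
        rw [he]
        ext l
        rw [actE_apply, Finset.sum_apply, Finset.sum_eq_single l, Finset.sum_eq_single j]
        · simp
        · intro k _ hk; rw [Pi.single_eq_of_ne hk, map_zero]
        · simp
        · intro k _ hk; rw [Pi.single_eq_of_ne (Ne.symm hk)]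
        · simp
      rw [Finset.sum_congr rfl fun k _ => h1 k, h2, h3, AddEquiv.symm_apply_apply]
      by_cases h : i = j
      · subst h; simp
      · rw [Pi.single_eq_of_ne h, Matrix.one_apply_ne h]; rfl

/-- criterion for inverting the full matrices in an additive representation -/
theorem inv_iff {ρ : SylRank T} (ψ : T →+* AddMonoid.End M) :
    SylRank.Inv ρ ψ ↔ ∀ (n : ℕ) (A : Matrix (Fin n) (Fin n) T), ρ.rk A = n →
      Function.Bijective (actE ψ A) :=
  forall_congr' fun _ => forall_congr' fun A => imp_congr_right fun _ =>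
    isUnit_map_iff_bijective ψ A

end general

namespace SylRank

variable {T : Type} [Ring T] (ρ : SylRank T)

/-- the additive representation of `T` on a `D`-module -/
noncomputable def rep (N : Type u) [AddCommGroup N] [Module ρ.DS N] : T →+* AddMonoid.End N :=
  (Module.toAddMonoidEnd ρ.DS N).comp ρ.phi

theorem rep_apply {N : Type u} [AddCommGroup N] [Module ρ.DS N] (t : T) (x : N) :
    ρ.rep N t x = ρ.phi t • x := rfl

theorem rep_inv (N : Type u) [AddCommGroup N] [Module ρ.DS N] : Inv ρ (ρ.rep N) := by
  intro n A hA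
  obtain ⟨u, hu⟩ := ρ.phi_inv n A hA
  have h1 := u.mul_inv
  have h2 := u.inv_mul
  rw [hu] at h1 h2
  refine ⟨⟨A.map (ρ.rep N), (u⁻¹).val.map (Module.toAddMonoidEnd ρ.DS N), ?_, ?_⟩, rfl⟩
  · have : A.map (ρ.rep N) = (A.map ρ.phi).map (Module.toAddMonoidEnd ρ.DS N) := rfl
    rw [this, ← Matrix.map_mul, h1, Matrix.map_one _ (map_zero _) (map_one _)]
  · have : A.map (ρ.rep N) = (A.map ρ.phi).map (Module.toAddMonoidEnd ρ.DS N) := rfl
    rw [this, ← Matrix.map_mul, h2, Matrix.map_one _ (map_zero _) (map_one _)]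

/-- additive maps between `D`-modules commuting with `T` are `D`-linear -/
theorem smul_of_rep {N : Type u} {N' : Type v} [AddCommGroup N] [Module ρ.DS N] [AddCommGroup N']
    [Module ρ.DS N'] (p : N →+ N') (h : ∀ t x, p (ρ.phi t • x) = ρ.phi t • p x) (d : ρ.DS) (x : N) :
    p (d • x) = d • p x := by
  classical
  obtain ⟨n, A, c, b, v, hA, hv, hd⟩ := ρ.exists_repr d
  have hinj := ((inv_iff (ρ.rep N')).1 (ρ.rep_inv N') n A hA).1
  have hd' : d = ∑ j, ρ.phi (c () j) * v j () := congrFun (congrFun hd ()) ()
  have hv' : ∀ i, ∑ j, ρ.phi (A i j) * v j () = ρ.phi (b i ()) := fun i => congrFun (congrFun hv i) ()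
  have hy : (fun j => p (v j () • x)) = fun j => v j () • p x := by
    apply hinj
    funext i
    simp only [actE_apply, rep_apply]
    have e1 : ∑ j, ρ.phi (A i j) • p (v j () • x) = p ((∑ j, ρ.phi (A i j) * v j ()) • x) := by
      rw [Finset.sum_smul, map_sum]
      refine Finset.sum_congr rfl fun j _ => ?_
      rw [mul_smul, h]
    have e2 : ∑ j, ρ.phi (A i j) • (v j () • p x) = (∑ j, ρ.phi (A i j) * v j ()) • p x := by
      rw [Finset.sum_smul]
      refine Finset.sum_congr rfl fun j _ => ?_
      rw [mul_smul]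
    rw [e1, e2, hv', h]
  rw [hd', Finset.sum_smul, Finset.sum_smul, map_sum]
  refine Finset.sum_congr rfl fun j _ => ?_
  rw [mul_smul, h, mul_smul]
  rw [show p (v j () • x) = v j () • p x from congrFun hy j]

/-- a `T`-linear map between `D`-modules as a `D`-linear map -/
noncomputable def toLin {N : Type u} {N' : Type v} [AddCommGroup N] [Module ρ.DS N] [AddCommGroup N']
    [Module ρ.DS N'] (p : N →+ N') (h : ∀ t x, p (ρ.phi t • x) = ρ.phi t • p x) :
    N →ₗ[ρ.DS] N' :=
  { p with map_smul' := fun d x => ρ.smul_of_rep p h d x }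

end SylRank

namespace ProjRank

variable {T : Type} [Ring T] (σ : ProjRank T) (hT : SH T)

local notation "ρT" => σ.toSyl hT

/-- the `D`-module structure on a representation of `T` inverting all full matrices -/
@[reducible] noncomputable def modD {M : Type u} [AddCommGroup M] (ψ : T →+* AddMonoid.End M)
    (hψ : SylRank.Inv (σ.toSyl hT) ψ) : Module (σ.toSyl hT).DS M :=
  Module.compHom M (σ.liftD hT ψ hψ)

theorem modD_smul {M : Type u} [AddCommGroup M] (ψ : T →+* AddMonoid.End M)
    (hψ : SylRank.Inv (σ.toSyl hT) ψ) (t : T) (x : M) :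
    letI := σ.modD hT ψ hψ
    (σ.toSyl hT).phi t • x = ψ t x := by
  change (σ.liftD hT ψ hψ ((σ.toSyl hT).phi t)) x = ψ t x
  rw [liftD_phi]

/-- surjections onto a `D`-module split -/
theorem exists_section {M : Type u} [AddCommGroup M] (ψ : T →+* AddMonoid.End M)
    (hψ : SylRank.Inv (σ.toSyl hT) ψ) {N : Type v} [AddCommGroup N] [Module (σ.toSyl hT).DS N]
    (p : M →+ N) (hp : ∀ t x, p (ψ t x) = (σ.toSyl hT).phi t • p x) (hs : Function.Surjective p) :
    ∃ s : N →+ M, (∀ x, p (s x) = x) ∧ ∀ t x, s ((σ.toSyl hT).phi t • x) = ψ t (s x) := by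
  let _ := σ.modD hT ψ hψ
  let P : M →ₗ[(σ.toSyl hT).DS] N := (σ.toSyl hT).toLin p (fun t x => by
    rw [σ.modD_smul hT ψ hψ, hp])
  obtain ⟨s, hs⟩ := P.exists_rightInverse_of_surjective (LinearMap.range_eq_top.2 hs)
  refine ⟨s.toAddMonoidHom, fun x => LinearMap.congr_fun hs x, fun t x => ?_⟩
  have h := s.map_smul ((σ.toSyl hT).phi t) x
  rw [σ.modD_smul hT ψ hψ] at h
  exact h

/-- closure under extensions: `T`-extensions of `D`-modules invert all full matrices -/
theorem inv_of_exact {ρ : SylRank T} {N' : Type u} {M : Type v} {N : Type w} [AddCommGroup N']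
    [AddCommGroup M] [AddCommGroup N] (ψ' : T →+* AddMonoid.End N') (ψ : T →+* AddMonoid.End M)
    (ψ'' : T →+* AddMonoid.End N) (i : N' →+ M) (p : M →+ N) (hi : Function.Injective i)
    (hp : Function.Surjective p) (hip : ∀ x, p x = 0 ↔ ∃ y, i y = x)
    (hi' : ∀ t x, i (ψ' t x) = ψ t (i x)) (hp' : ∀ t x, p (ψ t x) = ψ'' t (p x))
    (h' : SylRank.Inv ρ ψ') (h'' : SylRank.Inv ρ ψ'') : SylRank.Inv ρ ψ := by
  rw [inv_iff] at h' h'' ⊢
  intro n A hA
  obtain ⟨inj', surj'⟩ := h' n A hA
  obtain ⟨inj'', surj''⟩ := h'' n A hA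
  have hpa : ∀ x : Fin n → M, (fun k => p (actE ψ A x k)) = actE ψ'' A (fun k => p (x k)) := by
    intro x
    funext k
    rw [actE_apply, actE_apply, map_sum]
    exact Finset.sum_congr rfl fun j _ => hp' _ _
  have hia : ∀ x : Fin n → N', (fun k => i (actE ψ' A x k)) = actE ψ A (fun k => i (x k)) := by
    intro x
    funext k
    rw [actE_apply, actE_apply, map_sum]
    exact Finset.sum_congr rfl fun j _ => hi' _ _
  constructor
  · rw [injective_iff_map_eq_zero]
    intro x hx
    have h1 : (fun k => p (x k)) = 0 := by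
      apply inj''
      rw [← hpa, hx, map_zero]
      funext k; simp
    have h2 : ∀ k, ∃ y, i y = x k := fun k => (hip _).1 (congrFun h1 k)
    choose y hy using h2
    have h3 : x = fun k => i (y k) := funext fun k => (hy k).symm
    have h4 : y = 0 := by
      apply inj'
      rw [map_zero]
      funext k
      apply hi
      have := congrFun (hia y) k
      rw [this, ← h3, hx]; simp
    rw [h3, h4]; funext k; simp
  · intro z
    obtain ⟨x, hx⟩ := surj'' (fun k => p (z k))
    choose x' hx' using fun k => hp (x k)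
    have h1 : ∀ k, p (z k - actE ψ A x' k) = 0 := by
      intro k
      have := congrFun (hpa x') k
      rw [map_sub, this]
      have e : (fun k => p (x' k)) = x := funext hx'
      rw [e, hx, sub_self]
    choose y hy using fun k => (hip _).1 (h1 k)
    obtain ⟨y', hy'⟩ := surj' y
    refine ⟨x' + fun k => i (y' k), ?_⟩
    rw [map_add, ← hia, hy']
    funext k
    rw [Pi.add_apply, hy]
    abel

/-- **derivations into `D`-modules are inner** -/
theorem derivation_inner {N : Type u} {N' : Type v} [AddCommGroup N] [Module (σ.toSyl hT).DS N]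
    [AddCommGroup N'] [Module (σ.toSyl hT).DS N'] (δ : T →+ (N →+ N'))
    (hδ : ∀ s t x, δ (s * t) x
      = (σ.toSyl hT).phi s • δ t x + δ s ((σ.toSyl hT).phi t • x)) :
    ∃ η : N →+ N', ∀ t x, δ t x = η ((σ.toSyl hT).phi t • x) - (σ.toSyl hT).phi t • η x := by
  have hδ1 : ∀ x, δ 1 x = 0 := by
    intro x
    have h := hδ 1 1 x
    rw [map_one, one_smul, one_smul, mul_one] at h
    exact left_eq_add.1 h
  let ψ : T →+* AddMonoid.End (N' × N) :=
    { toFun := fun t =>
        { toFun := fun x => ((ρT).phi t • x.1 + δ t x.2, (ρT).phi t • x.2)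
          map_zero' := by simp
          map_add' := fun x y => by
            ext
            · simp only [Prod.fst_add, Prod.snd_add, smul_add, map_add]; abel
            · simp }
      map_one' := by
        refine AddMonoidHom.ext fun x => ?_
        refine Prod.ext ?_ ?_
        · change (ρT).phi 1 • x.1 + δ 1 x.2 = x.1
          rw [map_one, one_smul, hδ1, add_zero]
        · change (ρT).phi 1 • x.2 = x.2
          rw [map_one, one_smul]
      map_mul' := fun s t => by
        refine AddMonoidHom.ext fun x => ?_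
        refine Prod.ext ?_ ?_
        · change (ρT).phi (s * t) • x.1 + δ (s * t) x.2
            = (ρT).phi s • ((ρT).phi t • x.1 + δ t x.2) + δ s ((ρT).phi t • x.2)
          rw [hδ, map_mul, mul_smul, smul_add]; abel
        · change (ρT).phi (s * t) • x.2 = (ρT).phi s • (ρT).phi t • x.2
          rw [map_mul, mul_smul]
      map_zero' := by
        refine AddMonoidHom.ext fun x => ?_
        refine Prod.ext ?_ ?_
        · change (ρT).phi 0 • x.1 + δ 0 x.2 = 0
          rw [map_zero, map_zero]; simp
        · change (ρT).phi 0 • x.2 = 0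
          rw [map_zero, zero_smul]
      map_add' := fun s t => by
        refine AddMonoidHom.ext fun x => ?_
        refine Prod.ext ?_ ?_
        · change (ρT).phi (s + t) • x.1 + δ (s + t) x.2
            = ((ρT).phi s • x.1 + δ s x.2) + ((ρT).phi t • x.1 + δ t x.2)
          rw [map_add, map_add, add_smul, AddMonoidHom.add_apply]; abel
        · change (ρT).phi (s + t) • x.2 = (ρT).phi s • x.2 + (ρT).phi t • x.2
          rw [map_add, add_smul] }
  have hψ1 : ∀ t x, ψ t x = ((ρT).phi t • x.1 + δ t x.2, (ρT).phi t • x.2) := fun t x => rfl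
  have hψ : SylRank.Inv (ρT) ψ := by
    apply inv_of_exact ((ρT).rep N') ψ ((ρT).rep N) (AddMonoidHom.inl N' N) (AddMonoidHom.snd N' N)
      (fun x y h => congrArg Prod.fst h) (fun x => ⟨(0, x), rfl⟩)
    · intro x
      constructor
      · intro h
        exact ⟨x.1, Prod.ext rfl (by simpa using h.symm)⟩
      · rintro ⟨y, rfl⟩; rfl
    · intro t x
      rw [hψ1]
      simp [SylRank.rep_apply]
    · intro t x
      rw [hψ1]
      simp [SylRank.rep_apply]
    · exact (ρT).rep_inv N'
    · exact (ρT).rep_inv N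
  obtain ⟨s, hs1, hs2⟩ := σ.exists_section hT ψ hψ (AddMonoidHom.snd N' N)
    (fun t x => by rw [hψ1]; rfl) (fun x => ⟨(0, x), rfl⟩)
  refine ⟨(AddMonoidHom.fst N' N).comp s, fun t x => ?_⟩
  have h1 := hs2 t x
  rw [hψ1] at h1
  have h2 : (s x).2 = x := hs1 x
  rw [h2] at h1
  have h3 := congrArg Prod.fst h1
  simp only [] at h3
  change δ t x = (s ((ρT).phi t • x)).1 - (ρT).phi t • (s x).1
  rw [h3]; abel

end ProjRank

end Crest.Agent.R181.MK
end

-- ▼ part R181/MK10

/-! Central scalars, functoriality. -/

set_option autoImplicit false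
set_option linter.unusedSectionVars false
open Matrix

namespace Crest.Agent.R181.MK

universe u v w

namespace SylRank

variable {T : Type} [Ring T] (ρ : SylRank T)

/-- elements of `D` commuting with the image of `T` are central -/
theorem central_of_commute (z : ρ.DS) (h : ∀ t, z * ρ.phi t = ρ.phi t * z) (d : ρ.DS) :
    z * d = d * z := by
  have h1 := ρ.smul_of_rep (N := ρ.DS) (N' := ρ.DS) (AddMonoidHom.mulLeft z) (fun t x => by
    change z * (ρ.phi t * x) = ρ.phi t * (z * x)
    rw [← mul_assoc, h, mul_assoc]) d 1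
  change z * (d * 1) = d * (z * 1) at h1
  rwa [mul_one, mul_one] at h1

theorem phi_central {z : T} (h : ∀ t, z * t = t * z) (d : ρ.DS) : ρ.phi z * d = d * ρ.phi z :=
  ρ.central_of_commute _ (fun t => by rw [← map_mul, h, map_mul]) d

/-- the structure of an algebra over central scalars -/
@[reducible] noncomputable def algDS (F : Type u) [CommRing F] [Algebra F T] : Algebra F ρ.DS :=
  RingHom.toAlgebra' (ρ.phi.comp (algebraMap F T)) (fun c x =>
    ρ.phi_central (fun t => Algebra.commutes c t) x)


end SylRank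

namespace ProjRank

variable {T : Type} [Ring T] (σ : ProjRank T) (hT : SH T)



end ProjRank

/-- a projective rank from a Sylvester type rank with values in `ℚ` that is integral on idempotents -/
noncomputable def ProjRank.ofFun {T : Type} [Ring T] (r : ∀ {n : Type}, Matrix n n T → ℚ)
    (hint : ∀ {n : Type} [Fintype n] (e : Matrix n n T), e * e = e → ∃ k : ℕ, r e = k)
    (hone : r (1 : Matrix (Fin 1) (Fin 1) T) = 1)
    (hcomm : ∀ {m n : Type} [Fintype m] [Fintype n] (X : Matrix m n T) (Y : Matrix n m T),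
      (X * Y) * (X * Y) = X * Y → (Y * X) * (Y * X) = Y * X → r (X * Y) = r (Y * X))
    (hdiag : ∀ {m n : Type} [Fintype m] [Fintype n] (e : Matrix m m T) (f : Matrix n n T),
      e * e = e → f * f = f → r (fromBlocks e 0 0 f) = r e + r f) : ProjRank T where
  rk e := ⌊r e⌋₊
  rk_one := by rw [hone]; simp
  rk_comm X Y h1 h2 := by rw [hcomm X Y h1 h2]
  rk_diag e f he hf := by
    obtain ⟨a, ha⟩ := hint e he
    obtain ⟨b, hb⟩ := hint f hf
    rw [hdiag e f he hf, ha, hb]
    norm_cast

end Crest.Agent.R181.MK
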