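import Crest.Agent.R181.MKS659a
import Crest.Agent.R181.TW825a

/-!
# From a weakly finite hereditary ring with stably free projectives to its skew field

`T` nontrivial, stably finite, left hereditary, all f.g. projective left modules stably free.
Then there is a universal localisation `T → D`, injective, `D` a skew field; the inverted matrices
are intrinsic, so `D` is unique and ring isomorphisms extend.
-/

set_option autoImplicit false
set_option linter.unusedSectionVars false

open Matrix

namespace Crest.Agent.R181.MKS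

open Crest.Agent.R181.FR Crest.Agent.R181.MK Crest.Agent.R181.TW

universe u v

section

variable {T : Type} [Ring T] {E : Type} [DivisionRing E]


theorem rkE_of_isUnit {n : ℕ} (M : Matrix (Fin n) (Fin n) E) (h : IsUnit M) : n ≤ rkE M := by
  obtain ⟨u, rfl⟩ := h
  have h1 := rkE_mul_left u.val u⁻¹.val
  rw [Units.mul_inv, rkE_one, Fintype.card_fin] at h1
  exact h1

/-- a matrix over a division ring which becomes invertible in a nonzero ring is invertible -/
theorem isUnit_of_map {n : ℕ} {S : Type*} [Ring S] [Nontrivial S] (f : E →+* S)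
    (M : Matrix (Fin n) (Fin n) E) (h : IsUnit (M.map f)) : IsUnit M := by
  classical
  have hinj : Function.Injective (vecMulLinear M) := by
    rw [injective_iff_map_eq_zero]
    intro w hw
    have hw' : w ᵥ* M = 0 := hw
    obtain ⟨u, hu⟩ := h
    have h1 : (fun i => f (w i)) ᵥ* M.map f = 0 := by
      funext j
      have := congrArg f (congrFun hw' j)
      simpa [Matrix.vecMul, dotProduct] using this
    rw [← hu] at h1
    have h2 : (fun i => f (w i)) = 0 := by
      have h3 : (fun i => f (w i)) = ((fun i => f (w i)) ᵥ* u.val) ᵥ* (u⁻¹).val := by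
        rw [Matrix.vecMul_vecMul, Units.mul_inv, Matrix.vecMul_one]
      rw [h1, Matrix.zero_vecMul] at h3
      exact h3
    funext i
    exact f.injective (by rw [Pi.zero_apply, map_zero]; exact congrFun h2 i)
  have hsurj : Function.Surjective (vecMulLinear M) := LinearMap.injective_iff_surjective.1 hinj
  choose B hB using fun i : Fin n => hsurj (Pi.single i 1)
  have hBM : (Matrix.of B) * M = 1 := by
    funext i
    have := hB i
    have h1 : ((Matrix.of B) * M) i = B i ᵥ* M := rfl
    rw [h1]
    change vecMulLinear M (B i) = _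
    rw [this]
    funext j
    rw [Matrix.one_apply, Pi.single_apply]
    congr 1
    exact propext eq_comm
  have hMB : M * (Matrix.of B) = 1 := by
    rw [mul_eq_one_comm]; exact hBM
  exact ⟨⟨M, Matrix.of B, hMB, hBM⟩, rfl⟩

end

variable {T : Type} [Ring T] [Nontrivial T] [IsStablyFiniteRing T]

/-- the intrinsic Sylvester rank function -/
noncomputable def syl (hH : Hered T) (hs : AllStFree T) : SylRank T :=
  (projRank hs).toSyl (SH.of_projective fun k N _ => hH k N)

section

variable (hH : Hered T) (hs : AllStFree T) {E : Type} [DivisionRing E]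

/-- over every skew field idempotents have their intrinsic rank -/
theorem rkE_map_idem (φ : T →+* E) {m : Type} [Fintype m] (e : Matrix m m T) (he : e * e = e) :
    rkE (e.map φ) = (projRank hs).rk e := by
  classical
  obtain ⟨a, b, X, Y, hXY, hYX⟩ := exists_matrices (T := T) hs e he
  have h1 : (X * Y) * (X * Y) = X * Y := by
    rw [hXY, fromBlocks_multiply]; simp [he]
  have h2 : (Y * X) * (Y * X) = Y * X := by rw [hYX, Matrix.one_mul]
  have h3 := (projRank hs).rk_comm X Y h1 h2
  have hone : ∀ k : ℕ, (projRank hs).rk (1 : Matrix (Fin k) (Fin k) T) = k := by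
    intro k
    change rk _ = k
    apply rk_eq
    refine HasRk.of_equiv ?_ (HasRk.free k)
    refine LinearEquiv.symm (LinearEquiv.trans (LinearEquiv.ofEq _ _ ?_) Submodule.topEquiv)
    rw [eq_top_iff]
    intro v _
    rw [mem_rowS _ (Matrix.one_mul _), Matrix.vecMul_one]
  rw [hXY, hYX, (projRank hs).rk_diag e 1 he (Matrix.one_mul 1), hone, hone] at h3
  have h4 : rkE ((X.map φ) * (Y.map φ)) = rkE ((Y.map φ) * (X.map φ)) := by
    apply rkE_comm
    · rw [← Matrix.map_mul, ← Matrix.map_mul, h1]
    · rw [← Matrix.map_mul, ← Matrix.map_mul, h2]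
  rw [← Matrix.map_mul, ← Matrix.map_mul, hXY, hYX, Matrix.map_one _ (map_zero _) (map_one _),
    fromBlocks_map, Matrix.map_one _ (map_zero _) (map_one _), Matrix.map_zero _ (map_zero _),
    Matrix.map_zero _ (map_zero _), rkE_diag, rkE_one, rkE_one, Fintype.card_fin,
    Fintype.card_fin] at h4
  omega

/-- a matrix invertible over a skew field is full -/
theorem rk_of_isUnit (φ : T →+* E) {n : ℕ} (A : Matrix (Fin n) (Fin n) T)
    (h : IsUnit (A.map φ)) : (syl hH hs).rk A = n := by
  apply le_antisymm
  · simpa using (syl hH hs).rk_le_card_left A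
  · obtain ⟨k, X, e, Y, he, h1, h2, hA, hr⟩ := (projRank hs).exists_fac' A
    have h3 := rkE_of_isUnit _ h
    have h4 : A.map φ = X.map φ * (e.map φ) * Y.map φ := by
      rw [← Matrix.map_mul, h1, ← Matrix.map_mul, hA]
    rw [h4] at h3
    have h5 := (rkE_mul_left (X.map φ * (e.map φ)) (Y.map φ)).trans
      (rkE_mul_right (X.map φ) (e.map φ))
    rw [rkE_map_idem hs φ e he, hr] at h5
    exact h3.trans h5

/-- **the matrices inverted by a universal localisation with values in a skew field** -/
theorem isUnit_map_iff {D : Type} [DivisionRing D] (φ : T →+* D) (hφ : UnivLoc φ) {n : ℕ}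
    (A : Matrix (Fin n) (Fin n) T) : IsUnit (A.map φ) ↔ (syl hH hs).rk A = n := by
  refine ⟨rk_of_isUnit hH hs φ A, fun h => ?_⟩
  obtain ⟨f, hf⟩ := hφ.lift (syl hH hs).phi (fun m A hA =>
    (syl hH hs).isUnit_phi A (by simpa using rk_of_isUnit hH hs φ A hA))
  apply isUnit_of_map f
  have h1 : (A.map φ).map f = A.map (syl hH hs).phi := by
    funext i j
    exact RingHom.congr_fun hf (A i j)
  rw [h1]
  exact (syl hH hs).isUnit_phi A (by simpa using h)

theorem univLoc_phi : UnivLoc (syl hH hs).phi where
  lift ψ h := by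
    have : SylRank.Inv (syl hH hs) ψ := by
      intro n A hA
      exact h n A ((syl hH hs).phi_inv n A hA)
    obtain ⟨f, hf, -⟩ := (projRank hs).existsUnique_lift (SH.of_projective fun k N _ => hH k N)
      ψ this
    exact ⟨f, hf⟩
  ext f g h := (syl hH hs).hom_ext f g fun t => RingHom.congr_fun h t

theorem phi_injective : Function.Injective (syl hH hs).phi := by
  rw [injective_iff_map_eq_zero]
  intro t ht
  have h0 : (syl hH hs).rk (Matrix.of fun (_ _ : Fin 1) => t) = 0 := by
    rw [← (syl hH hs).finrank_rows]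
    have : (Set.range fun (i : Fin 1) (j : Fin 1) =>
        (syl hH hs).phi ((Matrix.of fun (_ _ : Fin 1) => t) i j)) ⊆ {0} := by
      rintro _ ⟨i, rfl⟩
      funext j
      exact ht
    rw [Submodule.finrank_eq_zero, Submodule.span_eq_bot]
    intro x hx
    exact this hx
  obtain ⟨k, X, e, Y, he, h1, h2, hA, hr⟩ :=
    (projRank hs).exists_fac' (Matrix.of fun (_ _ : Fin 1) => t)
  have h0' : (projRank hs).rk e = 0 := by rw [hr]; exact h0
  have h6 : e = 0 := eq_zero_of_rk hs e he h0'
  rw [h6, Matrix.mul_zero] at h1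
  have := congrFun (congrFun hA 0) 0
  rw [← h1] at this
  simpa using this

include hH hs in
/-- **the skew field**, weak finiteness version -/
theorem exists_skew : ∃ (D : Type) (_ : DivisionRing D) (φ : T →+* D),
    Function.Injective φ ∧ UnivLoc φ :=
  ⟨(syl hH hs).DS, inferInstance, (syl hH hs).phi, phi_injective hH hs, univLoc_phi hH hs⟩

end

end Crest.Agent.R181.MKS

namespace Crest.Agent.R181.TW

open Crest.Agent.R181.MK Crest.Agent.R181.MKS

universe u v

/-- a universal localisation is an epimorphism for all targets of universe `0` -/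
theorem UnivLoc.lift_unique {T D : Type} [Ring T] [Ring D] {φ : T →+* D} (hφ : UnivLoc φ)
    {S : Type} [Ring S] (f g : D →+* S) (h : ∀ t, f (φ t) = g (φ t)) : f = g :=
  hφ.ext f g (RingHom.ext h)

/-- two universal localisations with the same inverted matrices are isomorphic, along a ring
isomorphism of the bases -/
theorem UnivLoc.exists_equiv_of_iff {T T' D D' : Type} [Ring T] [Ring T'] [Ring D] [Ring D']
    {φ : T →+* D} {φ' : T' →+* D'} (hφ : UnivLoc φ) (hφ' : UnivLoc φ') (α : T ≃+* T')
    (h : ∀ (m : ℕ) (A : Matrix (Fin m) (Fin m) T), IsUnit (A.map φ) ↔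
      IsUnit ((A.map α).map φ')) :
    ∃ β : D ≃+* D', ∀ t, β (φ t) = φ' (α t) := by
  obtain ⟨f, hf⟩ := hφ.lift (φ'.comp α.toRingHom) (fun m A hA => by
    have := (h m A).1 hA
    rwa [Matrix.map_map] at this)
  obtain ⟨g, hg⟩ := hφ'.lift (φ.comp α.symm.toRingHom) (fun m A hA => by
    have h1 := (h m (A.map α.symm)).2 (by
      have : (A.map α.symm).map α = A := by ext i j; simp
      rwa [this])
    rwa [Matrix.map_map] at h1)
  have hf' : ∀ t, f (φ t) = φ' (α t) := fun t => RingHom.congr_fun hf t
  have hg' : ∀ t, g (φ' t) = φ (α.symm t) := fun t => RingHom.congr_fun hg t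
  refine ⟨RingEquiv.ofRingHom f g ?_ ?_, hf'⟩
  · apply hφ'.lift_unique
    intro t
    change f (g (φ' t)) = φ' t
    rw [hg', hf', RingEquiv.apply_symm_apply]
  · apply hφ.lift_unique
    intro t
    change g (f (φ t)) = φ t
    rw [hf', hg', RingEquiv.symm_apply_apply]

/-- transport along a ring isomorphism of the base -/
theorem UnivLoc.comp_equiv {T T' D : Type} [Ring T] [Ring T'] [Ring D] {φ : T →+* D}
    (hφ : UnivLoc φ) (α : T' ≃+* T) : UnivLoc (φ.comp α.toRingHom) where
  lift ψ h := by
    obtain ⟨f, hf⟩ := hφ.lift (ψ.comp α.symm.toRingHom) (fun m A hA => by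
      have h1 := h m (A.map α.symm) (by
        have : (A.map α.symm).map (φ.comp α.toRingHom) = A.map φ := by ext i j; simp
        rwa [this])
      rwa [Matrix.map_map] at h1)
    refine ⟨f, RingHom.ext fun t => ?_⟩
    have := RingHom.congr_fun hf (α t)
    simpa using this
  ext f g h := by
    apply hφ.ext
    refine RingHom.ext fun t => ?_
    have := RingHom.congr_fun h (α.symm t)
    simpa using this

section

variable {T T' : Type} [Ring T] [Ring T'] [Nontrivial T'] [IsStablyFiniteRing T']
  (hH : Hered T') (hs : AllStFree T') {D D' : Type} [DivisionRing D] [DivisionRing D']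
  {φ : T →+* D} {φ' : T' →+* D'}

include hH hs in
/-- **twists**: ring isomorphisms extend to the skew fields -/
theorem UnivLoc.exists_equiv (hφ : UnivLoc φ) (hφ' : UnivLoc φ') (α : T ≃+* T') :
    ∃ β : D ≃+* D', ∀ t, β (φ t) = φ' (α t) := by
  apply hφ.exists_equiv_of_iff hφ' α
  intro m A
  rw [isUnit_map_iff hH hs φ' hφ', ← isUnit_map_iff hH hs (φ.comp α.symm.toRingHom)
    (hφ.comp_equiv α.symm)]
  have : (A.map α).map (φ.comp α.symm.toRingHom) = A.map φ := by ext i j; simp
  rw [this]

end

section

variable {T : Type} [Ring T] [Nontrivial T] [IsStablyFiniteRing T]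
  (hH : Hered T) (hs : AllStFree T) {D : Type} [DivisionRing D] {φ : T →+* D}

include hH hs

/-- comparison with the standard model -/
theorem UnivLoc.exists_equiv_std (hφ : UnivLoc φ) :
    ∃ β : (syl hH hs).DS ≃+* D, ∀ t, β ((syl hH hs).phi t) = φ t :=
  (univLoc_phi hH hs).exists_equiv hH hs hφ (RingEquiv.refl T)

/-- the localisation is injective -/
theorem UnivLoc.injective (hφ : UnivLoc φ) : Function.Injective φ := by
  obtain ⟨β, hβ⟩ := hφ.exists_equiv_std hH hs
  intro x y h
  apply phi_injective hH hs
  apply β.injective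
  rw [hβ, hβ, h]

/-- **derivations into `D`-modules are inner** -/
theorem UnivLoc.derivation_inner (hφ : UnivLoc φ) {N : Type u} {N' : Type v} [AddCommGroup N]
    [Module D N] [AddCommGroup N'] [Module D N'] (δ : T →+ (N →+ N'))
    (hδ : ∀ s t x, δ (s * t) x = φ s • δ t x + δ s (φ t • x)) :
    ∃ η : N →+ N', ∀ t x, δ t x = η (φ t • x) - φ t • η x := by
  obtain ⟨β, hβ⟩ := hφ.exists_equiv_std hH hs
  let i1 : Module ((MKS.projRank hs).toSyl (SH.of_projective fun k N _ => hH k N)).DS N :=
    Module.compHom N β.toRingHom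
  let i2 : Module ((MKS.projRank hs).toSyl (SH.of_projective fun k N _ => hH k N)).DS N' :=
    Module.compHom N' β.toRingHom
  obtain ⟨η, hη⟩ := (MKS.projRank hs).derivation_inner (SH.of_projective fun k N _ => hH k N) δ
    (fun s t x => by
      rw [hδ s t x, ← hβ s, ← hβ t]
      rfl)
  refine ⟨η, fun t x => ?_⟩
  rw [← hβ t]
  exact hη t x

omit hH hs [Nontrivial T] [IsStablyFiniteRing T] in
/-- images of central elements are central -/
theorem UnivLoc.central (hφ : UnivLoc φ) {z : T} (h : ∀ t, z * t = t * z) (d : D) :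
    φ z * d = d * φ z := by
  by_cases hz : φ z = 0
  · rw [hz, zero_mul, mul_zero]
  · have hzz : φ z * (φ z)⁻¹ = 1 := mul_inv_cancel₀ hz
    have hzz' : (φ z)⁻¹ * φ z = 1 := inv_mul_cancel₀ hz
    let c : D →+* D :=
      { toFun := fun x => φ z * x * (φ z)⁻¹
        map_one' := by rw [mul_one, hzz]
        map_mul' := fun x y => by
          have : φ z * (x * y) * (φ z)⁻¹ = φ z * x * ((φ z)⁻¹ * φ z) * y * (φ z)⁻¹ := by
            rw [hzz', mul_one]; simp only [mul_assoc]
          rw [this]; simp only [mul_assoc]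
        map_zero' := by rw [mul_zero, zero_mul]
        map_add' := fun x y => by rw [mul_add, add_mul] }
    have h1 : c = RingHom.id D := by
      apply hφ.lift_unique
      intro t
      change φ z * φ t * (φ z)⁻¹ = φ t
      rw [← map_mul, h, map_mul, mul_assoc, hzz, mul_one]
    have h2 : φ z * d * (φ z)⁻¹ = d := RingHom.congr_fun h1 d
    calc φ z * d = φ z * d * ((φ z)⁻¹ * φ z) := by rw [hzz', mul_one]
      _ = (φ z * d * (φ z)⁻¹) * φ z := by simp only [mul_assoc]
      _ = d * φ z := by rw [h2]

end

end Crest.Agent.R181.TW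

namespace Crest.Agent.R181.MKS

/-- A ring is stably finite as soon as a quotient is and idempotent matrices with zero image
vanish. -/
theorem stablyFinite_of_idem {K K0 : Type*} [Ring K] [Ring K0] [IsStablyFiniteRing K0] (f : K →+* K0)
    (h : ∀ (n : ℕ) (e : Matrix (Fin n) (Fin n) K), e * e = e → e.map f = 0 → e = 0) :
    IsStablyFiniteRing K := by
  refine ⟨fun n => ⟨fun {X Y} hXY => ?_⟩⟩
  have h1 : (Y * X) * (Y * X) = Y * X := by
    rw [Matrix.mul_assoc, ← Matrix.mul_assoc X Y X, hXY, Matrix.one_mul]
  have h2 : (1 - Y * X) * (1 - Y * X) = 1 - Y * X := by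
    rw [Matrix.sub_mul, Matrix.mul_sub, Matrix.mul_sub, Matrix.one_mul, Matrix.mul_one, h1,
      Matrix.one_mul]
    abel
  have h3 : X.map f * Y.map f = 1 := by
    rw [← Matrix.map_mul, hXY, Matrix.map_one _ (map_zero _) (map_one _)]
  have h4 : Y.map f * X.map f = 1 := by
    rw [mul_eq_one_comm]; exact h3
  have h5 : (1 - Y * X).map f = 0 := by
    have : (1 - Y * X).map f = 1 - (Y * X).map f := by
      ext i j
      by_cases hij : i = j
      · rw [hij]
        simp only [Matrix.map_apply, Matrix.sub_apply, Matrix.one_apply_eq, map_sub, map_one]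
      · simp only [Matrix.map_apply, Matrix.sub_apply, Matrix.one_apply_ne hij, map_sub, map_zero]
    rw [this, Matrix.map_mul, h4, sub_self]
  have h6 := h n _ h2 h5
  rw [sub_eq_zero] at h6
  exact h6.symm

/-- Stable finiteness from a filtration with zero intersection. -/
theorem stablyFinite_of_filtration {K K0 : Type*} [Ring K] [Ring K0] [IsStablyFiniteRing K0]
    (f : K →+* K0) (J : ℕ → AddSubgroup K) (h1 : ∀ x, f x = 0 → x ∈ J 1)
    (hmul : ∀ m n x y, x ∈ J m → y ∈ J n → x * y ∈ J (m + n))
    (hsep : ∀ x, (∀ m, x ∈ J (m + 1)) → x = 0) : IsStablyFiniteRing K := by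
  apply stablyFinite_of_idem f
  intro n e he h0
  have key : ∀ m i j, e i j ∈ J (m + 1) := by
    intro m
    induction m with
    | zero =>
      intro i j
      exact h1 _ (congrFun (congrFun h0 i) j)
    | succ m ih =>
      intro i j
      rw [← he, Matrix.mul_apply]
      refine AddSubgroup.sum_mem _ fun k _ => ?_
      exact hmul (m + 1) 1 _ _ (ih i k) (h1 _ (congrFun (congrFun h0 k) j))
  ext i j
  exact hsep _ fun m => key m i j

end Crest.Agent.R181.MKS
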