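import Crest.Agent.R181.TW825b
import Crest.Agent.R181.MKS659b
import Crest.Agent.R181.UR396d
import Crest.Agent.R181.FR459b
import Crest.Agent.R181.FFR776c
import Crest.Agent.R181.HT279c
import Crest.Agent.R181.MK10

-- ▼ part R181/TW825c
section

/-!
R181 (helper825): transports, the step of the tower, the tower, the final tuple.
-/

set_option autoImplicit false
set_option linter.unusedSectionVars false

namespace Crest.Agent.R181.TW

open UR

/-- `T` has a skew field `D = T_Σ`, `T → D` injective. -/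
def SkewExt (T : Type) [Ring T] : Prop :=
  ∃ (D : Type) (_ : DivisionRing D) (φ : T →+* D), Function.Injective φ ∧ UnivLoc φ ∧
    ∀ (m : ℕ) (A : Matrix (Fin m) (Fin m) T), StFull A → IsUnit (A.map φ)

theorem AllSF.congr {R S : Type} [Ring R] [Ring S] (e : R ≃+* S) (h : AllSF R) : AllSF S := by
  intro P _ _ hfin hproj
  let _ : Module R P := Module.compHom P e.toRingHom
  have hs : ∀ (r : R) (x : P), r • x = e r • x := fun _ _ => rfl
  have i1 : RingHomInvPair (e.symm : S →+* R) (e : R →+* S) :=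
    ⟨RingHom.ext fun x => e.apply_symm_apply x, RingHom.ext fun x => e.symm_apply_apply x⟩
  have i2 : RingHomInvPair (e : R →+* S) (e.symm : S →+* R) :=
    ⟨RingHom.ext fun x => e.symm_apply_apply x, RingHom.ext fun x => e.apply_symm_apply x⟩
  let e₂ : P ≃ₛₗ[(e.symm : S →+* R)] P :=
    { AddEquiv.refl P with
      map_smul' := fun s x => by
        show s • x = e.symm s • x
        rw [hs, RingEquiv.apply_symm_apply] }
  have h1 : Module.Finite R P :=
    Module.Finite.of_surjective (e₂ : P →ₛₗ[(e.symm : S →+* R)] P) e₂.surjective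
  have h2 : Module.Projective R P := Module.Projective.of_equiv e₂
  rw [FR.stFree_iff]
  exact FFR.StFree.transport e (AddEquiv.refl P) (fun r m => (hs r m).symm ▸ rfl)
    (FR.stFree_iff.1 (h P h1 h2))

section

variable {F I : Type} [Field F] [Fintype I] {n : ℕ} {d : Dat F I n}

/-- Transport of `U` along `L ≃ L'`. -/
theorem exists_congrL {i : ℕ} (X : Lvl d i) {L L' : Type} [CommRing L] [Algebra F L] [CommRing L']
    [Algebra F L'] (e : L ≃ₐ[F] L') (lam : Fin n → L) (lam' : Fin n → L')
    (h : ∀ t : Fin n, i ≤ (t : ℕ) → e (lam t) = lam' t) : Nonempty (X.U lam ≃+* X.U lam') := by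
  have hl : ∀ (L : Type) [CommRing L] [Algebra F L] (lam lam' : Fin n → L)
      (_ : ∀ t : Fin n, i ≤ (t : ℕ) → lam t = lam' t), d.Ql i lam = d.Ql i lam' := by
    intro L _ _ lam lam' h
    funext l
    rw [Dat.Ql, Dat.Ql]
    congr 2
    funext t
    rw [lvars, lvars]
    split
    · rfl
    · rw [h t (by omega)]
  have hQ : ∀ l, d.Ql i lam' l = mp (Option (Vr i)) (e : L →+* L') (d.Ql i lam l) := by
    intro l
    show _ = MvPolynomial.map (e : L →+* L') (d.Ql i lam l)
    rw [d.map_Ql (e : L →+* L') (fun c => e.commutes c)]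
    exact congrFun (hl L' _ _ (fun t ht => (h t ht).symm)) l
  have hQ' : ∀ l, d.Ql i lam l = mp (Option (Vr i)) (e.symm : L' →+* L) (d.Ql i lam' l) := by
    intro l
    show _ = MvPolynomial.map (e.symm : L' →+* L) (d.Ql i lam' l)
    rw [d.map_Ql (e.symm : L' →+* L) (fun c => e.symm.commutes c)]
    exact congrFun (hl L _ _ (fun t ht => by
      show lam t = e.symm (lam' t)
      rw [← h t ht, e.symm_apply_apply])) l
  let f := Umap d.a d.th X.w (e : L →+* L') (fun c => e.commutes c) hQ
  let g := Umap d.a d.th X.w (e.symm : L' →+* L) (fun c => e.symm.commutes c) hQ'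
  refine ⟨RingEquiv.ofRingHom f g ?_ ?_⟩
  · refine hom_ext' d.a d.th _ X.w (fun d => ?_) (fun d => ?_) (fun d => ?_) <;> simp [f, g]
  · refine hom_ext' d.a d.th _ X.w (fun d => ?_) (fun d => ?_) (fun d => ?_) <;> simp [f, g]

/-- The step of the tower. -/
theorem exists_step {i : ℕ} (X : Lvl d i) (h : SkewExt X.T) :
    ∃ Y : Lvl d (i + 1), Nonempty (Step X Y) := by
  obtain ⟨D, _, φ, hinj, huniv, hfull⟩ := h
  let τ : F →+* D := φ.comp (iL d.a d.th (d.Ql i (dl F i)) X.w)
  let _ : Algebra F D := RingHom.toAlgebra' τ fun c x =>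
    huniv.central (fun t => (iL_comm d.a d.th (d.Ql i (dl F i)) X.w c t).eq) x
  have ht := (isTuple_wU d.a d.th (d.Ql i (dl F i)) X.w).map φ
  refine ⟨⟨D, fun l v => φ (wU d.a d.th (d.Ql i (dl F i)) X.w l v), ?_⟩,
    ⟨⟨φ, fun c => rfl, fun l v => rfl, hinj, huniv, hfull⟩⟩⟩
  rw [← d.Ql_dl]
  exact ht

theorem allSF_congrL {i : ℕ} (X : Lvl d i) {L L' : Type} [CommRing L] [Algebra F L] [CommRing L']
    [Algebra F L'] (e : L ≃ₐ[F] L') (lam : Fin n → L) (lam' : Fin n → L')
    (h : ∀ t : Fin n, i ≤ (t : ℕ) → e (lam t) = lam' t) (hS : AllSF (X.U lam)) :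
    AllSF (X.U lam') := by
  obtain ⟨f⟩ := exists_congrL X e lam lam' h
  exact hS.congr f

/-- `lam` with the new variable at the place `i` -/
noncomputable def up {L : Type} [CommRing L] (i : ℕ) (lam : Fin n → L) (t : Fin n) :
    Polynomial L :=
  if (t : ℕ) = i then Polynomial.X else Polynomial.C (lam t)

variable (d) in
/-- The statement V2. -/
def V2Stmt : Prop :=
  ∀ (i : ℕ) (_ : i + 1 < n) (X : Lvl d i) (_ : Chain d i X) (Y : Lvl d (i + 1)) (_ : Step X Y)
    (σ : Type) [Fintype σ] (lam : Fin n → MvPolynomial σ F),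
    AllSF (X.U (fun t : Fin n => if (t : ℕ) = i then Polynomial.X else Polynomial.C (lam t))) →
      AllSF (Y.U lam)

variable (d) in
/-- The statement V3. -/
def V3Stmt : Prop :=
  ∀ (k : ℕ) (_ : k < n), AllSF ((lvl0 d).U (fun t : Fin n => if h : (t : ℕ) < k then
    (MvPolynomial.X ⟨t, h⟩ : MvPolynomial (Fin k) F) else if (t : ℕ) = k then 1 else 0))

/-- the parameters for `T_{k+1}` at level `k - r`; the variable with `idx v = j` is
`x_{k-1-j}`. -/
noncomputable def lamk (F : Type) [Field F] {n : ℕ} (k : ℕ) :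
    ∀ r : ℕ, Fin n → MvPolynomial (Vr r) F
  | 0, t => if (t : ℕ) = k then 1 else 0
  | r + 1, t => if (t : ℕ) + r + 1 = k then MvPolynomial.X none else
      MvPolynomial.rename some (lamk F k r t)

theorem lamk_of_ge (k : ℕ) : ∀ (r : ℕ) (t : Fin n), k ≤ (t : ℕ) →
    lamk F k r t = if (t : ℕ) = k then 1 else 0
  | 0, _, _ => rfl
  | r + 1, t, h => by
    rw [lamk, if_neg (by omega), lamk_of_ge k r t h]
    split <;> simp

theorem lamk_of_lt (k : ℕ) : ∀ (r : ℕ) (t : Fin n), (t : ℕ) < k → k ≤ t + r →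
    ∃ v : Vr r, idx r v + t + 1 = k ∧ lamk F k r t = MvPolynomial.X v
  | 0, t, h1, h2 => by omega
  | r + 1, t, h1, h2 => by
    rw [lamk]
    by_cases h : (t : ℕ) + r + 1 = k
    · rw [if_pos h]
      exact ⟨none, by show r + t + 1 = k; omega, rfl⟩
    · rw [if_neg h]
      obtain ⟨v, hv, hv'⟩ := lamk_of_lt k r t h1 (by omega)
      exact ⟨some v, hv, by rw [hv', MvPolynomial.rename_X]⟩

theorem card_Vr : ∀ i : ℕ, Fintype.card (Vr i) = i
  | 0 => rfl
  | i + 1 => by
    have := card_Vr i
    simp [this]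

theorem idx_bijective (i : ℕ) : Function.Bijective (fun v : Vr i => (⟨idx i v, idx_lt i v⟩ : Fin i)) := by
  rw [Fintype.bijective_iff_injective_and_card]
  refine ⟨fun u v h => idx_injective i ?_, by rw [card_Vr, Fintype.card_fin]⟩
  simpa using h

/-- the positions, in reverse order -/
theorem exists_rev (k : ℕ) : ∃ e : Vr k ≃ Fin k, ∀ v, (e v : ℕ) + idx k v + 1 = k := by
  let e := (Equiv.ofBijective _ (idx_bijective k)).trans Fin.revPerm
  refine ⟨e, fun v => ?_⟩
  have h1 : (e v : ℕ) = k - (idx k v + 1) := rfl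
  have := idx_lt k v
  omega

theorem allSF_chain (h2 : V2Stmt d) (h3 : V3Stmt d) (k : ℕ) (hk : k < n) :
    ∀ (i : ℕ) (X : Lvl d i) (_ : Chain d i X) (r : ℕ), i + r = k → AllSF (X.U (lamk F k r)) := by
  intro i X c
  induction c with
  | base =>
    intro r hr
    rw [zero_add] at hr
    subst hr
    obtain ⟨e, he⟩ := exists_rev r
    refine allSF_congrL (lvl0 d) (MvPolynomial.renameEquiv F e.symm) _ _ (fun t _ => ?_) (h3 r hk)
    by_cases h : (t : ℕ) < r
    · rw [dif_pos h]
      obtain ⟨v, hv, hv'⟩ := lamk_of_lt (F := F) r r t h (by omega)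
      rw [hv', MvPolynomial.renameEquiv_apply, MvPolynomial.rename_X]
      congr 1
      rw [Equiv.symm_apply_eq]
      apply Fin.ext
      have := he v
      show (t : ℕ) = e v
      omega
    · rw [dif_neg h, lamk_of_ge r r t (by omega)]
      split
      · rw [map_one]
      · rw [map_zero]
  | @step i X Y c s ih =>
    intro r hr
    apply h2 i (by omega) X c Y s
    refine allSF_congrL X (MvPolynomial.optionEquivLeft F (Vr r)) _ _ (fun t _ => ?_)
      (ih (r + 1) (by omega))
    rw [lamk]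
    by_cases h : (t : ℕ) = i
    · rw [if_pos (by omega), if_pos h, MvPolynomial.optionEquivLeft_X_none]
    · rw [if_neg (by omega), if_neg h]
      have : ∀ p : MvPolynomial (Vr r) F, MvPolynomial.optionEquivLeft F (Vr r)
          (MvPolynomial.rename some p) = Polynomial.C p := by
        intro p
        induction p using MvPolynomial.induction_on with
        | C c => rw [MvPolynomial.rename_C, MvPolynomial.optionEquivLeft_C]
        | add p q hp hq => rw [map_add, map_add, hp, hq, map_add]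
        | mul_X p v hp => rw [map_mul, map_mul, hp, MvPolynomial.rename_X,
            MvPolynomial.optionEquivLeft_X_some, map_mul]
      exact this _

/-- All finitely generated projective modules over `T_{k+1}` are stably free. -/
theorem allSF_T (h2 : V2Stmt d) (h3 : V3Stmt d) {k : ℕ} (hk : k < n) {X : Lvl d k}
    (c : Chain d k X) : AllSF X.T := by
  refine allSF_congrL X (MvPolynomial.isEmptyAlgEquiv F (Vr 0)) _ _ (fun t ht => ?_)
    (allSF_chain h2 h3 k hk k X c 0 rfl)
  rw [lamk_of_ge k 0 t ht, dl]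
  split
  · rw [map_one]
  · rw [map_zero]

/-- **The tower.** -/
theorem exists_chain (EP : ∀ {i : ℕ}, Lvl d i → Prop) (hE0 : EP (lvl0 d))
    (hE : ∀ (i : ℕ) (_ : i < n) (X : Lvl d i) (_ : Chain d i X) (Y : Lvl d (i + 1)) (_ : Step X Y),
      EP X → EP Y)
    (hH : ∀ (i : ℕ) (_ : i < n) (X : Lvl d i) (_ : Chain d i X), EP X → Hered X.T)
    (h2 : V2Stmt d) (h3 : V3Stmt d)
    (hP : ∀ (i : ℕ) (_ : i < n) (X : Lvl d i) (_ : Chain d i X), Hered X.T → AllSF X.T →
      SkewExt X.T) :
    ∀ i ≤ n, ∃ X : Lvl d i, Nonempty (Chain d i X) ∧ EP X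
  | 0, _ => ⟨lvl0 d, ⟨Chain.base⟩, hE0⟩
  | i + 1, hi => by
    obtain ⟨X, ⟨c⟩, hX⟩ := exists_chain EP hE0 hE hH h2 h3 hP i (by omega)
    obtain ⟨Y, ⟨s⟩⟩ := exists_step X (hP i hi X c (hH i hi X c hX) (allSF_T h2 h3 hi c))
    exact ⟨Y, ⟨Chain.step c s⟩, hE i hi X c Y s hX⟩

/-- the tuple at the top, over `Fin n` -/
theorem Lvl.tuple_top (X : Lvl d n) : ∃ w : I → Fin n → X.D,
    IsTuple d.a d.th d.Q (algebraMap F X.D) w := by
  classical
  let M : Vr n → Fin n → F := fun v t => if idx n v = t then 1 else 0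
  have h := X.tup.subst (RingHom.id X.D) (RingHom.id F) (algebraMap F X.D) (algebraMap F X.D)
    (fun x y => Algebra.commutes x y) M rfl (fun _ => rfl)
  have h1 : (fun l => subL (RingHom.id F) M (d.Qr n l)) = d.Q := by
    funext l
    have h2 : (subL (RingHom.id F) M).comp (MvPolynomial.aeval (vars F n)).toRingHom =
        RingHom.id (MvPolynomial (Fin n) F) := by
      apply MvPolynomial.ringHom_ext
      · intro c
        simp [subL]
      · intro t
        obtain ⟨v, hv, hv'⟩ := vars_of_lt (n := n) F n t t.2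
        show subL (RingHom.id F) M (MvPolynomial.aeval (vars F n) (MvPolynomial.X t)) = _
        rw [MvPolynomial.aeval_X, hv', subL_X, Finset.sum_eq_single t]
        · simp [M, hv]
        · intro b _ hb
          have : idx n v ≠ b := fun h => hb (Fin.ext (by rw [← h, hv]))
          simp [M, this]
        · simp
    exact RingHom.congr_fun h2 (d.Q l)
  rw [h1] at h
  exact ⟨_, h⟩

end

end Crest.Agent.R181.TW
private theorem rz_ca6c8fd4ff : type_of% @_root_.Crest.Agent.R181.TW.lamk.eq_def := @_root_.Crest.Agent.R181.TW.lamk.eq_def -- L121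
private theorem rz_73089567ed : type_of% @_root_.Crest.Agent.R181.TW.lamk.eq_1 := @_root_.Crest.Agent.R181.TW.lamk.eq_1 -- L121
end

-- ▼ part R181/TW825d

/-!
R181 (helper825): the tower from the four blocks H9, V2, V3, PO.
-/

set_option autoImplicit false
set_option linter.unusedSectionVars false

namespace Crest.Agent.R181.TW

open UR HT

section skew

open Matrix MKS

variable {T : Type} [Ring T] [Nontrivial T] [IsStablyFiniteRing T]

theorem rk_of_stFull (hH : Hered T) (hs : MKS.AllStFree T) {n : ℕ}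
    (A : Matrix (Fin n) (Fin n) T) (h : StFull A) : (syl hH hs).rk A = n := by
  apply le_antisymm
  · simpa using (syl hH hs).rk_le_card_left A
  · obtain ⟨k, X, e, Y, he, h1, h2, hA, hr⟩ := (MKS.projRank hs).exists_fac' A
    obtain ⟨a, b, X', Y', hXY, hYX⟩ := exists_matrices (T := T) hs e he
    have h3 := (MKS.projRank hs).rk_comm X' Y' (by rw [hXY, fromBlocks_multiply]; simp [he])
      (by rw [hYX, Matrix.one_mul])
    have hone : ∀ k : ℕ, (MKS.projRank hs).rk (1 : Matrix (Fin k) (Fin k) T) = k := by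
      intro k
      change MKS.rk _ = k
      apply MKS.rk_eq
      refine HasRk.of_equiv ?_ (HasRk.free k)
      refine LinearEquiv.symm (LinearEquiv.trans (LinearEquiv.ofEq _ _ ?_) Submodule.topEquiv)
      rw [eq_top_iff]
      intro v _
      rw [mem_rowS _ (Matrix.one_mul _), Matrix.vecMul_one]
    rw [hXY, hYX, (MKS.projRank hs).rk_diag e 1 he (Matrix.one_mul 1), hone, hone] at h3
    let X1 : Matrix (Fin n ⊕ Fin a) (Fin k ⊕ Fin a) T := fromBlocks X 0 0 1
    let Y1 : Matrix (Fin k ⊕ Fin a) (Fin n ⊕ Fin a) T := fromBlocks Y 0 0 1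
    have h5 : X1 * X' * (Y' * Y1) = fromBlocks A 0 0 1 := by
      have h6 : X1 * X' * (Y' * Y1) = X1 * (X' * Y') * Y1 := by
        simp only [Matrix.mul_assoc]
      rw [h6, hXY, fromBlocks_multiply, fromBlocks_multiply]
      simp [h1, hA]
    have h4 := h b a (X1 * X') (Y' * Y1) h5
    change n ≤ (MKS.projRank hs).ir A
    rw [← hr]
    omega

/-- **the skew field**, with all properties used by the tower -/
theorem skewExt (hH : Hered T) (hs : AllSF T) : SkewExt T := by
  have hs' : MKS.AllStFree T := hs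
  obtain ⟨D, i, φ, hinj, huniv⟩ := MKS.exists_skew hH hs'
  exact ⟨D, i, φ, hinj, huniv, fun m A hA =>
    (isUnit_map_iff hH hs' φ huniv A).2 (rk_of_stFull hH hs' A hA)⟩

end skew

section

variable {F I : Type} [Field F] [Fintype I] {n : ℕ} {d : Dat F I n}

/-- property `E` of a level -/
def EP {i : ℕ} (X : Lvl d i) : Prop := EProp d.a d.th X.w

variable (d) in
/-- The statement H9. -/
def H9Stmt : Prop :=
  ∀ (i : ℕ) (_ : i < n) (X : Lvl d i) (_ : Chain d i X), EP X → Hered X.T

variable (d) in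
/-- The statement PO. -/
def POStmt : Prop :=
  ∀ (i : ℕ) (_ : i < n) (X : Lvl d i) (_ : Chain d i X), Nontrivial X.T ∧ IsStablyFiniteRing X.T

theorem EP.step {i : ℕ} {X : Lvl d i} {Y : Lvl d (i + 1)} (s : Step X Y) [Nontrivial X.T]
    [IsStablyFiniteRing X.T] (hH : Hered X.T) (hs : AllSF X.T) (hE : EP X) : EP Y := by
  have hs' : MKS.AllStFree X.T := hs
  have h := EProp.step hE (d.Ql i (dl F i)) s.φ s.alg (fun E _ ρ δ hδ => by
    let _ : Module Y.D E := Module.compHom E ρ
    have hρ : ∀ (y : Y.D) (e : E), ρ y e = y • e := fun _ _ => rfl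
    obtain ⟨η, hη⟩ := UnivLoc.derivation_inner hH hs' s.univ (N := E) (N' := E) δ
      (fun u t x => by
        have := congrArg (fun g : AddMonoid.End E => g x) (hδ u t)
        exact this)
    refine ⟨η, fun t => ?_⟩
    ext x
    exact hη t x)
  have hw : (fun l v => s.φ (wU d.a d.th (d.Ql i (dl F i)) X.w l v)) = Y.w := by
    funext l v
    exact s.hw l v
  rw [hw] at h
  exact h

/-- **The tower.** -/
theorem exists_tower (h9 : H9Stmt d) (h2 : V2Stmt d) (h3 : V3Stmt d) (hP : POStmt d) :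
    ∃ X : Lvl d n, Nonempty (Chain d n X) := by
  obtain ⟨X, hX, -⟩ := exists_chain (d := d) EP (EProp.empty _ _ _)
    (fun i hi X c Y s hE => by
      obtain ⟨i1, i2⟩ := hP i hi X c
      exact hE.step s (h9 i hi X c hE) (allSF_T h2 h3 hi c))
    (fun i hi X c hE => h9 i hi X c hE) h2 h3
    (fun i hi X c hH hS => by
      obtain ⟨i1, i2⟩ := hP i hi X c
      exact skewExt hH hS) n le_rfl
  exact ⟨X, hX⟩

/-- The tuple at the top. -/
theorem exists_tuple (h9 : H9Stmt d) (h2 : V2Stmt d) (h3 : V3Stmt d) (hP : POStmt d) :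
    ∃ (D : Type) (_ : DivisionRing D) (_ : Algebra F D) (w : I → Fin n → D),
      IsTuple d.a d.th d.Q (algebraMap F D) w := by
  obtain ⟨X, -⟩ := exists_tower h9 h2 h3 hP
  obtain ⟨w, hw⟩ := X.tuple_top
  exact ⟨X.D, X.dr, X.alg, w, hw⟩

end

end Crest.Agent.R181.TW
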