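import Crest.Agent.R181.UR396a

/-!
R181 (helper396): the ring `U` generated by a ring `D` (with coefficients `w' : I → σ → D`), a
central commutative ring `L` and new elements `η : I → U` such that the linear forms
`w' + s * η` in the variables `Option σ` (`s = none`) form a tuple for `Q`.
-/

set_option autoImplicit false
set_option linter.unusedSectionVars false

namespace Crest.Agent.R181.UR

open AddMonoidAlgebra

section Ring

variable {F D L I σ : Type} [CommRing F] [Ring D] [Algebra F D] [CommRing L] [Algebra F L]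
  [Fintype I] [Fintype σ]

variable (F D L I) in
/-- Relations of the first step: the rings `D`, `L`, their common base, `L` central. -/
inductive Rel0 : FreeAlgebra ℤ (D ⊕ L ⊕ I) → FreeAlgebra ℤ (D ⊕ L ⊕ I) → Prop
  | addD (d e : D) : Rel0 (FreeAlgebra.ι ℤ (Sum.inl d) + FreeAlgebra.ι ℤ (Sum.inl e))
      (FreeAlgebra.ι ℤ (Sum.inl (d + e)))
  | mulD (d e : D) : Rel0 (FreeAlgebra.ι ℤ (Sum.inl d) * FreeAlgebra.ι ℤ (Sum.inl e))
      (FreeAlgebra.ι ℤ (Sum.inl (d * e)))
  | oneD : Rel0 (FreeAlgebra.ι ℤ (Sum.inl (1 : D))) 1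
  | addL (x y : L) : Rel0 (FreeAlgebra.ι ℤ (Sum.inr (Sum.inl x)) +
      FreeAlgebra.ι ℤ (Sum.inr (Sum.inl y))) (FreeAlgebra.ι ℤ (Sum.inr (Sum.inl (x + y))))
  | mulL (x y : L) : Rel0 (FreeAlgebra.ι ℤ (Sum.inr (Sum.inl x)) *
      FreeAlgebra.ι ℤ (Sum.inr (Sum.inl y))) (FreeAlgebra.ι ℤ (Sum.inr (Sum.inl (x * y))))
  | oneL : Rel0 (FreeAlgebra.ι ℤ (Sum.inr (Sum.inl (1 : L)))) 1
  | base (c : F) : Rel0 (FreeAlgebra.ι ℤ (Sum.inl (algebraMap F D c)))
      (FreeAlgebra.ι ℤ (Sum.inr (Sum.inl (algebraMap F L c))))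
  | centD (x : L) (d : D) : Rel0 (FreeAlgebra.ι ℤ (Sum.inr (Sum.inl x)) *
      FreeAlgebra.ι ℤ (Sum.inl d)) (FreeAlgebra.ι ℤ (Sum.inl d) *
      FreeAlgebra.ι ℤ (Sum.inr (Sum.inl x)))
  | centI (x : L) (i : I) : Rel0 (FreeAlgebra.ι ℤ (Sum.inr (Sum.inl x)) *
      FreeAlgebra.ι ℤ (Sum.inr (Sum.inr i))) (FreeAlgebra.ι ℤ (Sum.inr (Sum.inr i)) *
      FreeAlgebra.ι ℤ (Sum.inr (Sum.inl x)))

variable (F D L I) in
/-- The first step: `D *_F L⟨I⟩` with `L` central. -/
abbrev U0 : Type := RingQuot (Rel0 F D L I)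

/-- helper: a ring hom out of a function respecting the operations -/
def homOf {A B : Type*} [Ring A] [Ring B] (f : A → B) (h1 : f 1 = 1)
    (hm : ∀ x y, f x * f y = f (x * y)) (ha : ∀ x y, f x + f y = f (x + y)) : A →+* B :=
  RingHom.mk' ⟨⟨f, h1⟩, fun x y => (hm x y).symm⟩ (fun x y => (ha x y).symm)

variable (F D L I) in
/-- `D → U0` -/
noncomputable def iD0 : D →+* U0 F D L I :=
  homOf (fun d => RingQuot.mkRingHom (Rel0 F D L I) (FreeAlgebra.ι ℤ (Sum.inl d)))
    (by rw [RingQuot.mkRingHom_rel Rel0.oneD, map_one])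
    (fun x y => by rw [← map_mul, RingQuot.mkRingHom_rel (Rel0.mulD x y)])
    (fun x y => by rw [← map_add, RingQuot.mkRingHom_rel (Rel0.addD x y)])

variable (F D L I) in
/-- `L → U0` -/
noncomputable def iL0 : L →+* U0 F D L I :=
  homOf (fun d => RingQuot.mkRingHom (Rel0 F D L I) (FreeAlgebra.ι ℤ (Sum.inr (Sum.inl d))))
    (by rw [RingQuot.mkRingHom_rel Rel0.oneL, map_one])
    (fun x y => by rw [← map_mul, RingQuot.mkRingHom_rel (Rel0.mulL x y)])
    (fun x y => by rw [← map_add, RingQuot.mkRingHom_rel (Rel0.addL x y)])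

variable (F D L) in
/-- `I → U0` -/
noncomputable def eta0 (i : I) : U0 F D L I :=
  RingQuot.mkRingHom (Rel0 F D L I) (FreeAlgebra.ι ℤ (Sum.inr (Sum.inr i)))

/-- the coefficients of `w' + s * η` -/
def ext' {A : Type*} (w : I → σ → A) (η : I → A) (i : I) : Option σ → A
  | some v => w i v
  | none => η i

@[simp] theorem ext'_some {A : Type*} (w : I → σ → A) (η : I → A) (i : I) (v : σ) :
    ext' w η i (some v) = w i v := rfl

@[simp] theorem ext'_none {A : Type*} (w : I → σ → A) (η : I → A) (i : I) :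
    ext' w η i none = η i := rfl

theorem map_ext' {A B : Type*} (f : A → B) (w : I → σ → A) (η : I → A) (i : I) :
    (fun v => f (ext' w η i v)) = ext' (fun i v => f (w i v)) (fun i => f (η i)) i := by
  funext v; cases v <;> rfl

variable (a : I → ℕ) (th : I → I → F) (Q : I → MvPolynomial (Option σ) L) (w : I → σ → D)

variable (F D L I) in
/-- the coefficients of the universal tuple over `U0` -/
noncomputable def w0 : I → Option σ → U0 F D L I :=
  fun i => ext' (fun i v => iD0 F D L I (w i v)) (eta0 F D L) i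

/-- Relations of the second step. -/
inductive Rel1 : U0 F D L I → U0 F D L I → Prop
  | comm (i j : I) (α : Option σ →₀ ℕ) :
      Rel1 ((lf (w0 F D L I w i) * lf (w0 F D L I w j)).coeff α)
        ((lf (w0 F D L I w j) * lf (w0 F D L I w i)).coeff α)
  | rel (i : I) (α : Option σ →₀ ℕ) :
      Rel1 ((lf (w0 F D L I w i) ^ a i).coeff α)
        ((mp (Option σ) (iL0 F D L I) (Q i) + ∑ l, cst (Option σ) (iL0 F D L I
          (algebraMap F L (th i l))) * lf (w0 F D L I w l) ^ a i).coeff α)

/-- The ring `U`. -/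
def U : Type := RingQuot (Rel1 a th Q w)

noncomputable instance instRingU : Ring (U a th Q w) :=
  inferInstanceAs (Ring (RingQuot (Rel1 a th Q w)))

/-- `U0 → U` -/
noncomputable def mkU : U0 F D L I →+* U a th Q w := RingQuot.mkRingHom (Rel1 a th Q w)

theorem mkU_surjective : Function.Surjective (mkU a th Q w) :=
  RingQuot.mkRingHom_surjective (Rel1 a th Q w)

theorem mkU_rel {x y : U0 F D L I} (h : Rel1 a th Q w x y) : mkU a th Q w x = mkU a th Q w y :=
  RingQuot.mkRingHom_rel h

theorem exists_liftU {A : Type*} [Ring A] (f : U0 F D L I →+* A)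
    (hf : ∀ x y, Rel1 a th Q w x y → f x = f y) :
    ∃ g : U a th Q w →+* A, ∀ x, g (mkU a th Q w x) = f x :=
  ⟨RingQuot.lift ⟨f, fun x y h => hf x y h⟩, fun x =>
    RingQuot.lift_mkRingHom_apply f (fun x y h => hf x y h) x⟩

/-- `D → U` -/
noncomputable def iD : D →+* U a th Q w := (mkU a th Q w).comp (iD0 F D L I)

/-- `L → U` -/
noncomputable def iL : L →+* U a th Q w := (mkU a th Q w).comp (iL0 F D L I)

/-- the new coefficients -/
noncomputable def eta (i : I) : U a th Q w := mkU a th Q w (eta0 F D L i)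

/-- the coefficients of the universal tuple -/
noncomputable def wU : I → Option σ → U a th Q w :=
  fun i => ext' (fun i v => iD a th Q w (w i v)) (eta a th Q w) i

theorem iL0_centD (x : L) (d : D) : Commute (iL0 F D L I x) (iD0 F D L I d) := by
  show _ * _ = _ * _
  have := RingQuot.mkRingHom_rel (Rel0.centD (F := F) (I := I) x d)
  rwa [map_mul, map_mul] at this

theorem iL0_centI (x : L) (i : I) : Commute (iL0 F D L I x) (eta0 F D L i) := by
  show _ * _ = _ * _
  have := RingQuot.mkRingHom_rel (Rel0.centI (F := F) (D := D) x i)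
  rwa [map_mul, map_mul] at this

theorem iD0_base (c : F) : iD0 F D L I (algebraMap F D c) = iL0 F D L I (algebraMap F L c) :=
  RingQuot.mkRingHom_rel (Rel0.base c)

theorem iD_base (c : F) : iD a th Q w (algebraMap F D c) = iL a th Q w (algebraMap F L c) := by
  rw [iD, iL, RingHom.comp_apply, RingHom.comp_apply, iD0_base]

theorem isTuple_wU : IsTuple a th Q (iL a th Q w) (wU a th Q w) := by
  rw [isTuple_iff]
  have hw : ∀ i, wU a th Q w i = fun v => mkU a th Q w (w0 F D L I w i v) := by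
    intro i
    rw [w0, map_ext']
    rfl
  constructor
  · intro i j α
    have := mkU_rel a th Q w (Rel1.comm (a := a) (th := th) (Q := Q) (w := w) i j α)
    rw [hw, hw, ← mp_lf, ← mp_lf, ← map_mul, ← map_mul, mp_coeff, mp_coeff, this]
  · intro i α
    have := mkU_rel a th Q w (Rel1.rel (a := a) (th := th) (Q := Q) (w := w) i α)
    have e1 : lf (wU a th Q w i) ^ a i =
        mp (Option σ) (mkU a th Q w) (lf (w0 F D L I w i) ^ a i) := by
      rw [map_pow, mp_lf, hw]
    have e2 : mp (Option σ) (iL a th Q w) (Q i) + ∑ l, cst (Option σ) (iL a th Q w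
          (algebraMap F L (th i l))) * lf (wU a th Q w l) ^ a i =
        mp (Option σ) (mkU a th Q w) (mp (Option σ) (iL0 F D L I) (Q i) +
          ∑ l, cst (Option σ) (iL0 F D L I (algebraMap F L (th i l))) *
            lf (w0 F D L I w l) ^ a i) := by
      rw [map_add, mp_comp, map_sum]
      congr 1
      refine Finset.sum_congr rfl fun l _ => ?_
      rw [map_mul, map_pow, mp_lf, ← hw, mp_cst]
      rfl
    rw [e1, e2, mp_coeff, mp_coeff, this]

/-- `L` is central in `U`. -/
theorem generation0 (P : U0 F D L I → Prop) (hD : ∀ d, P (iD0 F D L I d))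
    (hL : ∀ x, P (iL0 F D L I x)) (hI : ∀ i, P (eta0 F D L i))
    (hadd : ∀ x y, P x → P y → P (x + y)) (hmul : ∀ x y, P x → P y → P (x * y)) (z : U0 F D L I) :
    P z := by
  obtain ⟨y, rfl⟩ := RingQuot.mkRingHom_surjective _ z
  induction y using FreeAlgebra.induction with
  | grade0 r =>
    have : (RingQuot.mkRingHom (Rel0 F D L I)) (algebraMap ℤ _ r) = iD0 F D L I (r : D) := by
      simp
    rw [this]
    exact hD _
  | grade1 x =>
    rcases x with d | x | i
    · exact hD d
    · exact hL x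
    · exact hI i
  | mul x y hx hy => rw [map_mul]; exact hmul _ _ hx hy
  | add x y hx hy => rw [map_add]; exact hadd _ _ hx hy

/-- Induction principle: `U` is generated by `D`, `L` and the `η i`. -/
theorem generation (P : U a th Q w → Prop) (hD : ∀ d, P (iD a th Q w d))
    (hL : ∀ x, P (iL a th Q w x)) (hI : ∀ i, P (eta a th Q w i))
    (hadd : ∀ x y, P x → P y → P (x + y)) (hmul : ∀ x y, P x → P y → P (x * y))
    (z : U a th Q w) : P z := by
  obtain ⟨y, rfl⟩ := mkU_surjective a th Q w z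
  refine generation0 (fun y => P (mkU a th Q w y)) hD hL hI ?_ ?_ y
  · intro x y hx hy; rw [map_add]; exact hadd _ _ hx hy
  · intro x y hx hy; rw [map_mul]; exact hmul _ _ hx hy

theorem iL_comm (x : L) (z : U a th Q w) : Commute (iL a th Q w x) z := by
  refine generation a th Q w (fun z => Commute (iL a th Q w x) z) ?_ ?_ ?_ ?_ ?_ z
  · intro d
    exact (iL0_centD x d).map (mkU a th Q w)
  · intro y
    exact (Commute.all x y).map (iL a th Q w)
  · intro i
    exact (iL0_centI x i).map (mkU a th Q w)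
  · intro y z hy hz; exact hy.add_right hz
  · intro y z hy hz; exact hy.mul_right hz

section Lift

variable {a th Q w}
variable {A : Type*} [Ring A] (ρ : D →+* A) (τ : L →+* A) (η : I → A)
  (hb : ∀ c : F, ρ (algebraMap F D c) = τ (algebraMap F L c))
  (hD : ∀ x d, Commute (τ x) (ρ d)) (hI : ∀ x i, Commute (τ x) (η i))

include hb hD hI in
/-- the lift of the first step -/
theorem exists_lift0 : ∃ f : U0 F D L I →+* A, (∀ d, f (iD0 F D L I d) = ρ d) ∧
    (∀ x, f (iL0 F D L I x) = τ x) ∧ ∀ i, f (eta0 F D L i) = η i := by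
  let g : FreeAlgebra ℤ (D ⊕ L ⊕ I) →ₐ[ℤ] A := FreeAlgebra.lift ℤ (Sum.elim ρ (Sum.elim τ η))
  have hg : ∀ x y, Rel0 F D L I x y → g.toRingHom x = g.toRingHom y := by
    intro x y h
    cases h with
    | addD d e => simp [g]
    | mulD d e => simp [g]
    | oneD => simp [g]
    | addL d e => simp [g]
    | mulL d e => simp [g]
    | oneL => simp [g]
    | base c => simpa [g] using hb c
    | centD x d => simpa [g] using (hD x d).eq
    | centI x i => simpa [g] using (hI x i).eq
  refine ⟨RingQuot.lift ⟨g.toRingHom, fun x y h => hg x y h⟩, ?_, ?_, ?_⟩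
  · intro d
    show RingQuot.lift ⟨g.toRingHom, _⟩ (RingQuot.mkRingHom _ _) = _
    rw [RingQuot.lift_mkRingHom_apply]
    simp [g]
  · intro d
    show RingQuot.lift ⟨g.toRingHom, _⟩ (RingQuot.mkRingHom _ _) = _
    rw [RingQuot.lift_mkRingHom_apply]
    simp [g]
  · intro d
    show RingQuot.lift ⟨g.toRingHom, _⟩ (RingQuot.mkRingHom _ _) = _
    rw [RingQuot.lift_mkRingHom_apply]
    simp [g]

include hb hD hI in
/-- Universal property of `U`, existence. -/
theorem exists_lift (ht : IsTuple a th Q τ (ext' (fun i v => ρ (w i v)) η)) :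
    ∃ f : U a th Q w →+* A, (∀ d, f (iD a th Q w d) = ρ d) ∧
    (∀ x, f (iL a th Q w x) = τ x) ∧ ∀ i, f (eta a th Q w i) = η i := by
  obtain ⟨f, h1, h2, h3⟩ := exists_lift0 ρ τ η hb hD hI
  have hw : ∀ i, (fun v => f (w0 F D L I w i v)) = ext' (fun i v => ρ (w i v)) η i := by
    intro i
    rw [w0, map_ext']
    congr 1
    · funext i v; exact h1 _
    · funext i; exact h3 _
  have hτ : f.comp (iL0 F D L I) = τ := RingHom.ext h2
  have hf : ∀ x y, Rel1 a th Q w x y → f x = f y := by
    intro x y h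
    cases h with
    | comm i j α =>
      rw [← mp_coeff, ← mp_coeff, map_mul, map_mul, mp_lf, mp_lf, hw, hw, ht.comm]
    | rel i α =>
      rw [← mp_coeff, ← mp_coeff, map_pow, mp_lf, hw, ht.rel, map_add, mp_comp, hτ, map_sum]
      congr 3
      refine Finset.sum_congr rfl fun l _ => ?_
      rw [map_mul, map_pow, mp_lf, hw, mp_cst, h2]
  obtain ⟨g, hg⟩ := exists_liftU a th Q w f hf
  exact ⟨g, fun d => (hg _).trans (h1 d), fun x => (hg _).trans (h2 x),
    fun i => (hg _).trans (h3 i)⟩

end Lift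

/-- Universal property of `U`, uniqueness. -/
theorem hom_ext' {A : Type*} [Ring A] {f g : U a th Q w →+* A}
    (hD : ∀ d, f (iD a th Q w d) = g (iD a th Q w d))
    (hL : ∀ x, f (iL a th Q w x) = g (iL a th Q w x))
    (hI : ∀ i, f (eta a th Q w i) = g (eta a th Q w i)) : f = g := by
  refine RingHom.ext fun z => ?_
  refine generation a th Q w (fun z => f z = g z) hD hL hI ?_ ?_ z
  · intro x y hx hy; rw [map_add, map_add, hx, hy]
  · intro x y hx hy; rw [map_mul, map_mul, hx, hy]

end Ring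

end Crest.Agent.R181.UR
private theorem rz_c043cb66ac : type_of% @_root_.Crest.Agent.R181.UR.ext'.eq_1 := @_root_.Crest.Agent.R181.UR.ext'.eq_1 -- L74
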