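import Crest.Agent.R181.OR836a
import Crest.Agent.R181.UR396b

/-!
R181, V-chain, ring `O` block (helper836): `V^∞/π = T_i ⊗ L`, concretely.

`IsU a th Q w ρ l η`: the ring `S` with `ρ : D → S`, `l : L → S`, `η : I → S` is a model of 396's
`U a th Q w` (`isU_U`).  (Abstract rings: no instance problems with `RingQuot`.)

`S` a model of `U` over a coefficient ring `L1` (`= L[π]`), `g : L1 → F[τ]` surjective with kernel
generated by `p1`, such that `g Q1 = Q` has coefficients in `F`; `T'` a model of `U` over `F` for `Q`.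
Then `α : S → T'[τ]` is surjective, kills `p = l p1`, and every ring hom out of `S` which kills `p`
factors through `α`; if `φ : T' → D'` is a universal localisation then so is `S/(p) → D'[τ]`
(`Univ`, RO789a).
-/

set_option autoImplicit false

namespace Crest.Agent.R181.OR

open AddMonoidAlgebra Crest.Agent.R181.RO Crest.Agent.R181.UR

section

/-- `S` is a model of the ring `U a th Q w`. -/
structure IsU {F D L I σ : Type} [CommRing F] [Ring D] [Algebra F D] [CommRing L] [Algebra F L]
    [Fintype I] [Fintype σ] (a : I → ℕ) (th : I → I → F) (Q : I → MvPolynomial (Option σ) L)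
    (w : I → σ → D) {S : Type} [Ring S] (ρ : D →+* S) (l : L →+* S) (η : I → S) : Prop where
  base : ∀ c : F, ρ (algebraMap F D c) = l (algebraMap F L c)
  comm : ∀ x z, Commute (l x) z
  tuple : IsTuple a th Q l (ext' (fun i v => ρ (w i v)) η)
  gen : ∀ P : S → Prop, (∀ d, P (ρ d)) → (∀ x, P (l x)) → (∀ i, P (η i)) →
    (∀ x y, P x → P y → P (x + y)) → (∀ x y, P x → P y → P (x * y)) → ∀ z, P z
  lift : ∀ (A : Type) [Ring A] (ρ' : D →+* A) (l' : L →+* A) (η' : I → A),
    (∀ c : F, ρ' (algebraMap F D c) = l' (algebraMap F L c)) →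
    (∀ x d, Commute (l' x) (ρ' d)) → (∀ x i, Commute (l' x) (η' i)) →
    IsTuple a th Q l' (ext' (fun i v => ρ' (w i v)) η') →
    ∃ f : S →+* A, (∀ d, f (ρ d) = ρ' d) ∧ (∀ x, f (l x) = l' x) ∧ ∀ i, f (η i) = η' i

theorem isU_U {F D L I σ : Type} [CommRing F] [Ring D] [Algebra F D] [CommRing L] [Algebra F L]
    [Fintype I] [Fintype σ] (a : I → ℕ) (th : I → I → F) (Q : I → MvPolynomial (Option σ) L)
    (w : I → σ → D) : IsU a th Q w (iD a th Q w) (iL a th Q w) (eta a th Q w) where
  base := iD_base a th Q w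
  comm := iL_comm a th Q w
  tuple := by
    have : wU a th Q w = ext' (fun i v => iD a th Q w (w i v)) (eta a th Q w) := rfl
    rw [← this]
    exact isTuple_wU a th Q w
  gen P h1 h2 h3 h4 h5 z := generation a th Q w P h1 h2 h3 h4 h5 z
  lift _ _ ρ' l' η' h1 h2 h3 h4 := exists_lift ρ' l' η' h1 h2 h3 h4

theorem IsU.hom_ext {F D L I σ : Type} [CommRing F] [Ring D] [Algebra F D] [CommRing L]
    [Algebra F L] [Fintype I] [Fintype σ] {a : I → ℕ} {th : I → I → F}
    {Q : I → MvPolynomial (Option σ) L} {w : I → σ → D} {S : Type} [Ring S] {ρ : D →+* S}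
    {l : L →+* S} {η : I → S} (h : IsU a th Q w ρ l η) {A : Type*} [Ring A] {f g : S →+* A}
    (hD : ∀ d, f (ρ d) = g (ρ d)) (hL : ∀ x, f (l x) = g (l x)) (hI : ∀ i, f (η i) = g (η i)) :
    f = g := by
  refine RingHom.ext fun z => ?_
  refine h.gen (fun z => f z = g z) hD hL hI ?_ ?_ z
  · intro x y hx hy; rw [map_add, map_add, hx, hy]
  · intro x y hx hy; rw [map_mul, map_mul, hx, hy]

variable {F D L1 I σ τ : Type} [CommRing F] [Ring D] [Algebra F D] [CommRing L1] [Algebra F L1]
  [Fintype I] [Fintype σ]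
variable {a : I → ℕ} {th : I → I → F} {Q : I → MvPolynomial (Option σ) F}
  {Q1 : I → MvPolynomial (Option σ) L1} {w : I → σ → D}
  {g : L1 →+* MvPolynomial τ F}
  {S T' : Type} [Ring S] [Ring T'] {ρS : D →+* S} {lS : L1 →+* S} {ηS : I → S}
  {ρ : D →+* T'} {l : F →+* T'} {η : I → T'}

/-- the coefficient ring `F[τ]` in `T'[τ]` -/
noncomputable def cL (τ : Type) (l : F →+* T') : MvPolynomial τ F →+* PA T' τ := UR.mp τ l

theorem cL_C (x : F) : cL τ l (MvPolynomial.C x) = cst τ (l x) := mp_cst (σ := τ) l x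

theorem cL_monomial (m : τ →₀ ℕ) (c : F) : cL τ l (MvPolynomial.monomial m c) = single m (l c) :=
  mp_single (σ := τ) l m c

theorem cL_X (t : τ) : cL τ l (MvPolynomial.X t) = single (Finsupp.single t 1) 1 := by
  rw [MvPolynomial.X, cL_monomial, map_one]

theorem cL_comm (hl : ∀ x z, Commute (l x) z) (x : MvPolynomial τ F) (z : PA T' τ) :
    Commute (cL τ l x) z := by
  show cL τ l x * z = z * cL τ l x
  have hx : ∀ x : PA F τ, UR.mp τ l x * z = z * UR.mp τ l x := by
    intro x
    induction x using AddMonoidAlgebra.induction_linear with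
    | zero => simp
    | add x y hx hy => rw [map_add, mul_add, add_mul, hx, hy]
    | single m c =>
      induction z using AddMonoidAlgebra.induction_linear with
      | zero => simp
      | add x y hx hy => rw [mul_add, add_mul, hx, hy]
      | single m' z =>
        rw [mp_single, single_mul_single, single_mul_single, add_comm, (hl c z).eq]
  exact hx x

/-- conditions on `g : L1 → F[τ]` -/
structure Red (g : L1 →+* MvPolynomial τ F) (Q : I → MvPolynomial (Option σ) F)
    (Q1 : I → MvPolynomial (Option σ) L1) : Prop where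
  gF : ∀ c : F, g (algebraMap F L1 c) = MvPolynomial.C c
  gQ : ∀ i, MvPolynomial.map g (Q1 i) = MvPolynomial.map (MvPolynomial.C : F →+* MvPolynomial τ F) (Q i)

theorem mp_eq_map {A B σ' : Type*} [CommRing A] [CommRing B] (f : A →+* B)
    (x : MvPolynomial σ' A) : UR.mp σ' f x = (MvPolynomial.map f x : MvPolynomial σ' B) := by
  have : (UR.mp σ' f : MvPolynomial σ' A →+* MvPolynomial σ' B) = MvPolynomial.map f := by
    apply MvPolynomial.ringHom_ext
    · intro r
      rw [MvPolynomial.map_C]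
      exact mp_cst (σ := σ') f r
    · intro s
      rw [MvPolynomial.map_X]
      exact (mp_single (σ := σ') f _ _).trans (by rw [map_one]; rfl)
  exact RingHom.congr_fun this x

theorem Red.mp_eq {B : Type*} [Ring B] (hg : Red g Q Q1) (f : MvPolynomial τ F →+* B) (i : I) :
    UR.mp (Option σ) (f.comp g) (Q1 i) =
      UR.mp (Option σ) (f.comp (MvPolynomial.C : F →+* MvPolynomial τ F)) (Q i) := by
  rw [← mp_comp, ← mp_comp]
  congr 1
  exact (mp_eq_map g (Q1 i)).trans ((hg.gQ i).trans (mp_eq_map _ (Q i)).symm)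

theorem exists_alpha (hS : IsU a th Q1 w ρS lS ηS) (hT : IsU a th Q w ρ l η) (hg : Red g Q Q1) :
    ∃ α : S →+* PA T' τ, (∀ d, α (ρS d) = cst τ (ρ d)) ∧
      (∀ x, α (lS x) = cL τ l (g x)) ∧ ∀ i, α (ηS i) = cst τ (η i) := by
  have h1 := hT.tuple.map (cst τ : T' →+* PA T' τ)
  refine hS.lift _ ((cst τ).comp ρ) ((cL τ l).comp g) (fun i => cst τ (η i)) ?_ ?_ ?_ ?_
  · intro c
    rw [RingHom.comp_apply, RingHom.comp_apply, hg.gF, cL_C, hT.base]
    rfl
  · intro x d
    exact cL_comm hT.comm _ _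
  · intro x i
    exact cL_comm hT.comm _ _
  · have hw : ∀ i, ext' (fun i v => (cst τ).comp ρ (w i v)) (fun i => cst τ (η i)) i
        = fun v => (cst τ (ext' (fun i v => ρ (w i v)) η i v) : PA T' τ) := by
      intro i
      funext v
      cases v <;> rfl
    have hcomp : (cL τ l).comp (MvPolynomial.C : F →+* MvPolynomial τ F) = (cst τ).comp l :=
      RingHom.ext cL_C
    constructor
    · intro i j
      rw [hw, hw]
      exact h1.comm i j
    · intro i
      simp only [hw]
      rw [h1.rel i, hg.mp_eq, hcomp]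
      congr 1
      refine Finset.sum_congr rfl fun k _ => ?_
      congr 2
      rw [RingHom.comp_apply, RingHom.comp_apply, hg.gF, cL_C]
      rfl

/-- `V^∞ → T_i ⊗ L` -/
noncomputable def alpha (hS : IsU a th Q1 w ρS lS ηS) (hT : IsU a th Q w ρ l η)
    (hg : Red g Q Q1) : S →+* PA T' τ := (exists_alpha hS hT hg).choose

variable (hS : IsU a th Q1 w ρS lS ηS) (hT : IsU a th Q w ρ l η) (hg : Red g Q Q1)

theorem alpha_ρ (d : D) : alpha hS hT hg (ρS d) = cst τ (ρ d) :=
  (exists_alpha hS hT hg).choose_spec.1 d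

theorem alpha_l (x : L1) : alpha hS hT hg (lS x) = cL τ l (g x) :=
  (exists_alpha hS hT hg).choose_spec.2.1 x

theorem alpha_η (i : I) : alpha hS hT hg (ηS i) = cst τ (η i) :=
  (exists_alpha hS hT hg).choose_spec.2.2 i

theorem alpha_surjective (hgs : Function.Surjective g) :
    Function.Surjective (alpha hS hT hg) := by
  have hr : ∀ z : T', (cst τ z : PA T' τ) ∈ (alpha hS hT hg).range := by
    intro z
    refine hT.gen (fun z => (cst τ z : PA T' τ) ∈ (alpha hS hT hg).range) ?_ ?_ ?_ ?_ ?_ z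
    · intro d; exact ⟨_, alpha_ρ hS hT hg d⟩
    · intro x
      exact ⟨lS (algebraMap F L1 x), by rw [alpha_l, hg.gF, cL_C]⟩
    · intro i; exact ⟨_, alpha_η hS hT hg i⟩
    · intro x y hx hy; rw [map_add]; exact add_mem hx hy
    · intro x y hx hy; rw [map_mul]; exact mul_mem hx hy
  intro x
  show x ∈ (alpha hS hT hg).range
  induction x using AddMonoidAlgebra.induction_linear with
  | zero => exact zero_mem _
  | add x y hx hy => exact add_mem hx hy
  | single m z =>
    rw [single_eq]
    refine mul_mem (hr z) ?_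
    obtain ⟨y, hy⟩ := hgs (MvPolynomial.monomial m 1)
    exact ⟨lS y, by rw [alpha_l, hy, cL_monomial, map_one]⟩


/-- every ring hom out of `V^∞` killing `π` factors through `T_i ⊗ L` -/
theorem exists_factor (hgs : Function.Surjective g) {p1 : L1}
    (hker : ∀ x, g x = 0 → ∃ y, x = p1 * y) {A : Type} [Ring A] (ψ : S →+* A)
    (hψ : ψ (lS p1) = 0) :
    ∃ ψ' : PA T' τ →+* A, ψ'.comp (alpha hS hT hg) = ψ := by
  -- `L → A`
  have hk : ∀ x, g x = 0 → (ψ.comp lS) x = 0 := by
    intro x hx
    obtain ⟨y, rfl⟩ := hker x hx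
    rw [map_mul]
    show ψ (lS p1) * _ = 0
    rw [hψ, zero_mul]
  obtain ⟨m, hm⟩ : ∃ m : MvPolynomial τ F →+* A, ∀ x, m (g x) = ψ (lS x) :=
    ⟨RingHom.liftOfSurjective g hgs ⟨ψ.comp lS, fun x hx => hk x hx⟩, fun x =>
      RingHom.liftOfRightInverse_comp_apply g _ _ ⟨ψ.comp lS, fun x hx => hk x hx⟩ x⟩
  have hmg : m.comp g = ψ.comp lS := RingHom.ext hm
  have hmF : ∀ c : F, m (MvPolynomial.C c) = ψ (lS (algebraMap F L1 c)) := by
    intro c; rw [← hm, hg.gF]
  -- `T' → A`
  have h1 := hS.tuple.map ψ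
  have hmcomm : ∀ x (z : S), Commute (m x) (ψ z) := by
    intro x z
    obtain ⟨y, rfl⟩ := hgs x
    rw [hm]
    exact (hS.comm y z).map ψ
  obtain ⟨f, hf1, hf2, hf3⟩ := hT.lift A (ψ.comp ρS) (m.comp MvPolynomial.C) (fun i => ψ (ηS i))
    (by
      intro c
      rw [RingHom.comp_apply, hS.base, ← hmF]
      rfl)
    (fun x d => hmcomm _ _) (fun x i => hmcomm _ _)
    (by
      have hw : ∀ i, ext' (fun i v => (ψ.comp ρS) (w i v)) (fun i => ψ (ηS i)) i
          = fun v => ψ (ext' (fun i v => ρS (w i v)) ηS i v) := by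
        intro i
        funext v
        cases v <;> rfl
      constructor
      · intro i j
        rw [hw, hw]
        exact h1.comm i j
      · intro i
        simp only [hw]
        rw [h1.rel i, ← hmg, hg.mp_eq]
        congr 1
        refine Finset.sum_congr rfl fun k _ => ?_
        congr 2
        rw [RingHom.comp_apply, hg.gF]
        rfl)
  -- monomials
  let gm : Multiplicative (τ →₀ ℕ) →* A :=
    { toFun := fun x => m (MvPolynomial.monomial x.toAdd 1)
      map_one' := by
        show m (MvPolynomial.monomial 0 1) = 1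
        rw [← MvPolynomial.C_apply, map_one, map_one]
      map_mul' := fun x y => by
        show m (MvPolynomial.monomial (x.toAdd + y.toAdd) 1) = _
        rw [← map_mul, MvPolynomial.monomial_mul, one_mul] }
  have hfcomm : ∀ x y, Commute (f x) (gm y) := by
    intro x y
    refine hT.gen (fun x => Commute (f x) (gm y)) ?_ ?_ ?_ ?_ ?_ x
    · intro d; rw [hf1]; exact (hmcomm _ _).symm
    · intro x; rw [hf2]; exact (Commute.all _ _).map m
    · intro i; rw [hf3]; exact (hmcomm _ _).symm
    · intro x y hx hy; rw [map_add]; exact hx.add_left hy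
    · intro x y hx hy; rw [map_mul]; exact hx.mul_left hy
  have hcst : ∀ z, liftPA f gm hfcomm (cst τ z) = f z := by
    intro z
    rw [cst_apply, liftPA_single]
    have : gm (Multiplicative.ofAdd (0 : τ →₀ ℕ)) = 1 := map_one gm
    rw [this, mul_one]
  refine ⟨liftPA f gm hfcomm, ?_⟩
  apply hS.hom_ext
  · intro d
    rw [RingHom.comp_apply, alpha_ρ, hcst, hf1]
    rfl
  · intro x
    rw [RingHom.comp_apply, alpha_l]
    have h2 : (liftPA f gm hfcomm).comp (cL τ l) = m := by
      apply MvPolynomial.ringHom_ext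
      · intro c
        rw [RingHom.comp_apply, cL_C, hcst, hf2]
        rfl
      · intro t
        rw [RingHom.comp_apply, cL_X, liftPA_single, map_one, one_mul]
        rfl
    rw [← hm]
    exact RingHom.congr_fun h2 (g x)
  · intro i
    rw [RingHom.comp_apply, alpha_η, hcst, hf3]

/-- **`Univ` for `V^∞ → V^∞/π = T_i ⊗ L → D_i ⊗ L`** -/
theorem univ_alpha {D' : Type} [Ring D'] {φ : T' →+* D'} (hφ : Univ φ 0)
    (hgs : Function.Surjective g) {p1 : L1} (hker : ∀ x, g x = 0 → ∃ y, x = p1 * y) :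
    Univ ((UR.mp τ φ).comp (alpha hS hT hg)) (lS p1) :=
  Univ.mp_comp hφ (alpha_surjective hS hT hg hgs)
    fun _ _ ψ hψ => exists_factor hS hT hg hgs hker ψ hψ

end

end Crest.Agent.R181.OR
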