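import Crest.Agent.R181.UR396f
import Crest.Agent.R181.OR836b

-- ▼ part R181/UT773a
section

/-!
# R181, V-chain, block B4 (helper773): universality of the concrete rings
-/

set_option autoImplicit false
set_option linter.unusedSectionVars false

namespace Crest.Agent.R181.UT

open AddMonoidAlgebra Crest.Agent.R181.UR

section inj

variable {σ : Type} {L' : Type} [CommRing L']

variable [Fintype σ] [DecidableEq σ]

theorem sum_Xs_none (al be : L') :
    ∑ v', MvPolynomial.C (Xm (σ := σ) al be none v') * MvPolynomial.X v' =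
      (MvPolynomial.C al * MvPolynomial.X none : MvPolynomial (Option σ) L') := by
  classical
  rw [Finset.sum_eq_single none]
  · simp [Xm]
  · intro b _ hb
    rcases b with _ | b
    · first | exact absurd rfl hb | simp [Xm]
    · first | (simp [Xm]; done) | (have : ¬ v = b := fun h => hb (by rw [h]); simp [Xm, this])
  · simp

theorem sum_Xs_some_none (al be : L') :
    ∑ v', MvPolynomial.C (Xm (σ := σ) al be (some none) v') * MvPolynomial.X v' =
      (MvPolynomial.C be * MvPolynomial.X none : MvPolynomial (Option σ) L') := by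
  classical
  rw [Finset.sum_eq_single none]
  · simp [Xm]
  · intro b _ hb
    rcases b with _ | b
    · first | exact absurd rfl hb | simp [Xm]
    · first | (simp [Xm]; done) | (have : ¬ v = b := fun h => hb (by rw [h]); simp [Xm, this])
  · simp

theorem sum_Xs_some_some (al be : L') (v : σ) :
    ∑ v', MvPolynomial.C (Xm (σ := σ) al be (some (some v)) v') * MvPolynomial.X v' =
      (MvPolynomial.X (some v) : MvPolynomial (Option σ) L') := by
  classical
  rw [Finset.sum_eq_single (some v)]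
  · simp [Xm]
  · intro b _ hb
    rcases b with _ | b
    · first | exact absurd rfl hb | simp [Xm]
    · first | (simp [Xm]; done) | (have : ¬ v = b := fun h => hb (by rw [h]); simp [Xm, this])
  · simp

/-- `(α, p, q) ↦ (α, p + q)` -/
noncomputable def bt (α : Option (Option σ) →₀ ℕ) : Option σ →₀ ℕ :=
  Finsupp.equivFunOnFinite.symm fun v => match v with
    | none => α none + α (some none)
    | some v => α (some (some v))

@[simp] theorem bt_none (α : Option (Option σ) →₀ ℕ) : bt α none = α none + α (some none) := rfl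
@[simp] theorem bt_some (α : Option (Option σ) →₀ ℕ) (v : σ) : bt α (some v) = α (some (some v)) :=
  rfl

theorem bt_inj {α α' : Option (Option σ) →₀ ℕ} (h : bt α = bt α') (h' : α none = α' none) :
    α = α' := by
  ext v
  rcases v with _ | _ | v
  · exact h'
  · have := DFunLike.congr_fun h none
    simp only [bt_none] at this
    omega
  · exact DFunLike.congr_fun h (some v)

theorem prod_Xs (al : L') (α : Option (Option σ) →₀ ℕ) :
    ∏ v, (∑ v', MvPolynomial.C (Xm (σ := σ) al 1 v v') * MvPolynomial.X v') ^ α v =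
      (MvPolynomial.monomial (bt α) (al ^ α none) : MvPolynomial (Option σ) L') := by
  classical
  rw [Fintype.prod_option, Fintype.prod_option, sum_Xs_none, sum_Xs_some_none]
  simp only [sum_Xs_some_some]
  rw [MvPolynomial.monomial_eq, Finsupp.prod_fintype _ _ (fun i => by simp), Fintype.prod_option]
  simp only [bt_none, bt_some, map_one, one_mul, mul_pow, pow_add, map_pow]
  ring

variable {A : Type*} [Ring A] (τ' : L' →+* PowerSeries A) (hτ' : ∀ x y, Commute (τ' x) y) (al : L')

theorem subA_single_eq (hal : τ' al = PowerSeries.X) (α : Option (Option σ) →₀ ℕ) (c : A) :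
    subA (PowerSeries.C (R := A)) τ' hτ' (Xm (σ := σ) al 1) (single α c) =
      single (bt α) (PowerSeries.C c * PowerSeries.X ^ α none) := by
  rw [subA_single, prod_Xs]
  have : mp (Option σ) τ' (MvPolynomial.monomial (bt α) (al ^ α none)) =
      single (bt α) (PowerSeries.X ^ α none) := by
    show mp (Option σ) τ' (single (bt α) (al ^ α none)) = _
    rw [mp_single, map_pow, hal]
  rw [this, cst_apply, single_mul_single, zero_add]

theorem subA_injective (hal : τ' al = PowerSeries.X) :
    Function.Injective (subA (PowerSeries.C (R := A)) τ' hτ' (Xm (σ := σ) al 1)) := by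
  classical
  have key : ∀ (z : PA A (Option (Option σ))) (α : Option (Option σ) →₀ ℕ),
      PowerSeries.coeff (α none)
        ((subA (PowerSeries.C (R := A)) τ' hτ' (Xm (σ := σ) al 1) z).coeff (bt α)) = z.coeff α := by
    intro z α
    induction z using AddMonoidAlgebra.induction_linear with
    | zero => simp
    | add x y hx hy => simp only [map_add, AddMonoidAlgebra.coeff_add, Finsupp.add_apply, hx, hy]
    | single α' c =>
      rw [subA_single_eq τ' hτ' al hal]
      by_cases h : α' = α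
      · subst h
        simp
      · by_cases h1 : bt α' = bt α
        · have h2 : ¬ (α none = α' none) := fun h2 => h (bt_inj h1 h2.symm)
          simp [h1, h, h2, PowerSeries.coeff_X_pow]
        · simp [h, h1]
  intro x y hxy
  ext α
  rw [← key x α, ← key y α, hxy]

end inj


section hom

variable {F D D1 L I σ : Type} [CommRing F] [Ring D] [Algebra F D] [Ring D1] [Algebra F D1]
  [CommRing L] [Algebra F L] [Fintype I] [Fintype σ] [DecidableEq σ]
  {a : I → ℕ} {th : I → I → F} {Q : I → MvPolynomial (Option (Option σ)) L}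
  {w : I → σ → D} {kap : D →+* D1} {w1 : I → Option σ → D1}

/-- the relations of `V^∞`: `x_i ↦ s`, `s ↦ π s` -/
noncomputable abbrev Qinf (Q : I → MvPolynomial (Option (Option σ)) L) :
    I → MvPolynomial (Option σ) (Polynomial L) :=
  Qs Q (Polynomial.C : L →+* Polynomial L) Polynomial.X 1

theorem central_of {A : Type*} [Ring A] (τ' : Polynomial L →+* PowerSeries A)
    (hX : τ' Polynomial.X = PowerSeries.X)
    (hC : ∀ x : L, ∃ c : A, (∀ y, Commute c y) ∧ τ' (Polynomial.C x) = PowerSeries.C c)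
    (x : Polynomial L) (y : PowerSeries A) : Commute (τ' x) y := by
  induction x using Polynomial.induction_on with
  | C c =>
    obtain ⟨c', h1, h2⟩ := hC c
    rw [h2]
    show _ * _ = _ * _
    ext n
    rw [PowerSeries.coeff_C_mul, PowerSeries.coeff_mul_C]
    exact h1 _
  | add p q hp hq => rw [map_add]; exact hp.add_left hq
  | monomial n c hc =>
    rw [pow_succ, ← mul_assoc, map_mul, hX]
    exact hc.mul_left (PowerSeries.commute_X y).symm

/-- **Lemma 4**: the relations of `T = U a th Q w1` in `A` from those of `V^∞` in `A⟦X⟧`. -/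
theorem exists_hom {A : Type*} [Ring A]
    (ψ : U a th (Qinf Q) w →+* PowerSeries A)
    (ρ : D1 →+* A) (τ : L →+* A) (η : I → A)
    (hw : ∀ i v, w1 i (some v) = kap (w i v))
    (hX : ψ (iL a th (Qinf Q) w Polynomial.X) = PowerSeries.X)
    (h1 : ∀ d, ψ (iD a th (Qinf Q) w d) = PowerSeries.C (ρ (kap d)))
    (h2 : ∀ x, ψ (iL a th (Qinf Q) w (Polynomial.C x)) = PowerSeries.C (τ x))
    (h3 : ∀ i, ψ (eta a th (Qinf Q) w i) =
      PowerSeries.C (ρ (w1 i none)) + PowerSeries.X * PowerSeries.C (η i))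
    (hb : ∀ c : F, ρ (algebraMap F D1 c) = τ (algebraMap F L c))
    (hD : ∀ x d, Commute (τ x) (ρ d)) (hI : ∀ x i, Commute (τ x) (η i)) :
    ∃ f : U a th Q w1 →+* A, (∀ d, f (iD a th Q w1 d) = ρ d) ∧
      (∀ x, f (iL a th Q w1 x) = τ x) ∧ ∀ i, f (eta a th Q w1 i) = η i := by
  classical
  apply exists_lift ρ τ η hb hD hI
  -- the centralizer of `τ L`
  let A₁ := Subring.centralizer (Set.range τ)
  have hρ : ∀ d, ρ d ∈ A₁ := fun d => Subring.mem_centralizer_iff.2 (by
    rintro _ ⟨x, rfl⟩; exact hD x d)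
  have hη : ∀ i, η i ∈ A₁ := fun i => Subring.mem_centralizer_iff.2 (by
    rintro _ ⟨x, rfl⟩; exact hI x i)
  have hτ : ∀ x, τ x ∈ A₁ := fun x => Subring.mem_centralizer_iff.2 (by
    rintro _ ⟨y, rfl⟩; exact (Commute.all y x).map τ)
  let ρ₁ : D1 →+* A₁ := ρ.codRestrict A₁ hρ
  let τ₁ : L →+* A₁ := τ.codRestrict A₁ hτ
  let η₁ : I → A₁ := fun i => ⟨η i, hη i⟩
  have hcen : ∀ (x : L) (y : A₁), Commute (τ₁ x) y := fun x y =>
    Subtype.ext (Subring.mem_centralizer_iff.1 y.2 (τ x) ⟨x, rfl⟩)
  -- the tuple over `A₁`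
  suffices h : IsTuple a th Q τ₁ (ext' (fun i v => ρ₁ (w1 i v)) η₁) by
    have h' := h.map A₁.subtype
    have e1 : A₁.subtype.comp τ₁ = τ := RingHom.ext fun _ => rfl
    rw [e1] at h'
    have e2 : (fun (i : I) (v : Option (Option σ)) => A₁.subtype
        (ext' (fun i v => ρ₁ (w1 i v)) η₁ i v)) = ext' (fun i v => ρ (w1 i v)) η := by
      funext i v
      cases v <;> rfl
    rwa [e2] at h'
  let τ' : Polynomial L →+* PowerSeries A₁ :=
    Polynomial.eval₂RingHom' ((PowerSeries.C (R := A₁)).comp τ₁) PowerSeries.X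
      (fun x => (PowerSeries.commute_X _))
  have hτX : τ' Polynomial.X = PowerSeries.X := by
    simp [τ']
  have hτC : ∀ x : L, τ' (Polynomial.C x) = PowerSeries.C (τ₁ x) := fun x => by
    simp [τ']
  have hτ' : ∀ x y, Commute (τ' x) y :=
    central_of τ' hτX fun x => ⟨τ₁ x, hcen x, hτC x⟩
  refine IsTuple.of_subst (F := F) (PowerSeries.C (R := A₁)) (Polynomial.C) τ₁ τ' hτ'
    (Xm Polynomial.X 1) (subA_injective τ' hτ' _ hτX) ?_ (fun c => rfl) ?_
  · exact RingHom.ext fun x => (hτC x).symm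
  · -- compare with the tuple of `V^∞`
    have hinj : Function.Injective (PowerSeries.map A₁.subtype) := by
      intro f g hfg
      ext n
      have := congrArg (PowerSeries.coeff n) hfg
      simpa using this
    refine IsTuple.of_injective (PowerSeries.map A₁.subtype) hinj ?_
    have h0 : IsTuple a th (fun i => subL (Polynomial.C : L →+* Polynomial L)
        (Xm Polynomial.X 1) (Q i)) _ _ := (isTuple_wU a th (Qinf Q) w).map ψ
    have e1 : ψ.comp (iL a th (Qinf Q) w) = (PowerSeries.map A₁.subtype).comp τ' := by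
      apply Polynomial.ringHom_ext
      · intro x
        simp only [RingHom.comp_apply, h2, hτC]
        simp [τ₁]
      · simp only [RingHom.comp_apply, hX, hτX]
        simp
    rw [e1] at h0
    convert h0 using 1
    funext i v'
    rw [map_sum, Fintype.sum_option, Fintype.sum_option]
    rcases v' with _ | v'
    · have e3 : wU a th (Qinf Q) w i none = eta a th (Qinf Q) w i := rfl
      rw [e3, h3, Finset.sum_eq_zero]
      · simp [Xm, hτX, ρ₁, η₁, ext', PowerSeries.X_mul, add_comm]
      · intro v _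
        simp [Xm]
    · have e3 : wU a th (Qinf Q) w i (some v') = iD a th (Qinf Q) w (w i v') := rfl
      rw [e3, h1, Finset.sum_eq_single v']
      · simp [Xm, ρ₁, ext', hw]
      · intro v _ hv
        simp [Xm, hv]
      · simp

end hom

end Crest.Agent.R181.UT
end

-- ▼ part R181/UT773b

/-!
# R181, V-chain, block B4 (helper773): `UnivT` for the concrete rings

`S = V^∞ = U a th (Qinf Q) w`, `T = U a th Q w1`, `j : S → T⟦π⟧`, `Δ ⊂ T` the constants.
-/

set_option autoImplicit false
set_option linter.unusedSectionVars false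

namespace Crest.Agent.R181.UT

open AddMonoidAlgebra Crest.Agent.R181.UR Crest.Agent.R181.RO Crest.Agent.R181.OR

section generic

universe u

variable {T S Δ : Type u} [Ring T] [Ring S] [Ring Δ]
variable {j : S →+* PowerSeries T} {δ : S →+* Δ} {i : Δ →+* T} {p : S}

/-- the condition "`x^l j(s) ∈ V` ⇒ `ψ s` has degree `≤ l`" -/
def DegCond (h : Dat j δ i p) (V : Subring (DD h)) {A : Type*} [Ring A]
    (ψ : S →+* PowerSeries A) : Prop :=
  ∀ (l : ℕ) (s : S), xD h ^ l * (toOD h ⟨j s, j_mem_O s⟩ : DD h) ∈ V →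
    ∀ n, l < n → PowerSeries.coeff n (ψ s) = 0

theorem pxD_pow (h : Dat j δ i p) (m : ℕ) : pD h ^ m * xD h ^ m = 1 := by
  induction m with
  | zero => simp
  | succ m ih =>
    rw [pow_succ, pow_succ', mul_assoc, ← mul_assoc (pD h), pD_mul_xD, one_mul, ih]

/-- `UnivT` from a statement about homs `S → A⟦X⟧` and `Δ → A`. -/
noncomputable def univT₀ (h : Dat j δ i p) (V : Subring (DD h)) (hx : xD h ∈ V)
    (hV : ∀ v ∈ V, ∀ n : ℤ, 0 < n → (v : LaurentSeries T).coeff n = 0)
    (hgen : Subring.closure (Set.range i ∪ {t : T | ∃ (s : S) (n : ℕ),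
      t = PowerSeries.coeff n (j s)}) = ⊤)
    (huniv : ∀ (A : Type u) [Ring A] (ψ : S →+* PowerSeries A) (β : Δ →+* A),
      (∀ s, β (δ s) = PowerSeries.constantCoeff (ψ s)) → ψ p = PowerSeries.X → DegCond h V ψ →
      ∃ f : T →+* A, ψ = (PowerSeries.map f).comp j) :
    V868.UnivT (line h V hx hV) T where
  Θ := (DD h).subtype
  Θx := rfl
  ΘV := hV
  ΘO o ho n hn := (mem_OD_iff_coeff h).1 ho n hn
  gen := by
    have hco : ∀ (o : O j δ) (n : ℕ), PowerSeries.coeff n o.1 ∈
        Subring.closure {t : T | ∃ (d : DD h) (n : ℤ), t = ((DD h).subtype d).coeff n} := by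
      intro o n
      apply Subring.subset_closure
      refine ⟨toOD h o, n, ?_⟩
      show _ = (HahnSeries.ofPowerSeries ℤ _ o.1).coeff (n : ℤ)
      rw [HahnSeries.ofPowerSeries_apply_coeff]
    rw [eq_top_iff, ← hgen, Subring.closure_le]
    rintro _ (⟨d, rfl⟩ | ⟨s, n, rfl⟩)
    · obtain ⟨f, hf, h1⟩ := RO.exists_lift h d
      have := hco ⟨f, hf⟩ 0
      rwa [PowerSeries.coeff_zero_eq_constantCoeff_apply, h1] at this
    · exact hco ⟨j s, j_mem_O s⟩ n
  univ := by
    intro A _ θ hθ hcond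
    let θ' : O j δ →+* PowerSeries A := θ.comp (toOD h)
    have hθ' : θ' (pi h) = PowerSeries.X := by
      show θ (toOD h (pi h)) = _
      rw [toOD_pi]
      exact hθ
    let β₀ : O j δ →+* A := (PowerSeries.constantCoeff (R := A)).comp θ'
    have hker : ∀ x, q h x = 0 → β₀ x = 0 := by
      intro x hx
      obtain ⟨g, rfl⟩ := (q_eq_zero_iff h x).1 hx
      show PowerSeries.constantCoeff (θ' (pi h * g)) = 0
      rw [map_mul, hθ']
      simp
    have hβ₀ : ∀ x y, q h x = q h y → β₀ x = β₀ y := fun x y hxy => by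
      rw [← sub_eq_zero, ← map_sub]
      exact hker _ (by rw [map_sub, hxy, sub_self])
    choose r hr using q_surjective h
    let β : Δ →+* A :=
      { toFun := fun d => β₀ (r d)
        map_one' := by
          rw [← map_one β₀]; exact hβ₀ _ _ (by rw [hr, map_one])
        map_zero' := by
          rw [← map_zero β₀]; exact hβ₀ _ _ (by rw [hr, map_zero])
        map_mul' := fun x y => by
          rw [← map_mul β₀]; exact hβ₀ _ _ (by rw [hr, map_mul, hr, hr])
        map_add' := fun x y => by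
          rw [← map_add β₀]; exact hβ₀ _ _ (by rw [hr, map_add, hr, hr]) }
    have hβ : ∀ o, β (q h o) = PowerSeries.constantCoeff (θ' o) := fun o =>
      hβ₀ _ _ (hr _)
    let ψ : S →+* PowerSeries A := θ'.comp (j.codRestrict (O j δ) fun s => j_mem_O s)
    have hψ : ∀ s, ψ s = θ' ⟨j s, j_mem_O s⟩ := fun s => rfl
    obtain ⟨f, h5⟩ := huniv A ψ β (fun s => by rw [← q_j h s, hβ]; rfl)
      (by rw [hψ, ← hθ']; congr 1; exact Subtype.ext h.jp) (by
        intro l s hs n hn
        have hm : pD h ^ l * (xD h ^ l * (toOD h ⟨j s, j_mem_O s⟩ : DD h)) =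
            (toOD h ⟨j s, j_mem_O s⟩ : DD h) := by
          rw [← mul_assoc, pxD_pow, one_mul]
        have h1 : pD h ^ l * (xD h ^ l * (toOD h ⟨j s, j_mem_O s⟩ : DD h)) ∈ OD h := by
          rw [hm]; exact (toOD h ⟨j s, j_mem_O s⟩).2
        have := hcond _ hs l n h1 hn
        rw [← this]
        congr 1
        show θ _ = θ _
        congr 1
        exact Subtype.ext hm.symm)
    refine ⟨f, ?_⟩
    have h6 : θ' = (PowerSeries.map f).comp (O j δ).subtype := by
      apply OR.hom_ext h _ _ hθ'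
      intro s
      rw [← hψ, h5]
      rfl
    intro o n
    obtain ⟨g, rfl⟩ := toOD_surjective h o
    have h7 : θ (toOD h g) = θ' g := rfl
    rw [h7, h6]
    show _ = f ((HahnSeries.ofPowerSeries ℤ _ g.1).coeff (n : ℤ))
    rw [HahnSeries.ofPowerSeries_apply_coeff]
    simp

end generic

section univT

variable {F D D1 L I σ Δ : Type} [CommRing F] [Ring D] [Algebra F D] [Ring D1] [Algebra F D1]
  [CommRing L] [Algebra F L] [Fintype I] [Fintype σ] [DecidableEq σ] [Ring Δ]
  {a : I → ℕ} {th : I → I → F} {Q : I → MvPolynomial (Option (Option σ)) L}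
  {w : I → σ → D} {kap : D →+* D1} {w1 : I → Option σ → D1}

/-- the values of `j` on the generators -/
structure IsChain (kap : D →+* D1) (w1 : I → Option σ → D1)
    (j : U a th (Qinf Q) w →+* PowerSeries (U a th Q w1)) : Prop where
  hw : ∀ l v, w1 l (some v) = kap (w l v)
  D : ∀ d, j (iD a th (Qinf Q) w d) = PowerSeries.C (iD a th Q w1 (kap d))
  L : ∀ x, j (iL a th (Qinf Q) w (Polynomial.C x)) = PowerSeries.C (iL a th Q w1 x)
  X : j (iL a th (Qinf Q) w Polynomial.X) = PowerSeries.X
  E : ∀ l, j (eta a th (Qinf Q) w l) = PowerSeries.C (eta a th Q w1 l) * PowerSeries.X +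
    PowerSeries.C (iD a th Q w1 (w1 l none))

theorem IsChain.E' {j : U a th (Qinf Q) w →+* PowerSeries (U a th Q w1)} (hc : IsChain kap w1 j)
    (l : I) : j (eta a th (Qinf Q) w l) = PowerSeries.C (iD a th Q w1 (w1 l none)) +
    PowerSeries.X * PowerSeries.C (eta a th Q w1 l) := by
  rw [hc.E, add_comm, PowerSeries.X_mul]

theorem eq_C_of {A : Type*} [Ring A] (f : PowerSeries A)
    (hf : ∀ n, 0 < n → PowerSeries.coeff n f = 0) :
    f = PowerSeries.C (PowerSeries.constantCoeff f) := by
  ext n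
  rw [PowerSeries.coeff_C]
  split_ifs with hn
  · subst hn; simp
  · exact hf n (Nat.pos_of_ne_zero hn)

theorem eq_C_add_of {A : Type*} [Ring A] (f : PowerSeries A)
    (hf : ∀ n, 1 < n → PowerSeries.coeff n f = 0) :
    f = PowerSeries.C (PowerSeries.constantCoeff f) +
      PowerSeries.X * PowerSeries.C (PowerSeries.coeff 1 f) := by
  ext n
  rcases n with _ | _ | n
  · simp
  · rw [map_add, PowerSeries.coeff_succ_X_mul, PowerSeries.coeff_C, PowerSeries.coeff_C]; simp
  · rw [hf _ (by omega), map_add, PowerSeries.coeff_succ_X_mul]; simp [PowerSeries.coeff_C]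

/-- the hom `T → A` -/
theorem exists_hom' {j : U a th (Qinf Q) w →+* PowerSeries (U a th Q w1)}
    (hc : IsChain kap w1 j) {A : Type*} [Ring A] (ψ : U a th (Qinf Q) w →+* PowerSeries A)
    (ρ : D1 →+* A) (τ : L →+* A)
    (hb : ∀ c : F, ρ (algebraMap F D1 c) = τ (algebraMap F L c))
    (hD : ∀ x d, Commute (τ x) (ρ d))
    (hX : ψ (iL a th (Qinf Q) w Polynomial.X) = PowerSeries.X)
    (h1 : ∀ d, PowerSeries.constantCoeff (ψ (iD a th (Qinf Q) w d)) = ρ (kap d))
    (h2 : ∀ x, PowerSeries.constantCoeff (ψ (iL a th (Qinf Q) w (Polynomial.C x))) = τ x)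
    (h3 : ∀ l, PowerSeries.constantCoeff (ψ (eta a th (Qinf Q) w l)) = ρ (w1 l none))
    (g1 : ∀ d n, 0 < n → PowerSeries.coeff n (ψ (iD a th (Qinf Q) w d)) = 0)
    (g2 : ∀ x n, 0 < n → PowerSeries.coeff n (ψ (iL a th (Qinf Q) w (Polynomial.C x))) = 0)
    (g3 : ∀ l n, 1 < n → PowerSeries.coeff n (ψ (eta a th (Qinf Q) w l)) = 0) :
    ∃ f : U a th Q w1 →+* A, (∀ d, f (iD a th Q w1 d) = ρ d) ∧ (∀ x, f (iL a th Q w1 x) = τ x) ∧
      ψ = (PowerSeries.map f).comp j := by
  have e1 : ∀ d, ψ (iD a th (Qinf Q) w d) = PowerSeries.C (ρ (kap d)) := fun d => by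
    rw [← h1]; exact eq_C_of _ (g1 d)
  have e2 : ∀ x, ψ (iL a th (Qinf Q) w (Polynomial.C x)) = PowerSeries.C (τ x) := fun x => by
    rw [← h2]; exact eq_C_of _ (g2 x)
  have e3 : ∀ l, ψ (eta a th (Qinf Q) w l) = PowerSeries.C (ρ (w1 l none)) +
      PowerSeries.X * PowerSeries.C (PowerSeries.coeff 1 (ψ (eta a th (Qinf Q) w l))) := fun l => by
    rw [← h3]; exact eq_C_add_of _ (g3 l)
  obtain ⟨f, hf1, hf2, hf3⟩ := exists_hom (Q := Q) (w1 := w1) (kap := kap) ψ ρ τ
    (fun l => PowerSeries.coeff 1 (ψ (eta a th (Qinf Q) w l))) hc.hw hX e1 e2 e3 hb hD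
    (fun x l => by
      have h1 := (iL_comm a th (Qinf Q) w (Polynomial.C x) (eta a th (Qinf Q) w l)).map ψ
      rw [e2] at h1
      have h2 := congrArg (PowerSeries.coeff 1) h1.eq
      rw [PowerSeries.coeff_C_mul, PowerSeries.coeff_mul_C] at h2
      exact h2)
  refine ⟨f, hf1, hf2, ?_⟩
  apply hom_ext'
  · intro d
    rw [e1, RingHom.comp_apply, hc.D, PowerSeries.map_C, hf1]
  · intro x
    have : ψ.comp (iL a th (Qinf Q) w) =
        ((PowerSeries.map f).comp j).comp (iL a th (Qinf Q) w) := by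
      apply Polynomial.ringHom_ext
      · intro x
        simp only [RingHom.comp_apply]
        rw [e2, hc.L, PowerSeries.map_C, hf2]
      · simp only [RingHom.comp_apply]
        rw [hX, hc.X, PowerSeries.map_X]
    exact RingHom.congr_fun this x
  · intro l
    rw [e3, RingHom.comp_apply, hc.E', map_add, map_mul, PowerSeries.map_C, PowerSeries.map_C,
      PowerSeries.map_X, hf1, hf3]

variable {j : U a th (Qinf Q) w →+* PowerSeries (U a th Q w1)}
  {δ : U a th (Qinf Q) w →+* Δ} {i : Δ →+* U a th Q w1}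

/-- **`T` is the universal ring** -/
noncomputable def univT (hc : IsChain kap w1 j)
    (h : Dat j δ i (iL a th (Qinf Q) w Polynomial.X))
    (dl : D1 →+* Δ) (ll : L →+* Δ) (hdl : ∀ d, i (dl d) = iD a th Q w1 d)
    (hll : ∀ x, i (ll x) = iL a th Q w1 x)
    (V : Subring (DD h)) (hx : xD h ∈ V)
    (hV : ∀ v ∈ V, ∀ n : ℤ, 0 < n → (v : LaurentSeries (U a th Q w1)).coeff n = 0)
    (hVD : ∀ d, (toOD h ⟨j (iD a th (Qinf Q) w d), j_mem_O _⟩ : DD h) ∈ V)
    (hVL : ∀ x, (toOD h ⟨j (iL a th (Qinf Q) w (Polynomial.C x)), j_mem_O _⟩ : DD h) ∈ V)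
    (hVE : ∀ l, xD h * (toOD h ⟨j (eta a th (Qinf Q) w l), j_mem_O _⟩ : DD h) ∈ V) :
    V868.UnivT (line h V hx hV) (U a th Q w1) := by
  refine univT₀ h V hx hV ?_ ?_
  · rw [eq_top_iff]
    intro t _
    refine generation a th Q w1 (fun t => t ∈ Subring.closure (Set.range i ∪
      {t : U a th Q w1 | ∃ (s : U a th (Qinf Q) w) (n : ℕ), t = PowerSeries.coeff n (j s)}))
      ?_ ?_ ?_ ?_ ?_ t
    · intro d
      exact Subring.subset_closure (Or.inl ⟨dl d, hdl d⟩)
    · intro x
      exact Subring.subset_closure (Or.inl ⟨ll x, hll x⟩)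
    · intro l
      refine Subring.subset_closure (Or.inr ⟨eta a th (Qinf Q) w l, 1, ?_⟩)
      rw [hc.E', map_add, show (1 : ℕ) = 0 + 1 from rfl, PowerSeries.coeff_succ_X_mul,
        PowerSeries.coeff_C, PowerSeries.coeff_C]
      simp
    · intro x y hx hy; exact add_mem hx hy
    · intro x y hx hy; exact mul_mem hx hy
  · intro A _ ψ β hβψ hψX hcond
    -- the values of `δ`
    have hδD : ∀ d, δ (iD a th (Qinf Q) w d) = dl (kap d) := fun d => h.inj (by
      rw [h.comp, hc.D, hdl]; simp)
    have hδL : ∀ x, δ (iL a th (Qinf Q) w (Polynomial.C x)) = ll x := fun d => h.inj (by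
      rw [h.comp, hc.L, hll]; simp)
    have hδE : ∀ l, δ (eta a th (Qinf Q) w l) = dl (w1 l none) := fun d => h.inj (by
      rw [h.comp, hc.E, hdl]; simp)
    have hllc : ∀ x d, Commute (ll x) (dl d) := fun x d => h.inj (by
      rw [map_mul, map_mul, hdl, hll]; exact iL_comm a th Q w1 x _)
    have hbase : ∀ c : F, dl (algebraMap F D1 c) = ll (algebraMap F L c) := fun c => h.inj (by
      rw [hdl, hll, iD_base])
    obtain ⟨f, -, -, hf⟩ := exists_hom' hc ψ (β.comp dl) (β.comp ll)
      (fun c => congrArg β (hbase c)) (fun x d => (hllc x d).map β) hψX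
      (fun d => by rw [← hβψ, hδD]; rfl) (fun x => by rw [← hβψ, hδL]; rfl)
      (fun l => by rw [← hβψ, hδE]; rfl)
      (fun d n hn => hcond 0 _ (by rw [pow_zero, one_mul]; exact hVD d) n hn)
      (fun d n hn => hcond 0 _ (by rw [pow_zero, one_mul]; exact hVL d) n hn)
      (fun l n hn => hcond 1 _ (by rw [pow_one]; exact hVE l) n hn)
    exact ⟨f, hf⟩

end univT

section concrete

variable {F D D1 L I σ : Type} [CommRing F] [Ring D] [Algebra F D] [Ring D1] [Algebra F D1]
  [CommRing L] [Algebra F L] [Fintype I] [Fintype σ] [DecidableEq σ]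
  (a : I → ℕ) (th : I → I → F) {Q : I → MvPolynomial (Option (Option σ)) L}
  {w : I → σ → D} {kap : D →+* D1} {w1 : I → Option σ → D1}
  (hk : ∀ i v, w1 i (some v) = kap (w i v))
  (hkF : ∀ c : F, kap (algebraMap F D c) = algebraMap F D1 c)

theorem commute_C_iL (x : L) (y : PowerSeries (U a th Q w1)) :
    Commute (PowerSeries.C (iL a th Q w1 x)) y := by
  show _ * _ = _ * _
  ext n
  rw [PowerSeries.coeff_C_mul, PowerSeries.coeff_mul_C]
  exact iL_comm a th Q w1 x _

/-- `V^∞ → T⟦π⟧`, `π ↦ X`, `η'' ↦ ξ + η X` -/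
noncomputable def jinf : Vinf a th Q w →+* PowerSeries (U a th Q w1) :=
  chainInf a th hk hkF PowerSeries.C PowerSeries.X (fun y => (PowerSeries.commute_X y).symm)
    (commute_C_iL a th)

theorem isChain_jinf : IsChain kap w1 (jinf a th (Q := Q) hk hkF) where
  hw := hk
  D d := chainInf_iD a th hk hkF _ _ _ _ d
  L x := chainInf_iL a th hk hkF _ _ _ _ x
  X := chainInf_X a th hk hkF _ _ _ _
  E l := chainInf_eta a th hk hkF _ _ _ _ l

/-- `T → T((π))` -/
noncomputable def CL : U a th Q w1 →+* LaurentSeries (U a th Q w1) :=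
  (HahnSeries.ofPowerSeries ℤ (U a th Q w1)).comp PowerSeries.C

theorem CL_eq (t : U a th Q w1) : CL a th t = HahnSeries.single (0 : ℤ) t :=
  HahnSeries.ofPowerSeries_C t

theorem commute_CL_iL (x : L) (y : LaurentSeries (U a th Q w1)) :
    Commute (CL a th (iL a th Q w1 x)) y := by
  show _ * _ = _ * _
  rw [CL_eq]
  ext n
  rw [HahnSeries.coeff_single_mul, HahnSeries.coeff_mul_single]
  exact iL_comm a th Q w1 x _

/-- `V' → T((π))`, `x ↦ π⁻¹`, `η' ↦ η + ξ x` -/
noncomputable def jV : Vp a th Q w →+* LaurentSeries (U a th Q w1) :=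
  chainV a th hk hkF (CL a th) (HahnSeries.single (-1) 1) (fun y => single_comm (-1) y)
    (commute_CL_iL a th)

@[simp] theorem jV_iD (d : D) : jV a th (Q := Q) hk hkF (iD a th _ w d) =
    CL a th (iD a th Q w1 (kap d)) := chainV_iD a th hk hkF _ _ _ _ d

@[simp] theorem jV_iL (x : L) : jV a th (Q := Q) hk hkF (iL a th _ w (Polynomial.C x)) =
    CL a th (iL a th Q w1 x) := chainV_iL a th hk hkF _ _ _ _ x

@[simp] theorem jV_X : jV a th (Q := Q) hk hkF (iL a th _ w Polynomial.X) =
    HahnSeries.single (-1) 1 := chainV_X a th hk hkF _ _ _ _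

@[simp] theorem jV_eta (l : I) : jV a th (Q := Q) hk hkF (eta a th _ w l) =
    CL a th (eta a th Q w1 l) + CL a th (iD a th Q w1 (w1 l none)) * HahnSeries.single (-1) 1 :=
  chainV_eta a th hk hkF _ _ _ _ l

/-- Laurent series which are polynomials in `x = π⁻¹` -/
def PolyX (T : Type*) [Ring T] : Subring (LaurentSeries T) where
  carrier := {f | ∀ n : ℤ, 0 < n → f.coeff n = 0}
  mul_mem' := by
    intro f g hf hg n hn
    rw [HahnSeries.coeff_mul]
    refine Finset.sum_eq_zero fun x hx => ?_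
    rw [Finset.mem_addAntidiagonal] at hx
    exfalso
    have h1 : ¬ 0 < x.1 := fun h => hx.1 (hf _ h)
    have h2 : ¬ 0 < x.2 := fun h => hx.2.1 (hg _ h)
    have := hx.2.2
    omega
  one_mem' := by
    intro n hn
    rw [HahnSeries.coeff_one, if_neg hn.ne']
  add_mem' := by
    intro f g hf hg n hn
    rw [HahnSeries.coeff_add, hf n hn, hg n hn, add_zero]
  zero_mem' := fun n _ => HahnSeries.coeff_zero
  neg_mem' := by
    intro f hf n hn
    rw [HahnSeries.coeff_neg, hf n hn, neg_zero]


theorem single_mem_PolyX {T : Type*} [Ring T] (n : ℤ) (hn : n ≤ 0) (t : T) :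
    HahnSeries.single n t ∈ PolyX T := by
  intro m hm
  rw [HahnSeries.coeff_single, if_neg (by omega)]

theorem jV_mem_PolyX (v : Vp a th Q w) : jV a th (Q := Q) hk hkF v ∈ PolyX (U a th Q w1) := by
  have hC : ∀ t : U a th Q w1, CL a th t ∈ PolyX (U a th Q w1) := fun t => by
    rw [CL_eq]; exact single_mem_PolyX 0 le_rfl t
  refine generation a th _ w (fun v => jV a th (Q := Q) hk hkF v ∈ PolyX (U a th Q w1))
    ?_ ?_ ?_ ?_ ?_ v
  · intro d
    rw [jV_iD]; exact hC _
  · intro x
    induction x using Polynomial.induction_on with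
    | C x => rw [jV_iL]; exact hC _
    | add x y hx hy => rw [map_add, map_add]; exact add_mem hx hy
    | monomial n x hx =>
      rw [pow_succ, ← mul_assoc, map_mul, map_mul, jV_X]
      exact mul_mem hx (single_mem_PolyX (-1) (by omega) 1)
  · intro l
    rw [jV_eta]
    exact add_mem (hC _) (mul_mem (hC _) (single_mem_PolyX (-1) (by omega) 1))
  · intro x y hx hy; rw [map_add]; exact add_mem hx hy
  · intro x y hx hy; rw [map_mul]; exact mul_mem hx hy

variable {Δ : Type} [Ring Δ] {δ : Vinf a th Q w →+* Δ} {i : Δ →+* U a th Q w1}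
  (h : Dat (jinf a th (Q := Q) hk hkF) δ i (iL a th _ w Polynomial.X))

/-- the subring `V` of `DD` : the image of `V'` -/
noncomputable def VS : Subring (DD h) := (jV a th (Q := Q) hk hkF).range.comap (DD h).subtype

theorem mem_VS {d : DD h} : d ∈ VS a th hk hkF h ↔
    ∃ v, jV a th (Q := Q) hk hkF v = (d : LaurentSeries (U a th Q w1)) := Iff.rfl

theorem xD_mem_VS : xD h ∈ VS a th hk hkF h := ⟨_, jV_X a th hk hkF⟩

theorem VS_coeff (v : DD h) (hv : v ∈ VS a th hk hkF h) (n : ℤ) (hn : 0 < n) :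
    (v : LaurentSeries (U a th Q w1)).coeff n = 0 := by
  obtain ⟨v', hv'⟩ := hv
  have := jV_mem_PolyX a th hk hkF v' n hn
  rw [hv'] at this
  exact this

theorem D_mem_VS (d : D) :
    (toOD h ⟨jinf a th (Q := Q) hk hkF (iD a th _ w d), j_mem_O _⟩ : DD h) ∈ VS a th hk hkF h := by
  refine ⟨iD a th _ w d, ?_⟩
  rw [jV_iD]
  show _ = HahnSeries.ofPowerSeries ℤ _ (jinf a th (Q := Q) hk hkF (iD a th _ w d))
  rw [(isChain_jinf a th hk hkF).D]
  rfl

theorem L_mem_VS (x : L) : (toOD h ⟨jinf a th (Q := Q) hk hkF (iL a th _ w (Polynomial.C x)),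
    j_mem_O _⟩ : DD h) ∈ VS a th hk hkF h := by
  refine ⟨iL a th _ w (Polynomial.C x), ?_⟩
  rw [jV_iL]
  show _ = HahnSeries.ofPowerSeries ℤ _ (jinf a th (Q := Q) hk hkF (iL a th _ w (Polynomial.C x)))
  rw [(isChain_jinf a th hk hkF).L]
  rfl

theorem E_mem_VS (l : I) : xD h * (toOD h ⟨jinf a th (Q := Q) hk hkF (eta a th _ w l),
    j_mem_O _⟩ : DD h) ∈ VS a th hk hkF h := by
  refine ⟨eta a th _ w l, ?_⟩
  rw [jV_eta]
  show _ = HahnSeries.single (-1) 1 *
    HahnSeries.ofPowerSeries ℤ _ (jinf a th (Q := Q) hk hkF (eta a th _ w l))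
  rw [(isChain_jinf a th hk hkF).E, map_add, map_mul, HahnSeries.ofPowerSeries_X, mul_add,
    ← single_comm 1, ← mul_assoc, single_mul_single', single_comm (-1)]
  have : (HahnSeries.single (-1 + 1 : ℤ) (1 : U a th Q w1) : LaurentSeries (U a th Q w1)) = 1 := by
    rw [neg_add_cancel]; rfl
  rw [this, one_mul]
  rfl

/-- **`UnivT` for the concrete rings.** -/
noncomputable def univTc (dl : D1 →+* Δ) (ll : L →+* Δ) (hdl : ∀ d, i (dl d) = iD a th Q w1 d)
    (hll : ∀ x, i (ll x) = iL a th Q w1 x) :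
    V868.UnivT (line h (VS a th hk hkF h) (xD_mem_VS a th hk hkF h) (VS_coeff a th hk hkF h))
      (U a th Q w1) :=
  univT (isChain_jinf a th hk hkF) h dl ll hdl hll _ _ _ (D_mem_VS a th hk hkF h)
    (L_mem_VS a th hk hkF h) (E_mem_VS a th hk hkF h)

end concrete

end Crest.Agent.R181.UT
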