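import Crest.Agent.R181.V868a

-- ▼ part R181/V868b
section

/-!
# R181, V-chain, block V1: the module `N = G_aff ∩ G_inf`, the ring map `θN`
-/

namespace Crest.Agent.R181.V868

universe u

section EndAux
variable {A : Type*} [AddCommGroup A]

theorem end_ext {f g : AddMonoid.End A} (h : ∀ m, f m = g m) : f = g := AddMonoidHom.ext h

/-- evaluation -/
def ev (m : A) : AddMonoid.End A →+ A where
  toFun f := f m
  map_zero' := rfl
  map_add' _ _ := rfl

theorem ev_apply (m : A) (f : AddMonoid.End A) : ev m f = f m := rfl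

theorem end_mul_apply (f g : AddMonoid.End A) (m : A) : (f * g) m = f (g m) := rfl
theorem end_one_apply (m : A) : (1 : AddMonoid.End A) m = m := rfl
theorem end_zero_apply (m : A) : (0 : AddMonoid.End A) m = 0 := rfl
theorem end_add_apply (f g : AddMonoid.End A) (m : A) : (f + g) m = f m + g m := rfl
end EndAux

namespace Line

variable {DD : Type u} [Ring DD] (L : Line DD)

/-- `x` as a unit -/
def ux : DDˣ := ⟨L.x, L.p, L.xp, L.px⟩

/-- integer powers of `x` -/
def xz (n : ℤ) : DD := ((L.ux ^ n : DDˣ) : DD)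

@[simp] lemma xz_zero : L.xz 0 = 1 := by simp [xz]
@[simp] lemma xz_one : L.xz 1 = L.x := by simp [xz, ux]
@[simp] lemma xz_neg_one : L.xz (-1) = L.p := by simp [xz, ux]
lemma xz_add (m n : ℤ) : L.xz (m + n) = L.xz m * L.xz n := by simp [xz, zpow_add]
lemma xz_nat (n : ℕ) : L.xz (n : ℤ) = L.x ^ n := by simp [xz, ux]
lemma xz_neg_nat (n : ℕ) : L.xz (-(n : ℤ)) = L.p ^ n := by simp [xz, ux]

lemma x_pow_comm (n : ℕ) (d : DD) : L.x ^ n * d = d * L.x ^ n := by
  induction n with
  | zero => simp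
  | succ k ih => rw [pow_succ, mul_assoc, L.xc, ← mul_assoc, ih, mul_assoc]

lemma p_pow_comm (n : ℕ) (d : DD) : L.p ^ n * d = d * L.p ^ n := by
  induction n with
  | zero => simp
  | succ k ih => rw [pow_succ, mul_assoc, L.pc, ← mul_assoc, ih, mul_assoc]

lemma xz_comm (n : ℤ) (d : DD) : L.xz n * d = d * L.xz n := by
  rcases Int.eq_nat_or_neg n with ⟨k, rfl | rfl⟩
  · rw [xz_nat]; exact L.x_pow_comm k d
  · rw [xz_neg_nat]; exact L.p_pow_comm k d

lemma xz_V (n : ℕ) : L.xz (n : ℤ) ∈ L.V := by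
  rw [xz_nat]; exact L.V.pow_mem L.xV n

lemma xz_O (n : ℕ) : L.xz (-(n : ℤ)) ∈ L.O := by
  rw [xz_neg_nat]; exact L.O.pow_mem L.pO n

lemma exh' (d : DD) : ∃ (m : ℕ) (o : DD), o ∈ L.O ∧ d = L.xz m * o := by
  obtain ⟨m, hm⟩ := L.exh d
  refine ⟨m, _, hm, ?_⟩
  rw [← mul_assoc, ← L.xz_neg_nat, ← xz_add]
  simp

end Line

namespace LB

variable {DD : Type u} [Ring DD] {L : Line DD} (B : LB L)

/-- induction along words -/
theorem MM_induction {C : B.MM → Prop} (h0 : C 0) (hadd : ∀ a b, C a → C b → C (a + b))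
    (hroot : ∀ d, C (Finsupp.single none d))
    (hstep : ∀ κ, (∀ d, C (Finsupp.single (B.par κ) d)) → ∀ d, C (Finsupp.single (some κ) d))
    (m : B.MM) : C m := by
  have hw : ∀ w : B.W, ∀ d, C (Finsupp.single w d) := by
    intro w
    rcases w with _ | ⟨l, j⟩
    · exact hroot
    · induction l with
      | nil => exact hstep ([], j) hroot
      | cons i l ih => exact hstep (i :: l, j) ih
  induction m using Finsupp.induction_linear with
  | zero => exact h0
  | add a b ha hb => exact hadd a b ha hb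
  | single w d => exact hw w d

lemma Gaff_smul {v : DD} (hv : v ∈ L.V) {m : B.MM} (hm : m ∈ B.Gaff) : v • m ∈ B.Gaff := fun w => by
  rw [Finsupp.smul_apply]; exact L.V.mul_mem hv (hm w)

lemma H_smul {o : DD} (ho : o ∈ L.O) {f : B.MM} (hf : f ∈ B.H) : o • f ∈ B.H := by
  obtain ⟨⟨o', ho', h1⟩, h2⟩ := hf
  refine ⟨⟨o * o', L.O.mul_mem ho ho', ?_⟩, fun κ => ?_⟩
  · rw [Finsupp.smul_apply, h1, smul_eq_mul, ← mul_assoc, ← L.pc, mul_assoc]
  · rw [Finsupp.smul_apply]; exact L.O.mul_mem ho (h2 κ)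

lemma mem_BB {m : B.MM} : m ∈ B.BB ↔ ∃ f ∈ B.H, B.dP f = m := by
  simp only [BB, Submodule.mem_map, LinearMap.coe_restrictScalars]

lemma BB_smul {o : DD} (ho : o ∈ L.O) {m : B.MM} (hm : m ∈ B.BB) : o • m ∈ B.BB := by
  rw [mem_BB] at hm ⊢
  obtain ⟨f, hf, rfl⟩ := hm
  exact ⟨o • f, B.H_smul ho hf, by rw [map_smul]⟩

lemma dP_single (w : B.W) (d : DD) : B.dP (Finsupp.single w d) = d • B.vec w := by
  simp [dP, Finsupp.linearCombination_single]

lemma smul_vec_some (κ : B.Wd) (d : DD) : d • B.vec (some κ) =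
    Finsupp.single (some κ) d - Finsupp.single (B.par κ) (d * B.lab κ) := by
  simp [vec, smul_sub, Finsupp.smul_single]

lemma smul_vec_none (d : DD) : d • B.vec none = Finsupp.single none d := by
  simp [vec, Finsupp.smul_single]

lemma single_none_mem_BB {o : DD} (ho : o ∈ L.O) :
    (Finsupp.single none (L.p * o) : B.MM) ∈ B.BB := by
  rw [mem_BB]
  refine ⟨Finsupp.single none (L.p * o), ⟨⟨o, ho, by simp⟩, fun κ => by simp⟩, ?_⟩
  rw [dP_single, smul_vec_none]

lemma smul_vec_mem_BB {o : DD} (ho : o ∈ L.O) (κ : B.Wd) : o • B.vec (some κ) ∈ B.BB := by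
  rw [mem_BB]
  refine ⟨Finsupp.single (some κ) o, ⟨⟨0, L.O.zero_mem, by simp⟩, fun κ' => ?_⟩, ?_⟩
  · by_cases h : κ = κ'
    · subst h; simpa using ho
    · rw [Finsupp.single_eq_of_ne (by simpa using fun h' => h h'.symm)]; exact L.O.zero_mem
  · rw [dP_single]

lemma exh_BB (m : B.MM) : ∃ l : ℕ, L.p ^ l • m ∈ B.BB := by
  induction m using B.MM_induction with
  | h0 => exact ⟨0, by simp⟩
  | hadd a b ha hb =>
    obtain ⟨l, hl⟩ := ha
    obtain ⟨l', hl'⟩ := hb
    refine ⟨l + l', ?_⟩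
    rw [smul_add]
    refine B.BB.add_mem ?_ ?_
    · rw [add_comm, pow_add, mul_smul]; exact B.BB_smul (L.O.pow_mem L.pO _) hl
    · rw [pow_add, mul_smul]; exact B.BB_smul (L.O.pow_mem L.pO _) hl'
  | hroot d =>
    obtain ⟨l, hl⟩ := L.exh d
    refine ⟨l + 1, ?_⟩
    rw [Finsupp.smul_single, smul_eq_mul, pow_succ', mul_assoc]
    exact B.single_none_mem_BB hl
  | hstep κ h d =>
    obtain ⟨l, hl⟩ := h (d * B.lab κ)
    obtain ⟨l', hl'⟩ := L.exh d
    refine ⟨l + l', ?_⟩
    have e : (Finsupp.single (some κ) d : B.MM) =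
        d • B.vec (some κ) + Finsupp.single (B.par κ) (d * B.lab κ) := by
      rw [smul_vec_some]; abel
    rw [e, smul_add]
    refine B.BB.add_mem ?_ ?_
    · rw [pow_add, mul_smul, smul_smul (L.p ^ l') d]
      exact B.BB_smul (L.O.pow_mem L.pO _) (B.smul_vec_mem_BB hl' κ)
    · rw [add_comm, pow_add, mul_smul]; exact B.BB_smul (L.O.pow_mem L.pO _) hl

/-- `G_inf` -/
noncomputable def Ginf : Submodule ℤ B.MM where
  carrier := {m | L.p • m ∈ B.BB}
  add_mem' := fun {a b} ha hb => by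
    show L.p • (a + b) ∈ B.BB
    rw [smul_add]; exact B.BB.add_mem ha hb
  zero_mem' := by
    show L.p • (0 : B.MM) ∈ B.BB
    rw [smul_zero]; exact B.BB.zero_mem
  smul_mem' := fun n f hf => by
    show L.p • (n • f) ∈ B.BB
    rw [smul_comm]; exact B.BB.smul_mem n hf

lemma mem_Ginf {m : B.MM} : m ∈ B.Ginf ↔ L.p • m ∈ B.BB := Iff.rfl

lemma BB_le_Ginf {m : B.MM} (hm : m ∈ B.BB) : m ∈ B.Ginf := B.BB_smul L.pO hm

lemma Ginf_smul {o : DD} (ho : o ∈ L.O) {m : B.MM} (hm : m ∈ B.Ginf) : o • m ∈ B.Ginf := by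
  rw [mem_Ginf] at *
  rw [smul_smul, L.pc, mul_smul]; exact B.BB_smul ho hm

lemma xz_neg_Ginf {n : ℤ} (hn : n < 0) {m : B.MM} (hm : m ∈ B.Ginf) : L.xz n • m ∈ B.BB := by
  obtain ⟨k, hk⟩ : ∃ k : ℕ, n = -(k : ℤ) + (-1) := ⟨(-n - 1).toNat, by omega⟩
  rw [hk, L.xz_add, L.xz_neg_one, mul_smul]
  exact B.BB_smul (L.xz_O k) hm

/-- `N = G_aff ∩ G_inf` -/
noncomputable def N : Submodule ℤ B.MM := B.Gaff ⊓ B.Ginf

lemma one_mem_N : (Finsupp.single none 1 : B.MM) ∈ B.N := by
  refine ⟨fun w => ?_, ?_⟩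
  · rcases w with _ | κ
    · simp
    · simp
  · show L.p • (Finsupp.single none 1 : B.MM) ∈ B.BB
    rw [Finsupp.smul_single, smul_eq_mul]; exact B.single_none_mem_BB L.O.one_mem

section
variable (hc : IsCompl B.Gaff B.BB)

/-- the projection to `G_aff` along `p G_inf` -/
noncomputable def pr : B.MM →ₗ[ℤ] B.MM := B.Gaff.projection B.BB hc

lemma pr_mem (y : B.MM) : B.pr hc y ∈ B.Gaff := Submodule.projection_apply_mem hc y
lemma pr_of_Gaff {y : B.MM} (hy : y ∈ B.Gaff) : B.pr hc y = y :=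
  Submodule.projection_apply_of_mem_left hc hy
lemma pr_of_BB {y : B.MM} (hy : y ∈ B.BB) : B.pr hc y = 0 :=
  (Submodule.projection_apply_eq_zero_iff hc).2 hy
lemma pr_eq_zero_iff {y : B.MM} : B.pr hc y = 0 ↔ y ∈ B.BB :=
  Submodule.projection_apply_eq_zero_iff hc
lemma sub_pr_mem (y : B.MM) : y - B.pr hc y ∈ B.BB := by
  rw [← B.pr_eq_zero_iff hc, map_sub, B.pr_of_Gaff hc (B.pr_mem hc y), sub_self]

/-- residue, before corestriction -/
noncomputable def r0 : B.MM →+ B.MM :=
  AddMonoidHom.mk' (fun y => B.pr hc y - L.x • B.pr hc (L.p • y)) (fun a b => by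
    simp only [smul_add, map_add]; abel)

lemma r0_apply (y : B.MM) : B.r0 hc y = B.pr hc y - L.x • B.pr hc (L.p • y) := rfl

lemma r0_mem (y : B.MM) : B.r0 hc y ∈ B.N := by
  refine ⟨?_, ?_⟩
  · exact B.Gaff.sub_mem (B.pr_mem hc y) (B.Gaff_smul L.xV (B.pr_mem hc _))
  · show L.p • B.r0 hc y ∈ B.BB
    rw [r0_apply, smul_sub, smul_smul L.p L.x, L.px, one_smul]
    have e : L.p • B.pr hc y - B.pr hc (L.p • y) =
        (L.p • y - B.pr hc (L.p • y)) - L.p • (y - B.pr hc y) := by
      rw [smul_sub]; abel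
    rw [e]
    exact B.BB.sub_mem (B.sub_pr_mem hc _) (B.BB_smul L.pO (B.sub_pr_mem hc _))

/-- residue `r(y) = P(y) - x P(p y)` -/
noncomputable def r : B.MM →+ B.N :=
  AddMonoidHom.mk' (fun y => ⟨B.r0 hc y, B.r0_mem hc y⟩) (fun a b => by
    ext1; simp [map_add])

lemma coe_r (y : B.MM) : ((B.r hc y : B.N) : B.MM) = B.pr hc y - L.x • B.pr hc (L.p • y) := rfl

lemma r_N (n : B.N) : B.r hc (n : B.MM) = n := by
  ext1
  rw [coe_r, B.pr_of_Gaff hc n.2.1, B.pr_of_BB hc n.2.2, smul_zero, sub_zero]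

lemma r_BB {y : B.MM} (hy : y ∈ B.BB) : B.r hc y = 0 := by
  ext1
  rw [coe_r, B.pr_of_BB hc hy, B.pr_of_BB hc (B.BB_smul L.pO hy), smul_zero, sub_zero]; rfl

lemma r_x_Gaff {y : B.MM} (hy : y ∈ B.Gaff) : B.r hc (L.x • y) = 0 := by
  ext1
  rw [coe_r, B.pr_of_Gaff hc (B.Gaff_smul L.xV hy), smul_smul, L.px, one_smul,
    B.pr_of_Gaff hc hy, sub_self]; rfl

lemma r_xz_Gaff {n : ℤ} (hn : 0 < n) {y : B.MM} (hy : y ∈ B.Gaff) : B.r hc (L.xz n • y) = 0 := by
  obtain ⟨k, hk⟩ : ∃ k : ℕ, n = 1 + (k : ℤ) := ⟨(n - 1).toNat, by omega⟩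
  rw [hk, L.xz_add, L.xz_one, mul_smul]
  exact B.r_x_Gaff hc (B.Gaff_smul (L.xz_V k) hy)

lemma r_xz_neg_Ginf {n : ℤ} (hn : n < 0) {y : B.MM} (hy : y ∈ B.Ginf) :
    B.r hc (L.xz n • y) = 0 := B.r_BB hc (B.xz_neg_Ginf hn hy)

lemma coe_r_Ginf {g : B.MM} (hg : g ∈ B.Ginf) : ((B.r hc g : B.N) : B.MM) = B.pr hc g := by
  rw [coe_r, B.pr_of_BB hc hg, smul_zero, sub_zero]

lemma sub_r_mem {g : B.MM} (hg : g ∈ B.Ginf) : g - (B.r hc g : B.MM) ∈ B.BB := by
  rw [B.coe_r_Ginf hc hg]; exact B.sub_pr_mem hc g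

/-- the Taylor formula -/
theorem taylor (n : ℕ) : ∀ (o : DD), o ∈ L.O → ∀ g : B.MM, g ∈ B.Ginf →
    B.r hc (L.xz n • o • g) =
      ∑ q ∈ Finset.HasAntidiagonal.antidiagonal n,
        B.r hc (L.xz (q.1 : ℤ) • o • ((B.r hc (L.xz (q.2 : ℤ) • g) : B.N) : B.MM)) := by
  induction n with
  | zero =>
    intro o ho g hg
    simp only [Nat.cast_zero, L.xz_zero, one_smul, Finset.HasAntidiagonal.antidiagonal_zero,
      Finset.sum_singleton]
    rw [← sub_eq_zero, ← map_sub, ← smul_sub]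
    exact B.r_BB hc (B.BB_smul ho (B.sub_r_mem hc hg))
  | succ n ih =>
    intro o ho g hg
    set g1 : B.MM := L.x • (g - (B.r hc g : B.MM)) with hg1
    have hpg1 : L.p • g1 = g - (B.r hc g : B.MM) := by
      rw [hg1, smul_smul, L.px, one_smul]
    have hg1' : g1 ∈ B.Ginf := by
      rw [mem_Ginf, hpg1]; exact B.sub_r_mem hc hg
    have h1 : L.xz ((n + 1 : ℕ) : ℤ) • o • g =
        L.xz ((n + 1 : ℕ) : ℤ) • o • (B.r hc g : B.MM) + L.xz (n : ℤ) • o • g1 := by
      have : g = (B.r hc g : B.MM) + L.p • g1 := by rw [hpg1]; abel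
      conv_lhs => rw [this]
      rw [smul_add, smul_add]
      congr 1
      rw [smul_smul o, ← L.pc, mul_smul, smul_smul, ← L.xz_neg_one, ← L.xz_add]
      congr 2
      push_cast; ring
    have h2 : ∀ j : ℕ, B.r hc (L.xz (j : ℤ) • g1) = B.r hc (L.xz ((j + 1 : ℕ) : ℤ) • g) := by
      intro j
      rw [hg1, ← L.xz_one, smul_smul, ← L.xz_add, smul_sub, map_sub,
        B.r_xz_Gaff hc (by positivity) (B.r hc g).2.1, sub_zero]
      congr 2
    rw [h1, map_add, ih o ho g1 hg1', Finset.Nat.sum_antidiagonal_succ']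
    simp only [h2]
    rw [Nat.cast_zero, L.xz_zero, one_smul, add_comm]

/-- the action of `o ∈ O` on `N`, coefficient `n` -/
noncomputable def act (n : ℤ) (d : DD) : AddMonoid.End B.N :=
  AddMonoidHom.mk' (fun m => B.r hc (L.xz n • d • (m : B.MM))) (fun a b => by
    simp only [Submodule.coe_add, smul_add, map_add])

lemma act_apply (n : ℤ) (d : DD) (m : B.N) :
    B.act hc n d m = B.r hc (L.xz n • d • (m : B.MM)) := rfl

/-- `θN : O → End(N)[[X]]` -/
noncomputable def θN : L.O →+* PowerSeries (AddMonoid.End B.N) where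
  toFun o := PowerSeries.mk fun n => B.act hc (n : ℤ) (o : DD)
  map_one' := by
    ext n : 1; refine end_ext fun m => ?_
    rw [PowerSeries.coeff_mk, PowerSeries.coeff_one, act_apply, OneMemClass.coe_one, one_smul]
    by_cases hn : n = 0
    · subst hn; simp [B.r_N hc, end_one_apply]
    · rw [if_neg hn, B.r_xz_Gaff hc (by omega) m.2.1, end_zero_apply]
  map_mul' a b := by
    ext n : 1; refine end_ext fun m => ?_
    rw [PowerSeries.coeff_mk, PowerSeries.coeff_mul, act_apply, MulMemClass.coe_mul, mul_smul,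
      B.taylor hc n a a.2 _ (B.Ginf_smul b.2 m.2.2)]
    simp only [PowerSeries.coeff_mk]
    rw [← ev_apply m, map_sum]
    rfl
  map_zero' := by
    ext n : 1; refine end_ext fun m => ?_
    rw [PowerSeries.coeff_mk, act_apply, map_zero, end_zero_apply, ZeroMemClass.coe_zero,
      zero_smul, smul_zero, map_zero]
  map_add' a b := by
    ext n : 1; refine end_ext fun m => ?_
    rw [map_add, PowerSeries.coeff_mk, PowerSeries.coeff_mk, PowerSeries.coeff_mk, act_apply,
      AddMemClass.coe_add, add_smul, smul_add, map_add, end_add_apply, act_apply, act_apply]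

lemma coeff_θN (o : L.O) (n : ℕ) : PowerSeries.coeff n (B.θN hc o) = B.act hc n (o : DD) := by
  simp [θN]

lemma θN_p : B.θN hc ⟨L.p, L.pO⟩ = PowerSeries.X := by
  ext n : 1; refine end_ext fun m => ?_
  rw [coeff_θN, PowerSeries.coeff_X, act_apply]
  show B.r hc (L.xz n • L.p • (m : B.MM)) = _
  rw [← L.xz_neg_one, smul_smul, ← L.xz_add]
  rcases lt_trichotomy ((n : ℤ) + -1) 0 with h | h | h
  · rw [if_neg (by omega), B.r_xz_neg_Ginf hc h m.2.2, end_zero_apply]
  · rw [if_pos (by omega), h, L.xz_zero, one_smul, B.r_N hc, end_one_apply]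
  · rw [if_neg (by omega), B.r_xz_Gaff hc h m.2.1, end_zero_apply]

lemma θN_V (v : DD) (hv : v ∈ L.V) (l n : ℕ) (h : L.p ^ l * v ∈ L.O) (hln : l < n) :
    PowerSeries.coeff n (B.θN hc ⟨L.p ^ l * v, h⟩) = 0 := by
  refine end_ext fun m => ?_
  rw [coeff_θN, act_apply, end_zero_apply]
  show (B.r hc (L.xz n • (L.p ^ l * v) • (m : B.MM)) : B.N) = _
  rw [mul_smul, ← L.xz_neg_nat, smul_smul, ← L.xz_add,
    B.r_xz_Gaff hc (by omega) (B.Gaff_smul hv m.2.1)]

end

end LB

end Crest.Agent.R181.V868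
end

-- ▼ part R181/V868c
section

/-!
# R181, V-chain, block V1: `φ : MM → T((p))` and `T = N`
-/

namespace Crest.Agent.R181.V868

universe u

section Laurent
variable {T : Type u} [Ring T]

lemma mul_coeff_pos {a b : LaurentSeries T} (ha : ∀ n : ℤ, 0 < n → a.coeff n = 0)
    (hb : ∀ n : ℤ, 0 < n → b.coeff n = 0) (n : ℤ) (hn : 0 < n) : (a * b).coeff n = 0 := by
  rw [HahnSeries.coeff_mul]
  refine Finset.sum_eq_zero fun ij hij => ?_
  rw [Finset.mem_antidiagonal] at hij
  obtain ⟨-, -, h⟩ := hij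
  by_cases h1 : 0 < ij.1
  · rw [ha _ h1, zero_mul]
  · rw [hb ij.2 (by omega), mul_zero]

lemma mul_coeff_neg {a b : LaurentSeries T} (ha : ∀ n : ℤ, n < 0 → a.coeff n = 0)
    (hb : ∀ n : ℤ, n < 0 → b.coeff n = 0) (n : ℤ) (hn : n < 0) : (a * b).coeff n = 0 := by
  rw [HahnSeries.coeff_mul]
  refine Finset.sum_eq_zero fun ij hij => ?_
  rw [Finset.mem_antidiagonal] at hij
  obtain ⟨-, -, h⟩ := hij
  by_cases h1 : ij.1 < 0
  · rw [ha _ h1, zero_mul]
  · rw [hb ij.2 (by omega), mul_zero]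

lemma mul_coeff_nonpos {a b : LaurentSeries T} (ha : ∀ n : ℤ, n < 0 → a.coeff n = 0)
    (hb : ∀ n : ℤ, n ≤ 0 → b.coeff n = 0) (n : ℤ) (hn : n ≤ 0) : (a * b).coeff n = 0 := by
  rw [HahnSeries.coeff_mul]
  refine Finset.sum_eq_zero fun ij hij => ?_
  rw [Finset.mem_antidiagonal] at hij
  obtain ⟨-, -, h⟩ := hij
  by_cases h1 : ij.1 < 0
  · rw [ha _ h1, zero_mul]
  · rw [hb ij.2 (by omega), mul_zero]

lemma mul_coeff_zero {a b : LaurentSeries T} (ha : ∀ n : ℤ, n < 0 → a.coeff n = 0)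
    (hb : ∀ n : ℤ, n < 0 → b.coeff n = 0) : (a * b).coeff 0 = a.coeff 0 * b.coeff 0 := by
  rw [HahnSeries.coeff_mul]
  by_cases h : a.coeff 0 = 0 ∨ b.coeff 0 = 0
  · have h' : a.coeff 0 * b.coeff 0 = 0 := by
      rcases h with h | h
      · rw [h, zero_mul]
      · rw [h, mul_zero]
    rw [h']
    refine Finset.sum_eq_zero fun ij hij => ?_
    rw [Finset.mem_antidiagonal] at hij
    obtain ⟨-, -, h1⟩ := hij
    rcases lt_trichotomy ij.1 0 with h2 | h2 | h2
    · rw [ha _ h2, zero_mul]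
    · have h3 : ij.2 = 0 := by omega
      rw [h2, h3, h']
    · rw [hb ij.2 (by omega), mul_zero]
  · push Not at h
    rw [Finset.sum_eq_single (0, 0)]
    · intro ij hij hne
      rw [Finset.mem_antidiagonal] at hij
      obtain ⟨-, -, h1⟩ := hij
      rcases lt_trichotomy ij.1 0 with h2 | h2 | h2
      · rw [ha _ h2, zero_mul]
      · exfalso; apply hne; ext <;> simp <;> omega
      · rw [hb ij.2 (by omega), mul_zero]
    · intro h1
      exfalso; apply h1
      rw [Finset.mem_antidiagonal]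
      exact ⟨h.1, h.2, by simp⟩

/-- truncation: keep the coefficients `n ≤ 0` (the polynomial part in `x = p⁻¹`) -/
def tr (z : LaurentSeries T) : LaurentSeries T where
  coeff n := if n ≤ 0 then z.coeff n else 0
  isPWO_support' := z.isPWO_support.mono (fun n hn => by
    rw [Function.mem_support] at hn
    rw [HahnSeries.mem_support]
    intro h; apply hn; simp [h])

lemma tr_coeff (z : LaurentSeries T) (n : ℤ) : (tr z).coeff n = if n ≤ 0 then z.coeff n else 0 := rfl

end Laurent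

namespace UnivT

variable {DD : Type u} [Ring DD] {L : Line DD} {T : Type u} [Ring T] (U : UnivT L T)

lemma Θp : U.Θ L.p = HahnSeries.single 1 1 := by
  have h1 : U.Θ L.x * U.Θ L.p = 1 := by rw [← map_mul, L.xp, map_one]
  rw [U.Θx] at h1
  have h2 : (HahnSeries.single (1 : ℤ) (1 : T)) * (HahnSeries.single (-1 : ℤ) (1 : T) * U.Θ L.p) =
      HahnSeries.single 1 1 := by rw [h1, mul_one]
  rwa [← mul_assoc, HahnSeries.single_mul_single, add_neg_cancel, mul_one,
    HahnSeries.single_zero_one, one_mul] at h2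

lemma Θx_pow (n : ℕ) : U.Θ (L.x ^ n) = HahnSeries.single (-(n : ℤ)) 1 := by
  induction n with
  | zero => simp
  | succ k ih =>
    rw [pow_succ, map_mul, ih, U.Θx, HahnSeries.single_mul_single, mul_one,
      show (-(k : ℤ) + -1) = -((k + 1 : ℕ) : ℤ) by push_cast; ring]

lemma Θp_pow (n : ℕ) : U.Θ (L.p ^ n) = HahnSeries.single (n : ℤ) 1 := by
  induction n with
  | zero => simp
  | succ k ih =>
    rw [pow_succ, map_mul, ih, U.Θp, HahnSeries.single_mul_single, mul_one,
      show ((k : ℤ) + 1) = ((k + 1 : ℕ) : ℤ) by push_cast; ring]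

lemma Θxz (n : ℤ) : U.Θ (L.xz n) = HahnSeries.single (-n) 1 := by
  rcases Int.eq_nat_or_neg n with ⟨k, rfl | rfl⟩
  · rw [L.xz_nat, U.Θx_pow]
  · rw [L.xz_neg_nat, U.Θp_pow, neg_neg]

lemma coeff_xz_mul (k n : ℤ) (z : LaurentSeries T) :
    (U.Θ (L.xz k) * z).coeff n = z.coeff (n + k) := by
  rw [U.Θxz, HahnSeries.coeff_single_mul, one_mul, sub_neg_eq_add]

lemma coeff_xz (k n : ℤ) (d : DD) : (U.Θ (L.xz k * d)).coeff n = (U.Θ d).coeff (n + k) := by
  rw [map_mul, U.coeff_xz_mul]

end UnivT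

namespace LB

variable {DD : Type u} [Ring DD] {L : Line DD} (B : LB L) {T : Type u} [Ring T] (U : UnivT L T)

/-- the words in `T[x]`, auxiliary -/
noncomputable def bw : List B.I0 → B.I1 → LaurentSeries T
  | [], j => tr (U.Θ (B.g1 j))
  | i :: l, j => tr (U.Θ (B.g0 i) * bw l j)

/-- the words in `T[x]` -/
noncomputable def b : B.W → LaurentSeries T
  | none => 1
  | some κ => B.bw U κ.1 κ.2

@[simp] lemma b_none : B.b U none = 1 := rfl

lemma b_some (κ : B.Wd) : B.b U (some κ) = tr (U.Θ (B.lab κ) * B.b U (B.par κ)) := by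
  rcases κ with ⟨_ | ⟨i, l⟩, j⟩
  · simp [b, bw, lab, par]
  · simp [b, bw, lab, par]

lemma b_pos (w : B.W) (n : ℤ) (hn : 0 < n) : (B.b U w).coeff n = 0 := by
  rcases w with _ | κ
  · rw [b_none]
    rw [HahnSeries.coeff_one, if_neg (by omega)]
  · rw [b_some, tr_coeff, if_neg (by omega)]

/-- `φ : MM → T((p))` -/
noncomputable def φ : B.MM →+ LaurentSeries T :=
  Finsupp.liftAddHom fun w => (AddMonoidHom.mulRight (B.b U w)).comp (U.Θ : DD →+ LaurentSeries T)

lemma φ_single (w : B.W) (d : DD) : B.φ U (Finsupp.single w d) = U.Θ d * B.b U w := by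
  simp [φ]

lemma φ_apply (m : B.MM) : B.φ U m = m.sum fun w d => U.Θ d * B.b U w := by
  simp only [φ, Finsupp.liftAddHom_apply]
  rfl

lemma φ_smul (d : DD) (m : B.MM) : B.φ U (d • m) = U.Θ d * B.φ U m := by
  induction m using Finsupp.induction_linear with
  | zero => simp
  | add a b ha hb => rw [smul_add, map_add, map_add, ha, hb, mul_add]
  | single w e => rw [Finsupp.smul_single, smul_eq_mul, φ_single, φ_single, map_mul, mul_assoc]

lemma φ_Gaff {m : B.MM} (hm : m ∈ B.Gaff) (n : ℤ) (hn : 0 < n) : (B.φ U m).coeff n = 0 := by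
  rw [φ_apply, Finsupp.sum]
  rw [HahnSeries.coeff_sum]
  refine Finset.sum_eq_zero fun w _ => ?_
  exact mul_coeff_pos (U.ΘV _ (hm w)) (B.b_pos U w) n hn

lemma φ_vec_some (κ : B.Wd) (n : ℤ) (hn : n ≤ 0) : (B.φ U (B.vec (some κ))).coeff n = 0 := by
  simp only [vec, map_sub, φ_single, map_one, one_mul]
  rw [HahnSeries.coeff_sub, b_some, tr_coeff, if_pos hn, sub_self]

lemma φ_BB {m : B.MM} (hm : m ∈ B.BB) (n : ℤ) (hn : n ≤ 0) : (B.φ U m).coeff n = 0 := by
  rw [mem_BB] at hm
  obtain ⟨f, ⟨⟨o, ho, h1⟩, h2⟩, rfl⟩ := hm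
  have e : B.φ U (B.dP f) = f.sum fun w d => U.Θ d * B.φ U (B.vec w) := by
    rw [dP, Finsupp.linearCombination_apply, Finsupp.sum, map_sum, Finsupp.sum]
    simp only [φ_smul]
  rw [e, Finsupp.sum, HahnSeries.coeff_sum]
  refine Finset.sum_eq_zero fun w _ => ?_
  rcases w with _ | κ
  · rw [h1]
    show (U.Θ (L.p * o) * B.φ U (Finsupp.single none 1)).coeff n = 0
    rw [φ_single, b_none, map_one, mul_one, mul_one, ← L.xz_neg_one, U.coeff_xz]
    exact U.ΘO o ho _ (by omega)
  · exact mul_coeff_nonpos (U.ΘO _ (h2 κ)) (B.φ_vec_some U κ) n hn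

lemma φ_Ginf {m : B.MM} (hm : m ∈ B.Ginf) (n : ℤ) (hn : n < 0) : (B.φ U m).coeff n = 0 := by
  have h := B.φ_BB U hm (n + 1) (by omega)
  rw [φ_smul, ← L.xz_neg_one, U.coeff_xz_mul] at h
  simpa using h

/-- `ψ : N → T` -/
noncomputable def ψ : B.N →+ T where
  toFun n := (B.φ U (n : B.MM)).coeff 0
  map_zero' := by simp
  map_add' a b := by simp [map_add]

/-- `1 ∈ N` -/
noncomputable def e1 : B.N := ⟨_, B.one_mem_N⟩

lemma ψ_e1 : B.ψ U B.e1 = 1 := by
  show (B.φ U (Finsupp.single none 1)).coeff 0 = 1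
  rw [φ_single]; simp

section
variable (hc : IsCompl B.Gaff B.BB)
include hc

lemma φ_pr (m : B.MM) (n : ℤ) :
    (B.φ U (B.pr hc m)).coeff n = if n ≤ 0 then (B.φ U m).coeff n else 0 := by
  split_ifs with h
  · have := B.φ_BB U (B.sub_pr_mem hc m) n h
    rw [map_sub, HahnSeries.coeff_sub, sub_eq_zero] at this
    exact this.symm
  · exact B.φ_Gaff U (B.pr_mem hc m) n (by omega)

lemma φ_r (y : B.MM) : B.φ U (B.r hc y : B.MM) = HahnSeries.single 0 ((B.φ U y).coeff 0) := by
  ext n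
  rw [coe_r, map_sub, φ_smul, HahnSeries.coeff_sub, φ_pr, ← L.xz_one, U.coeff_xz_mul, φ_pr,
    φ_smul, ← L.xz_neg_one, U.coeff_xz_mul]
  rcases lt_trichotomy n 0 with h | h | h
  · rw [if_pos h.le, if_pos (by omega), HahnSeries.coeff_single_of_ne (by omega)]
    simp
  · subst h
    rw [if_pos le_rfl, if_neg (by omega)]; simp
  · rw [if_neg (by omega), if_neg (by omega), HahnSeries.coeff_single_of_ne (by omega)]
    simp

lemma φ_N (n : B.N) : B.φ U (n : B.MM) = HahnSeries.single 0 (B.ψ U n) := by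
  have := B.φ_r U hc (n : B.MM)
  rwa [B.r_N hc] at this

lemma ψ_r (y : B.MM) : B.ψ U (B.r hc y) = (B.φ U y).coeff 0 := by
  show (B.φ U (B.r hc y : B.MM)).coeff 0 = _
  rw [B.φ_r U hc]; simp

/-- the ring map `T → End N` -/
theorem exists_f : ∃ f : T →+* AddMonoid.End B.N, ∀ (o : L.O) (n : ℕ),
    B.act hc n (o : DD) = f ((U.Θ (o : DD)).coeff (n : ℤ)) := by
  obtain ⟨f, hf⟩ := U.univ (AddMonoid.End B.N) (B.θN hc) (B.θN_p hc) (B.θN_V hc)
  exact ⟨f, fun o n => by rw [← hf, coeff_θN]⟩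

/-- the ring map `T → End N` -/
noncomputable def f : T →+* AddMonoid.End B.N := (B.exists_f U hc).choose

lemma f_O (o : DD) (ho : o ∈ L.O) (n : ℕ) :
    B.act hc n o = B.f U hc ((U.Θ o).coeff (n : ℤ)) := (B.exists_f U hc).choose_spec ⟨o, ho⟩ n

lemma f_coeff (d : DD) (n : ℤ) (m : B.N) :
    B.f U hc ((U.Θ d).coeff n) m = B.r hc (L.xz n • d • (m : B.MM)) := by
  obtain ⟨k, o, ho, rfl⟩ := L.exh' d
  rw [U.coeff_xz, mul_smul, smul_smul, ← L.xz_add]
  rcases lt_or_ge (n + k) 0 with h | h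
  · rw [U.ΘO o ho _ h, map_zero, B.r_xz_neg_Ginf hc h (B.Ginf_smul ho m.2.2)]; rfl
  · obtain ⟨j, hj⟩ := Int.eq_ofNat_of_zero_le h
    rw [hj, ← B.f_O U hc o ho, act_apply]

lemma ψ_f_coeff (d : DD) (n : ℤ) (m : B.N) :
    B.ψ U (B.f U hc ((U.Θ d).coeff n) m) = (U.Θ d).coeff n * B.ψ U m := by
  rw [f_coeff, B.ψ_r U hc, smul_smul, φ_smul, B.φ_N U hc, HahnSeries.coeff_mul_single_zero,
    U.coeff_xz, zero_add]

lemma ψ_f (t : T) : ∀ (m : B.N), B.ψ U (B.f U hc t m) = t * B.ψ U m := by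
  have ht : t ∈ Subring.closure {t : T | ∃ (d : DD) (n : ℤ), t = (U.Θ d).coeff n} := by
    rw [U.gen]; trivial
  induction ht using Subring.closure_induction with
  | mem x hx => obtain ⟨d, n, rfl⟩ := hx; exact B.ψ_f_coeff U hc d n
  | zero => intro m; rw [map_zero, end_zero_apply, map_zero, zero_mul]
  | one => intro m; rw [map_one, end_one_apply, one_mul]
  | add a b _ _ ha hb => intro m; rw [map_add, end_add_apply, map_add, ha, hb, add_mul]
  | neg a _ ha =>
    intro m
    have : B.f U hc (-a) m = - (B.f U hc a m) := by rw [map_neg]; rfl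
    rw [this, map_neg, ha, neg_mul]
  | mul a b _ _ ha hb => intro m; rw [map_mul, end_mul_apply, ha, hb, mul_assoc]

lemma ψ_f_e1 (t : T) : B.ψ U (B.f U hc t B.e1) = t := by
  rw [ψ_f, ψ_e1, mul_one]

/-- `C(m)`: all the coefficients of `m` lie in `T • 1` -/
def Cof (m : B.MM) : Prop := ∀ n : ℤ, ∃ t : T, B.r hc (L.xz n • m) = B.f U hc t B.e1

variable {U}

lemma Cof.add {a b : B.MM} (ha : B.Cof U hc a) (hb : B.Cof U hc b) : B.Cof U hc (a + b) := by
  intro n
  obtain ⟨s, hs⟩ := ha n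
  obtain ⟨t, ht⟩ := hb n
  exact ⟨s + t, by rw [smul_add, map_add, hs, ht, map_add, end_add_apply]⟩

lemma Cof.one : B.Cof U hc (Finsupp.single none 1) := by
  intro n
  rcases lt_trichotomy n 0 with h | h | h
  · exact ⟨0, by rw [B.r_xz_neg_Ginf hc h B.one_mem_N.2, map_zero, end_zero_apply]⟩
  · exact ⟨1, by
      rw [h, L.xz_zero, one_smul, map_one, end_one_apply]; exact B.r_N hc B.e1⟩
  · exact ⟨0, by rw [B.r_xz_Gaff hc h B.one_mem_N.1, map_zero, end_zero_apply]⟩

lemma Cof.pr {m : B.MM} (hm : B.Cof U hc m) : B.Cof U hc (B.pr hc m) := by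
  intro n
  rcases lt_or_ge 0 n with h | h
  · exact ⟨0, by rw [B.r_xz_Gaff hc h (B.pr_mem hc m), map_zero, end_zero_apply]⟩
  · obtain ⟨t, ht⟩ := hm n
    refine ⟨t, ?_⟩
    rw [← ht, eq_comm, ← sub_eq_zero, ← map_sub, ← smul_sub]
    obtain ⟨k, rfl⟩ : ∃ k : ℕ, n = -(k : ℤ) := ⟨(-n).toNat, by omega⟩
    exact B.r_BB hc (B.BB_smul (L.xz_O k) (B.sub_pr_mem hc m))

lemma Cof.sum {ι : Type*} (s : Finset ι) (g : ι → B.N)
    (hg : ∀ i ∈ s, ∃ t : T, g i = B.f U hc t B.e1) : ∃ t : T, ∑ i ∈ s, g i = B.f U hc t B.e1 := by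
  classical
  induction s using Finset.induction_on with
  | empty => exact ⟨0, by rw [map_zero, end_zero_apply, Finset.sum_empty]⟩
  | insert i s hi ih =>
    obtain ⟨t, ht⟩ := hg i (Finset.mem_insert_self _ _)
    obtain ⟨t', ht'⟩ := ih (fun j hj => hg j (Finset.mem_insert_of_mem hj))
    exact ⟨t + t', by rw [Finset.sum_insert hi, ht, ht', map_add, end_add_apply]⟩

lemma Cof.smul {m : B.MM} (hm : B.Cof U hc m) (d : DD) : B.Cof U hc (d • m) := by
  obtain ⟨k, o, ho, rfl⟩ := L.exh' d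
  obtain ⟨l, hl⟩ := B.exh_BB m
  set g : B.MM := L.p ^ l • m with hg
  have hgG : g ∈ B.Ginf := B.BB_le_Ginf hl
  have hmg : m = L.xz l • g := by
    rw [hg, smul_smul, ← L.xz_neg_nat, ← L.xz_add]; simp
  intro n
  have e : L.xz n • (L.xz k * o) • m = L.xz (n + k + l) • o • g := by
    conv_lhs => rw [hmg]
    simp only [smul_smul, L.xz_add]
    simp only [mul_assoc]
    rw [← L.xz_comm l o]
  rw [e]
  rcases lt_or_ge (n + k + l) 0 with h | h
  · exact ⟨0, by rw [B.r_xz_neg_Ginf hc h (B.Ginf_smul ho hgG), map_zero, end_zero_apply]⟩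
  · obtain ⟨j, hj⟩ := Int.eq_ofNat_of_zero_le h
    rw [hj, B.taylor hc j o ho g hgG]
    refine Cof.sum B hc _ _ fun q _ => ?_
    obtain ⟨t, ht⟩ := hm ((q.2 : ℤ) + -(l : ℤ))
    have e2 : L.xz (q.2 : ℤ) • g = L.xz ((q.2 : ℤ) + -(l : ℤ)) • m := by
      rw [hg, smul_smul, ← L.xz_neg_nat, ← L.xz_add]
    rw [e2, ht]
    refine ⟨(U.Θ o).coeff (q.1 : ℤ) * t, ?_⟩
    rw [map_mul, end_mul_apply, f_coeff]

lemma Cof.all (m : B.MM) : B.Cof U hc m := by
  have h1 : ∀ w : B.W, B.Cof U hc (Finsupp.single w 1) := by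
    have key : ∀ κ : B.Wd, B.Cof U hc (Finsupp.single (B.par κ) 1) →
        B.Cof U hc (Finsupp.single (some κ) 1) := by
      intro κ h
      have h2 := (h.smul B hc (B.lab κ)).pr B hc
      rw [Finsupp.smul_single, smul_eq_mul, mul_one] at h2
      have e : B.pr hc (Finsupp.single (B.par κ) (B.lab κ)) = Finsupp.single (some κ) 1 := by
        have hG : (Finsupp.single (some κ) 1 : B.MM) ∈ B.Gaff := by
          intro w
          by_cases hw : some κ = w
          · subst hw; simp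
          · rw [Finsupp.single_eq_of_ne (fun h' => hw h'.symm)]; exact L.V.zero_mem
        have hv : B.vec (some κ) ∈ B.BB := by
          simpa using B.smul_vec_mem_BB L.O.one_mem κ
        have hh := B.pr_of_BB hc hv
        rw [show B.vec (some κ) = Finsupp.single (some κ) 1 - Finsupp.single (B.par κ) (B.lab κ)
          from rfl, map_sub, B.pr_of_Gaff hc hG, sub_eq_zero] at hh
        exact hh.symm
      rwa [e] at h2
    rintro (_ | ⟨l, j⟩)
    · exact Cof.one B hc
    · induction l with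
      | nil => exact key ([], j) (Cof.one B hc)
      | cons i l ih => exact key (i :: l, j) ih
  induction m using Finsupp.induction_linear with
  | zero =>
    intro n
    exact ⟨0, by rw [smul_zero, map_zero, map_zero, end_zero_apply]⟩
  | add a b ha hb => exact ha.add B hc hb
  | single w d =>
    have := (h1 w).smul B hc d
    rwa [Finsupp.smul_single, smul_eq_mul, mul_one] at this

variable (U)

lemma f_ψ (m : B.N) : B.f U hc (B.ψ U m) B.e1 = m := by
  obtain ⟨t, ht⟩ := Cof.all (U := U) B hc (m : B.MM) 0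
  rw [L.xz_zero, one_smul, B.r_N hc] at ht
  rw [ht, ψ_f_e1]

lemma ψ_injective : Function.Injective (B.ψ U) := fun a b h => by
  rw [← B.f_ψ U hc a, ← B.f_ψ U hc b, h]

lemma ψ_surjective : Function.Surjective (B.ψ U) := fun t => ⟨_, B.ψ_f_e1 U hc t⟩

lemma r_eq_zero_of_φ {m : B.MM} {n : ℤ} (h : (B.φ U m).coeff n = 0) :
    B.r hc (L.xz n • m) = 0 := by
  apply B.ψ_injective U hc
  rw [B.ψ_r U hc, φ_smul, U.coeff_xz_mul, zero_add, h, map_zero]

/-- if the coefficients of `φ m` vanish for `n < k`, then `x^(k-1) m ∈ BB` -/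
lemma mem_BB_of_φ {m : B.MM} {k : ℤ} (h : ∀ n : ℤ, n < k → (B.φ U m).coeff n = 0) :
    L.xz (k - 1) • m ∈ B.BB := by
  obtain ⟨l, hl⟩ := B.exh_BB m
  have step : ∀ n : ℤ, n < k → L.xz (n - 1) • m ∈ B.BB → L.xz n • m ∈ B.BB := by
    intro n hn h1
    have h2 := B.r_eq_zero_of_φ U hc (h n hn)
    have h3 : B.pr hc (L.xz n • m) - L.x • B.pr hc (L.p • L.xz n • m) = 0 := by
      rw [← coe_r, h2]; rfl
    rw [← L.xz_neg_one, smul_smul, ← L.xz_add, add_comm (-1) n, ← sub_eq_add_neg,
      B.pr_of_BB hc h1, smul_zero, sub_zero, pr_eq_zero_iff] at h3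
    exact h3
  have all : ∀ j : ℕ, ∀ n : ℤ, n = -(l : ℤ) + j → n < k → L.xz n • m ∈ B.BB := by
    intro j
    induction j with
    | zero =>
      intro n hn _
      rw [hn, Nat.cast_zero, add_zero, L.xz_neg_nat]; exact hl
    | succ j ih =>
      intro n hn hk
      exact step n hk (ih (n - 1) (by push_cast at hn; omega) (by omega))
  rcases lt_or_ge (k - 1) (-(l : ℤ)) with h1 | h1
  · have : L.xz (k - 1) • m = L.xz (-(((-(l : ℤ)) - (k - 1)).toNat : ℤ)) • L.p ^ l • m := by
      rw [← L.xz_neg_nat, smul_smul, ← L.xz_add]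
      congr 2
      omega
    rw [this]
    exact B.BB_smul (L.xz_O _) hl
  · exact all ((k - 1 + l).toNat) (k - 1) (by omega) (by omega)

lemma mem_BB_iff_φ {m : B.MM} : m ∈ B.BB ↔ ∀ n : ℤ, n ≤ 0 → (B.φ U m).coeff n = 0 := by
  refine ⟨fun h => B.φ_BB U h, fun h => ?_⟩
  have := B.mem_BB_of_φ U hc (k := 1) (m := m) (fun n hn => h n (by omega))
  simpa using this

lemma mem_Ginf_iff_φ {m : B.MM} : m ∈ B.Ginf ↔ ∀ n : ℤ, n < 0 → (B.φ U m).coeff n = 0 := by
  refine ⟨fun h => B.φ_Ginf U h, fun h => ?_⟩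
  rw [mem_Ginf, B.mem_BB_iff_φ U hc]
  intro n hn
  rw [φ_smul, ← L.xz_neg_one, U.coeff_xz_mul]
  exact h _ (by omega)

lemma φ_injOn_Gaff {m : B.MM} (hm : m ∈ B.Gaff) (h : B.φ U m = 0) : m = 0 := by
  have h1 : m ∈ B.BB := (B.mem_BB_iff_φ U hc).2 (fun n _ => by rw [h]; simp)
  rw [← B.pr_of_Gaff hc hm, B.pr_of_BB hc h1]

lemma φ_f_e1 (t : T) : B.φ U (B.f U hc t B.e1 : B.MM) = HahnSeries.single 0 t := by
  rw [B.φ_N U hc, ψ_f_e1]

lemma exists_Gaff_of_bdd (K : ℕ) : ∀ z : LaurentSeries T, (∀ n : ℤ, 0 < n → z.coeff n = 0) →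
    (∀ n : ℤ, n < -(K : ℤ) → z.coeff n = 0) → ∃ m ∈ B.Gaff, B.φ U m = z := by
  induction K with
  | zero =>
    intro z h1 h2
    refine ⟨_, (B.f U hc (z.coeff 0) B.e1).2.1, ?_⟩
    rw [φ_f_e1]
    ext n
    rcases lt_trichotomy n 0 with h | h | h
    · rw [HahnSeries.coeff_single_of_ne (by omega), h2 n (by simpa using h)]
    · rw [h]; simp
    · rw [HahnSeries.coeff_single_of_ne (by omega), h1 n h]
  | succ K ih =>
    intro z h1 h2
    obtain ⟨m, hm, hm'⟩ := ih (z - HahnSeries.single (-((K : ℤ) + 1)) (z.coeff (-((K : ℤ) + 1))))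
      (fun n hn => by
        rw [HahnSeries.coeff_sub, h1 n hn, HahnSeries.coeff_single_of_ne (by omega), sub_zero])
      (fun n hn => by
        rw [HahnSeries.coeff_sub]
        by_cases h : n = -((K : ℤ) + 1)
        · subst h; simp
        · rw [HahnSeries.coeff_single_of_ne h, sub_zero]
          exact h2 n (by push_cast; omega))
    refine ⟨m + L.xz ((K + 1 : ℕ) : ℤ) •
      (B.f U hc (z.coeff (-((K : ℤ) + 1))) B.e1 : B.MM),
      B.Gaff.add_mem hm (B.Gaff_smul (L.xz_V _) (B.f U hc _ B.e1).2.1), ?_⟩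
    rw [map_add, hm', φ_smul, φ_f_e1, U.Θxz, HahnSeries.single_mul_single, add_zero, one_mul]
    push_cast
    abel

/-- surjectivity onto `T[x]` -/
theorem exists_Gaff (z : LaurentSeries T) (hz : ∀ n : ℤ, 0 < n → z.coeff n = 0) :
    ∃ m ∈ B.Gaff, B.φ U m = z :=
  B.exists_Gaff_of_bdd U hc (-z.order).toNat z hz (fun n hn =>
    HahnSeries.coeff_eq_zero_of_lt_order (by omega))

end

end LB

end Crest.Agent.R181.V868
private theorem rz_ca4c7d71a8 : type_of% @_root_.Crest.Agent.R181.V868.LB.b.eq_1 := @_root_.Crest.Agent.R181.V868.LB.b.eq_1 -- L137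
private theorem rz_e1ea4ce025 : type_of% @_root_.Crest.Agent.R181.V868.LB.bw.eq_def := @_root_.Crest.Agent.R181.V868.LB.bw.eq_def -- L132
private theorem rz_ea01fabad9 : type_of% @_root_.Crest.Agent.R181.V868.LB.bw.eq_1 := @_root_.Crest.Agent.R181.V868.LB.bw.eq_1 -- L132
end

-- ▼ part R181/VL963a
section

/-!
# R181, V-chain, block V1: Lemma 1 on the definitions of `V868a`

* `VL.isCompl : IsCompl B.Gaff B.BB`
* `VL.dP_bijective`: the `vec w` are a `DD`-basis of `MM`
* `VL.dP_apply_none`, `VL.dP_apply_some`: coefficients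
-/

namespace Crest.Agent.R181.VL

open Crest.Agent.R181.V868

universe u

noncomputable section

variable {DD : Type u} [Ring DD] {L : Line DD} {B : LB L}

theorem dP_single (w : B.W) (o : DD) : B.dP (Finsupp.single w o) = o • B.vec w :=
  Finsupp.linearCombination_single _ _ _

theorem vec_none : B.vec none = Finsupp.single none 1 := rfl

theorem vec_some (κ : B.Wd) :
    B.vec (some κ) = Finsupp.single (some κ) 1 - Finsupp.single (B.par κ) (B.lab κ) := rfl

theorem smul_vec_some (o : DD) (κ : B.Wd) :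
    o • B.vec (some κ) = Finsupp.single (some κ) o - Finsupp.single (B.par κ) (o * B.lab κ) := by
  rw [vec_some, smul_sub, Finsupp.smul_single, Finsupp.smul_single, smul_eq_mul, smul_eq_mul,
    mul_one]

theorem smul_vec_none (o : DD) : o • B.vec none = Finsupp.single none o := by
  rw [vec_none, Finsupp.smul_single, smul_eq_mul, mul_one]


theorem single_mem_Gaff {w : B.W} {v : DD} (hv : v ∈ L.V) : Finsupp.single w v ∈ B.Gaff := by
  classical
  intro w'
  rw [Finsupp.single_apply]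
  split_ifs
  · exact hv
  · exact L.V.zero_mem

theorem smul_vec_mem_BB (κ : B.Wd) {o : DD} (ho : o ∈ L.O) : o • B.vec (some κ) ∈ B.BB := by
  classical
  refine ⟨Finsupp.single (some κ) o, ⟨⟨0, L.O.zero_mem, ?_⟩, fun κ' => ?_⟩, dP_single _ _⟩
  · rw [Finsupp.single_apply, if_neg (by simp), mul_zero]
  · rw [Finsupp.single_apply]
    split_ifs
    · exact ho
    · exact L.O.zero_mem

theorem single_none_mem_BB {o : DD} (ho : o ∈ L.O) :
    (Finsupp.single none (L.p * o) : B.MM) ∈ B.BB := by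
  classical
  refine ⟨Finsupp.single none (L.p * o), ⟨⟨o, ho, by simp⟩, fun κ' => ?_⟩, ?_⟩
  · rw [Finsupp.single_apply, if_neg (by simp)]
    exact L.O.zero_mem
  · show B.dP _ = _
    rw [dP_single, smul_vec_none]

/-! ## the sum is everything -/

theorem single_mul_lab_mem (κ : B.Wd) {e : DD} (he : e ∈ L.V ⊓ L.O) :
    (Finsupp.single (B.par κ) (e * B.lab κ) : B.MM) ∈ B.Gaff ⊔ B.BB := by
  have h1 : (Finsupp.single (B.par κ) (e * B.lab κ) : B.MM) =
      Finsupp.single (some κ) e - e • B.vec (some κ) := by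
    rw [smul_vec_some]; abel
  rw [h1]
  exact sub_mem (Submodule.mem_sup_left (single_mem_Gaff he.1))
    (Submodule.mem_sup_right (smul_vec_mem_BB κ he.2))

theorem single_sum_mem {I : Type u} (w : B.W) (c : I →₀ DD) (g : I → DD)
    (h : ∀ i, (Finsupp.single w (c i * g i) : B.MM) ∈ B.Gaff ⊔ B.BB) :
    (Finsupp.single w (c.sum fun i e => e * g i) : B.MM) ∈ B.Gaff ⊔ B.BB := by
  have : (Finsupp.single w (c.sum fun i e => e * g i) : B.MM) =
      ∑ i ∈ c.support, Finsupp.single w (c i * g i) :=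
    map_sum (Finsupp.singleAddHom w) _ _
  rw [this]
  exact sum_mem fun i _ => h i

theorem single_none_mem_sup (d : DD) : (Finsupp.single none d : B.MM) ∈ B.Gaff ⊔ B.BB := by
  obtain ⟨c, hc, v, hv, o, ho, rfl⟩ := B.span1 d
  rw [Finsupp.single_add, Finsupp.single_add]
  refine add_mem (add_mem (Submodule.mem_sup_left (single_mem_Gaff hv))
    (Submodule.mem_sup_right (single_none_mem_BB ho))) (single_sum_mem none c B.g1 fun i => ?_)
  exact single_mul_lab_mem (B := B) ([], i) (hc i)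

theorem single_some_mem_sup (κ : B.Wd)
    (h : ∀ d : DD, (Finsupp.single (B.par κ) d : B.MM) ∈ B.Gaff ⊔ B.BB) (d : DD) :
    (Finsupp.single (some κ) d : B.MM) ∈ B.Gaff ⊔ B.BB := by
  obtain ⟨c, hc, v, hv, o, ho, rfl⟩ := B.span0 d
  rw [Finsupp.single_add, Finsupp.single_add]
  refine add_mem (add_mem (Submodule.mem_sup_left (single_mem_Gaff hv)) ?_)
    (single_sum_mem (some κ) c B.g0 fun i => ?_)
  · have h1 : (Finsupp.single (some κ) o : B.MM) =
        o • B.vec (some κ) + Finsupp.single (B.par κ) (o * B.lab κ) := by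
      rw [smul_vec_some]; abel
    rw [h1]
    exact add_mem (Submodule.mem_sup_right (smul_vec_mem_BB κ ho)) (h _)
  · obtain ⟨l, j⟩ := κ
    exact single_mul_lab_mem (B := B) (i :: l, j) (hc i)

theorem single_mem_sup (w : B.W) (d : DD) : (Finsupp.single w d : B.MM) ∈ B.Gaff ⊔ B.BB := by
  match w with
  | none => exact single_none_mem_sup d
  | some (l, j) =>
    induction l generalizing d with
    | nil => exact single_some_mem_sup ([], j) (fun d => single_none_mem_sup d) d
    | cons i l ih => exact single_some_mem_sup (i :: l, j) (fun d => ih d) d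

theorem sup_eq_top : B.Gaff ⊔ B.BB = ⊤ := by
  rw [eq_top_iff]
  intro y _
  induction y using Finsupp.induction_linear with
  | zero => exact zero_mem _
  | add f g hf hg => exact add_mem (hf trivial) (hg trivial)
  | single w d => exact single_mem_sup w d

/-! ## coefficients of `dP c` -/

/-- the children of the root -/
def w1 (B : LB L) (j : B.I1) : B.W := some ([], j)

/-- the children of a word -/
def w0 (B : LB L) (κ : B.Wd) (i : B.I0) : B.W := some (i :: κ.1, κ.2)

theorem w1_inj : Function.Injective (w1 B) := by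
  intro a b h
  simpa [w1] using h

theorem w0_inj (κ : B.Wd) : Function.Injective (w0 B κ) := by
  intro a b h
  simpa [w0] using h

/-- the coefficients at the children of the root -/
def kid1 (c : B.MM) : B.I1 →₀ DD := c.comapDomain (w1 B) (w1_inj.injOn)

/-- the coefficients at the children of a word -/
def kid0 (κ : B.Wd) (c : B.MM) : B.I0 →₀ DD := c.comapDomain (w0 B κ) ((w0_inj κ).injOn)

@[simp] theorem kid1_apply (c : B.MM) (j : B.I1) : kid1 c j = c (some ([], j)) := rfl

@[simp] theorem kid0_apply (κ : B.Wd) (c : B.MM) (i : B.I0) :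
    kid0 κ c i = c (some (i :: κ.1, κ.2)) := rfl

theorem kid1_add (c c' : B.MM) : kid1 (c + c') = kid1 c + kid1 c' := by
  ext; simp

theorem kid0_add (κ : B.Wd) (c c' : B.MM) : kid0 κ (c + c') = kid0 κ c + kid0 κ c' := by
  ext; simp

theorem dP_apply_none (c : B.MM) :
    B.dP c none = c none - (kid1 c).sum fun j e => e * B.g1 j := by
  classical
  induction c using Finsupp.induction_linear with
  | zero =>
    have : kid1 (0 : B.MM) = 0 := by ext; simp
    rw [map_zero, this, Finsupp.sum_zero_index]; simp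
  | add f g hf hg =>
    rw [map_add, Finsupp.add_apply, hf, hg, Finsupp.add_apply, kid1_add]
    rw [Finsupp.sum_add_index' (fun _ => zero_mul _) (fun _ _ _ => add_mul _ _ _)]
    abel
  | single w o =>
    rw [dP_single]
    match w with
    | none =>
      have h0 : kid1 (Finsupp.single (none : B.W) o) = 0 := by
        ext j; simp
      rw [h0, Finsupp.sum_zero_index, sub_zero, smul_vec_none]
    | some ([], j) =>
      have h0 : kid1 (Finsupp.single (some ([], j) : B.W) o) = Finsupp.single j o := by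
        ext j'
        rw [kid1_apply, Finsupp.single_apply, Finsupp.single_apply]
        simp
      rw [h0, Finsupp.sum_single_index (zero_mul _), smul_vec_some]
      simp [LB.par, LB.lab]
    | some (i :: l, j) =>
      have h0 : kid1 (Finsupp.single (some (i :: l, j) : B.W) o) = 0 := by
        ext j'; simp
      rw [h0, Finsupp.sum_zero_index, sub_zero, smul_vec_some]
      simp [LB.par, LB.lab]

theorem dP_apply_some (c : B.MM) (κ : B.Wd) :
    B.dP c (some κ) = c (some κ) - (kid0 κ c).sum fun i e => e * B.g0 i := by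
  classical
  obtain ⟨l, j⟩ := κ
  induction c using Finsupp.induction_linear with
  | zero =>
    have : kid0 (l, j) (0 : B.MM) = 0 := by ext; simp
    rw [map_zero, this, Finsupp.sum_zero_index]; simp
  | add f g hf hg =>
    rw [map_add, Finsupp.add_apply, hf, hg, Finsupp.add_apply, kid0_add]
    rw [Finsupp.sum_add_index' (fun _ => zero_mul _) (fun _ _ _ => add_mul _ _ _)]
    abel
  | single w o =>
    rw [dP_single]
    match w with
    | none =>
      have h0 : kid0 (l, j) (Finsupp.single (none : B.W) o) = 0 := by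
        ext i; simp
      rw [h0, Finsupp.sum_zero_index, sub_zero, smul_vec_none]
    | some ([], j') =>
      have h0 : kid0 (l, j) (Finsupp.single (some ([], j') : B.W) o) = 0 := by
        ext i; simp
      rw [h0, Finsupp.sum_zero_index, sub_zero, smul_vec_some]
      simp [LB.par, LB.lab]
    | some (i' :: l', j') =>
      by_cases hlj : l' = l ∧ j' = j
      · obtain ⟨rfl, rfl⟩ := hlj
        have h0 : kid0 (l', j') (Finsupp.single (some (i' :: l', j') : B.W) o) =
            Finsupp.single i' o := by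
          ext i
          rw [kid0_apply, Finsupp.single_apply, Finsupp.single_apply]
          simp
        rw [h0, Finsupp.sum_single_index (zero_mul _), smul_vec_some]
        have hne : (some (i' :: l', j') : B.W) ≠ some (l', j') := by
          intro h
          have := congrArg B.lev h
          simp [LB.lev] at this
        simp [LB.par, LB.lab]
      · have h0 : kid0 (l, j) (Finsupp.single (some (i' :: l', j') : B.W) o) = 0 := by
          ext i
          rw [kid0_apply, Finsupp.single_apply, if_neg]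
          · rfl
          · intro h
            simp only [Option.some.injEq, Prod.mk.injEq, List.cons.injEq] at h
            exact hlj ⟨h.1.2, h.2⟩
        rw [h0, Finsupp.sum_zero_index, sub_zero, smul_vec_some]
        have hne : (some (l', j') : B.W) ≠ some (l, j) := by
          intro h
          simp only [Option.some.injEq, Prod.mk.injEq] at h
          exact hlj h
        simp [LB.par, LB.lab, Finsupp.single_apply, hne]

/-! ## top level coefficients -/

theorem dP_top (c : B.MM) (m : ℕ) (h : ∀ w : B.W, m < B.lev w → c w = 0) (w : B.W)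
    (hw : B.lev w = m) : B.dP c w = c w := by
  match w, hw with
  | none, hw =>
    rw [dP_apply_none]
    have : kid1 c = 0 := by
      ext j
      rw [kid1_apply]
      exact h _ (by rw [← hw]; simp [LB.lev])
    rw [this, Finsupp.sum_zero_index, sub_zero]
  | some κ, hw =>
    rw [dP_apply_some]
    have : kid0 κ c = 0 := by
      ext i
      rw [kid0_apply]
      exact h _ (by rw [← hw]; simp [LB.lev])
    rw [this, Finsupp.sum_zero_index, sub_zero]

theorem exists_lev (c : B.MM) : ∃ m, ∀ w : B.W, m < B.lev w → c w = 0 := by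
  classical
  refine ⟨c.support.sup B.lev, fun w hw => ?_⟩
  by_contra h
  have := Finset.le_sup (f := B.lev) (Finsupp.mem_support_iff.2 h)
  omega

theorem dP_injective : Function.Injective B.dP := by
  rw [injective_iff_map_eq_zero]
  intro c hc
  have main : ∀ (m : ℕ), (∀ w : B.W, m < B.lev w → c w = 0) → c = 0 := by
    intro m
    induction m with
    | zero =>
      intro h
      ext w
      rcases Nat.eq_zero_or_pos (B.lev w) with h1 | h1
      · rw [← dP_top c 0 h w h1, hc]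
      · exact h w h1
    | succ m ih =>
      intro h
      refine ih fun w hw => ?_
      rcases Nat.lt_or_ge (m + 1) (B.lev w) with h1 | h1
      · exact h w h1
      · rw [← dP_top c (m + 1) h w (by omega), hc]; rfl
  obtain ⟨m, hm⟩ := exists_lev c
  exact main m hm

theorem single_mem_range : ∀ (w : B.W) (d : DD),
    (Finsupp.single w d : B.MM) ∈ LinearMap.range B.dP := by
  have hsome : ∀ (κ : B.Wd), (∀ d : DD, (Finsupp.single (B.par κ) d : B.MM) ∈ LinearMap.range B.dP) →
      ∀ d : DD, (Finsupp.single (some κ) d : B.MM) ∈ LinearMap.range B.dP := by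
    intro κ h d
    have h1 : (Finsupp.single (some κ) d : B.MM) =
        d • B.vec (some κ) + Finsupp.single (B.par κ) (d * B.lab κ) := by
      rw [smul_vec_some]; abel
    rw [h1, ← dP_single]
    exact add_mem (LinearMap.mem_range_self _ _) (h _)
  have hnone : ∀ d : DD, (Finsupp.single none d : B.MM) ∈ LinearMap.range B.dP := by
    intro d
    rw [← smul_vec_none, ← dP_single]
    exact LinearMap.mem_range_self _ _
  intro w
  match w with
  | none => exact hnone
  | some (l, j) =>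
    induction l with
    | nil => exact hsome ([], j) hnone
    | cons i l ih => exact hsome (i :: l, j) ih

theorem dP_surjective : Function.Surjective B.dP := by
  intro y
  induction y using Finsupp.induction_linear with
  | zero => exact ⟨0, map_zero _⟩
  | add f g hf hg =>
    obtain ⟨a, rfl⟩ := hf
    obtain ⟨b, rfl⟩ := hg
    exact ⟨a + b, map_add _ _ _⟩
  | single w d => exact single_mem_range w d


/-! ## the sum is direct -/

theorem eq_zero_of_mem (c : B.MM) (hc : c ∈ B.H) (hG : B.dP c ∈ B.Gaff) : c = 0 := by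
  obtain ⟨⟨o, ho, hco⟩, hO⟩ := hc
  have hO' : ∀ w, c w ∈ L.O := by
    intro w
    match w with
    | none => rw [hco]; exact L.O.mul_mem L.pO ho
    | some κ => exact hO κ
  have main : ∀ (m : ℕ), (∀ w : B.W, m < B.lev w → c w = 0) → c = 0 := by
    intro m
    induction m with
    | zero =>
      intro h
      have h2 : B.dP c none = c none := dP_top c 0 h none rfl
      have h3 := hG none
      rw [h2, hco] at h3
      have h4 := L.disj o ho h3
      ext w
      match w with
      | none => rw [hco, h4, mul_zero]; rfl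
      | some κ => exact h _ (by simp [LB.lev])
    | succ m ih =>
      intro h
      apply ih
      -- coefficients of level `m + 1` lie in `E`
      have htop : ∀ w : B.W, B.lev w = m + 1 → c w ∈ L.V ⊓ L.O := by
        intro w hw
        refine ⟨?_, hO' w⟩
        rw [← dP_top c (m + 1) h w hw]
        exact hG _
      intro w hw
      rcases Nat.lt_or_ge (m + 1) (B.lev w) with h1 | h1
      · exact h w h1
      have hlev : B.lev w = m + 1 := by omega
      match w, hlev with
      | some ([], j), hlev =>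
        have hm : m = 0 := by simpa [LB.lev] using hlev.symm
        subst hm
        have hc2 : kid1 c = 0 := by
          refine B.ind1 _ (fun j => ?_) (-(B.dP c none)) (L.V.neg_mem (hG _)) o ho ?_
          · rw [kid1_apply]; exact htop _ rfl
          · rw [dP_apply_none, hco]; abel
        have := DFunLike.congr_fun hc2 j
        simpa using this
      | some (i :: l, j), hlev =>
        have hc2 : kid0 (l, j) c = 0 := by
          refine B.ind0 _ (fun i' => ?_) (-(B.dP c (some (l, j)))) (L.V.neg_mem (hG _))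
            (c (some (l, j))) (hO' _) ?_
          · rw [kid0_apply]
            refine htop _ ?_
            simpa [LB.lev] using hlev
          · rw [dP_apply_some]; abel
        have := DFunLike.congr_fun hc2 i
        simpa using this
  obtain ⟨m, hm⟩ := exists_lev c
  exact main m hm

theorem inf_eq_bot : B.Gaff ⊓ B.BB = ⊥ := by
  rw [eq_bot_iff]
  rintro y ⟨h1, c, hc, rfl⟩
  have h2 := eq_zero_of_mem c hc h1
  rw [h2, map_zero]
  exact zero_mem _

/-- **Lemma 1** of #12003 -/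
theorem isCompl (B : LB L) : IsCompl B.Gaff B.BB :=
  IsCompl.of_eq inf_eq_bot sup_eq_top

end

end Crest.Agent.R181.VL
end

-- ▼ part R181/V868d

/-!
# R181, V-chain, block V1: final statements (left-handed)
-/

namespace Crest.Agent.R181.V868

universe u

namespace LB

variable {DD : Type u} [Ring DD] {L : Line DD} (B : LB L) {T : Type u} [Ring T] (U : UnivT L T)

theorem isCompl : IsCompl B.Gaff B.BB := VL.isCompl B

/-- (o1): `T[x]` is left `V`-free on the words -/
theorem existsUnique_Gaff (z : LaurentSeries T) (hz : ∀ n : ℤ, 0 < n → z.coeff n = 0) :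
    ∃! m : B.MM, m ∈ B.Gaff ∧ B.φ U m = z := by
  obtain ⟨m, hm, hm'⟩ := B.exists_Gaff U B.isCompl z hz
  refine ⟨m, ⟨hm, hm'⟩, ?_⟩
  rintro m' ⟨h1, h2⟩
  rw [← sub_eq_zero]
  exact B.φ_injOn_Gaff U B.isCompl (B.Gaff.sub_mem h1 hm) (by rw [map_sub, h2, hm', sub_self])

/-- the second basis: `1` and `x (κ - lab κ • par κ)` -/
noncomputable def bi : B.W → B.MM
  | none => Finsupp.single none 1
  | some κ => L.x • B.vec (some κ)

@[simp] lemma bi_none : B.bi none = Finsupp.single none 1 := rfl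
lemma bi_some (κ : B.Wd) : B.bi (some κ) = L.x • B.vec (some κ) := rfl

lemma bi_mem (w : B.W) : B.bi w ∈ B.Ginf := by
  rcases w with _ | κ
  · exact B.one_mem_N.2
  · rw [mem_Ginf, bi_some, smul_smul, L.px, one_smul]
    simpa using B.smul_vec_mem_BB L.O.one_mem κ

/-- the coordinates `o ↦ p • o` at the root, `o` elsewhere; `dP` of it is `p • Σ o_w bi w` -/
lemma smul_bi_sum (o : B.W →₀ DD) : L.p • o.sum (fun w d => d • B.bi w) =
    B.dP (o + Finsupp.single none (L.p * o none - o none)) := by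
  classical
  have hne : B.vec none = Finsupp.single none 1 := rfl
  have h0 : B.dP (Finsupp.single none (L.p * o none - o none)) =
      Finsupp.single none (L.p * o none - o none) := by
    rw [dP_single, smul_vec_none]
  rw [map_add, h0]
  have h1 : B.dP o = o.sum (fun w d => d • B.vec w) := by
    rw [dP, Finsupp.linearCombination_apply]
  rw [h1, Finsupp.smul_sum]
  have h2 : ∀ (w : B.W) (d : DD), L.p • d • B.bi w =
      d • B.vec w + (if w = none then Finsupp.single none (L.p * d - d) else 0) := by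
    intro w d
    rcases w with _ | κ
    · rw [if_pos rfl, bi_none, hne]
      simp only [Finsupp.smul_single, smul_eq_mul, mul_one]
      rw [← Finsupp.single_add]
      congr 1; abel
    · rw [if_neg (by simp), add_zero, bi_some, smul_smul, smul_smul, L.pc, mul_assoc, L.px, mul_one]
  simp only [h2]
  rw [Finsupp.sum_add]
  congr 1
  rw [Finsupp.sum]
  by_cases hn : o none = 0
  · rw [hn]
    simp only [mul_zero, sub_zero, Finsupp.single_zero]
    refine Finset.sum_eq_zero fun w hw => ?_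
    rcases w with _ | κ
    · rw [hn]; simp
    · simp
  · rw [Finset.sum_eq_single none]
    · simp
    · intro w _ hw; rw [if_neg hw]
    · intro h; exfalso; exact hn (by simpa using h)

/-- (o3): `G_inf` is `O`-free on `bi` -/
theorem existsUnique_Ginf (g : B.MM) (hg : g ∈ B.Ginf) :
    ∃! o : B.W →₀ DD, (∀ w, o w ∈ L.O) ∧ g = o.sum (fun w d => d • B.bi w) := by
  obtain ⟨h, ⟨⟨o', ho', h1⟩, h2⟩, h3⟩ := B.mem_BB.1 hg
  have key : ∀ o : B.W →₀ DD, g = o.sum (fun w d => d • B.bi w) ↔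
      o + Finsupp.single none (L.p * o none - o none) = h := by
    intro o
    constructor
    · intro e
      have := B.smul_bi_sum o
      rw [← e, ← h3] at this
      exact (VL.dP_injective this).symm
    · intro e
      have h4 := B.smul_bi_sum o
      rw [e, h3] at h4
      have h5 := congrArg (fun y => L.x • y) h4
      simp only [smul_smul, L.xp, one_smul] at h5
      exact h5.symm
  refine ⟨h + Finsupp.single none (o' - h none), ⟨?_, ?_⟩, ?_⟩
  · intro w
    rcases w with _ | κ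
    · simp [ho']
    · simpa using h2 κ
  · rw [key]
    ext w
    rcases w with _ | κ
    · simp [h1]
    · simp
  · rintro o ⟨-, e⟩
    rw [key] at e
    ext w
    rcases w with _ | κ
    · have := DFunLike.congr_fun e none
      simp only [Finsupp.add_apply, Finsupp.single_eq_same, h1] at this
      have h6 : L.p * o none = L.p * o' := by rw [← this]; abel
      have h7 : o none = o' := by
        have := congrArg (fun y => L.x * y) h6
        simpa [← mul_assoc, L.xp] using this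
      simp [h7]
    · have := DFunLike.congr_fun e (some κ)
      simpa using this

lemma φ_bi_neg (w : B.W) (n : ℤ) (hn : n < 0) : (B.φ U (B.bi w)).coeff n = 0 :=
  B.φ_Ginf U (B.bi_mem w) n hn

/-- the `Δ`-basis of `T` -/
noncomputable def c (w : B.W) : T := (B.φ U (B.bi w)).coeff 0

@[simp] lemma c_none : B.c U none = 1 := by
  simp [c, φ_single]

lemma coeff_zero_bi_sum (o : B.W →₀ DD) (ho : ∀ w, o w ∈ L.O) :
    (B.φ U (o.sum (fun w d => d • B.bi w))).coeff 0 =
      o.sum (fun w d => (U.Θ d).coeff 0 * B.c U w) := by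
  rw [Finsupp.sum, map_sum, HahnSeries.coeff_sum, Finsupp.sum]
  refine Finset.sum_congr rfl fun w _ => ?_
  rw [φ_smul, mul_coeff_zero (U.ΘO _ (ho w)) (B.φ_bi_neg U w)]
  rfl

/-- (o2), existence -/
theorem exists_c (t : T) : ∃ o : B.W →₀ DD, (∀ w, o w ∈ L.O) ∧
    t = o.sum (fun w d => (U.Θ d).coeff 0 * B.c U w) := by
  obtain ⟨n, rfl⟩ := B.ψ_surjective U B.isCompl t
  obtain ⟨o, ⟨h1, h2⟩, -⟩ := B.existsUnique_Ginf _ n.2.2
  refine ⟨o, h1, ?_⟩
  rw [← B.coeff_zero_bi_sum U o h1, ← h2]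
  rfl

/-- `g ∈ G_inf`, `coeff 0 = 0` implies `g ∈ p G_inf` -/
theorem mem_BB_of_coeff_zero {g : B.MM} (hg : g ∈ B.Ginf) (h : (B.φ U g).coeff 0 = 0) :
    g ∈ B.BB := by
  rw [B.mem_BB_iff_φ U B.isCompl]
  intro n hn
  rcases hn.lt_or_eq with h1 | rfl
  · exact B.φ_Ginf U hg n h1
  · exact h

/-- (o2), uniqueness modulo `pO` -/
theorem c_unique (o : B.W →₀ DD) (ho : ∀ w, o w ∈ L.O)
    (h : o.sum (fun w d => (U.Θ d).coeff 0 * B.c U w) = 0) (w : B.W) :
    ∃ o' ∈ L.O, o w = L.p * o' := by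
  have hG : o.sum (fun w d => d • B.bi w) ∈ B.Ginf := by
    rw [Finsupp.sum]
    exact Submodule.sum_mem _ fun w _ => B.Ginf_smul (ho w) (B.bi_mem w)
  have h1 := B.mem_BB_of_coeff_zero U hG (by rw [B.coeff_zero_bi_sum U o ho, h])
  have h2 : L.x • o.sum (fun w d => d • B.bi w) ∈ B.Ginf := by
    rw [mem_Ginf, smul_smul, L.px, one_smul]; exact h1
  obtain ⟨o'', ⟨h3, h4⟩, -⟩ := B.existsUnique_Ginf _ h2
  have h5 : o.sum (fun w d => d • B.bi w) =
      (L.p • o'').sum (fun w d => d • B.bi w) := by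
    have := congrArg (fun y => L.p • y) h4
    simp only [smul_smul, L.px, one_smul] at this
    rw [this, Finsupp.smul_sum, Finsupp.sum_smul_index]
    · simp only [mul_smul]
    · simp
  obtain ⟨o3, -, h6⟩ := B.existsUnique_Ginf _ hG
  have h7 := h6 o ⟨ho, rfl⟩
  have h8 := h6 (L.p • o'') ⟨fun w => L.O.mul_mem L.pO (h3 w), h5⟩
  refine ⟨o'' w, h3 w, ?_⟩
  rw [h7, ← h8]; rfl


section sep
variable (hsep : ∀ d : DD, (∀ n : ℕ, ∃ o ∈ L.O, d = L.p ^ n * o) → d = 0)
include hsep

/-- `φ` is injective if `⋂ pⁿO = 0` -/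
theorem φ_injective : Function.Injective (B.φ U) := by
  rw [injective_iff_map_eq_zero]
  intro m hm
  obtain ⟨f, rfl⟩ := VL.dP_surjective (B := B) m
  have h1 : ∀ n : ℕ, L.x ^ n • f ∈ B.H := by
    intro n
    have h2 : L.x ^ n • B.dP f ∈ B.BB := by
      rw [B.mem_BB_iff_φ U B.isCompl]
      intro k _
      rw [φ_smul, hm]; simp
    obtain ⟨f', hf', h3⟩ := B.mem_BB.1 h2
    rw [← map_smul] at h3
    rwa [← VL.dP_injective h3]
  have h2 : f = 0 := by
    ext w
    refine hsep _ fun n => ?_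
    have hx : ∀ d : DD, d = L.p ^ n * (L.x ^ n * d) := by
      intro d
      rw [← mul_assoc, ← L.xz_neg_nat, ← L.xz_nat, ← L.xz_add]; simp
    rcases w with _ | κ
    · obtain ⟨⟨o, ho, h3⟩, -⟩ := h1 n
      refine ⟨L.p * o, L.O.mul_mem L.pO ho, ?_⟩
      rw [← h3]; exact hx _
    · refine ⟨_, (h1 n).2 κ, ?_⟩
      exact hx _
  rw [h2, map_zero]

end sep

/-- `MM_T = Θ(DD) T[x]` inside `T((p))` -/
noncomputable def MMT : AddSubgroup (LaurentSeries T) := (B.φ U).range


lemma MMT_smul (d : DD) {z : LaurentSeries T} (hz : z ∈ B.MMT U) : U.Θ d * z ∈ B.MMT U := by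
  obtain ⟨m, rfl⟩ := hz
  exact ⟨d • m, B.φ_smul U d m⟩

lemma poly_mem_MMT {z : LaurentSeries T} (hz : ∀ n : ℤ, 0 < n → z.coeff n = 0) :
    z ∈ B.MMT U := by
  obtain ⟨m, -, hm⟩ := B.exists_Gaff U B.isCompl z hz
  exact ⟨m, hm⟩

/-- `MM_T` is stable under right multiplication by `T[x]` -/
lemma MMT_mul {z : LaurentSeries T} (hz : z ∈ B.MMT U) {y : LaurentSeries T}
    (hy : ∀ n : ℤ, 0 < n → y.coeff n = 0) : z * y ∈ B.MMT U := by
  obtain ⟨m, rfl⟩ := hz
  rw [φ_apply, Finsupp.sum, Finset.sum_mul]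
  refine AddSubgroup.sum_mem _ fun w _ => ?_
  rw [mul_assoc]
  exact B.MMT_smul U _ (B.poly_mem_MMT U (fun n hn => mul_coeff_pos (B.b_pos U w) hy n hn))


/-- `φ m ∈ T[x]` iff `m ∈ G_aff` when `φ` is injective -/
lemma mem_Gaff_iff_φ (hinj : Function.Injective (B.φ U)) {m : B.MM} :
    m ∈ B.Gaff ↔ ∀ n : ℤ, 0 < n → (B.φ U m).coeff n = 0 := by
  refine ⟨fun h => B.φ_Gaff U h, fun h => ?_⟩
  obtain ⟨m', hm', e⟩ := B.exists_Gaff U B.isCompl _ h
  rwa [← hinj e]

end LB

end Crest.Agent.R181.V868
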