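import Mathlib
import Crest.Agent.R181.V3386a
import Crest.Agent.R181.AS4
import Crest.Agent.R181.TW825a
import Crest.Agent.R181.MKS659a
import Crest.Agent.R181.FFR776c
import Crest.Agent.R181.FR459b
import Crest.Agent.R181.TW825b
import Crest.Agent.R181.ST963b
import Crest.Agent.R181.HL776a
import Crest.Agent.R181.TW825d
import Crest.Agent.R181.AS7
import Crest.Agent.R181.VP836b
import Crest.Agent.R181.BM553a

-- ▼ part R181/V3386b
section

/-!
R181, V3 base: universal quotient-localisations of a polynomial ring; the key isomorphism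
`(R/h)[t] ≃ R` for a unimodular affine-linear equation.
-/

namespace Crest.Agent.R181.V3

open MvPolynomial

/-- `ρ : G → R` is universal among the ring homs killing `H` and inverting `U`. -/
structure IsUniv {G R : Type} [CommRing G] [CommRing R] (H U : Set G) (ρ : G →+* R) : Prop where
  kill : ∀ h ∈ H, ρ h = 0
  inv : ∀ u ∈ U, IsUnit (ρ u)
  lift : ∀ (T : Type) [CommRing T] (φ : G →+* T), (∀ h ∈ H, φ h = 0) → (∀ u ∈ U, IsUnit (φ u)) →
    ∃ ψ : R →+* T, ψ.comp ρ = φ
  ext : ∀ (T : Type) [CommRing T] (ψ₁ ψ₂ : R →+* T), ψ₁.comp ρ = ψ₂.comp ρ → ψ₁ = ψ₂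

section general

variable {G R : Type} [CommRing G] [CommRing R] {H U : Set G} {ρ : G →+* R}

theorem IsUniv.id (G : Type) [CommRing G] : IsUniv (∅ : Set G) ∅ (RingHom.id G) where
  kill := by simp
  inv := by simp
  lift := fun T _ φ _ _ => ⟨φ, by simp⟩
  ext := fun T _ ψ₁ ψ₂ h => by simpa using h

theorem IsUniv.quot (h : IsUniv H U ρ) (x : G) :
    IsUniv (insert x H) U ((Ideal.Quotient.mk (Ideal.span {ρ x})).comp ρ) where
  kill := by
    rintro y (rfl | hy)
    · simp only [RingHom.comp_apply]
      exact Ideal.Quotient.eq_zero_iff_mem.2 (Ideal.subset_span rfl)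
    · simp [h.kill y hy]
  inv := fun u hu => (h.inv u hu).map (Ideal.Quotient.mk (Ideal.span {ρ x}))
  lift := fun T _ φ h1 h2 => by
    obtain ⟨ψ, hψ⟩ := h.lift T φ (fun y hy => h1 y (Set.mem_insert_of_mem _ hy)) h2
    refine ⟨Ideal.Quotient.lift _ ψ ?_, ?_⟩
    · intro a ha
      have : Ideal.span {ρ x} ≤ RingHom.ker ψ := by
        rw [Ideal.span_le]
        rintro _ rfl
        change ψ (ρ x) = 0
        rw [← RingHom.comp_apply, hψ]
        exact h1 x (Set.mem_insert _ _)
      exact this ha
    · exact hψ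
  ext := fun T _ ψ₁ ψ₂ h' => by
    apply Ideal.Quotient.ringHom_ext
    exact h.ext T _ _ h'

theorem IsUniv.loc (h : IsUniv H U ρ) (V : Set G) :
    IsUniv H (U ∪ V)
      ((algebraMap R (Localization (Submonoid.closure (ρ '' V)))).comp ρ) where
  kill := fun y hy => by simp [h.kill y hy]
  inv := by
    rintro u (hu | hu)
    · exact (h.inv u hu).map (algebraMap R (Localization (Submonoid.closure (ρ '' V))))
    · exact IsLocalization.map_units (Localization (Submonoid.closure (ρ '' V)))
        (⟨ρ u, Submonoid.subset_closure ⟨u, hu, rfl⟩⟩ : Submonoid.closure (ρ '' V))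
  lift := fun T _ φ h1 h2 => by
    obtain ⟨ψ, hψ⟩ := h.lift T φ h1 (fun u hu => h2 u (Or.inl hu))
    have hM : ∀ y : Submonoid.closure (ρ '' V), IsUnit (ψ y) := by
      rintro ⟨y, hy⟩
      have : Submonoid.closure (ρ '' V) ≤ (IsUnit.submonoid T).comap ψ.toMonoidHom := by
        rw [Submonoid.closure_le]
        rintro _ ⟨v, hv, rfl⟩
        change IsUnit (ψ (ρ v))
        rw [← RingHom.comp_apply, hψ]
        exact h2 v (Or.inr hv)
      exact this hy
    refine ⟨IsLocalization.lift (M := Submonoid.closure (ρ '' V)) hM, ?_⟩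
    ext y
    simp [← hψ]
  ext := fun T _ ψ₁ ψ₂ h' => by
    apply IsLocalization.ringHom_ext (Submonoid.closure (ρ '' V))
    exact h.ext T _ _ h'

theorem IsUniv.nonempty_equiv (h : IsUniv H U ρ) {R' : Type} [CommRing R'] {ρ' : G →+* R'}
    (h' : IsUniv H U ρ') : Nonempty (R ≃+* R') := by
  obtain ⟨α, hα⟩ := h.lift R' ρ' h'.kill h'.inv
  obtain ⟨β, hβ⟩ := h'.lift R ρ h.kill h.inv
  refine ⟨RingEquiv.ofRingHom α β ?_ ?_⟩
  · apply h'.ext
    rw [RingHom.comp_assoc, hβ, hα, RingHom.id_comp]
  · apply h.ext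
    rw [RingHom.comp_assoc, hα, hβ, RingHom.id_comp]

end general

section key

variable {k W : Type} [CommRing k] [DecidableEq W]

/-- set the variables of `Y` to zero -/
noncomputable def kz (k : Type) [CommRing k] (Y : Finset W) : MvPolynomial W k →+* MvPolynomial W k :=
  eval₂Hom C (fun w => if w ∈ Y then 0 else X w)

@[simp] theorem kz_C (Y : Finset W) (a : k) : kz k Y (C a) = C a := by simp [kz]

@[simp] theorem kz_X (Y : Finset W) (w : W) :
    kz k Y (X w) = if w ∈ Y then 0 else X w := by simp [kz]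

theorem kz_agree {T : Type} [CommRing T] (Y : Finset W) (φ φ' : MvPolynomial W k →+* T)
    (hC : ∀ a, φ (C a) = φ' (C a)) (hX : ∀ w, w ∉ Y → φ (X w) = φ' (X w))
    (p : MvPolynomial W k) (hp : kz k Y p = p) : φ p = φ' p := by
  have : φ.comp (kz k Y) = φ'.comp (kz k Y) := by
    apply ringHom_ext
    · intro a; simp [hC]
    · intro w
      by_cases hw : w ∈ Y
      · simp [hw]
      · simp [hw, hX w hw]
  rw [← hp, ← RingHom.comp_apply, this, RingHom.comp_apply]

theorem key_equiv {R : Type} [CommRing R] {H U : Set (MvPolynomial W k)}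
    {ρ : MvPolynomial W k →+* R} (h : IsUniv H U ρ) (Y : Finset W)
    (hH : ∀ p ∈ H, kz k Y p = p) (hU : ∀ p ∈ U, kz k Y p = p)
    (b : MvPolynomial W k) (g : W → MvPolynomial W k)
    (hb : kz k Y b = b) (hg : ∀ w ∈ Y, kz k Y (g w) = g w)
    (v : W → R) (hv : ∑ w ∈ Y, v w * ρ (g w) = 1)
    (x : MvPolynomial W k) (hx : x = b - ∑ w ∈ Y, X w * g w) :
    Nonempty (R ≃+* Polynomial (R ⧸ Ideal.span {ρ x})) := by
  classical
  let B := R ⧸ Ideal.span {ρ x}
  let π : R →+* B := Ideal.Quotient.mk (Ideal.span {ρ x})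
  have hπx : π (ρ x) = 0 := Ideal.Quotient.eq_zero_iff_mem.2 (Ideal.subset_span rfl)
  -- the retraction σ
  obtain ⟨σ, hσ⟩ := h.lift R (ρ.comp (kz k Y))
    (fun p hp => by rw [RingHom.comp_apply, hH p hp, h.kill p hp])
    (fun p hp => by rw [RingHom.comp_apply, hU p hp]; exact h.inv p hp)
  have hσ' : ∀ p, σ (ρ p) = ρ (kz k Y p) := fun p => by
    rw [← RingHom.comp_apply, hσ]; rfl
  let v' : W → R := fun w => σ (v w)
  have hv' : ∑ w ∈ Y, v' w * ρ (g w) = 1 := by
    have := congrArg σ hv
    rw [map_sum, map_one] at this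
    rw [← this]
    refine Finset.sum_congr rfl fun w hw => ?_
    rw [map_mul, hσ', hg w hw]
  have hσσ : ∀ p, kz k Y (kz k Y p) = kz k Y p := by
    intro p
    have : (kz k Y).comp (kz k Y) = kz k Y := by
      apply ringHom_ext
      · intro a; simp
      · intro w
        by_cases hw : w ∈ Y <;> simp [hw]
    rw [← RingHom.comp_apply, this]
  -- Φ
  let Φ₀ : MvPolynomial W k →+* Polynomial B :=
    eval₂Hom (((Polynomial.C.comp π).comp ρ).comp C)
      (fun w => Polynomial.C (π (ρ (X w))) + if w ∈ Y then Polynomial.C (π (v' w)) * Polynomial.X else 0)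
  have hΦ₀C : ∀ a, Φ₀ (C a) = Polynomial.C (π (ρ (C a))) := fun a => by simp [Φ₀]
  have hΦ₀X : ∀ w, Φ₀ (X w) = Polynomial.C (π (ρ (X w))) +
      if w ∈ Y then Polynomial.C (π (v' w)) * Polynomial.X else 0 := fun w => by simp [Φ₀]
  have hΦ₀ : ∀ p, kz k Y p = p → Φ₀ p = Polynomial.C (π (ρ p)) := by
    intro p hp
    exact kz_agree Y Φ₀ ((Polynomial.C.comp π).comp ρ) hΦ₀C
      (fun w hw => by rw [hΦ₀X, if_neg hw, add_zero]; rfl) p hp
  obtain ⟨Φ, hΦ⟩ := h.lift (Polynomial B) Φ₀
    (fun p hp => by rw [hΦ₀ p (hH p hp), h.kill p hp, map_zero, map_zero])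
    (fun p hp => by rw [hΦ₀ p (hU p hp)]; exact ((h.inv p hp).map π).map _)
  have hΦ' : ∀ p, Φ (ρ p) = Φ₀ p := fun p => by rw [← RingHom.comp_apply, hΦ]
  have hΦσ : ∀ r, Φ (σ r) = Polynomial.C (π (σ r)) := by
    intro r
    have : Φ.comp σ = (Polynomial.C.comp π).comp σ := by
      apply h.ext
      apply RingHom.ext
      intro p
      simp only [RingHom.comp_apply]
      rw [hσ', hΦ', hΦ₀ _ (hσσ p)]
    exact RingHom.congr_fun this r
  have hΦx : Φ (ρ x) = - Polynomial.X := by
    have h1 : Φ₀ x = Polynomial.C (π (ρ x)) - Polynomial.X := by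
      have h0 : ρ x = ρ b - ρ (∑ w ∈ Y, X w * g w) := by rw [← map_sub, ← hx]
      have h0' : Φ₀ x = Φ₀ b - ∑ w ∈ Y, Φ₀ (X w * g w) := by
        have := congrArg Φ₀ hx
        rw [map_sub, map_sum] at this
        exact this
      have h0'' : π (ρ x) = π (ρ b) - π (ρ (∑ w ∈ Y, X w * g w)) := by
        have := congrArg π h0
        rw [map_sub] at this
        exact this
      rw [h0', hΦ₀ b hb, h0'']
      have : ∑ w ∈ Y, Φ₀ (X w * g w) =
          Polynomial.C (π (ρ (∑ w ∈ Y, X w * g w))) + Polynomial.X := by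
        have h2 : ∀ w ∈ Y, Φ₀ (X w * g w) = Polynomial.C (π (ρ (X w * g w))) +
            Polynomial.C (π (v' w * ρ (g w))) * Polynomial.X := by
          intro w hw
          rw [map_mul, hΦ₀X, if_pos hw, hΦ₀ _ (hg w hw)]
          simp only [map_mul]
          ring
        rw [Finset.sum_congr rfl h2, Finset.sum_add_distrib, ← Finset.sum_mul]
        simp only [← map_sum]
        rw [hv']
        simp
      rw [this]
      simp only [map_sub]
      ring
    rw [hΦ', h1, hπx, map_zero, zero_sub]
  -- Ψ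
  let τ : R := - ρ x
  let Ψ₀ : MvPolynomial W k →+* R :=
    eval₂Hom (ρ.comp C) (fun w => ρ (X w) - if w ∈ Y then v' w * τ else 0)
  have hΨ₀C : ∀ a, Ψ₀ (C a) = ρ (C a) := fun a => by simp [Ψ₀]
  have hΨ₀X : ∀ w, Ψ₀ (X w) = ρ (X w) - if w ∈ Y then v' w * τ else 0 := fun w => by simp [Ψ₀]
  have hΨ₀ : ∀ p, kz k Y p = p → Ψ₀ p = ρ p := by
    intro p hp
    exact kz_agree Y Ψ₀ ρ hΨ₀C (fun w hw => by rw [hΨ₀X, if_neg hw, sub_zero]) p hp
  obtain ⟨Ψ₁, hΨ₁⟩ := h.lift R Ψ₀
    (fun p hp => by rw [hΨ₀ p (hH p hp), h.kill p hp])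
    (fun p hp => by rw [hΨ₀ p (hU p hp)]; exact h.inv p hp)
  have hΨ₁' : ∀ p, Ψ₁ (ρ p) = Ψ₀ p := fun p => by rw [← RingHom.comp_apply, hΨ₁]
  have hΨσ : ∀ r, Ψ₁ (σ r) = σ r := by
    intro r
    have : Ψ₁.comp σ = σ := by
      apply h.ext
      apply RingHom.ext
      intro p
      simp only [RingHom.comp_apply]
      rw [hσ', hΨ₁', hΨ₀ _ (hσσ p)]
    exact RingHom.congr_fun this r
  have hΨx : Ψ₁ (ρ x) = 0 := by
    rw [hΨ₁']
    have h2 : ∀ w ∈ Y, Ψ₀ (X w * g w) = ρ (X w * g w) - (v' w * ρ (g w)) * τ := by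
      intro w hw
      rw [map_mul, hΨ₀X, if_pos hw, hΨ₀ _ (hg w hw), map_mul]
      ring
    have h1 : Ψ₀ x = ρ x + τ := by
      have h0 : ρ x = ρ b - ρ (∑ w ∈ Y, X w * g w) := by rw [← map_sub, ← hx]
      have h0' : Ψ₀ x = Ψ₀ b - ∑ w ∈ Y, Ψ₀ (X w * g w) := by
        have := congrArg Ψ₀ hx
        rw [map_sub, map_sum] at this
        exact this
      rw [h0', hΨ₀ b hb, Finset.sum_congr rfl h2, Finset.sum_sub_distrib,
        ← Finset.sum_mul, hv', ← map_sum, h0]
      ring
    rw [h1]; simp [τ]
  let Ψ_B : B →+* R := Ideal.Quotient.lift (Ideal.span {ρ x}) Ψ₁ (by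
    intro a ha
    have : Ideal.span {ρ x} ≤ RingHom.ker Ψ₁ := by
      rw [Ideal.span_le]
      rintro _ rfl
      exact hΨx
    exact this ha)
  have hΨB : ∀ r, Ψ_B (π r) = Ψ₁ r := fun r => rfl
  let Ψ : Polynomial B →+* R := Polynomial.eval₂RingHom Ψ_B τ
  have hΨC : ∀ r, Ψ (Polynomial.C (π r)) = Ψ₁ r := fun r => by simp [Ψ, hΨB]
  have hΨX : Ψ Polynomial.X = τ := by simp [Ψ]
  refine ⟨RingEquiv.ofRingHom Φ Ψ ?_ ?_⟩
  · -- Φ ∘ Ψ = id
    apply Polynomial.ringHom_ext
    · intro a
      obtain ⟨r, rfl⟩ := Ideal.Quotient.mk_surjective a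
      change Φ (Ψ (Polynomial.C (π r))) = Polynomial.C (π r)
      rw [hΨC]
      have : Φ.comp Ψ₁ = Polynomial.C.comp π := by
        apply h.ext
        apply ringHom_ext
        · intro a
          simp only [RingHom.comp_apply]
          rw [hΨ₁', hΨ₀C, hΦ', hΦ₀C]
        · intro w
          simp only [RingHom.comp_apply]
          rw [hΨ₁', hΨ₀X, map_sub, hΦ', hΦ₀X]
          by_cases hw : w ∈ Y
          · simp only [hw, if_true, map_mul, τ, map_neg, hΦx, v', hΦσ]
            ring
          · simp [hw]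
      exact RingHom.congr_fun this r
    · change Φ (Ψ Polynomial.X) = Polynomial.X
      rw [hΨX]
      simp [τ, hΦx]
  · -- Ψ ∘ Φ = id
    apply h.ext
    apply ringHom_ext
    · intro a
      simp only [RingHom.comp_apply, RingHom.id_apply]
      rw [hΦ', hΦ₀C, hΨC, hΨ₁', hΨ₀C]
    · intro w
      simp only [RingHom.comp_apply, RingHom.id_apply]
      rw [hΦ', hΦ₀X, map_add, hΨC, hΨ₁', hΨ₀X]
      by_cases hw : w ∈ Y
      · simp only [hw, if_true, map_mul, hΨX, hΨC, v', hΨσ]
        ring
      · simp [hw]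

end key

end Crest.Agent.R181.V3
end

-- ▼ part R181/V3386c
section

/-!
R181, V3 base: the tower.  Polynomial rings modulo a triangular family of equations which are
affine linear in their own (transcendental) parameters with unimodular coefficient rows.
-/

namespace Crest.Agent.R181.V3

open MvPolynomial

section tower

variable {k : Type} [Field k] {Z Q : Type} [Fintype Z] [Fintype Q] [DecidableEq Z] [DecidableEq Q]
  {r : ℕ} (eq : Q → ℕ) (b : Fin r → MvPolynomial Z k) (g : Q → MvPolynomial Z k)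

/-- the `s`-th equation in the big polynomial ring -/
noncomputable def eqG (s : Fin r) : MvPolynomial (Z ⊕ Q) k :=
  rename Sum.inl (b s) - ∑ q with eq q = (s : ℕ), X (Sum.inr q) * rename Sum.inl (g q)

/-- unimodularity of the coefficient rows (at all field valued points) -/
def UM : Prop :=
  ∀ (s : Fin r) (K : Type) [Field K] (c : k →+* K) (z : Z → K) (y : Q → K),
    (∀ q, eq q < (s : ℕ) → y q ≠ 0) →
    (∀ l, l < s → eval₂ c z (b l) = ∑ q with eq q = (l : ℕ), y q * eval₂ c z (g q)) →
    ∃ q, eq q = (s : ℕ) ∧ eval₂ c z (g q) ≠ 0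

omit [Fintype Z] [Fintype Q] in
theorem kz_rename_inl (Y : Finset (Z ⊕ Q)) (hY : ∀ z, Sum.inl z ∉ Y) (p : MvPolynomial Z k) :
    kz k Y (rename Sum.inl p) = rename Sum.inl p := by
  have : (kz k Y).comp (rename (R := k) (Sum.inl : Z → Z ⊕ Q)).toRingHom =
      (rename (R := k) (Sum.inl : Z → Z ⊕ Q)).toRingHom := by
    apply ringHom_ext
    · intro a
      change kz k Y (rename Sum.inl (C a)) = rename Sum.inl (C a)
      simp
    · intro i
      change kz k Y (rename Sum.inl (X i)) = rename Sum.inl (X i)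
      simp [hY i]
  exact RingHom.congr_fun this p

theorem tower_step (hUM : UM eq b g) (s : Fin r) {R : Type} [CommRing R]
    {ρ : MvPolynomial (Z ⊕ Q) k →+* R}
    (h : IsUniv {p | ∃ l, l < s ∧ p = eqG eq b g l} {p | ∃ q, eq q < (s : ℕ) ∧ p = X (Sum.inr q)} ρ)
    (hR : Good R) : Good (R ⧸ Ideal.span {ρ (eqG eq b g s)}) := by
  classical
  -- unimodularity in R
  have htop : Ideal.span (Set.range fun q : {q : Q // eq q = s} =>
      ρ (rename Sum.inl (g q.1))) = ⊤ := by
    by_contra hne
    obtain ⟨m, hm, hle⟩ := Ideal.exists_le_maximal _ hne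
    let _ : Field (R ⧸ m) := Ideal.Quotient.field m
    let c : MvPolynomial (Z ⊕ Q) k →+* R ⧸ m := (Ideal.Quotient.mk m).comp ρ
    have hev : ∀ p : MvPolynomial Z k, c (rename Sum.inl p) =
        eval₂ (c.comp C) (fun z => c (X (Sum.inl z))) p := by
      intro p
      have : c.comp (rename (R := k) (Sum.inl : Z → Z ⊕ Q)).toRingHom =
          eval₂Hom (c.comp C) (fun z => c (X (Sum.inl z))) := by
        apply ringHom_ext
        · intro a
          change c (rename Sum.inl (C a)) = _
          simp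
        · intro i
          change c (rename Sum.inl (X i)) = _
          simp
      exact RingHom.congr_fun this p
    obtain ⟨q, hq, hne⟩ := hUM s (R ⧸ m) (c.comp C) (fun z => c (X (Sum.inl z)))
      (fun q => c (X (Sum.inr q)))
      (fun q hq => by
        have := (h.inv (X (Sum.inr q)) ⟨q, hq, rfl⟩).map (Ideal.Quotient.mk m)
        exact this.ne_zero)
      (fun l hl => by
        have h1 : c (eqG eq b g l) = 0 := by
          change Ideal.Quotient.mk m (ρ (eqG eq b g l)) = 0
          rw [h.kill _ ⟨l, hl, rfl⟩, map_zero]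
        rw [eqG, map_sub, sub_eq_zero, hev, map_sum] at h1
        rw [h1]
        refine Finset.sum_congr rfl fun q _ => ?_
        rw [map_mul, hev])
    apply hne
    rw [← hev]
    exact Ideal.Quotient.eq_zero_iff_mem.2 (hle (Ideal.subset_span ⟨⟨q, hq⟩, rfl⟩))
  obtain ⟨v₀, hv₀⟩ := (Ideal.mem_span_range_iff_exists_fun).1
    ((Ideal.eq_top_iff_one _).1 htop)
  let Y : Finset (Z ⊕ Q) := Finset.univ.filter fun w => ∃ q, eq q = s ∧ w = Sum.inr q
  have hYl : ∀ z, (Sum.inl z : Z ⊕ Q) ∉ Y := by simp [Y]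
  have hYr : ∀ q, (Sum.inr q : Z ⊕ Q) ∈ Y ↔ eq q = s := by simp [Y]
  let g' : Z ⊕ Q → MvPolynomial (Z ⊕ Q) k := Sum.elim (fun _ => 0) (fun q => rename Sum.inl (g q))
  let v : Z ⊕ Q → R := Sum.elim (fun _ => 0) (fun q => if hq : eq q = s then v₀ ⟨q, hq⟩ else 0)
  have hsumY : ∀ {T : Type} [AddCommMonoid T] (f : Z ⊕ Q → T),
      ∑ w ∈ Y, f w = ∑ q with eq q = s, f (Sum.inr q) := by
    intro T _ f
    have : Y = (Finset.univ.filter fun q => eq q = s).map ⟨Sum.inr, Sum.inr_injective⟩ := by
      ext w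
      rcases w with z | q <;> simp [Y]
    rw [this, Finset.sum_map]
    rfl
  have key := key_equiv (k := k) h Y ?_ ?_ (rename Sum.inl (b s)) g' ?_ ?_ v ?_ (eqG eq b g s) ?_
  · obtain ⟨e⟩ := key
    exact Good.of_polynomial (Good.of_equiv e hR)
  · rintro p ⟨l, hl, rfl⟩
    rw [eqG, map_sub, map_sum, kz_rename_inl Y hYl]
    congr 1
    refine Finset.sum_congr rfl fun q hq => ?_
    have hq' : eq q = l := (Finset.mem_filter.1 hq).2
    have : (Sum.inr q : Z ⊕ Q) ∉ Y := by
      rw [hYr]; intro h2; rw [h2] at hq'; exact (ne_of_lt hl) (Fin.ext hq'.symm)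
    rw [map_mul, kz_rename_inl Y hYl, kz_X, if_neg this]
  · rintro p ⟨q, hq, rfl⟩
    have : (Sum.inr q : Z ⊕ Q) ∉ Y := by
      rw [hYr]; exact ne_of_lt hq
    rw [kz_X, if_neg this]
  · exact kz_rename_inl Y hYl _
  · intro w hw
    rcases w with z | q
    · exact absurd hw (hYl z)
    · exact kz_rename_inl Y hYl _
  · rw [hsumY]
    have h1 : ∀ q ∈ Finset.univ.filter (fun q => eq q = s), v (Sum.inr q) * ρ (g' (Sum.inr q)) =
        if hq : eq q = s then v₀ ⟨q, hq⟩ * ρ (rename Sum.inl (g q)) else 0 := by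
      intro q hq
      have hq' : eq q = s := (Finset.mem_filter.1 hq).2
      simp [v, g', hq']
    rw [Finset.sum_congr rfl h1, ← hv₀,
      Finset.sum_subtype (Finset.univ.filter fun q => eq q = s) (p := fun q => eq q = s) (by simp)]
    refine Finset.sum_congr rfl fun q _ => ?_
    rw [dif_pos q.2]
  · rw [eqG, hsumY]
    rfl

theorem tower (hUM : UM eq b g) (hG : Good (MvPolynomial (Z ⊕ Q) k)) :
    ∀ s : ℕ, s ≤ r → ∃ (R : Type) (_ : CommRing R) (ρ : MvPolynomial (Z ⊕ Q) k →+* R),
      IsUniv {p | ∃ l : Fin r, (l : ℕ) < s ∧ p = eqG eq b g l}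
        {p | ∃ q, eq q < s ∧ p = X (Sum.inr q)} ρ ∧ Good R := by
  intro s
  induction s with
  | zero =>
    intro _
    refine ⟨MvPolynomial (Z ⊕ Q) k, inferInstance, RingHom.id _, ?_, hG⟩
    have h1 : {p : MvPolynomial (Z ⊕ Q) k | ∃ l : Fin r, (l : ℕ) < 0 ∧ p = eqG eq b g l} = ∅ := by
      ext p; simp
    have h2 : {p : MvPolynomial (Z ⊕ Q) k | ∃ q, eq q < 0 ∧ p = X (Sum.inr q)} = ∅ := by
      ext p; simp
    rw [h1, h2]
    exact IsUniv.id _
  | succ s ih =>
    intro hs
    obtain ⟨R, _, ρ, hρ, hR⟩ := ih (Nat.le_of_succ_le hs)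
    let s' : Fin r := ⟨s, hs⟩
    have h1 : Good (R ⧸ Ideal.span {ρ (eqG eq b g s')}) := tower_step eq b g hUM s' hρ hR
    have h2 := (hρ.quot (eqG eq b g s')).loc {p | ∃ q, eq q = (s' : ℕ) ∧ p = X (Sum.inr q)}
    refine ⟨Localization (Submonoid.closure (((Ideal.Quotient.mk
      (Ideal.span {ρ (eqG eq b g s')})).comp ρ) '' {p | ∃ q, eq q = (s' : ℕ) ∧ p = X (Sum.inr q)})),
      inferInstance, (algebraMap _ _).comp ((Ideal.Quotient.mk
      (Ideal.span {ρ (eqG eq b g s')})).comp ρ), ?_, Good.of_isLocalization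
      (Submonoid.closure (((Ideal.Quotient.mk
      (Ideal.span {ρ (eqG eq b g s')})).comp ρ) '' {p | ∃ q, eq q = (s' : ℕ) ∧ p = X (Sum.inr q)})) h1⟩
    have e1 : {p : MvPolynomial (Z ⊕ Q) k | ∃ l : Fin r, (l : ℕ) < s + 1 ∧ p = eqG eq b g l} =
        insert (eqG eq b g s') {p | ∃ l : Fin r, (l : ℕ) < s ∧ p = eqG eq b g l} := by
      ext p
      simp only [Set.mem_ofPred_eq, Set.mem_insert_iff]
      constructor
      · rintro ⟨l, hl, rfl⟩
        rcases Nat.lt_succ_iff_lt_or_eq.1 hl with h | h
        · exact Or.inr ⟨l, h, rfl⟩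
        · left
          congr 1
          exact Fin.ext h
      · rintro (rfl | ⟨l, hl, rfl⟩)
        · exact ⟨s', Nat.lt_succ_self s, rfl⟩
        · exact ⟨l, Nat.lt_succ_of_lt hl, rfl⟩
    have e2 : {p : MvPolynomial (Z ⊕ Q) k | ∃ q, eq q < s + 1 ∧ p = X (Sum.inr q)} =
        {p | ∃ q, eq q < s ∧ p = X (Sum.inr q)} ∪ {p | ∃ q, eq q = (s' : ℕ) ∧ p = X (Sum.inr q)} := by
      ext p
      simp only [Set.mem_ofPred_eq, Set.mem_union]
      constructor
      · rintro ⟨q, hq, rfl⟩
        rcases Nat.lt_succ_iff_lt_or_eq.1 hq with h | h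
        · exact Or.inl ⟨q, h, rfl⟩
        · exact Or.inr ⟨q, h, rfl⟩
      · rintro (⟨q, hq, rfl⟩ | ⟨q, hq, rfl⟩)
        · exact ⟨q, Nat.lt_succ_of_lt hq, rfl⟩
        · exact ⟨q, by rw [hq]; exact Nat.lt_succ_self s, rfl⟩
    rw [e1, e2]
    exact h2

section final

variable (F : Type) [Field F] [Algebra (MvPolynomial Q k) F] [IsFractionRing (MvPolynomial Q k) F]

/-- the coefficient map `k → F` -/
noncomputable def kF (k Q F : Type) [Field k] [Field F] [Algebra (MvPolynomial Q k) F] : k →+* F :=
  (algebraMap (MvPolynomial Q k) F).comp C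

/-- the equation over the field `F` -/
noncomputable def eqF (s : Fin r) : MvPolynomial Z F :=
  map (kF k Q F) (b s) -
    ∑ q with eq q = s, C (algebraMap (MvPolynomial Q k) F (X q)) * map (kF k Q F) (g q)

/-- the commutative base ring -/
abbrev AF : Type := MvPolynomial Z F ⧸ Ideal.span (Set.range (eqF eq b g F))

/-- structure map of the base ring -/
noncomputable def rhoF : MvPolynomial (Z ⊕ Q) k →+* MvPolynomial Z F :=
  eval₂Hom (C.comp (kF k Q F))
    (Sum.elim X (fun q => C (algebraMap (MvPolynomial Q k) F (X q))))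

omit [Fintype Z] [Fintype Q] [DecidableEq Z] [DecidableEq Q]
  [IsFractionRing (MvPolynomial Q k) F] in
theorem rhoF_inl (p : MvPolynomial Z k) :
    rhoF (k := k) (Z := Z) (Q := Q) F (rename Sum.inl p) = map (kF k Q F) p := by
  have : (rhoF (k := k) (Z := Z) (Q := Q) F).comp (rename (R := k) (Sum.inl : Z → Z ⊕ Q)).toRingHom =
      map (kF k Q F) := by
    apply ringHom_ext
    · intro a
      change rhoF F (rename Sum.inl (C a)) = _
      simp [rhoF]
    · intro i
      change rhoF F (rename Sum.inl (X i)) = _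
      simp [rhoF]
  exact RingHom.congr_fun this p

omit [Fintype Z] [Fintype Q] [DecidableEq Z] [DecidableEq Q]
  [IsFractionRing (MvPolynomial Q k) F] in
theorem rhoF_inr (p : MvPolynomial Q k) :
    rhoF (k := k) (Z := Z) (Q := Q) F (rename Sum.inr p) = C (algebraMap (MvPolynomial Q k) F p) := by
  have : (rhoF (k := k) (Z := Z) (Q := Q) F).comp (rename (R := k) (Sum.inr : Q → Z ⊕ Q)).toRingHom =
      (C : F →+* MvPolynomial Z F).comp (algebraMap (MvPolynomial Q k) F) := by
    apply ringHom_ext
    · intro a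
      change rhoF F (rename Sum.inr (C a)) = _
      simp [rhoF, kF]
    · intro i
      change rhoF F (rename Sum.inr (X i)) = _
      simp [rhoF]
  exact RingHom.congr_fun this p

omit [Fintype Z] [DecidableEq Z] [DecidableEq Q]
  [IsFractionRing (MvPolynomial Q k) F] in
theorem rhoF_eqG (s : Fin r) : rhoF F (eqG eq b g s) = eqF eq b g F s := by
  rw [eqG, eqF, map_sub, map_sum, rhoF_inl]
  congr 1
  refine Finset.sum_congr rfl fun q _ => ?_
  rw [map_mul, rhoF_inl]
  congr 1
  have := rhoF_inr (k := k) (Z := Z) (Q := Q) F (X q)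
  rwa [rename_X] at this

omit [Fintype Z] [DecidableEq Z] [DecidableEq Q] in
theorem isUniv_AF :
    IsUniv {p | ∃ l : Fin r, (l : ℕ) < r ∧ p = eqG eq b g l}
      ({p | ∃ q, eq q < r ∧ p = X (Sum.inr q)} ∪
        {p | ∃ p' : MvPolynomial Q k, p' ≠ 0 ∧ p = rename Sum.inr p'})
      ((Ideal.Quotient.mk (Ideal.span (Set.range (eqF eq b g F)))).comp (rhoF F)) where
  kill := by
    rintro _ ⟨l, -, rfl⟩
    rw [RingHom.comp_apply, rhoF_eqG]
    exact Ideal.Quotient.eq_zero_iff_mem.2 (Ideal.subset_span ⟨l, rfl⟩)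
  inv := by
    have key : ∀ p' : MvPolynomial Q k, p' ≠ 0 →
        IsUnit (((Ideal.Quotient.mk (Ideal.span (Set.range (eqF eq b g F)))).comp (rhoF F))
          (rename Sum.inr p')) := by
      intro p' hp'
      rw [RingHom.comp_apply, rhoF_inr]
      have h1 : IsUnit (algebraMap (MvPolynomial Q k) F p') := by
        rw [isUnit_iff_ne_zero]
        intro h
        exact hp' ((IsFractionRing.injective (MvPolynomial Q k) F) (by rw [h, map_zero]))
      exact (h1.map (C : F →+* MvPolynomial Z F)).map _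
    rintro _ (⟨q, -, rfl⟩ | ⟨p', hp', rfl⟩)
    · have := key (X q) (X_ne_zero q)
      rwa [rename_X] at this
    · exact key p' hp'
  lift := fun T _ φ h1 h2 => by
    have hinv : ∀ y : nonZeroDivisors (MvPolynomial Q k),
        IsUnit ((φ.comp (rename (R := k) (Sum.inr : Q → Z ⊕ Q)).toRingHom) y) := by
      rintro ⟨y, hy⟩
      exact h2 _ (Or.inr ⟨y, nonZeroDivisors.ne_zero hy, rfl⟩)
    let c : F →+* T := IsLocalization.lift (M := nonZeroDivisors (MvPolynomial Q k)) hinv
    have hc : ∀ p, c (algebraMap (MvPolynomial Q k) F p) = φ (rename Sum.inr p) := fun p => by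
      simp only [c, IsLocalization.lift_eq]
      rfl
    let ψ₀ : MvPolynomial Z F →+* T := eval₂Hom c (fun z => φ (X (Sum.inl z)))
    have hψ₀ : ψ₀.comp (rhoF F) = φ := by
      apply ringHom_ext
      · intro a
        simp only [RingHom.comp_apply, rhoF, coe_eval₂Hom, eval₂_C, ψ₀]
        rw [kF, RingHom.comp_apply, hc, rename_C]
      · rintro (z | q)
        · simp [rhoF, ψ₀]
        · simp only [RingHom.comp_apply, rhoF, coe_eval₂Hom, eval₂_X, Sum.elim_inr, eval₂_C, ψ₀]
          rw [hc, rename_X]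
    have hk : ∀ a ∈ Ideal.span (Set.range (eqF eq b g F)), ψ₀ a = 0 := by
      have : Ideal.span (Set.range (eqF eq b g F)) ≤ RingHom.ker ψ₀ := by
        rw [Ideal.span_le]
        rintro _ ⟨l, rfl⟩
        change ψ₀ (eqF eq b g F l) = 0
        rw [← rhoF_eqG, ← RingHom.comp_apply, hψ₀]
        exact h1 _ ⟨l, l.2, rfl⟩
      exact fun a ha => this ha
    exact ⟨Ideal.Quotient.lift _ ψ₀ hk, hψ₀⟩
  ext := fun T _ ψ₁ ψ₂ h => by
    apply Ideal.Quotient.ringHom_ext
    have h' : ∀ p, ψ₁ (Ideal.Quotient.mk _ (rhoF F p)) = ψ₂ (Ideal.Quotient.mk _ (rhoF F p)) :=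
      fun p => RingHom.congr_fun h p
    apply ringHom_ext
    · intro a
      have : (ψ₁.comp (Ideal.Quotient.mk (Ideal.span (Set.range (eqF eq b g F))))).comp
          (C : F →+* MvPolynomial Z F) =
          (ψ₂.comp (Ideal.Quotient.mk (Ideal.span (Set.range (eqF eq b g F))))).comp
          (C : F →+* MvPolynomial Z F) := by
        apply IsLocalization.ringHom_ext (nonZeroDivisors (MvPolynomial Q k))
        apply RingHom.ext
        intro p
        have := h' (rename Sum.inr p)
        rw [rhoF_inr] at this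
        exact this
      exact RingHom.congr_fun this a
    · intro z
      have := h' (X (Sum.inl z))
      have h3 : rhoF (k := k) (Z := Z) (Q := Q) F (X (Sum.inl z)) = X z := by simp [rhoF]
      rw [h3] at this
      exact this

/-- **V3 (commutative base)**, given that polynomial rings over `k` are good. -/
theorem good_AF_of (hUM : UM eq b g) (hG : Good (MvPolynomial (Z ⊕ Q) k)) :
    Good (AF eq b g F) := by
  obtain ⟨R, _, ρ, hρ, hR⟩ := tower eq b g hUM hG r le_rfl
  have h2 := hρ.loc {p | ∃ p' : MvPolynomial Q k, p' ≠ 0 ∧ p = rename Sum.inr p'}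
  have h3 : Good (Localization (Submonoid.closure (ρ '' {p | ∃ p' : MvPolynomial Q k,
      p' ≠ 0 ∧ p = rename Sum.inr p'}))) := Good.of_isLocalization (Submonoid.closure (ρ ''
      {p | ∃ p' : MvPolynomial Q k, p' ≠ 0 ∧ p = rename Sum.inr p'})) hR
  obtain ⟨e⟩ := h2.nonempty_equiv (isUniv_AF eq b g F)
  exact Good.of_equiv e h3

end final

end tower

end Crest.Agent.R181.V3
end

-- ▼ part R181/V3386d
section

/-!
R181, V3 base for the concrete parameter system of AS4 (operators `i.succ`, `i : Fin r`,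
`n = r + 1` variables): unimodularity of the coefficient rows, identification of the equations.
-/

namespace Crest.Agent.R181.V3

open MvPolynomial Crest.Agent.R181.AS

section concrete

variable {r : ℕ} {X' : Type} [Fintype X'] [DecidableEq X']
  (a : Fin (r + 1) → ℕ) (f : Fin (r + 1) → MvPolynomial (Fin (r + 1)) ℂ)
  (lam : Fin (r + 1) → MvPolynomial X' ℂ)

/-- the operator to whose equation a parameter belongs -/
def opOf {n : ℕ} : Par n → Fin n := Sum.elim id (Sum.elim (fun p => p.1) (fun p => p.1))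

/-- the equation (highest operator first) to which a parameter belongs -/
def eqOf (q : Par (r + 1)) : ℕ := r - (opOf q : ℕ)

theorem eqOf_eq_iff (q : Par (r + 1)) (s : Fin r) :
    eqOf q = (s : ℕ) ↔ opOf q = (Fin.rev s).succ := by
  rw [eqOf, Fin.ext_iff, Fin.val_succ, Fin.val_rev]
  have := s.2
  have := (opOf q).2
  omega

theorem eqOf_lt_iff (q : Par (r + 1)) (s : Fin r) :
    eqOf q < (s : ℕ) ↔ (Fin.rev s).succ < opOf q := by
  rw [eqOf, Fin.lt_def, Fin.val_succ, Fin.val_rev]
  have := s.2
  have := (opOf q).2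
  omega

/-- the operator variable of index `l` (`0` for `l = 0`) -/
noncomputable def wv (l : Fin (r + 1)) : MvPolynomial (X' ⊕ Fin r) ℂ :=
  Fin.cases 0 (fun l' => X (Sum.inr l')) l

omit [Fintype X'] [DecidableEq X'] in
@[simp] theorem wv_succ (l : Fin r) : wv (X' := X') l.succ = X (Sum.inr l) := rfl

/-- the parameter free part -/
noncomputable def bC (s : Fin r) : MvPolynomial (X' ⊕ Fin r) ℂ :=
  X (Sum.inr (Fin.rev s)) ^ a (Fin.rev s).succ

/-- the coefficients of the parameters -/
noncomputable def gC : Par (r + 1) → MvPolynomial (X' ⊕ Fin r) ℂ :=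
  Sum.elim (fun i => rename Sum.inl (aeval lam (f i)))
    (Sum.elim (fun p => if p.2.1 < p.1 then
        rename Sum.inl (aeval lam (f p.2.1) * lam p.2.2 ^ (a p.1 - a p.2.1)) else 0)
      (fun p => if p.1 < p.2 then wv p.2 ^ a p.1 else 0))

omit [Fintype X'] [DecidableEq X'] in
theorem um_concrete (ha : ∀ i, 1 ≤ a i) (t0 : Fin (r + 1)) (hlam : lam t0 = 1)
    (hN : ∃ N : ℕ, (X t0 : MvPolynomial (Fin (r + 1)) ℂ) ^ N ∈ Ideal.span (Set.range f)) :
    UM (eqOf (r := r)) (bC (X' := X') a) (gC a f lam) := by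
  intro s K _ c z y hy hrel
  by_contra hcon
  push Not at hcon
  let i : Fin (r + 1) := (Fin.rev s).succ
  -- evaluation point
  let x : Fin (r + 1) → K := fun v => eval₂ c (fun t => z (Sum.inl t)) (lam v)
  have hx0 : x t0 = 1 := by simp [x, hlam]
  have hev : ∀ p : MvPolynomial (Fin (r + 1)) ℂ,
      eval₂ c z (rename (Sum.inl : X' → X' ⊕ Fin r) (aeval lam p)) = eval₂ c x p := by
    intro p
    have h1 : ((eval₂Hom c z).comp (rename (R := ℂ) (Sum.inl : X' → X' ⊕ Fin r)).toRingHom).comp
        (aeval lam : MvPolynomial (Fin (r + 1)) ℂ →ₐ[ℂ] MvPolynomial X' ℂ).toRingHom =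
        eval₂Hom c x := by
      apply ringHom_ext
      · intro r
        change eval₂Hom c z (rename Sum.inl (aeval lam (C r))) = _
        simp
      · intro v
        change eval₂Hom c z (rename Sum.inl (aeval lam (X v))) = _
        simp only [aeval_X, coe_eval₂Hom, eval₂_X, x]
        rw [eval₂_rename]
        rfl
    exact RingHom.congr_fun h1 p
  have hevl : ∀ v, eval₂ c z (rename (Sum.inl : X' → X' ⊕ Fin r) (lam v)) = x v := by
    intro v
    have := hev (X v)
    simpa using this
  let φ : Fin (r + 1) → K := fun j => eval₂ c x (f j)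
  -- the coefficients vanish
  have h1 : ∀ j, j ≤ i → φ j = 0 := by
    intro j hj
    rcases hj.lt_or_eq with h | h
    · have := hcon (Sum.inr (Sum.inl (i, j, t0))) (by rw [eqOf_eq_iff]; rfl)
      simp only [gC, Sum.elim_inr, Sum.elim_inl, h, if_true] at this
      rw [map_mul, eval₂_mul, hev, map_pow, eval₂_pow, hevl, hx0, one_pow, mul_one] at this
      exact this
    · have := hcon (Sum.inl i) (by rw [eqOf_eq_iff]; rfl)
      simp only [gC, Sum.elim_inl] at this
      rw [hev] at this
      rw [h]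
      exact this
  have h2 : ∀ l : Fin (r + 1), i < l → eval₂ c z (wv l) = 0 := by
    intro l hl
    have := hcon (Sum.inr (Sum.inr (i, l))) (by rw [eqOf_eq_iff]; rfl)
    simp only [gC, Sum.elim_inr, hl, if_true] at this
    rw [eval₂_pow] at this
    exact pow_eq_zero_iff (by have := ha i; omega) |>.1 this
  -- the equations of the higher operators kill all forms
  have h3 : ∀ k : ℕ, ∀ l : Fin (r + 1), l.1 ≤ k → φ l = 0 := by
    intro k
    induction k with
    | zero =>
      intro l hl
      apply h1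
      rw [Fin.le_def]
      omega
    | succ k ih =>
      intro l hl
      by_cases hli : l ≤ i
      · exact h1 l hli
      · push Not at hli
        have hl0 : l ≠ 0 := by
          rintro rfl
          exact absurd hli (by simp [Fin.lt_def])
        obtain ⟨l', rfl⟩ := Fin.exists_succ_eq.2 hl0
        have hls : Fin.rev l' < s := by
          have h := hli
          rw [Fin.lt_def] at h ⊢
          simp only [i, Fin.val_succ, Fin.val_rev] at h ⊢
          have := l'.2
          have := s.2
          omega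
        have h4 := hrel (Fin.rev l') hls
        have hb : eval₂ c z (bC (X' := X') a (Fin.rev l')) = 0 := by
          have h5 := h2 l'.succ hli
          rw [wv_succ, eval₂_X] at h5
          simp only [bC, Fin.rev_rev, eval₂_pow, eval₂_X, h5]
          exact zero_pow (by have := ha l'.succ; omega)
        rw [hb] at h4
        have h5 : ∀ q ∈ Finset.univ.filter (fun q : Par (r + 1) => eqOf q = (Fin.rev l' : ℕ)),
            y q * eval₂ c z (gC a f lam q) =
            if q = Sum.inl l'.succ then y (Sum.inl l'.succ) * φ l'.succ else 0 := by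
          intro q hq
          have hq' : opOf q = l'.succ := by
            have := (eqOf_eq_iff q (Fin.rev l')).1 (Finset.mem_filter.1 hq).2
            rwa [Fin.rev_rev] at this
          rcases q with j | ⟨j, j', v⟩ | ⟨j, m⟩
          · have : j = l'.succ := hq'
            subst this
            simp only [gC, Sum.elim_inl, if_true]
            rw [hev]
          · have : j = l'.succ := hq'
            subst this
            simp only [gC, Sum.elim_inr, Sum.elim_inl, reduceCtorEq, if_false]
            split_ifs with hlt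
            · rw [map_mul, eval₂_mul, hev]
              have : φ j' = 0 := ih j' (by rw [Fin.lt_def] at hlt; omega)
              change y _ * (φ j' * _) = 0
              rw [this]; ring
            · simp
          · have : j = l'.succ := hq'
            subst this
            simp only [gC, Sum.elim_inr, reduceCtorEq, if_false]
            split_ifs with hlt
            · rw [eval₂_pow, h2 m (hli.trans hlt), zero_pow (by have := ha l'.succ; omega)]
              ring
            · simp
        rw [Finset.sum_congr rfl h5, Finset.sum_ite_eq' _ (Sum.inl l'.succ)] at h4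
        have hmem : (Sum.inl l'.succ : Par (r + 1)) ∈
            Finset.univ.filter (fun q : Par (r + 1) => eqOf q = (Fin.rev l' : ℕ)) := by
          rw [Finset.mem_filter]
          exact ⟨Finset.mem_univ _, by rw [eqOf_eq_iff, Fin.rev_rev]; rfl⟩
        rw [if_pos hmem] at h4
        have hyl : y (Sum.inl l'.succ) ≠ 0 := hy (Sum.inl l'.succ) (by
          rw [eqOf_lt_iff]; exact hli)
        exact (mul_eq_zero.1 h4.symm).resolve_left hyl
  obtain ⟨N, hN⟩ := hN
  have h4 : Ideal.span (Set.range f) ≤ RingHom.ker (eval₂Hom c x) := by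
    rw [Ideal.span_le]
    rintro _ ⟨j, rfl⟩
    exact h3 j j le_rfl
  have h5 := h4 hN
  rw [RingHom.mem_ker, map_pow, coe_eval₂Hom, eval₂_X, hx0, one_pow] at h5
  exact one_ne_zero h5

/-- the equation of operator `i` over the parameter field -/
noncomputable def eqA (i : Fin r) : MvPolynomial (X' ⊕ Fin r) (Fld (r + 1)) :=
  X (Sum.inr i) ^ a i.succ -
    rename Sum.inl (aeval (fun v => map (algebraMap ℂ (Fld (r + 1))) (lam v)) (QF a f i.succ)) -
    ∑ l : Fin r, C (thF i.succ l.succ) * X (Sum.inr l) ^ a i.succ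

omit [Fintype X'] [DecidableEq X'] in
theorem aeval_map_map (p : MvPolynomial (Fin (r + 1)) ℂ) :
    aeval (fun v => map (algebraMap ℂ (Fld (r + 1))) (lam v))
      (map (algebraMap ℂ (Fld (r + 1))) p) =
      map (algebraMap ℂ (Fld (r + 1))) (aeval lam p) := by
  have h1 : ((aeval (fun v => map (algebraMap ℂ (Fld (r + 1))) (lam v)) :
      MvPolynomial (Fin (r + 1)) (Fld (r + 1)) →ₐ[Fld (r + 1)]
        MvPolynomial X' (Fld (r + 1))).toRingHom).comp
      (map (algebraMap ℂ (Fld (r + 1)))) =
      (map (algebraMap ℂ (Fld (r + 1)))).comp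
        (aeval lam : MvPolynomial (Fin (r + 1)) ℂ →ₐ[ℂ] MvPolynomial X' ℂ).toRingHom := by
    apply ringHom_ext
    · intro r
      change aeval _ (map _ (C r)) = map _ (aeval lam (C r))
      simp only [map_C, algebraMap_eq, algHom_C]
    · intro v
      change aeval _ (map _ (X v)) = map _ (aeval lam (X v))
      simp
  exact RingHom.congr_fun h1 p

theorem kF_eq (n : ℕ) : kF ℂ (Par n) (Fld n) = algebraMap ℂ (Fld n) := by
  apply RingHom.ext
  intro r
  rw [kF, RingHom.comp_apply, IsScalarTower.algebraMap_apply ℂ (MvPolynomial (Par n) ℂ) (Fld n)]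
  rfl

omit [Fintype X'] [DecidableEq X'] in
theorem eqF_eq_eqA (s : Fin r) :
    eqF (eqOf (r := r)) (bC (X' := X') a) (gC a f lam) (Fld (r + 1)) s =
      eqA a f lam (Fin.rev s) := by
  obtain ⟨i, rfl⟩ : ∃ i, s = Fin.rev i := ⟨Fin.rev s, (Fin.rev_rev s).symm⟩
  rw [Fin.rev_rev, eqF, eqA, kF_eq, Finset.sum_filter, Fintype.sum_sum_type, Fintype.sum_sum_type,
    Fintype.sum_prod_type, Fintype.sum_prod_type]
  simp only [eqOf_eq_iff, Fin.rev_rev]
  have e1 : map (algebraMap ℂ (Fld (r + 1))) (bC (X' := X') a (Fin.rev i)) =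
      X (Sum.inr i) ^ a i.succ := by
    simp [bC]
  have hpar : ∀ q : Par (r + 1),
      algebraMap (MvPolynomial (Par (r + 1)) ℂ) (Fld (r + 1)) (X q) = par q := fun q => rfl
  have hmr : ∀ p : MvPolynomial X' ℂ, map (algebraMap ℂ (Fld (r + 1)))
      (rename (Sum.inl : X' → X' ⊕ Fin r) p) =
      rename Sum.inl (map (algebraMap ℂ (Fld (r + 1))) p) := fun p => by rw [map_rename]
  have e2 : ∑ x : Fin (r + 1), (if opOf (Sum.inl x : Par (r + 1)) = i.succ then
      C (algebraMap (MvPolynomial (Par (r + 1)) ℂ) (Fld (r + 1)) (X (Sum.inl x))) *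
        map (algebraMap ℂ (Fld (r + 1))) (gC a f lam (Sum.inl x)) else 0) =
      C (cF i.succ) * rename Sum.inl (map (algebraMap ℂ (Fld (r + 1))) (aeval lam (f i.succ))) := by
    rw [Finset.sum_eq_single i.succ]
    · rw [if_pos (by rfl), hpar]
      simp only [gC, Sum.elim_inl]
      rw [hmr]
      rfl
    · intro j _ hj
      rw [if_neg]
      simpa [opOf] using hj
    · simp
  have e3 : ∑ x : Fin (r + 1), ∑ y : Fin (r + 1) × Fin (r + 1),
      (if opOf (Sum.inr (Sum.inl (x, y)) : Par (r + 1)) = i.succ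
      then C (algebraMap (MvPolynomial (Par (r + 1)) ℂ) (Fld (r + 1))
          (X (Sum.inr (Sum.inl (x, y))))) *
        map (algebraMap ℂ (Fld (r + 1))) (gC a f lam (Sum.inr (Sum.inl (x, y)))) else 0) =
      ∑ j ∈ Finset.univ.filter (fun j => j < i.succ), ∑ v, C (ccF i.succ j v) *
        (rename Sum.inl (map (algebraMap ℂ (Fld (r + 1))) (aeval lam (f j))) *
          rename Sum.inl (map (algebraMap ℂ (Fld (r + 1))) (lam v)) ^ (a i.succ - a j)) := by
    rw [Finset.sum_eq_single i.succ]
    · rw [Fintype.sum_prod_type, Finset.sum_filter]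
      refine Finset.sum_congr rfl fun j _ => ?_
      by_cases hj : j < i.succ
      · rw [if_pos hj]
        refine Finset.sum_congr rfl fun v _ => ?_
        rw [if_pos (by rfl), hpar]
        simp only [gC, Sum.elim_inr, Sum.elim_inl, hj, if_true]
        rw [hmr, map_mul, map_mul, map_pow, map_pow]
        rfl
      · rw [if_neg hj]
        refine Finset.sum_eq_zero fun v _ => ?_
        rw [if_pos (by rfl)]
        simp [gC, hj]
    · intro j _ hj
      refine Finset.sum_eq_zero fun v _ => ?_
      rw [if_neg]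
      simpa [opOf] using hj
    · simp
  have e4 : ∑ x : Fin (r + 1), ∑ y : Fin (r + 1),
      (if opOf (Sum.inr (Sum.inr (x, y)) : Par (r + 1)) = i.succ
      then C (algebraMap (MvPolynomial (Par (r + 1)) ℂ) (Fld (r + 1))
          (X (Sum.inr (Sum.inr (x, y))))) *
        map (algebraMap ℂ (Fld (r + 1))) (gC a f lam (Sum.inr (Sum.inr (x, y)))) else 0) =
      ∑ l : Fin r, C (thF i.succ l.succ) * X (Sum.inr l) ^ a i.succ := by
    rw [Finset.sum_eq_single i.succ]
    · rw [Fin.sum_univ_succ]
      have h0 : (if opOf (Sum.inr (Sum.inr (i.succ, 0)) : Par (r + 1)) = i.succ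
          then C (algebraMap (MvPolynomial (Par (r + 1)) ℂ) (Fld (r + 1))
            (X (Sum.inr (Sum.inr (i.succ, 0))))) *
            map (algebraMap ℂ (Fld (r + 1)))
              (gC a f lam (Sum.inr (Sum.inr (i.succ, 0)))) else 0) = 0 := by
        simp [gC]
      rw [h0, zero_add]
      refine Finset.sum_congr rfl fun l _ => ?_
      rw [if_pos (by rfl), hpar]
      by_cases hl : i.succ < l.succ
      · simp only [gC, Sum.elim_inr, hl, if_true, thF, wv_succ]
        rw [map_pow, map_X]
      · simp only [gC, Sum.elim_inr, hl, if_false, thF, map_zero, mul_zero, zero_mul]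
    · intro j _ hj
      refine Finset.sum_eq_zero fun v _ => ?_
      rw [if_neg]
      simpa [opOf] using hj
    · simp
  have e5 : rename (Sum.inl : X' → X' ⊕ Fin r)
      (aeval (fun v => map (algebraMap ℂ (Fld (r + 1))) (lam v)) (QF a f i.succ)) =
      C (cF i.succ) *
        rename Sum.inl (map (algebraMap ℂ (Fld (r + 1))) (aeval lam (f i.succ))) +
      ∑ j ∈ Finset.univ.filter (fun j => j < i.succ), ∑ v, C (ccF i.succ j v) *
        (rename Sum.inl (map (algebraMap ℂ (Fld (r + 1))) (aeval lam (f j))) *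
          rename Sum.inl (map (algebraMap ℂ (Fld (r + 1))) (lam v)) ^ (a i.succ - a j)) := by
    unfold QF
    rw [map_add, map_add, map_mul, map_mul]
    simp only [map_sum, map_mul, map_pow, aeval_X, algHom_C, algebraMap_eq, fF,
      aeval_map_map]
  rw [e1, e2, e3, e4, e5]
  ring

/-- **V3 for the concrete parameter system**, given that complex polynomial rings are good. -/
theorem good_base_of (ha : ∀ i, 1 ≤ a i) (t0 : Fin (r + 1)) (hlam : lam t0 = 1)
    (hN : ∃ N : ℕ, (X t0 : MvPolynomial (Fin (r + 1)) ℂ) ^ N ∈ Ideal.span (Set.range f))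
    (hG : Good (MvPolynomial ((X' ⊕ Fin r) ⊕ Par (r + 1)) ℂ)) :
    Good (MvPolynomial (X' ⊕ Fin r) (Fld (r + 1)) ⧸
      Ideal.span (Set.range (eqA a f lam))) := by
  have h := good_AF_of (eqOf (r := r)) (bC (X' := X') a) (gC a f lam) (Fld (r + 1))
    (um_concrete a f lam ha t0 hlam hN) hG
  have hset : Set.range (eqF (eqOf (r := r)) (bC (X' := X') a) (gC a f lam) (Fld (r + 1))) =
      Set.range (eqA a f lam) := by
    ext p
    constructor
    · rintro ⟨s, rfl⟩
      exact ⟨Fin.rev s, (eqF_eq_eqA a f lam s).symm⟩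
    · rintro ⟨i, rfl⟩
      exact ⟨Fin.rev i, by rw [eqF_eq_eqA, Fin.rev_rev]⟩
  change Good (MvPolynomial (X' ⊕ Fin r) (Fld (r + 1)) ⧸ Ideal.span (Set.range
    (eqF (eqOf (r := r)) (bC (X' := X') a) (gC a f lam) (Fld (r + 1))))) at h
  rw [hset] at h
  exact h

end concrete

end Crest.Agent.R181.V3
end

-- ▼ part R181/SM681a
section

/-!
R181 (helper681): transport of module properties along an isomorphism of rings `e : R ≃+* S`.
-/

set_option autoImplicit false
set_option linter.unusedSectionVars false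

namespace Crest.Agent.R181.SM

variable {R S : Type} [Ring R] [Ring S] (e : R ≃+* S)

section Basic

variable {M N : Type} [AddCommGroup M] [Module R M] [AddCommGroup N] [Module S N]

/-- the semilinear map of a compatible additive map -/
def semiMap (φ : M →+ N) (hφ : ∀ (r : R) (m : M), φ (r • m) = e r • φ m) :
    M →ₛₗ[(e : R →+* S)] N :=
  { φ with map_smul' := fun r m => hφ r m }

theorem finite_of (φ : M ≃+ N) (hφ : ∀ (r : R) (m : M), φ (r • m) = e r • φ m)
    (h : Module.Finite R M) : Module.Finite S N :=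
  Module.Finite.of_surjective (semiMap e (φ : M →+ N) hφ) φ.surjective

theorem projective_of (φ : M ≃+ N) (hφ : ∀ (r : R) (m : M), φ (r • m) = e r • φ m)
    (h : Module.Projective R M) : Module.Projective S N := by
  haveI := RingHomInvPair.of_ringEquiv e
  haveI := RingHomInvPair.of_ringEquiv e.symm
  let φ' : M ≃ₛₗ[(e : R →+* S)] N := { φ with map_smul' := fun r m => hφ r m }
  exact Module.Projective.of_equiv φ'

theorem stFree_of (φ : M ≃+ N) (hφ : ∀ (r : R) (m : M), φ (r • m) = e r • φ m)
    (h : FR.StFree R M) : FR.StFree S N :=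
  FR.stFree_iff.2 (FFR.StFree.transport e φ hφ (FR.stFree_iff.1 h))

theorem ffr_of (φ : M ≃+ N) (hφ : ∀ (r : R) (m : M), φ (r • m) = e r • φ m)
    (h : FR.FFR R M) : FR.FFR S N :=
  FR.ffr_iff.2 (FFR.FFR.transport e φ hφ (FR.ffr_iff.1 h))

/-- **transport principle**: to prove a statement about all `S`-modules -/
theorem exists_back (N : Type) [AddCommGroup N] [Module S N] :
    ∃ (_ : Module R N), ∀ (r : R) (m : N), r • m = e r • m :=
  ⟨Module.compHom N (e : R →+* S), fun _ _ => rfl⟩

end Basic

include e in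
theorem AllSF.congr (h : TW.AllSF R) : TW.AllSF S := by
  intro P _ _ hf hp
  obtain ⟨_, hs⟩ := exists_back e P
  have hs' : ∀ (s : S) (m : P), AddEquiv.refl P (s • m) = e.symm s • AddEquiv.refl P m := by
    intro s m
    show s • m = e.symm s • m
    rw [hs, e.apply_symm_apply]
  exact stFree_of e (AddEquiv.refl P) hs
    (h P (finite_of e.symm (AddEquiv.refl P) hs' hf) (projective_of e.symm (AddEquiv.refl P) hs' hp))

include e in
theorem AllStFree.congr (h : MKS.AllStFree R) : MKS.AllStFree S :=
  AllSF.congr e h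

include e in
theorem Good.congr (h : V3.Good R) : V3.Good S := by
  intro P _ _ hf
  obtain ⟨_, hs⟩ := exists_back e P
  have hs' : ∀ (s : S) (m : P), AddEquiv.refl P (s • m) = e.symm s • AddEquiv.refl P m := by
    intro s m
    show s • m = e.symm s • m
    rw [hs, e.apply_symm_apply]
  have := finite_of e.symm (AddEquiv.refl P) hs' hf
  exact ffr_of e (AddEquiv.refl P) hs (h P)

include e in
/-- transport of a submodule of a free module -/
theorem Hered.congr (h : TW.Hered R) : TW.Hered S := by
  intro k N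
  let φ : (Fin k → R) ≃+ (Fin k → S) := AddEquiv.piCongrRight fun _ => e.toAddEquiv
  have hφ : ∀ (r : R) (m : Fin k → R), φ (r • m) = e r • φ m := by
    intro r m
    funext i
    show e (r * m i) = e r * e (m i)
    rw [map_mul]
  let N' : Submodule R (Fin k → R) := N.comap (semiMap e (φ : (Fin k → R) →+ (Fin k → S)) hφ)
  let ψ : N' ≃+ N :=
    { toFun := fun x => ⟨φ x.1, x.2⟩
      invFun := fun x => ⟨φ.symm x.1, by
        show φ (φ.symm x.1) ∈ N
        rw [φ.apply_symm_apply]; exact x.2⟩
      left_inv := fun x => Subtype.ext (φ.symm_apply_apply _)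
      right_inv := fun x => Subtype.ext (φ.apply_symm_apply _)
      map_add' := fun x y => Subtype.ext (map_add φ _ _) }
  exact projective_of e ψ (fun r m => Subtype.ext (hφ r m.1)) (h k N')

include e in
theorem PosModel.congr (h : TW.PosModel R) : TW.PosModel S := by
  obtain ⟨s, E, _, ψ, hs, hψ⟩ := h
  refine ⟨s, E, _, ψ.comp (e.symm : S →+* R), hs, fun m A hA h0 => ?_⟩
  have h1 := hψ m (A.map (e.symm : S →+* R)) (by
    rw [← Matrix.map_mul, hA]) (by
    rw [Matrix.map_map]; exact h0)
  ext i j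
  have := congrFun (congrFun h1 i) j
  exact (map_eq_zero_iff _ e.symm.injective).1 this

theorem UnivLoc.congr {D : Type} [Ring D] {φ : R →+* D} (h : TW.UnivLoc φ) :
    TW.UnivLoc (φ.comp (e.symm : S →+* R)) where
  lift := by
    intro X _ ψ hψ
    obtain ⟨f, hf⟩ := h.lift (ψ.comp (e : R →+* S)) (by
      intro m A hA
      have := hψ m (A.map (e : R →+* S)) (by
        convert hA using 1
        ext i j
        simp)
      rw [Matrix.map_map] at this
      exact this)
    refine ⟨f, ?_⟩
    rw [← RingHom.comp_assoc, hf]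
    ext x
    simp
  ext := by
    intro X _ f g hfg
    refine h.ext f g ?_
    ext x
    have := RingHom.congr_fun hfg (e x)
    simpa using this



end Crest.Agent.R181.SM
end

-- ▼ part R181/V3386e
section

/-!
R181, V3 base, final form over the contract TW825b.
-/

namespace Crest.Agent.R181.V3

open MvPolynomial Crest.Agent.R181.FFR

theorem Good.of_allFFR {R : Type} [Ring R] (h : AllFFR R) : Good R := fun M _ _ hM =>
  Crest.Agent.R181.FR.ffr_iff.2 (h.ffr M hM)


theorem good_mvPolynomial (k : Type) [Field k] (σ : Type) [Finite σ] : Good (MvPolynomial σ k) :=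
  Good.of_allFFR ((AllFFR.of_divisionRing k).mvPolynomial σ)

theorem Good.allSF {R : Type} [Ring R] (h : Good R) : TW.AllSF R := fun P _ _ _ _ =>
  (h P).stFree

section split

variable {F : Type} [Field F] {I X' : Type}

/-- `F[X' ⊕ I] ≃ F[X'][I]` -/
noncomputable def splitE (F I X' : Type) [Field F] :
    MvPolynomial (X' ⊕ I) F ≃+* MvPolynomial I (MvPolynomial X' F) :=
  ((renameEquiv F (Equiv.sumComm X' I)).trans (sumAlgEquiv F I X')).toRingEquiv

theorem splitE_X_inr (i : I) : splitE F I X' (X (Sum.inr i)) = X i := by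
  change sumAlgEquiv F I X' (rename (Equiv.sumComm X' I) (X (Sum.inr i))) = X i
  rw [rename_X]
  exact sumAlgEquiv_X_inl F I X' i

theorem splitE_C (c : F) : splitE F I X' (C c) = C (C c) := by
  change sumAlgEquiv F I X' (rename (Equiv.sumComm X' I) (C c)) = _
  rw [rename_C]
  exact sumAlgEquiv_C_inl F I X' c

theorem splitE_inl (p : MvPolynomial X' F) : splitE F I X' (rename Sum.inl p) = C p := by
  have : (splitE F I X').toRingHom.comp (rename (R := F) (Sum.inl : X' → X' ⊕ I)).toRingHom =
      (C : MvPolynomial X' F →+* MvPolynomial I (MvPolynomial X' F)) := by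
    apply ringHom_ext
    · intro c
      change splitE F I X' (rename Sum.inl (C c)) = _
      rw [rename_C, splitE_C]
    · intro t
      change sumAlgEquiv F I X' (rename (Equiv.sumComm X' I) (rename Sum.inl (X t))) = _
      rw [rename_X, rename_X]
      exact sumAlgEquiv_X_inr F I X' t
  exact RingHom.congr_fun this p

/-- the equations in all variables -/
noncomputable def eqs [Fintype I] (a : I → ℕ) (th : I → I → F) (c : I → MvPolynomial X' F) (i : I) :
    MvPolynomial (X' ⊕ I) F :=
  X (Sum.inr i) ^ a i - rename Sum.inl (c i) - ∑ l, C (th i l) * X (Sum.inr l) ^ a i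

theorem splitE_eqs [Fintype I] (a : I → ℕ) (th : I → I → F) (c : I → MvPolynomial X' F) (i : I) :
    splitE F I X' (eqs a th c i) = X i ^ a i - (C (c i) +
      ∑ l, C (algebraMap F (MvPolynomial X' F) (th i l)) * X l ^ a i) := by
  have h1 : ∀ l, splitE F I X' (C (th i l) * X (Sum.inr l) ^ a i) =
      C (algebraMap F (MvPolynomial X' F) (th i l)) * X l ^ a i := by
    intro l
    rw [map_mul, splitE_C, map_pow, splitE_X_inr]
    rfl
  rw [eqs, map_sub, map_sub, map_pow, splitE_X_inr, splitE_inl, map_sum,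
    Finset.sum_congr rfl fun l _ => h1 l, sub_sub]

theorem exists_equiv_eqs [Fintype I] (a : I → ℕ) (th : I → I → F) (c : I → MvPolynomial X' F) :
    Nonempty ((MvPolynomial (X' ⊕ I) F ⧸ Ideal.span (Set.range (eqs a th c))) ≃+*
      (MvPolynomial I (MvPolynomial X' F) ⧸ ST.relIdeal a th c)) := by
  have h : Ideal.map (splitE F I X' : MvPolynomial (X' ⊕ I) F →+* MvPolynomial I (MvPolynomial X' F))
      (Ideal.span (Set.range (eqs a th c))) = ST.relIdeal a th c := by
    rw [Ideal.map_span, ← Set.range_comp]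
    have hfun : ((splitE F I X' : MvPolynomial (X' ⊕ I) F →+*
        MvPolynomial I (MvPolynomial X' F)) ∘ eqs a th c) = fun i => X i ^ a i - (C (c i) +
      ∑ l, C (algebraMap F (MvPolynomial X' F) (th i l)) * X l ^ a i) :=
      funext fun i => splitE_eqs a th c i
    rw [hfun]
  exact ⟨Ideal.quotientEquiv _ _ (splitE F I X') h.symm⟩

theorem good_U_of [Fintype I] {D σ : Type} [Ring D] [Algebra F D] [Fintype σ] [IsEmpty σ]
    (hF' : Function.Bijective (algebraMap F D))
    (a : I → ℕ) (th : I → I → F) (c : I → MvPolynomial X' F)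
    (Q : I → MvPolynomial (Option σ) (MvPolynomial X' F)) (w : I → σ → D)
    (hQ : ST.Mono a Q c)
    (h : Good (MvPolynomial (X' ⊕ I) F ⧸ Ideal.span (Set.range (eqs a th c)))) :
    Good (UR.U a th Q w) := by
  obtain ⟨f, -⟩ := ST.exists_equiv_quot th w hF' hQ
  obtain ⟨g⟩ := exists_equiv_eqs a th c
  exact SM.Good.congr (g.trans f.symm) h

end split

section Ql

variable {F : Type} [Field F] {n : ℕ} {X' : Type}

theorem aeval_smul_X {L σ : Type} [CommRing L] [Algebra F L] (lam : Fin n → L)
    (p : MvPolynomial (Fin n) F) {m : ℕ} (hp : p.IsHomogeneous m) :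
    aeval (fun t => (C (lam t) * X none : MvPolynomial (Option σ) L)) p =
      monomial (Finsupp.single none m) (aeval lam p) := by
  classical
  rw [aeval_def, aeval_def, eval₂_eq', eval₂_eq']
  have h1 : ∀ α ∈ p.support, (algebraMap F (MvPolynomial (Option σ) L)) (coeff α p) *
      ∏ i, (C (lam i) * X none : MvPolynomial (Option σ) L) ^ α i =
      monomial (Finsupp.single none m) (algebraMap F L (coeff α p) * ∏ i, lam i ^ α i) := by
    intro α hα
    have h2 : ∑ i, α i = m := by
      have := hp (mem_support_iff.1 hα)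
      rw [Finsupp.weight_apply, Finsupp.sum_fintype _ _ (by simp)] at this
      simpa using this
    have h3 : ∏ i, (C (lam i) * X none : MvPolynomial (Option σ) L) ^ α i =
        C (∏ i, lam i ^ α i) * X none ^ m := by
      simp only [mul_pow]
      rw [Finset.prod_mul_distrib, Finset.prod_pow_eq_pow_sum, h2, map_prod]
      simp only [map_pow]
    rw [h3, X_pow_eq_monomial, ← mul_assoc, IsScalarTower.algebraMap_apply F L, algebraMap_eq,
      ← map_mul, C_mul_monomial, mul_one]
  rw [Finset.sum_congr rfl h1, ← map_sum]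

theorem mono_Ql {I : Type} [Fintype I] (d : TW.Dat F I n) {L : Type} [CommRing L] [Algebra F L]
    (lam : Fin n → L) : ST.Mono d.a (d.Ql 0 lam) (fun i => aeval lam (d.Q i)) := by
  intro i
  have h : (TW.lvars 0 lam : Fin n → MvPolynomial (Option (TW.Vr 0)) L) =
      fun t => C (lam t) * X none := by
    funext t
    rw [TW.lvars, if_neg (Nat.not_lt_zero _)]
  rw [TW.Dat.Ql, h]
  exact aeval_smul_X lam (d.Q i) (d.hQ i)

/-- the base ring of the V-chain, generic data -/
theorem good_lvl0_U {I : Type} [Fintype I] (d : TW.Dat F I n)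
    (lam : Fin n → MvPolynomial X' F)
    (h : Good (MvPolynomial (X' ⊕ I) F ⧸
      Ideal.span (Set.range (eqs d.a d.th fun i => aeval lam (d.Q i))))) :
    Good ((TW.lvl0 d).U lam) :=
  good_U_of (σ := TW.Vr 0) (D := F) Function.bijective_id d.a d.th _ _ _ (mono_Ql d lam) h

end Ql

end Crest.Agent.R181.V3
end

-- ▼ part R181/V3386f
section

/-!
R181, V3: the statement of the contract TW825b for the concrete data
(`I = Fin r`, `n = r + 1`, `F = AS.Fld (r + 1)`, `AS.thF`, `AS.QF`, operators `i.succ`).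
-/

namespace Crest.Agent.R181.V3

open MvPolynomial Crest.Agent.R181.AS Crest.Agent.R181.TW

section

variable {r : ℕ} (a : Fin (r + 1) → ℕ) (f : Fin (r + 1) → MvPolynomial (Fin (r + 1)) ℂ)
  (d : Dat (Fld (r + 1)) (Fin r) (r + 1))

/-- the point `(x_0, .., x_{k-1}, 1, 0, ..)` -/
noncomputable def pt (K : Type) [CommRing K] (n k : ℕ) (t : Fin n) : MvPolynomial (Fin k) K :=
  if h : (t : ℕ) < k then X ⟨t, h⟩ else if (t : ℕ) = k then 1 else 0

theorem good_V3 (hda : ∀ i, d.a i = a i.succ) (hdth : ∀ i l, d.th i l = thF i.succ l.succ)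
    (hdQ : ∀ i, d.Q i = QF a f i.succ) (ha : ∀ i, 1 ≤ a i)
    (hN : ∀ t, ∃ N : ℕ, (X t : MvPolynomial (Fin (r + 1)) ℂ) ^ N ∈ Ideal.span (Set.range f))
    (k : ℕ) (hk : k < r + 1) : Good ((lvl0 d).U (pt (Fld (r + 1)) (r + 1) k)) := by
  apply good_lvl0_U
  have h := good_base_of (X' := Fin k) a f (pt ℂ (r + 1) k) ha ⟨k, hk⟩ (by simp [pt]) (hN ⟨k, hk⟩)
    (good_mvPolynomial ℂ _)
  have hpt : ∀ t, map (algebraMap ℂ (Fld (r + 1))) (pt ℂ (r + 1) k t) =
      pt (Fld (r + 1)) (r + 1) k t := by
    intro t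
    rw [pt, pt]
    split_ifs
    · rw [map_X]
    · rw [map_one]
    · rw [map_zero]
  have he : eqs d.a d.th (fun i => aeval (pt (Fld (r + 1)) (r + 1) k) (d.Q i)) =
      eqA a f (pt ℂ (r + 1) k) := by
    funext i
    rw [eqs, eqA, hda, hdQ]
    simp only [hdth, hpt]
  rw [he]
  exact h

/-- **[V3]** of the contract TW825b. -/
theorem allSF_V3 (hda : ∀ i, d.a i = a i.succ) (hdth : ∀ i l, d.th i l = thF i.succ l.succ)
    (hdQ : ∀ i, d.Q i = QF a f i.succ) (ha : ∀ i, 1 ≤ a i)
    (hN : ∀ t, ∃ N : ℕ, (X t : MvPolynomial (Fin (r + 1)) ℂ) ^ N ∈ Ideal.span (Set.range f))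
    (k : ℕ) (hk : k < r + 1) :
    AllSF ((lvl0 d).U (fun t : Fin (r + 1) =>
      if h : (t : ℕ) < k then (MvPolynomial.X ⟨t, h⟩ : MvPolynomial (Fin k) (Fld (r + 1)))
      else if (t : ℕ) = k then 1 else 0)) :=
  (good_V3 a f d hda hdth hdQ ha hN k hk).allSF

end

end Crest.Agent.R181.V3
end

-- ▼ part R181/HP776
section

/-! R181, block H (helper788 #11865, H5 (iii) and (iv)): if extension cocycles with values in a
quotient lift, then all submodules of projective modules are projective. -/

set_option autoImplicit false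

namespace Crest.Agent.R181.HP

open Function

variable {D T : Type} [DivisionRing D] [Ring T] {I : Type}

/-- `(n, y) ↦ (ξ_i n, ξ_i y + ζ_i n)` and the diagonal action of `D` define a `T`-module. -/
def Ext (ι : D →+* T) (ξ : I → T) {N Y : Type} [AddCommGroup N] [Module T N] [AddCommGroup Y]
    [Module T Y] (ζ : I → (N →+ Y)) : Prop :=
  ∃ f : T →+* AddMonoid.End (N × Y), (∀ d p, f (ι d) p = (ι d • p.1, ι d • p.2)) ∧
    ∀ i p, f (ξ i) p = (ξ i • p.1, ξ i • p.2 + ζ i p.1)

/-- `D`-linear sections of `T`-linear surjections -/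
theorem exists_sec (ι : D →+* T) {G N : Type} [AddCommGroup G] [Module T G] [AddCommGroup N]
    [Module T N] (q : G →ₗ[T] N) (hq : Surjective q) :
    ∃ s : N →+ G, (∀ n, q (s n) = n) ∧ ∀ d n, s (ι d • n) = ι d • s n := by
  let _ : Module D G := Module.compHom G ι
  let _ : Module D N := Module.compHom N ι
  let q' : G →ₗ[D] N :=
    { toFun := q
      map_add' := q.map_add
      map_smul' := fun d g => q.map_smul (ι d) g }
  obtain ⟨s, hs⟩ := q'.exists_rightInverse_of_surjective (LinearMap.range_eq_top.2 hq)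
  exact ⟨s.toAddMonoidHom, fun n => LinearMap.congr_fun hs n, fun d n => s.map_smul d n⟩

/-- a copy of the product, to carry a twisted module structure -/
def Tw (N X : Type) : Type := N × X

instance (N X : Type) [AddCommGroup N] [AddCommGroup X] : AddCommGroup (Tw N X) :=
  inferInstanceAs (AddCommGroup (N × X))

/-- the kernel of a surjection from a projective module is projective -/
theorem projective_ker (ι : D →+* T) (ξ : I → T)
    (gen : ∀ P : T → Prop, (∀ d, P (ι d)) → (∀ i, P (ξ i)) → (∀ s t, P s → P t → P (s + t)) →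
      (∀ s t, P s → P t → P (s * t)) → ∀ t, P t)
    (lift : ∀ (N X Y : Type) [AddCommGroup N] [Module T N] [AddCommGroup X] [Module T X]
      [AddCommGroup Y] [Module T Y] (π : X →ₗ[T] Y), Surjective π → ∀ ζ : I → (N →+ Y),
      Ext ι ξ ζ → ∃ ζ' : I → (N →+ X), (∀ i n, π (ζ' i n) = ζ i n) ∧ Ext ι ξ ζ')
    {G N : Type} [AddCommGroup G] [Module T G] [AddCommGroup N] [Module T N]
    (hG : Module.Projective T G) (q : G →ₗ[T] N) (hq : Surjective q) :
    Module.Projective T (LinearMap.ker q) := by
  obtain ⟨s, hs, hsD⟩ := exists_sec ι q hq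
  -- the splitting of `G` over `D`
  have hK : ∀ g, g - s (q g) ∈ LinearMap.ker q := fun g => by
    rw [LinearMap.mem_ker, map_sub, hs, sub_self]
  let e : (N × LinearMap.ker q) ≃+ G :=
    { toFun := fun p => s p.1 + p.2
      invFun := fun g => (q g, ⟨g - s (q g), hK g⟩)
      left_inv := by
        rintro ⟨n, y, hy⟩
        have h1 : q (s n + y) = n := by rw [map_add, hs, LinearMap.mem_ker.1 hy, add_zero]
        refine Prod.ext h1 (Subtype.ext ?_)
        change s n + y - s (q (s n + y)) = y
        rw [h1, add_sub_cancel_left]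
      right_inv := by
        intro g
        change s (q g) + (g - s (q g)) = g
        abel
      map_add' := by
        rintro ⟨n, y⟩ ⟨n', y'⟩
        change s (n + n') + ((y : G) + (y' : G)) = s n + y + (s n' + y')
        rw [map_add]
        abel }
  have he : ∀ p, e p = s p.1 + p.2 := fun _ => rfl
  have hes1 : ∀ g, (e.symm g).1 = q g := fun _ => rfl
  have hes2 : ∀ g, ((e.symm g).2 : G) = g - s (q g) := fun _ => rfl
  let f : T →+* AddMonoid.End (N × LinearMap.ker q) :=
    { toFun := fun t => e.symm.toAddMonoidHom.comp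
        ((Module.toAddMonoidEnd T G t).comp e.toAddMonoidHom)
      map_one' := by
        ext1 p
        change e.symm ((1 : T) • e p) = p
        rw [one_smul, AddEquiv.symm_apply_apply]
      map_mul' := fun a b => by
        ext1 p
        change e.symm ((a * b) • e p) = e.symm (a • e (e.symm (b • e p)))
        rw [AddEquiv.apply_symm_apply, mul_smul]
      map_zero' := by
        ext1 p
        change e.symm ((0 : T) • e p) = 0
        rw [zero_smul, map_zero]
      map_add' := fun a b => by
        ext1 p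
        change e.symm ((a + b) • e p) = e.symm (a • e p) + e.symm (b • e p)
        rw [add_smul, map_add] }
  have hf : ∀ t p, f t p = e.symm (t • e p) := fun _ _ => rfl
  let ζ : I → (N →+ LinearMap.ker q) := fun i =>
    { toFun := fun n => ⟨ξ i • s n - s (ξ i • n), by
        rw [LinearMap.mem_ker, map_sub, hs, map_smul, hs, sub_self]⟩
      map_zero' := Subtype.ext (by simp)
      map_add' := fun n n' => Subtype.ext (by
        change ξ i • s (n + n') - s (ξ i • (n + n')) =
          (ξ i • s n - s (ξ i • n)) + (ξ i • s n' - s (ξ i • n'))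
        rw [map_add, smul_add, smul_add, map_add]
        abel) }
  have hζ : Ext ι ξ ζ := by
    refine ⟨f, fun d p => ?_, fun i p => ?_⟩
    · rw [hf]
      refine Prod.ext ?_ (Subtype.ext ?_)
      · rw [hes1, he, map_smul, map_add, hs, LinearMap.mem_ker.1 p.2.2, add_zero]
      · rw [hes2, he, map_smul, map_add, hs, LinearMap.mem_ker.1 p.2.2, add_zero, hsD,
          smul_add, add_sub_cancel_left]
        rfl
    · rw [hf]
      refine Prod.ext ?_ (Subtype.ext ?_)
      · rw [hes1, he, map_smul, map_add, hs, LinearMap.mem_ker.1 p.2.2, add_zero]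
      · rw [hes2, he, map_smul, map_add, hs, LinearMap.mem_ker.1 p.2.2, add_zero, smul_add]
        change ξ i • s p.1 + ξ i • (p.2 : G) - s (ξ i • p.1) =
          ξ i • (p.2 : G) + (ξ i • s p.1 - s (ξ i • p.1))
        abel
  -- a free module over the kernel
  let X := LinearMap.ker q →₀ T
  let π : X →ₗ[T] LinearMap.ker q := Finsupp.linearCombination T id
  have hπ : Surjective π := Finsupp.linearCombination_id_surjective T (LinearMap.ker q)
  obtain ⟨ζ', hζ', f', hf'D, hf'ξ⟩ := lift N X (LinearMap.ker q) π hπ ζ hζ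
  -- the new extension
  let _ : Module T (Tw N X) := Module.compHom (N × X) f'
  have hact : ∀ (t : T) (p : Tw N X), t • p = f' t p := fun _ _ => rfl
  have hact0 : ∀ (t : T) (x : X), f' t (0, x) = (0, t • x) := by
    intro t
    refine gen (fun t => ∀ x : X, f' t (0, x) = (0, t • x)) ?_ ?_ ?_ ?_ t
    · intro d x
      rw [hf'D]
      exact Prod.ext (smul_zero _) rfl
    · intro i x
      rw [hf'ξ]
      refine Prod.ext (smul_zero _) ?_
      change ξ i • x + ζ' i 0 = ξ i • x
      rw [map_zero, add_zero]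
    · intro a b ha hb x
      rw [map_add, add_smul]
      change f' a (0, x) + f' b (0, x) = _
      rw [ha, hb]
      exact Prod.ext (add_zero _) rfl
    · intro a b ha hb x
      rw [map_mul, mul_smul]
      change f' a (f' b (0, x)) = _
      rw [hb, ha]
  let ψ : (N × X) → G := fun p => s p.1 + π p.2
  have hψ : ∀ (t : T) (p : N × X), ψ (f' t p) = t • ψ p := by
    intro t
    refine gen (fun t => ∀ p : N × X, ψ (f' t p) = t • ψ p) ?_ ?_ ?_ ?_ t
    · intro d p
      rw [hf'D]
      change s (ι d • p.1) + ((π (ι d • p.2) : LinearMap.ker q) : G) = ι d • (s p.1 + π p.2)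
      rw [hsD, LinearMap.map_smul, smul_add]
      rfl
    · intro i p
      rw [hf'ξ]
      change s (ξ i • p.1) + ((π (ξ i • p.2 + ζ' i p.1) : LinearMap.ker q) : G) =
        ξ i • (s p.1 + π p.2)
      have h1 : π (ξ i • p.2 + ζ' i p.1) = ξ i • π p.2 + ζ i p.1 := by
        rw [map_add, hζ', LinearMap.map_smul]
      rw [h1, smul_add]
      change s (ξ i • p.1) + (ξ i • (π p.2 : G) + (ξ i • s p.1 - s (ξ i • p.1))) = _
      abel
    · intro a b ha hb p
      rw [map_add, add_smul, ← ha, ← hb]
      change s ((f' a p).1 + (f' b p).1) + ((π ((f' a p).2 + (f' b p).2) : LinearMap.ker q) : G) =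
        (s (f' a p).1 + π (f' a p).2) + (s (f' b p).1 + π (f' b p).2)
      rw [map_add, map_add]
      change _ + ((π (f' a p).2 : G) + (π (f' b p).2 : G)) = _
      abel
    · intro a b ha hb p
      rw [map_mul, mul_smul, ← hb, ← ha]
      rfl
  let Ψ : Tw N X →ₗ[T] G :=
    { toFun := ψ
      map_add' := fun a b => by
        change s (a.1 + b.1) + ((π (a.2 + b.2) : LinearMap.ker q) : G) =
          (s a.1 + π a.2) + (s b.1 + π b.2)
        rw [map_add, map_add]
        change _ + ((π a.2 : G) + (π b.2 : G)) = _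
        abel
      map_smul' := fun t p => hψ t p }
  have hΨ : ∀ p : Tw N X, Ψ p = s p.1 + π p.2 := fun _ => rfl
  have hΨs : Surjective Ψ := by
    intro g
    obtain ⟨x, hx⟩ := hπ ⟨g - s (q g), hK g⟩
    refine ⟨((q g, x) : N × X), ?_⟩
    rw [hΨ]
    change s (q g) + (π x : G) = g
    rw [hx]
    change s (q g) + (g - s (q g)) = g
    abel
  obtain ⟨σ, hσ⟩ := Module.projective_lifting_property Ψ LinearMap.id hΨs
  have hσ' : ∀ g, Ψ (σ g) = g := fun g => LinearMap.congr_fun hσ g
  have h0 : ∀ y : LinearMap.ker q, (σ y).1 = 0 := by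
    intro y
    have h1 : q (Ψ (σ y)) = (σ y).1 := by
      rw [hΨ, map_add, hs, LinearMap.mem_ker.1 (π (σ y).2).2, add_zero]
    rw [← h1, hσ']
    exact y.2
  have h1 : ∀ y : LinearMap.ker q, σ y = ((0, (σ y).2) : N × X) := fun y => Prod.ext (h0 y) rfl
  let j : LinearMap.ker q →ₗ[T] X :=
    { toFun := fun y => (σ y).2
      map_add' := fun y y' => by
        change (σ ((y : G) + y')).2 = _
        rw [map_add]
        rfl
      map_smul' := fun t y => by
        change (σ (t • (y : G))).2 = t • (σ y).2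
        rw [map_smul, hact, h1, hact0] }
  refine Module.Projective.of_split j π ?_
  ext y
  have h2 := hσ' y
  rw [hΨ, h0, map_zero, zero_add] at h2
  exact h2

/-- all submodules of projective modules are projective -/
theorem projective_of_lift (ι : D →+* T) (ξ : I → T)
    (gen : ∀ P : T → Prop, (∀ d, P (ι d)) → (∀ i, P (ξ i)) → (∀ s t, P s → P t → P (s + t)) →
      (∀ s t, P s → P t → P (s * t)) → ∀ t, P t)
    (lift : ∀ (N X Y : Type) [AddCommGroup N] [Module T N] [AddCommGroup X] [Module T X]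
      [AddCommGroup Y] [Module T Y] (π : X →ₗ[T] Y), Surjective π → ∀ ζ : I → (N →+ Y),
      Ext ι ξ ζ → ∃ ζ' : I → (N →+ X), (∀ i n, π (ζ' i n) = ζ i n) ∧ Ext ι ξ ζ')
    {G : Type} [AddCommGroup G] [Module T G] (hG : Module.Projective T G) (P : Submodule T G) :
    Module.Projective T P := by
  have h := projective_ker ι ξ gen lift hG P.mkQ P.mkQ_surjective
  rw [Submodule.ker_mkQ] at h
  exact h

end Crest.Agent.R181.HP
end

-- ▼ part R181/HL776b
section

/-! R181, block H (H5): the ring `U a th Q w` is hereditary. -/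

set_option autoImplicit false
set_option linter.unusedSectionVars false

namespace Crest.Agent.R181.HL

open AddMonoidAlgebra
open Crest.Agent.R181.UR
open Crest.Agent.R181.HT
open Crest.Agent.R181.H (Dn Dn_zero Dn_succ)

/-- powers of a square-zero perturbation -/
theorem def_pow {P : Type*} [Ring P] {W Z s e : P} (hs : ∀ x, Commute s x) (he : Commute e W)
    (hZe : Z * e = Z) (heZ : e * Z = 0) (n : ℕ) :
    (W + s * Z) ^ n = W ^ n + s * Dn W Z n := by
  induction n with
  | zero => simp
  | succ n ih =>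
    have h0 : Z * Dn W Z n = 0 := by
      have h1 : e * Dn W Z n = 0 := by
        rw [← H.Dn_mul_left _ _ _ he, heZ, H.Dn_zero_right]
      calc Z * Dn W Z n = Z * e * Dn W Z n := by rw [hZe]
        _ = 0 := by rw [mul_assoc, h1, mul_zero]
    rw [pow_succ', ih, Dn_succ, pow_succ']
    have h2 : s * Z * (s * Dn W Z n) = 0 := by
      rw [mul_assoc, ← mul_assoc Z, ← (hs Z).eq, mul_assoc s Z, h0, mul_zero, mul_zero]
    have h3 : W * (s * Dn W Z n) = s * (W * Dn W Z n) := by
      rw [← mul_assoc, ← (hs W).eq, mul_assoc]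
    rw [add_mul, mul_add, mul_add, h2, h3, mul_add, add_zero, mul_assoc s Z, add_assoc]

section Def

variable {A F I σ : Type} [Ring A] [CommRing F] [Fintype I] [Fintype σ] {a : I → ℕ}
  {th : I → I → F} {Q : I → MvPolynomial (Option σ) F} {τ : F →+* A} {u u' : I → Option σ → A}
  {z : I → A} {e : A}

theorem lf_def (hu' : ∀ i, u' i = fun v => u i v + if v = none then z i else 0) (i : I) :
    lf (u' i) = lf (u i) + sv A σ * cst (Option σ) (z i) := by
  rw [sv_cst, ← lf_add, hu']
  rfl

/-- deformations in the new variable are cocycles -/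
theorem isCoc_of_def (hu' : ∀ i, u' i = fun v => u i v + if v = none then z i else 0)
    (he : ∀ i v, Commute e (u i v)) (hze : ∀ i, z i * e = z i) (hez : ∀ i, e * z i = 0)
    (h : IsTuple a th Q τ u) (h' : IsTuple a th Q τ u') :
    IsCoc a th τ (fun i => lf (u i)) (fun i => cst (Option σ) (z i)) := by
  have hs : ∀ x : PA A (Option σ), Commute (sv A σ) x := fun x => var_comm none x
  have heW : ∀ i, Commute (cst (Option σ) e) (lf (u i)) := fun i => cst_comm_lf (he i)
  have hZe : ∀ i, cst (Option σ) (z i) * cst (Option σ) e = cst (Option σ) (z i) := fun i => by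
    rw [← map_mul, hze]
  have heZ : ∀ i, cst (Option σ) e * cst (Option σ) (z i) = 0 := fun i => by
    rw [← map_mul, hez, map_zero]
  have hZZ : ∀ i j, cst (Option σ) (z i) * cst (Option σ) (z j) = 0 := fun i j => by
    rw [← hZe i, mul_assoc, heZ, mul_zero]
  constructor
  · intro i j
    apply sv_mul_inj
    have h1 := h'.comm i j
    rw [lf_def hu' i, lf_def hu' j] at h1
    have key : ∀ i j, (lf (u i) + sv A σ * cst (Option σ) (z i)) *
        (lf (u j) + sv A σ * cst (Option σ) (z j)) =
        lf (u i) * lf (u j) + sv A σ * (lf (u i) * cst (Option σ) (z j)) +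
          sv A σ * (cst (Option σ) (z i) * lf (u j)) := by
      intro i j
      rw [add_mul, mul_add, mul_add]
      have h2 : sv A σ * cst (Option σ) (z i) * (sv A σ * cst (Option σ) (z j)) = 0 := by
        rw [mul_assoc, ← mul_assoc (cst (Option σ) (z i)), ← (hs (cst (Option σ) (z i))).eq,
          mul_assoc (sv A σ) (cst (Option σ) (z i)), hZZ, mul_zero, mul_zero]
      have h3 : lf (u i) * (sv A σ * cst (Option σ) (z j)) =
          sv A σ * (lf (u i) * cst (Option σ) (z j)) := by
        rw [← mul_assoc, ← (hs (lf (u i))).eq, mul_assoc]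
      rw [h2, h3, add_zero, mul_assoc (sv A σ)]
    rw [key, key, h.comm i j, add_assoc, add_assoc] at h1
    have h4 := add_left_cancel h1
    rw [mul_sub, mul_sub, sub_eq_sub_iff_add_eq_add]
    exact h4
  · intro i
    apply sv_mul_inj
    have h1 := h'.rel i
    have h2 := h.rel i
    rw [lf_def hu' i, def_pow hs (heW i) (hZe i) (heZ i)] at h1
    have h3 : ∀ l, lf (u' l) ^ a i = lf (u l) ^ a i +
        sv A σ * Dn (lf (u l)) (cst (Option σ) (z l)) (a i) := fun l => by
      rw [lf_def hu' l, def_pow hs (heW l) (hZe l) (heZ l)]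
    simp only [h3, mul_add, Finset.sum_add_distrib] at h1
    rw [h2, ← add_assoc] at h1
    have h4 := add_left_cancel h1
    rw [h4, Finset.mul_sum]
    refine Finset.sum_congr rfl fun l _ => ?_
    rw [← mul_assoc, ← (hs _).eq, mul_assoc]
    rfl

/-- cocycles give deformations in the new variable -/
theorem isTuple_of_isCoc (hu' : ∀ i, u' i = fun v => u i v + if v = none then z i else 0)
    (he : ∀ i v, Commute e (u i v)) (hze : ∀ i, z i * e = z i) (hez : ∀ i, e * z i = 0)
    (h : IsTuple a th Q τ u)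
    (hc : IsCoc a th τ (fun i => lf (u i)) (fun i => cst (Option σ) (z i))) :
    IsTuple a th Q τ u' := by
  have hs : ∀ x : PA A (Option σ), Commute (sv A σ) x := fun x => var_comm none x
  have heW : ∀ i, Commute (cst (Option σ) e) (lf (u i)) := fun i => cst_comm_lf (he i)
  have hZe : ∀ i, cst (Option σ) (z i) * cst (Option σ) e = cst (Option σ) (z i) := fun i => by
    rw [← map_mul, hze]
  have heZ : ∀ i, cst (Option σ) e * cst (Option σ) (z i) = 0 := fun i => by
    rw [← map_mul, hez, map_zero]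
  have hZZ : ∀ i j, cst (Option σ) (z i) * cst (Option σ) (z j) = 0 := fun i j => by
    rw [← hZe i, mul_assoc, heZ, mul_zero]
  constructor
  · intro i j
    rw [lf_def hu' i, lf_def hu' j]
    have key : ∀ i j, (lf (u i) + sv A σ * cst (Option σ) (z i)) *
        (lf (u j) + sv A σ * cst (Option σ) (z j)) =
        lf (u i) * lf (u j) + sv A σ * (lf (u i) * cst (Option σ) (z j)) +
          sv A σ * (cst (Option σ) (z i) * lf (u j)) := by
      intro i j
      rw [add_mul, mul_add, mul_add]
      have h2 : sv A σ * cst (Option σ) (z i) * (sv A σ * cst (Option σ) (z j)) = 0 := by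
        rw [mul_assoc, ← mul_assoc (cst (Option σ) (z i)), ← (hs (cst (Option σ) (z i))).eq,
          mul_assoc (sv A σ) (cst (Option σ) (z i)), hZZ, mul_zero, mul_zero]
      have h3 : lf (u i) * (sv A σ * cst (Option σ) (z j)) =
          sv A σ * (lf (u i) * cst (Option σ) (z j)) := by
        rw [← mul_assoc, ← (hs (lf (u i))).eq, mul_assoc]
      rw [h2, h3, add_zero, mul_assoc (sv A σ)]
    rw [key, key, h.comm i j, add_assoc, add_assoc]
    congr 1
    have h1 := congrArg (fun x => sv A σ * x) (hc.comm i j)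
    simp only [mul_sub] at h1
    rw [← sub_eq_zero] at h1 ⊢
    rw [← h1]
    abel
  · intro i
    have h3 : ∀ l, lf (u' l) ^ a i = lf (u l) ^ a i +
        sv A σ * Dn (lf (u l)) (cst (Option σ) (z l)) (a i) := fun l => by
      rw [lf_def hu' l, def_pow hs (heW l) (hZe l) (heZ l)]
    simp only [h3, mul_add, Finset.sum_add_distrib]
    rw [h.rel i, ← add_assoc]
    congr 1
    rw [hc.rel i, Finset.mul_sum]
    refine Finset.sum_congr rfl fun l _ => ?_
    rw [← mul_assoc, (hs _).eq, mul_assoc]
    rfl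


/-- cocycles are closed under multiplication with elements commuting with everything -/
theorem _root_.Crest.Agent.R181.HT.IsCoc.mul_mul {W ζ : I → PA A σ} (h : IsCoc a th τ W ζ)
    {x y : PA A σ} (hx : ∀ i, Commute x (W i)) (hy : ∀ i, Commute y (W i))
    (hxt : ∀ c, Commute x (cst σ (τ c))) : IsCoc a th τ W (fun i => x * ζ i * y) := by
  constructor
  · intro i j
    have key : ∀ i j, W i * (x * ζ j * y) - x * ζ j * y * W i = x * (W i * ζ j - ζ j * W i) * y := by
      intro i j
      rw [mul_sub, sub_mul, ← mul_assoc x (W i), (hx i).eq]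
      congr 1
      · simp only [mul_assoc]
      · rw [mul_assoc (x * ζ j), (hy i).eq]
        simp only [mul_assoc]
    rw [key, key, h.comm]
  · intro i
    have key : ∀ i m, Dn (W i) (x * ζ i * y) m = x * Dn (W i) (ζ i) m * y := fun i m => by
      rw [H.Dn_mul_right _ _ _ (hy i), H.Dn_mul_left _ _ _ (hx i)]
    rw [key, h.rel, Finset.mul_sum, Finset.sum_mul]
    refine Finset.sum_congr rfl fun l _ => ?_
    rw [key, ← mul_assoc x, (hxt _).eq]
    simp only [mul_assoc]

end Def

section Lift

variable {F D I σ : Type} [CommRing F] [DivisionRing D] [Algebra F D] [Fintype I] [Fintype σ]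
  {a : I → ℕ} {th : I → I → F} {Q : I → MvPolynomial (Option σ) F} {w : I → σ → D}

/-- **Lifting of extensions.** -/
theorem lift_ext (hK : Kill a th Q) (hE : EProp a th w) (N X Y : Type) [AddCommGroup N]
    [Module (U a th Q w) N] [AddCommGroup X] [Module (U a th Q w) X] [AddCommGroup Y]
    [Module (U a th Q w) Y] (π : X →ₗ[U a th Q w] Y) (hπ : Function.Surjective π)
    (ζ : I → (N →+ Y)) (h : HP.Ext (iD a th Q w) (eta a th Q w) ζ) :
    ∃ ζ' : I → (N →+ X), (∀ i n, π (ζ' i n) = ζ i n) ∧
      HP.Ext (iD a th Q w) (eta a th Q w) ζ' := by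
  obtain ⟨f, hfD, hfe⟩ := h
  obtain ⟨s, hs, hsD⟩ := HP.exists_sec (iD a th Q w) π hπ
  let E : Type := N × (X × Y)
  let g : U a th Q w →+* AddMonoid.End E := Module.toAddMonoidEnd (U a th Q w) E
  have hg : ∀ t (p : E), g t p = (t • p.1, (t • p.2.1, t • p.2.2)) := fun _ _ => rfl
  let P : AddMonoid.End E :=
    { toFun := fun p => (0, (0, π p.2.1))
      map_zero' := by simp [E]
      map_add' := fun p q => by simp [E] }
  let S : AddMonoid.End E :=
    { toFun := fun p => (0, (s p.2.2, 0))
      map_zero' := by simp [E]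
      map_add' := fun p q => by simp [E] }
  let z : I → AddMonoid.End E := fun i =>
    { toFun := fun p => (0, (0, ζ i p.1))
      map_zero' := by simp [E]
      map_add' := fun p q => by simp [E] }
  let eN : AddMonoid.End E :=
    { toFun := fun p => (p.1, (0, 0))
      map_zero' := by simp [E]
      map_add' := fun p q => by simp [E] }
  let eX : AddMonoid.End E :=
    { toFun := fun p => (0, (p.2.1, 0))
      map_zero' := by simp [E]
      map_add' := fun p q => by simp [E] }
  have hPd : ∀ p : E, P p = (0, (0, π p.2.1)) := fun _ => rfl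
  have hSd : ∀ p : E, S p = (0, (s p.2.2, 0)) := fun _ => rfl
  have hzd : ∀ i (p : E), z i p = (0, (0, ζ i p.1)) := fun _ _ => rfl
  have heNd : ∀ p : E, eN p = (p.1, (0, 0)) := fun _ => rfl
  have heXd : ∀ p : E, eX p = (0, (p.2.1, 0)) := fun _ => rfl
  have hmul : ∀ (x y : AddMonoid.End E) (p : E), (x * y) p = x (y p) := fun _ _ _ => rfl
  have hP : ∀ t, Commute P (g t) := fun t => by
    ext1 p
    rw [hmul, hmul, hPd, hg, hg, hPd]
    simp
  have hS : ∀ d, Commute S (g (iD a th Q w d)) := fun d => by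
    ext1 p
    rw [hmul, hmul, hSd, hg, hg, hSd]
    simp [hsD]
  have heN : ∀ t, Commute eN (g t) := fun t => by
    ext1 p
    rw [hmul, hmul, heNd, hg, hg, heNd]
    simp
  have heX : ∀ t, Commute eX (g t) := fun t => by
    ext1 p
    rw [hmul, hmul, heXd, hg, hg, heXd]
    simp
  have hPS : ∀ t, Commute (P * S) (g t) := fun t => by
    ext1 p
    rw [hmul, hmul, hmul, hmul, hSd, hPd, hg, hg, hSd, hPd]
    simp [hs]
  have hPSP : P * S * P = P := by
    ext1 p
    rw [hmul, hmul, hPd, hSd, hPd]
    simp [hs]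
  have hzP : ∀ i, P * S * z i = z i := fun i => by
    ext1 p
    rw [hmul, hmul, hzd, hSd, hPd]
    simp [hs]
  have hze : ∀ i, z i * eN = z i := fun i => by
    ext1 p
    rw [hmul, heNd, hzd, hzd]
  have hez : ∀ i, eN * z i = 0 := fun i => by
    ext1 p
    rw [hmul, hzd, heNd]
    rfl
  -- the extended action
  let fE : U a th Q w →+* AddMonoid.End E :=
    { toFun := fun t =>
        { toFun := fun p => ((f t (p.1, p.2.2)).1, (t • p.2.1, (f t (p.1, p.2.2)).2))
          map_zero' := by
            change ((f t (0 : N × Y)).1, (t • (0 : X), (f t (0 : N × Y)).2)) = (0 : N × (X × Y))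
            rw [map_zero, smul_zero]
            rfl
          map_add' := fun p q => by
            change ((f t ((p.1, p.2.2) + (q.1, q.2.2) : N × Y)).1, (t • (p.2.1 + q.2.1),
              (f t ((p.1, p.2.2) + (q.1, q.2.2) : N × Y)).2)) = _
            rw [map_add, smul_add]
            rfl }
      map_one' := by
        ext1 p
        change ((f 1 (p.1, p.2.2)).1, ((1 : U a th Q w) • p.2.1, (f 1 (p.1, p.2.2)).2)) = p
        rw [map_one, one_smul]
        rfl
      map_mul' := fun t t' => by
        ext1 p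
        change ((f (t * t') (p.1, p.2.2)).1, ((t * t') • p.2.1, (f (t * t') (p.1, p.2.2)).2)) = _
        rw [map_mul, mul_smul]
        rfl
      map_zero' := by
        ext1 p
        change ((f 0 (p.1, p.2.2)).1, ((0 : U a th Q w) • p.2.1, (f 0 (p.1, p.2.2)).2)) = 0
        rw [map_zero, zero_smul]
        rfl
      map_add' := fun t t' => by
        ext1 p
        change ((f (t + t') (p.1, p.2.2)).1, ((t + t') • p.2.1, (f (t + t') (p.1, p.2.2)).2)) = _
        rw [map_add, add_smul]
        rfl }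
  have hfE : ∀ t (p : E), fE t p = ((f t (p.1, p.2.2)).1, (t • p.2.1, (f t (p.1, p.2.2)).2)) :=
    fun _ _ => rfl
  have hfED : ∀ d, fE (iD a th Q w d) = g (iD a th Q w d) := fun d => by
    ext1 p
    rw [hfE, hfD, hg]
  have hfEe : ∀ i, fE (eta a th Q w i) = g (eta a th Q w i) + z i := fun i => by
    ext1 p
    rw [hfE, hfe]
    change _ = g (eta a th Q w i) p + z i p
    rw [hg, hzd]
    exact Prod.ext (add_zero _).symm (Prod.ext (add_zero _).symm rfl)
  have hLD : ∀ c, iL a th Q w c = iD a th Q w (algebraMap F D c) := fun c => by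
    rw [iD_base]
    rfl
  have hfEL : ∀ c, fE (iL a th Q w c) = g (iL a th Q w c) := fun c => by
    rw [hLD, hfED]
  set τ : F →+* AddMonoid.End E := g.comp (iL a th Q w) with hτ
  have hτE : fE.comp (iL a th Q w) = τ := RingHom.ext hfEL
  let u : I → Option σ → AddMonoid.End E := fun i v => g (wU a th Q w i v)
  have hu : IsTuple a th Q τ u := (isTuple_wU a th Q w).map g
  have hu' : IsTuple a th Q τ (fun i v => fE (wU a th Q w i v)) := by
    have := (isTuple_wU a th Q w).map fE
    rwa [hτE] at this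
  have hzF : ∀ i c, Commute (g (iL a th Q w c)) (z i) := fun i c => by
    have h1 : Commute (g (iL a th Q w c)) (g (eta a th Q w i)) := (iL_comm a th Q w c _).map g
    have h2 : Commute (g (iL a th Q w c)) (g (eta a th Q w i) + z i) := by
      rw [← hfEe, ← hfEL]
      exact (iL_comm a th Q w c _).map fE
    have h3 := h2.sub_right h1
    rwa [add_sub_cancel_left] at h3
  have hz : IsCoc a th τ (fun i => lf (u i)) (fun i => cst (Option σ) (z i)) := by
    refine isCoc_of_def (u' := fun i v => fE (wU a th Q w i v)) (e := eN) (fun i => ?_)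
      (fun i v => heN _) hze hez hu hu'
    funext v
    cases v with
    | none =>
      change fE (eta a th Q w i) = g (eta a th Q w i) + _
      rw [hfEe, if_pos rfl]
    | some v =>
      change fE (iD a th Q w (w i v)) = g (iD a th Q w (w i v)) + _
      rw [hfED, if_neg (by simp), add_zero]
  obtain ⟨z', hz'F, hz', hz'P⟩ := lift_ring hK hE g P S hP hS hPS hPSP z hzF hz hzP
  let z'' : I → AddMonoid.End E := fun i => eX * z' i * eN
  have hz''e : ∀ i, z'' i * eN = z'' i := fun i => by
    change eX * z' i * eN * eN = eX * z' i * eN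
    rw [mul_assoc _ eN]
    congr 1
  have hez'' : ∀ i, eN * z'' i = 0 := fun i => by
    change eN * (eX * z' i * eN) = 0
    have : eN * eX = 0 := by
      ext1 p
      rw [hmul, heXd, heNd]
      rfl
    rw [← mul_assoc, ← mul_assoc, this, zero_mul, zero_mul]
  have hz''F : ∀ c i, Commute (τ c) (z'' i) := fun c i => by
    change Commute (g (iL a th Q w c)) (eX * z' i * eN)
    exact ((heX _).symm.mul_right (hz'F i c)).mul_right (heN _).symm
  have hz''C : IsCoc a th τ (fun i => lf (u i)) (fun i => cst (Option σ) (z'' i)) := by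
    have h1 := hz'.mul_mul (x := cst (Option σ) eX) (y := cst (Option σ) eN)
      (fun i => cst_comm_lf fun v => heX _) (fun i => cst_comm_lf fun v => heN _)
      (fun c => by
        have := (heX (iL a th Q w c)).map (cst (Option σ))
        exact this)
    have h2 : (fun i => cst (Option σ) (z'' i)) =
        fun i => cst (Option σ) eX * cst (Option σ) (z' i) * cst (Option σ) eN := by
      funext i
      rw [← map_mul, ← map_mul]
    rw [h2]
    exact h1
  have ht : IsTuple a th Q τ
      (ext' (fun i v => (g.comp (iD a th Q w)) (w i v)) (fun i => g (eta a th Q w i) + z'' i)) := by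
    refine isTuple_of_isCoc (u := u) (z := z'') (e := eN) (fun i => ?_) (fun i v => heN _)
      hz''e hez'' hu hz''C
    funext v
    cases v with
    | none =>
      change g (eta a th Q w i) + z'' i = g (eta a th Q w i) + _
      rw [if_pos rfl]
    | some v =>
      change g (iD a th Q w (w i v)) = g (iD a th Q w (w i v)) + _
      rw [if_neg (by simp), add_zero]
  obtain ⟨f2, hf2D, hf2L, hf2e⟩ := exists_lift (a := a) (th := th) (Q := Q) (w := w)
    (g.comp (iD a th Q w)) τ (fun i => g (eta a th Q w i) + z'' i)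
    (fun c => by
      change g (iD a th Q w (algebraMap F D c)) = g (iL a th Q w (algebraMap F F c))
      rw [iD_base])
    (fun c d => (iL_comm a th Q w c _).map g)
    (fun c i => ((iL_comm a th Q w c _).map g).add_right (hz''F c i)) ht
  -- restriction to `N × X`
  let r : E →+ N × X :=
    { toFun := fun p => (p.1, p.2.1)
      map_zero' := rfl
      map_add' := fun _ _ => rfl }
  let j : N × X →+ E :=
    { toFun := fun p => (p.1, (p.2, 0))
      map_zero' := rfl
      map_add' := fun p q => by simp [E] }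
  have hr : ∀ p : E, r p = (p.1, p.2.1) := fun _ => rfl
  have hj : ∀ p : N × X, j p = (p.1, (p.2, 0)) := fun _ => rfl
  have hrj : ∀ p, r (j p) = p := fun _ => rfl
  let ζ' : I → (N →+ X) := fun i =>
    { toFun := fun n => (z' i (n, (0, 0))).2.1
      map_zero' := by
        change (z' i (0 : E)).2.1 = 0
        rw [map_zero]
        rfl
      map_add' := fun n n' => by
        have : ((n + n', (0, 0)) : E) = (n, (0, 0)) + (n', (0, 0)) := by simp
        change (z' i ((n + n', (0, 0)) : E)).2.1 = _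
        rw [this, map_add]
        rfl }
  have hζ' : ∀ i n, ζ' i n = (z' i (n, (0, 0))).2.1 := fun _ _ => rfl
  have hz''d : ∀ i (p : E), z'' i p = (0, (ζ' i p.1, 0)) := fun i p => by
    change eX (z' i (eN p)) = _
    rw [heXd, heNd]
    rfl
  have hf2Dd : ∀ d (p : N × X), f2 (iD a th Q w d) (j p) =
      j (iD a th Q w d • p.1, iD a th Q w d • p.2) := fun d p => by
    rw [hf2D]
    change g (iD a th Q w d) (j p) = _
    rw [hg, hj, hj]
    simp
  have hf2ed : ∀ i (p : N × X), f2 (eta a th Q w i) (j p) =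
      j (eta a th Q w i • p.1, eta a th Q w i • p.2 + ζ' i p.1) := fun i p => by
    rw [hf2e]
    change g (eta a th Q w i) (j p) + z'' i (j p) = _
    rw [hg, hz''d, hj, hj]
    refine Prod.ext (add_zero _) (Prod.ext rfl ?_)
    change eta a th Q w i • (0 : Y) + 0 = 0
    rw [smul_zero, add_zero]
  have hkey : ∀ t (p : N × X), j (r (f2 t (j p))) = f2 t (j p) := by
    intro t
    refine generation a th Q w (fun t => ∀ p : N × X, j (r (f2 t (j p))) = f2 t (j p))
      ?_ ?_ ?_ ?_ ?_ t
    · intro d p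
      rw [hf2Dd, hrj]
    · intro c p
      rw [hLD, hf2Dd, hrj]
    · intro i p
      rw [hf2ed, hrj]
    · intro t t' h h' p
      rw [map_add]
      change j (r (f2 t (j p) + f2 t' (j p))) = f2 t (j p) + f2 t' (j p)
      rw [map_add, map_add, h, h']
    · intro t t' h h' p
      rw [map_mul]
      change j (r (f2 t (f2 t' (j p)))) = f2 t (f2 t' (j p))
      rw [← h' p, h]
  let f' : U a th Q w →+* AddMonoid.End (N × X) :=
    { toFun := fun t => (r.comp (f2 t)).comp j
      map_one' := by
        ext1 p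
        change r (f2 1 (j p)) = p
        rw [map_one]
        rfl
      map_mul' := fun t t' => by
        ext1 p
        change r (f2 (t * t') (j p)) = r (f2 t (j (r (f2 t' (j p)))))
        rw [hkey, map_mul]
        rfl
      map_zero' := by
        ext1 p
        change r (f2 0 (j p)) = 0
        rw [map_zero]
        rfl
      map_add' := fun t t' => by
        ext1 p
        change r (f2 (t + t') (j p)) = r (f2 t (j p)) + r (f2 t' (j p))
        rw [map_add]
        rfl }
  refine ⟨ζ', fun i n => ?_, f', fun d p => ?_, fun i p => ?_⟩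
  · have h1 := congrArg (fun x : AddMonoid.End E => x (n, (0, 0))) (hz'P i)
    change P (z' i (n, (0, 0))) = z i (n, (0, 0)) at h1
    rw [hPd, hzd] at h1
    have h2 := congrArg (fun p : E => p.2.2) h1
    exact h2
  · change r (f2 _ (j p)) = _
    rw [hf2Dd, hrj]
  · change r (f2 _ (j p)) = _
    rw [hf2ed, hrj]

/-- **The ring `U` is left hereditary.** -/
theorem projective (hK : Kill a th Q) (hE : EProp a th w) {G : Type} [AddCommGroup G]
    [Module (U a th Q w) G] (hG : Module.Projective (U a th Q w) G)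
    (P : Submodule (U a th Q w) G) : Module.Projective (U a th Q w) P := by
  refine HP.projective_of_lift (iD a th Q w) (eta a th Q w) ?_ ?_ hG P
  · intro R hRD hRe hadd hmul t
    refine generation a th Q w R hRD (fun c => ?_) hRe hadd hmul t
    have : iL a th Q w c = iD a th Q w (algebraMap F D c) := by
      rw [iD_base]
      rfl
    rw [this]
    exact hRD _
  · intro N X Y _ _ _ _ _ _ π hπ ζ h
    exact lift_ext hK hE N X Y π hπ ζ h

end Lift

end Crest.Agent.R181.HL
end

-- ▼ part R181/HL776c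
section

/-! R181, block H: H9 from the killing property. -/

set_option autoImplicit false

namespace Crest.Agent.R181.HL

open UR TW

/-- `U` is left hereditary. -/
theorem hered {F D I σ : Type} [CommRing F] [DivisionRing D] [Algebra F D] [Fintype I] [Fintype σ]
    {a : I → ℕ} {th : I → I → F} {Q : I → MvPolynomial (Option σ) F} {w : I → σ → D}
    (hK : Kill a th Q) (hE : HT.EProp a th w) : Hered (U a th Q w) :=
  fun _ N => projective hK hE inferInstance N

/-- **H9** from the killing property. -/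
theorem h9Stmt_of_kill {F I : Type} [Field F] [Fintype I] {n : ℕ} {d : Dat F I n}
    (hK : ∀ i < n, Kill d.a d.th (d.Ql i (dl F i))) : H9Stmt d :=
  fun i hi _ _ hE => hered (hK i hi) hE

end Crest.Agent.R181.HL
end

-- ▼ part R181/TW825g
section

/-!
R181 (helper825): **S0271 from the blocks V2 and PO for 279's `AS.dat`** (H9 = 776 + 279 + 788 and
V3 = 386 are plugged in).
-/

set_option autoImplicit false
set_option linter.unusedSectionVars false

namespace Crest.Agent.R181.TW

open UR HT

section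

variable {r : ℕ} (a : Fin (r + 1) → ℕ) (f : Fin (r + 1) → MvPolynomial (Fin (r + 1)) ℂ)
  (ha : Monotone a) (ha2 : ∀ i, 2 ≤ a i) (hf : ∀ i, (f i).IsHomogeneous (a i))
  (hX : ∀ t, ∃ M : ℕ, (MvPolynomial.X t : MvPolynomial (Fin (r + 1)) ℂ) ^ M ∈
      Ideal.span (Set.range f))

include hX

/-- block V3 (386) -/
theorem v3_dat : V3Stmt (AS.dat a f ha ha2 hf) := fun k hk =>
  V3.allSF_V3 a f (AS.dat a f ha ha2 hf) (fun _ => rfl) (fun _ _ => rfl) (fun _ => rfl)
    (fun i => by have := ha2 i; omega) hX k hk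

/-- block H9 (776, 279, 788) -/
theorem h9_dat : H9Stmt (AS.dat a f ha ha2 hf) :=
  HL.h9Stmt_of_kill fun _ hi => AS.kill a f ha ha2 hf hX hi

end

/-- **S0271 from the blocks V2 and PO.** -/
theorem main
    (hblocks : ∀ (r : ℕ) (a : Fin (r + 1) → ℕ) (f : Fin (r + 1) → MvPolynomial (Fin (r + 1)) ℂ)
      (ha : Monotone a) (ha2 : ∀ i, 2 ≤ a i) (hf : ∀ i, (f i).IsHomogeneous (a i)),
      V2Stmt (AS.dat a f ha ha2 hf) ∧ POStmt (AS.dat a f ha ha2 hf))
    (n : ℕ) (hn : 1 ≤ n) (a : Fin n → ℕ)
    (ha : Monotone a) (ha2 : ∀ i, 2 ≤ a i) (I : Ideal (MvPolynomial (Fin n) ℂ))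
    (hI : ∀ g ∈ I, ∀ d : ℕ, MvPolynomial.homogeneousComponent d g ∈ I)
    (f : Fin n → MvPolynomial (Fin n) ℂ) (hf : ∀ i, (f i).IsHomogeneous (a i)) (hfI : ∀ i, f i ∈ I)
    (hreg : RingTheory.Sequence.IsRegular (MvPolynomial (Fin n) ℂ) (List.ofFn f)) :
    KL.Concl n a I := by
  refine AS.result_of_dat (fun r a f ha ha2 hf hN => ?_) n hn a ha ha2 I hI f hf hfI hreg
  obtain ⟨N, hN⟩ := hN
  obtain ⟨h2, hP⟩ := hblocks r a f ha ha2 hf
  exact exists_tuple (h9_dat a f ha ha2 hf fun t => ⟨N, hN t⟩) h2
    (v3_dat a f ha ha2 hf fun t => ⟨N, hN t⟩) hP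

end Crest.Agent.R181.TW
end

-- ▼ part R181/TW825h

/-!
R181 (helper825): interface between block PO (598, 553), block V2 (495, 836) and the main theorem.
`BM1Stmt d`: `X.U lam` is nontrivial.  `LiftStmt d`: for EVERY homogeneous lift `Q` of the forms of
level `i`, the ring `U (D_i, w; F, Q)` is nontrivial and stably finite.
-/

set_option autoImplicit false
set_option linter.unusedSectionVars false

namespace Crest.Agent.R181.TW

open UR HT

section

variable {F I : Type} [Field F] [Fintype I] {n : ℕ} (d : Dat F I n)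

/-- `X.U lam` is nontrivial (for 836 / V2) -/
def BM1Stmt : Prop :=
  ∀ (i : ℕ) (_ : i < n) (X : Lvl d i) (_ : Chain d i X) (lam : Fin n → F), Nontrivial (X.U lam)

/-- the output of block PO -/
def LiftStmt : Prop :=
  ∀ (i : ℕ) (_ : i < n) (X : Lvl d i) (_ : Chain d i X)
    (Q : I → MvPolynomial (Option (Vr i)) F), (∀ l, (Q l).IsHomogeneous (d.a l)) →
    (∀ l, BM.res0 (Q l) = d.Qr i l) →
    Nontrivial (U d.a d.th Q X.w) ∧ IsStablyFiniteRing (U d.a d.th Q X.w)

theorem res0_Ql (i : ℕ) (lam : Fin n → F) (l : I) : BM.res0 (d.Ql i lam l) = d.Qr i l := by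
  have h : (BM.res0 (σ := Vr i) (R := F)).comp
      (MvPolynomial.aeval (lvars i lam) : MvPolynomial (Fin n) F →ₐ[F] _) =
      MvPolynomial.aeval (vars F i) := by
    apply MvPolynomial.algHom_ext
    intro t
    rw [AlgHom.comp_apply, MvPolynomial.aeval_X, MvPolynomial.aeval_X, lvars]
    by_cases ht : (t : ℕ) < i
    · obtain ⟨v, -, hv⟩ := vars_of_lt F i t ht
      rw [if_pos ht, hv, MvPolynomial.rename_X]
      simp [BM.res0]
    · rw [if_neg ht, vars_eq_zero F i t (by omega), map_mul]
      simp [BM.res0]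
  exact DFunLike.congr_fun h (d.Q l)

variable {d}

theorem LiftStmt.bm1 (h : LiftStmt d) : BM1Stmt d := fun i hi X c lam =>
  (h i hi X c (d.Ql i lam) (VP.Ql_hom d i lam) (res0_Ql d i lam)).1

theorem LiftStmt.po (h : LiftStmt d) : POStmt d := fun i hi X c =>
  h i hi X c (d.Ql i (dl F i)) (VP.Ql_hom d i (dl F i)) (res0_Ql d i (dl F i))

end

/-- **S0271 from V2 and the lift theorem.** -/
theorem main'
    (hV2 : ∀ {r : ℕ} (a : Fin (r + 1) → ℕ) (f : Fin (r + 1) → MvPolynomial (Fin (r + 1)) ℂ)
      (ha : Monotone a) (ha2 : ∀ i, 2 ≤ a i) (hf : ∀ i, (f i).IsHomogeneous (a i)),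
      BM1Stmt (AS.dat a f ha ha2 hf) → V2Stmt (AS.dat a f ha ha2 hf))
    (hPO : ∀ {r : ℕ} (a : Fin (r + 1) → ℕ) (f : Fin (r + 1) → MvPolynomial (Fin (r + 1)) ℂ)
      (ha : Monotone a) (ha2 : ∀ i, 2 ≤ a i) (hf : ∀ i, (f i).IsHomogeneous (a i)),
      LiftStmt (AS.dat a f ha ha2 hf))
    (n : ℕ) (hn : 1 ≤ n) (a : Fin n → ℕ)
    (ha : Monotone a) (ha2 : ∀ i, 2 ≤ a i) (I : Ideal (MvPolynomial (Fin n) ℂ))
    (hI : ∀ g ∈ I, ∀ d : ℕ, MvPolynomial.homogeneousComponent d g ∈ I)
    (f : Fin n → MvPolynomial (Fin n) ℂ) (hf : ∀ i, (f i).IsHomogeneous (a i)) (hfI : ∀ i, f i ∈ I)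
    (hreg : RingTheory.Sequence.IsRegular (MvPolynomial (Fin n) ℂ) (List.ofFn f)) :
    KL.Concl n a I :=
  main (fun _ a f ha ha2 hf =>
    ⟨hV2 a f ha ha2 hf (hPO a f ha ha2 hf).bm1, (hPO a f ha ha2 hf).po⟩)
    n hn a ha ha2 I hI f hf hfI hreg

end Crest.Agent.R181.TW
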