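import Crest.Agent.R181.VA980a
import Crest.Agent.R181.V868a

-- ▼ part R181/VA980b
section

/-! R181, V-chain, V2a (A2): induction principle for the extension closure; Step 1 of V2 (an
`e`-stable finite lattice). -/

set_option autoImplicit false
set_option linter.unusedSectionVars false

namespace Crest.Agent.R181.VA

open LK

universe u

variable {R : Type u} [Ring R]

/-- a property closed under isomorphism and extensions which holds for `0` and on `W` holds on the
extension closure of `W` -/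
theorem filt_induction (W : AbClass R)
    (P : ∀ (M : Type u) [AddCommGroup M] [Module R M], Prop)
    (h0 : ∀ (M : Type u) [AddCommGroup M] [Module R M], Subsingleton M → P M)
    (hW : ∀ (M : Type u) [AddCommGroup M] [Module R M], W.mem M → P M)
    (hext : ∀ {A M B : Type u} [AddCommGroup A] [Module R A] [AddCommGroup M] [Module R M]
      [AddCommGroup B] [Module R B] (i : A →ₗ[R] M) (p : M →ₗ[R] B), SES i p → P A → P B → P M)
    {M : Type u} [AddCommGroup M] [Module R M] (h : W.filt.mem M) : P M := by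
  obtain ⟨n, hn⟩ := h
  induction n generalizing M with
  | zero => exact h0 M hn
  | succ n ih =>
    obtain ⟨A, _, _, B, _, _, i, p, hs, hA, hB⟩ := AbClass.FN_succ_iff.1 hn
    exact hext i p hs (hW A hA) (ih hB)

/-- a class closed under extensions -/
def ExtClosed (F : AbClass R) : Prop :=
  ∀ {A M B : Type u} [AddCommGroup A] [Module R A] [AddCommGroup M] [Module R M]
    [AddCommGroup B] [Module R B] {i : A →ₗ[R] M} {p : M →ₗ[R] B}, SES i p →
    F.mem A → F.mem B → F.mem M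

theorem extClosed_filt (W : AbClass R) : ExtClosed W.filt := fun h hA hB =>
  AbClass.filt_ext h hA hB

variable {G : Type u} [AddCommGroup G] [Module R G]

/-- the subquotient `A / B` -/
abbrev SQ (A B : Submodule R G) : Type u := ↥A ⧸ Submodule.submoduleOf B A

theorem mem_submoduleOf {A B : Submodule R G} (x : A) :
    x ∈ Submodule.submoduleOf B A ↔ (x : G) ∈ B := by
  simp [Submodule.submoduleOf]

theorem SQ_mk_eq_zero {A B : Submodule R G} (x : A) :
    (Submodule.submoduleOf B A).mkQ x = 0 ↔ (x : G) ∈ B := by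
  rw [Submodule.mkQ_apply, Submodule.Quotient.mk_eq_zero, mem_submoduleOf]

/-- Step 1 of V2 -/
theorem step1 (F : AbClass R) (O L0 L1 : Submodule R G) (e : G →ₗ[R] G)
    (hO : O ≤ L0) (heO : ∀ y ∈ O, e y ∈ L0) (he0 : ∀ y ∈ L0, e y ∈ L1)
    (he : ∀ y, e (e y) = e y) (hm0 : F.mem (SQ L0 O)) (hm1 : F.mem (SQ L1 L0)) :
    ∃ L : Submodule R G, O ≤ L ∧ L ≤ L0 ∧ (∀ y ∈ L, e y ∈ L) ∧ F.mem (SQ L O) := by
  let L : Submodule R G := L0 ⊓ L0.comap e
  have hOL : O ≤ L := fun y hy => ⟨hO hy, heO y hy⟩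
  have hLL : L ≤ L0 := inf_le_left
  refine ⟨L, hOL, hLL, fun y hy => ⟨hy.2, ?_⟩, ?_⟩
  · change e (e y) ∈ L0
    rw [he]; exact hy.2
  · -- the map f : L0 / O → L1 / L0
    obtain ⟨f, hf⟩ := exists_desc (N := SQ L1 L0)
      (Submodule.mkQ_surjective (Submodule.submoduleOf O L0))
      ((Submodule.submoduleOf L0 L1).mkQ.comp
        ((e.comp L0.subtype).codRestrict L1 (fun y => he0 y y.2))) (by
        intro x hx
        rw [SQ_mk_eq_zero] at hx
        rw [LinearMap.comp_apply, SQ_mk_eq_zero]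
        exact heO _ hx)
    obtain ⟨i, hi⟩ := exists_desc (N := SQ L0 O)
      (Submodule.mkQ_surjective (Submodule.submoduleOf O L))
      ((Submodule.submoduleOf O L0).mkQ.comp (Submodule.inclusion hLL)) (by
        intro x hx
        rw [SQ_mk_eq_zero] at hx
        rw [LinearMap.comp_apply, SQ_mk_eq_zero]
        exact hx)
    refine F.ker' hm0 hm1 f i ?_ ?_
    · rw [injective_iff_map_eq_zero]
      intro y hy
      obtain ⟨x, rfl⟩ := Submodule.mkQ_surjective _ y
      rw [hi, LinearMap.comp_apply, SQ_mk_eq_zero] at hy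
      rw [SQ_mk_eq_zero]
      exact hy
    · intro y
      obtain ⟨x, rfl⟩ := Submodule.mkQ_surjective _ y
      rw [hf, LinearMap.comp_apply, SQ_mk_eq_zero]
      constructor
      · intro hx
        refine ⟨(Submodule.submoduleOf O L).mkQ ⟨x, ⟨x.2, hx⟩⟩, ?_⟩
        rw [hi]; rfl
      · rintro ⟨z, hz⟩
        obtain ⟨z, rfl⟩ := Submodule.mkQ_surjective _ z
        rw [hi] at hz
        have h1 : (Submodule.submoduleOf O L0).mkQ (x - Submodule.inclusion hLL z) = 0 := by
          rw [map_sub, sub_eq_zero]; exact hz.symm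
        rw [SQ_mk_eq_zero] at h1
        have h2 : (x : G) = ((x - Submodule.inclusion hLL z : L0) : G) + (z : G) := by
          simp
        change e (x : G) ∈ L0
        rw [h2, map_add]
        exact L0.add_mem (heO _ h1) z.2.2

/-- subquotients add up -/
theorem SQ_ext {F : AbClass R} (hF : ExtClosed F) {A B C : Submodule R G} (hCB : C ≤ B)
    (hBA : B ≤ A) (h1 : F.mem (SQ B C)) (h2 : F.mem (SQ A B)) : F.mem (SQ A C) := by
  obtain ⟨i, hi⟩ := exists_desc (N := SQ A C)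
    (Submodule.mkQ_surjective (Submodule.submoduleOf C B))
    ((Submodule.submoduleOf C A).mkQ.comp (Submodule.inclusion hBA)) (by
      intro x hx
      rw [SQ_mk_eq_zero] at hx
      rw [LinearMap.comp_apply, SQ_mk_eq_zero]
      exact hx)
  obtain ⟨p, hp⟩ := exists_desc (N := SQ A B)
    (Submodule.mkQ_surjective (Submodule.submoduleOf C A))
    ((Submodule.submoduleOf B A).mkQ) (by
      intro x hx
      rw [SQ_mk_eq_zero] at hx
      rw [SQ_mk_eq_zero]
      exact hCB hx)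
  refine hF (i := i) (p := p) ⟨?_, ?_, ?_⟩ h1 h2
  · rw [injective_iff_map_eq_zero]
    intro y hy
    obtain ⟨x, rfl⟩ := Submodule.mkQ_surjective _ y
    rw [hi, LinearMap.comp_apply, SQ_mk_eq_zero] at hy
    rw [SQ_mk_eq_zero]; exact hy
  · intro y
    obtain ⟨x, rfl⟩ := Submodule.mkQ_surjective _ y
    exact ⟨(Submodule.submoduleOf C A).mkQ x, hp x⟩
  · intro y
    obtain ⟨x, rfl⟩ := Submodule.mkQ_surjective _ y
    rw [hp, SQ_mk_eq_zero]
    constructor
    · intro hx
      refine ⟨(Submodule.submoduleOf C B).mkQ ⟨x, hx⟩, ?_⟩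
      rw [hi]; rfl
    · rintro ⟨z, hz⟩
      obtain ⟨z, rfl⟩ := Submodule.mkQ_surjective _ z
      rw [hi] at hz
      have h1 : (Submodule.submoduleOf C A).mkQ (x - Submodule.inclusion hBA z) = 0 := by
        rw [map_sub, sub_eq_zero]; exact hz.symm
      rw [SQ_mk_eq_zero] at h1
      have h2 : (x : G) = ((x - Submodule.inclusion hBA z : A) : G) + (z : G) := by
        simp
      rw [h2]
      exact B.add_mem (hCB h1) z.2

/-- finite powers stay in an extension closed class -/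
theorem pi_mem {F : AbClass R} (hF : ExtClosed F) {M : Type u} [AddCommGroup M] [Module R M]
    (h : F.mem M) : ∀ r : ℕ, F.mem (Fin r → M)
  | 0 => F.zero _ inferInstance
  | r + 1 => by
    have ih := pi_mem hF h r
    refine hF (A := M) (M := Fin (r + 1) → M) (B := Fin r → M)
      (i := LinearMap.single R (fun _ : Fin (r + 1) => M) 0)
      (p := { toFun := fun v j => v j.succ
              map_add' := fun _ _ => rfl
              map_smul' := fun _ _ => rfl }) ⟨?_, ?_, ?_⟩ h ih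
    · intro a b h
      simpa using congrFun h 0
    · intro v
      exact ⟨Fin.cons 0 v, by funext j; simp⟩
    · intro v
      constructor
      · intro hv
        refine ⟨v 0, ?_⟩
        funext j
        refine Fin.cases ?_ (fun j => ?_) j
        · simp
        · have := congrFun hv j
          simpa using this.symm
      · rintro ⟨a, rfl⟩
        funext j
        simp

/-- the subquotient of powers -/
theorem SQ_pi {F : AbClass R} (hF : ExtClosed F) (A B : Submodule R G) (h : F.mem (SQ A B))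
    (r : ℕ) : F.mem (SQ (Submodule.pi Set.univ (fun _ : Fin r => A))
      (Submodule.pi Set.univ (fun _ : Fin r => B))) := by
  let A' : Submodule R (Fin r → G) := Submodule.pi Set.univ (fun _ : Fin r => A)
  let B' : Submodule R (Fin r → G) := Submodule.pi Set.univ (fun _ : Fin r => B)
  have h1 := pi_mem hF h r
  let p : ↥A' →ₗ[R] (Fin r → SQ A B) :=
    { toFun := fun v j => (Submodule.submoduleOf B A).mkQ ⟨v.1 j, by
        have := v.2; rw [Submodule.mem_pi] at this; exact this j trivial⟩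
      map_add' := fun v w => by
        funext j
        change (Submodule.submoduleOf B A).mkQ _ = _ + _
        rw [← map_add]; rfl
      map_smul' := fun c v => by
        funext j
        change (Submodule.submoduleOf B A).mkQ _ = c • _
        rw [← map_smul]; rfl }
  have hp : Function.Surjective p := by
    intro w
    choose v hv using fun j => Submodule.mkQ_surjective (Submodule.submoduleOf B A) (w j)
    refine ⟨⟨fun j => (v j : G), ?_⟩, ?_⟩
    · rw [Submodule.mem_pi]; intro j _; exact (v j).2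
    · funext j; exact hv j
  obtain ⟨e, -⟩ := exists_equiv_of_ker_eq hp
    (Submodule.mkQ_surjective (Submodule.submoduleOf B' A')) (by
      intro v
      rw [SQ_mk_eq_zero, Submodule.mem_pi]
      constructor
      · intro hv j _
        have := congrFun hv j
        exact (SQ_mk_eq_zero _).1 this
      · intro hv
        funext j
        exact (SQ_mk_eq_zero _).2 (hv j trivial))
  exact F.iso e h1

/-- Step 1, family version: a directed exhaustion by finitely generated submodules whose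
subquotients lie in the class, and an idempotent endomorphism of a power -/
theorem exists_lattice {F : AbClass R} (hF : ExtClosed F) {ι : Type*} (L : ι → Submodule R G)
    (O : Submodule R G) (hOfg : O.FG) (hLfg : ∀ i, (L i).FG) (hOL : ∀ i, O ≤ L i)
    (hne : Nonempty ι)
    (hdir : ∀ i j, ∃ k, L i ≤ L k ∧ L j ≤ L k) (hex : ∀ x : G, ∃ i, x ∈ L i)
    (hO : ∀ i, F.mem (SQ (L i) O)) (hLL : ∀ i j, L i ≤ L j → F.mem (SQ (L j) (L i)))
    (r : ℕ) (e : (Fin r → G) →ₗ[R] (Fin r → G)) (he : ∀ y, e (e y) = e y) :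
    ∃ (i : ι) (M : Submodule R (Fin r → G)),
      Submodule.pi Set.univ (fun _ : Fin r => O) ≤ M ∧
      M ≤ Submodule.pi Set.univ (fun _ : Fin r => L i) ∧ (∀ y ∈ M, e y ∈ M) ∧
      F.mem (SQ M (Submodule.pi Set.univ (fun _ : Fin r => O))) := by
  classical
  -- finite sets of vectors lie in some power of `L i`
  have hfin : ∀ s : Finset (Fin r → G), ∃ i, ∀ v ∈ s, v ∈ Submodule.pi Set.univ
      (fun _ : Fin r => L i) := by
    intro s
    induction s using Finset.induction_on with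
    | empty => exact ⟨hne.some, by simp⟩
    | insert v s _ ih =>
      obtain ⟨i, hi⟩ := ih
      -- a vector
      have hv : ∀ t : Finset (Fin r), ∃ k, L i ≤ L k ∧ ∀ j ∈ t, v j ∈ L k := by
        intro t
        induction t using Finset.induction_on with
        | empty => exact ⟨i, le_refl _, by simp⟩
        | insert j t _ iht =>
          obtain ⟨k, hk1, hk2⟩ := iht
          obtain ⟨m, hm⟩ := hex (v j)
          obtain ⟨n, hn1, hn2⟩ := hdir k m
          refine ⟨n, hk1.trans hn1, ?_⟩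
          intro j' hj'
          rcases Finset.mem_insert.1 hj' with rfl | hj'
          · exact hn2 hm
          · exact hn1 (hk2 j' hj')
      obtain ⟨k, hk1, hk2⟩ := hv Finset.univ
      refine ⟨k, fun w hw => ?_⟩
      rw [Submodule.mem_pi]
      intro j _
      rcases Finset.mem_insert.1 hw with rfl | hw
      · exact hk2 j (Finset.mem_univ j)
      · have := hi w hw
        rw [Submodule.mem_pi] at this
        exact hk1 (this j trivial)
  have hfg : ∀ N : Submodule R (Fin r → G), N.FG → ∃ i, N ≤ Submodule.pi Set.univ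
      (fun _ : Fin r => L i) := by
    rintro N ⟨s, rfl⟩
    obtain ⟨i, hi⟩ := hfin s
    exact ⟨i, Submodule.span_le.2 fun v hv => hi v hv⟩
  have hpifg : ∀ N : Submodule R G, N.FG → (Submodule.pi Set.univ (fun _ : Fin r => N)).FG := by
    intro N hN
    have hN' : Module.Finite R N := Module.Finite.iff_fg.2 hN
    have : Module.Finite R (Fin r → N) := inferInstance
    let f : (Fin r → N) →ₗ[R] (Fin r → G) :=
      { toFun := fun v j => (v j : G)
        map_add' := fun _ _ => rfl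
        map_smul' := fun _ _ => rfl }
    have hr : Submodule.pi Set.univ (fun _ : Fin r => N) = LinearMap.range f := by
      ext v
      rw [Submodule.mem_pi]
      constructor
      · intro hv
        exact ⟨fun j => ⟨v j, hv j trivial⟩, rfl⟩
      · rintro ⟨w, rfl⟩ j _
        exact (w j).2
    rw [hr, LinearMap.range_eq_map]
    exact Submodule.FG.map _ Module.Finite.fg_top
  have hmono : ∀ {A B : Submodule R G}, A ≤ B → Submodule.pi Set.univ (fun _ : Fin r => A) ≤
      Submodule.pi Set.univ (fun _ : Fin r => B) := by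
    intro A B h v hv
    rw [Submodule.mem_pi] at hv ⊢
    intro j _
    exact h (hv j trivial)
  obtain ⟨i, hi⟩ := hfg _ ((hpifg O hOfg).map e)
  obtain ⟨k0, hk0⟩ := hfg _ ((hpifg (L i) (hLfg i)).map e)
  obtain ⟨k, hk1, hk2⟩ := hdir i k0
  obtain ⟨M, h1, h2, h3, h4⟩ := step1 F (Submodule.pi Set.univ (fun _ : Fin r => O))
    (Submodule.pi Set.univ (fun _ : Fin r => L i)) (Submodule.pi Set.univ (fun _ : Fin r => L k))
    e (hmono (hOL i)) (fun y hy => hi (Submodule.mem_map_of_mem hy))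
    (fun y hy => hmono hk2 (hk0 (Submodule.mem_map_of_mem hy))) he
    (SQ_pi hF _ _ (hO i) r) (SQ_pi hF _ _ (hLL i k hk1) r)
  exact ⟨i, M, h1, h2, h3, h4⟩

end Crest.Agent.R181.VA
end

-- ▼ part R181/VA980c
section

/-! R181, V-chain, V2a (A3): triples `(A, B, C; A → C ← B)` as modules over one triangular ring. -/

set_option autoImplicit false
set_option linter.unusedSectionVars false

open MulOpposite

namespace Crest.Agent.R181.VA

open LK V868

universe u

/-! ### corner components of a module -/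

section Cmp

variable {R S : Type*} [Ring R] [Ring S] (ι : S →ₙ+* R)
variable (Y : Type*) [AddCommGroup Y] [Module R Y]

/-- the component of a module at the corner `ι : S → R` -/
def Cmp : AddSubgroup Y where
  carrier := {y | ι 1 • y = y}
  add_mem' := fun {a b} ha hb => by
    have ha' : ι 1 • a = a := ha
    have hb' : ι 1 • b = b := hb
    show ι 1 • (a + b) = a + b
    rw [smul_add, ha', hb']
  zero_mem' := smul_zero _
  neg_mem' := fun {a} ha => by
    have ha' : ι 1 • a = a := ha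
    show ι 1 • (-a) = -a
    rw [smul_neg, ha']

variable {Y}

theorem mem_Cmp {y : Y} : y ∈ Cmp ι Y ↔ ι 1 • y = y := Iff.rfl

theorem smul_mem_Cmp (s : S) (y : Y) : ι s • y ∈ Cmp ι Y := by
  rw [mem_Cmp, smul_smul, ← map_mul, one_mul]

theorem one_smul_Cmp (y : Cmp ι Y) : ι 1 • (y : Y) = y := y.2

instance : SMul S (Cmp ι Y) := ⟨fun s y => ⟨ι s • (y : Y), smul_mem_Cmp ι s (y : Y)⟩⟩

@[simp] theorem coe_smul_Cmp (s : S) (y : Cmp ι Y) : ((s • y : Cmp ι Y) : Y) = ι s • (y : Y) := rfl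

instance : Module S (Cmp ι Y) where
  one_smul y := Subtype.ext y.2
  mul_smul s t y := Subtype.ext (by
    show ι (s * t) • (y : Y) = ι s • ι t • (y : Y)
    rw [map_mul, mul_smul])
  smul_zero s := Subtype.ext (smul_zero _)
  smul_add s x y := Subtype.ext (smul_add _ _ _)
  add_smul s t y := Subtype.ext (by
    show ι (s + t) • (y : Y) = ι s • (y : Y) + ι t • (y : Y)
    rw [map_add, add_smul])
  zero_smul y := Subtype.ext (by
    show ι 0 • (y : Y) = 0
    rw [map_zero, zero_smul])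

/-- projection to the component -/
def Cpr : Y →+ Cmp ι Y where
  toFun y := ⟨ι 1 • y, smul_mem_Cmp ι 1 y⟩
  map_zero' := Subtype.ext (smul_zero _)
  map_add' x y := Subtype.ext (smul_add _ _ _)

@[simp] theorem coe_Cpr (y : Y) : (Cpr ι y : Y) = ι 1 • y := rfl


variable {Z X : Type*} [AddCommGroup Z] [Module R Z] [AddCommGroup X] [Module R X]

/-- functoriality of the component -/
def Cmap (f : Y →ₗ[R] Z) : Cmp ι Y →ₗ[S] Cmp ι Z where
  toFun y := ⟨f y, by rw [mem_Cmp, ← map_smul, one_smul_Cmp]⟩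
  map_add' x y := Subtype.ext (map_add f _ _)
  map_smul' s y := Subtype.ext (by
    show f (ι s • (y : Y)) = ι s • f (y : Y)
    rw [map_smul])

@[simp] theorem coe_Cmap (f : Y →ₗ[R] Z) (y : Cmp ι Y) : (Cmap ι f y : Z) = f y := rfl


theorem Cmap_injective {f : Y →ₗ[R] Z} (hf : Function.Injective f) :
    Function.Injective (Cmap ι f) := fun _ _ h => Subtype.ext (hf (congrArg Subtype.val h))

theorem Cmap_surjective {f : Y →ₗ[R] Z} (hf : Function.Surjective f) :
    Function.Surjective (Cmap ι f) := by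
  intro z
  obtain ⟨y, hy⟩ := hf (z : Z)
  refine ⟨Cpr ι y, Subtype.ext ?_⟩
  rw [coe_Cmap, coe_Cpr, map_smul, hy, one_smul_Cmp]

theorem Cmap_exact {f : Y →ₗ[R] Z} {g : Z →ₗ[R] X} (h : Function.Exact f g) :
    Function.Exact (Cmap ι f) (Cmap ι g) := by
  intro z
  constructor
  · intro hz
    have h1 : g (z : Z) = 0 := congrArg Subtype.val hz
    obtain ⟨y, hy⟩ := (h _).1 h1
    refine ⟨Cpr ι y, Subtype.ext ?_⟩
    rw [coe_Cmap, coe_Cpr, map_smul, hy, one_smul_Cmp]
  · rintro ⟨y, rfl⟩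
    exact Subtype.ext (h.apply_apply_eq_zero _)

theorem SES.exact {A M B : Type*} [AddCommGroup A] [Module R A] [AddCommGroup M] [Module R M]
    [AddCommGroup B] [Module R B] {i : A →ₗ[R] M} {p : M →ₗ[R] B} (h : SES i p) :
    Function.Exact i p := fun x => by rw [h.ex x]; rfl


/-- isomorphisms of components -/
def Cequiv (e : Y ≃ₗ[R] Z) : Cmp ι Y ≃ₗ[S] Cmp ι Z :=
  { Cmap ι e.toLinearMap with
    invFun := Cmap ι e.symm.toLinearMap
    left_inv := fun y => Subtype.ext (e.symm_apply_apply _)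
    right_inv := fun y => Subtype.ext (e.apply_symm_apply _) }

/-- components of powers -/
def Cpi (κ : Type*) : Cmp ι (κ → Y) ≃ₗ[S] (κ → Cmp ι Y) where
  toFun y j := ⟨(y : κ → Y) j, congrFun y.2 j⟩
  invFun z := ⟨fun j => (z j : Y), funext fun j => (z j).2⟩
  map_add' _ _ := rfl
  map_smul' _ _ := rfl
  left_inv _ := rfl
  right_inv _ := rfl


end Cmp

/-! ### the triangular ring -/

section Lam

variable {DD : Type u} [Ring DD] (L : Line DD)

/-- the triangular ring of a line: modules over it are triples `(A, B, C; A → C ← B)` -/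
def Lam : Subring (Matrix (Fin 3) (Fin 3) DD) where
  carrier := {m | m 0 0 ∈ L.V ∧ m 1 1 ∈ L.O ∧ m 0 1 = 0 ∧ m 0 2 = 0 ∧ m 1 0 = 0 ∧ m 1 2 = 0}
  mul_mem' := by
    rintro a b ⟨h1, h2, h3, h4, h5, h6⟩ ⟨k1, k2, k3, k4, k5, k6⟩
    refine ⟨?_, ?_, ?_, ?_, ?_, ?_⟩ <;>
      simp only [Matrix.mul_apply, Fin.sum_univ_three, h3, h4, h5, h6, k3, k4, k5, k6, zero_mul,
        mul_zero, add_zero, zero_add]
    · exact L.V.mul_mem h1 k1
    · exact L.O.mul_mem h2 k2
  one_mem' := ⟨by simp [L.V.one_mem], by simp [L.O.one_mem], rfl, rfl, rfl, rfl⟩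
  add_mem' := by
    rintro a b ⟨h1, h2, h3, h4, h5, h6⟩ ⟨k1, k2, k3, k4, k5, k6⟩
    refine ⟨L.V.add_mem h1 k1, L.O.add_mem h2 k2, ?_, ?_, ?_, ?_⟩ <;>
      simp [h3, h4, h5, h6, k3, k4, k5, k6]
  zero_mem' := ⟨L.V.zero_mem, L.O.zero_mem, rfl, rfl, rfl, rfl⟩
  neg_mem' := by
    rintro a ⟨h1, h2, h3, h4, h5, h6⟩
    refine ⟨L.V.neg_mem h1, L.O.neg_mem h2, ?_, ?_, ?_, ?_⟩ <;> simp [h3, h4, h5, h6]

variable {L}

/-- the matrix with these entries -/
def mat (v o a b c : DD) : Matrix (Fin 3) (Fin 3) DD := !![v, 0, 0; 0, o, 0; a, b, c]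

theorem mat_mem {v o : DD} (hv : v ∈ L.V) (ho : o ∈ L.O) (a b c : DD) : mat v o a b c ∈ Lam L :=
  ⟨hv, ho, rfl, rfl, rfl, rfl⟩

theorem mat_mul (v o a b c v' o' a' b' c' : DD) : mat v o a b c * mat v' o' a' b' c' =
    mat (v * v') (o * o') (a * v' + c * a') (b * o' + c * b') (c * c') := by
  ext i j
  fin_cases i <;> fin_cases j <;> simp [mat, Matrix.mul_apply, Fin.sum_univ_three]

theorem mat_add (v o a b c v' o' a' b' c' : DD) : mat v o a b c + mat v' o' a' b' c' =
    mat (v + v') (o + o') (a + a') (b + b') (c + c') := by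
  ext i j
  fin_cases i <;> fin_cases j <;> simp [mat]

variable (L)

/-- the corner `V` -/
def iA : L.V →ₙ+* Lam L where
  toFun v := ⟨mat v 0 0 0 0, mat_mem v.2 L.O.zero_mem _ _ _⟩
  map_zero' := Subtype.ext (by ext i j; fin_cases i <;> fin_cases j <;> rfl)
  map_add' v w := Subtype.ext (by
    show _ = mat (v : DD) 0 0 0 0 + mat (w : DD) 0 0 0 0
    rw [mat_add]; simp)
  map_mul' v w := Subtype.ext (by
    show _ = mat (v : DD) 0 0 0 0 * mat (w : DD) 0 0 0 0
    rw [mat_mul]; simp)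

/-- the corner `O` -/
def iB : L.O →ₙ+* Lam L where
  toFun v := ⟨mat 0 v 0 0 0, mat_mem L.V.zero_mem v.2 _ _ _⟩
  map_zero' := Subtype.ext (by ext i j; fin_cases i <;> fin_cases j <;> rfl)
  map_add' v w := Subtype.ext (by
    show _ = mat 0 (v : DD) 0 0 0 + mat 0 (w : DD) 0 0 0
    rw [mat_add]; simp)
  map_mul' v w := Subtype.ext (by
    show _ = mat 0 (v : DD) 0 0 0 * mat 0 (w : DD) 0 0 0
    rw [mat_mul]; simp)

/-- the corner `DD` -/
def iC : DD →ₙ+* Lam L where
  toFun v := ⟨mat 0 0 0 0 v, mat_mem L.V.zero_mem L.O.zero_mem _ _ _⟩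
  map_zero' := Subtype.ext (by ext i j; fin_cases i <;> fin_cases j <;> rfl)
  map_add' v w := Subtype.ext (by
    show _ = mat 0 0 0 0 (v : DD) + mat 0 0 0 0 (w : DD)
    rw [mat_add]; simp)
  map_mul' v w := Subtype.ext (by
    show _ = mat 0 0 0 0 (v : DD) * mat 0 0 0 0 (w : DD)
    rw [mat_mul]; simp)

/-- the arrow `A → C` -/
def tA : Lam L := ⟨mat 0 0 1 0 0, mat_mem L.V.zero_mem L.O.zero_mem _ _ _⟩

/-- the arrow `B → C` -/
def tB : Lam L := ⟨mat 0 0 0 1 0, mat_mem L.V.zero_mem L.O.zero_mem _ _ _⟩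

theorem tA_iA (v : L.V) : tA L * iA L v = iC L v * tA L := Subtype.ext (by
  show mat 0 0 1 0 0 * mat (v : DD) 0 0 0 0 = mat 0 0 0 0 (v : DD) * mat 0 0 1 0 0
  rw [mat_mul, mat_mul]; simp)

theorem tB_iB (v : L.O) : tB L * iB L v = iC L v * tB L := Subtype.ext (by
  show mat 0 0 0 1 0 * mat 0 (v : DD) 0 0 0 = mat 0 0 0 0 (v : DD) * mat 0 0 0 1 0
  rw [mat_mul, mat_mul]; simp)

theorem iC_tA : iC L 1 * tA L = tA L := Subtype.ext (by
  show mat 0 0 0 0 1 * mat 0 0 1 0 0 = mat 0 0 1 0 0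
  rw [mat_mul]; simp)

theorem iC_tB : iC L 1 * tB L = tB L := Subtype.ext (by
  show mat 0 0 0 0 1 * mat 0 0 0 1 0 = mat 0 0 0 1 0
  rw [mat_mul]; simp)





theorem iB_iA (v : L.V) (o : L.O) : iB L o * iA L v = 0 := Subtype.ext (by
  show mat 0 (o : DD) 0 0 0 * mat (v : DD) 0 0 0 0 = 0
  rw [mat_mul]; ext i j; fin_cases i <;> fin_cases j <;> simp [mat])

theorem iA_iC (v : L.V) (o : DD) : iA L v * iC L o = 0 := Subtype.ext (by
  show mat (v : DD) 0 0 0 0 * mat 0 0 0 0 o = 0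
  rw [mat_mul]; ext i j; fin_cases i <;> fin_cases j <;> simp [mat])

theorem iC_iA (v : L.V) (o : DD) : iC L o * iA L v = 0 := Subtype.ext (by
  show mat 0 0 0 0 o * mat (v : DD) 0 0 0 0 = 0
  rw [mat_mul]; ext i j; fin_cases i <;> fin_cases j <;> simp [mat])

theorem iB_iC (v : L.O) (o : DD) : iB L v * iC L o = 0 := Subtype.ext (by
  show mat 0 (v : DD) 0 0 0 * mat 0 0 0 0 o = 0
  rw [mat_mul]; ext i j; fin_cases i <;> fin_cases j <;> simp [mat])



theorem tA_iC (o : DD) : tA L * iC L o = 0 := Subtype.ext (by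
  show mat 0 0 1 0 0 * mat 0 0 0 0 o = 0
  rw [mat_mul]; ext i j; fin_cases i <;> fin_cases j <;> simp [mat])

theorem tB_iA (o : L.V) : tB L * iA L o = 0 := Subtype.ext (by
  show mat 0 0 0 1 0 * mat (o : DD) 0 0 0 0 = 0
  rw [mat_mul]; ext i j; fin_cases i <;> fin_cases j <;> simp [mat])

theorem tB_iC (o : DD) : tB L * iC L o = 0 := Subtype.ext (by
  show mat 0 0 0 1 0 * mat 0 0 0 0 o = 0
  rw [mat_mul]; ext i j; fin_cases i <;> fin_cases j <;> simp [mat])

/-- every element of `Lam L` -/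
theorem eq_sum (m : Lam L) : ∃ (v : L.V) (o : L.O) (a b c : DD),
    m = iA L v + iB L o + iC L a * tA L + iC L b * tB L + iC L c := by
  obtain ⟨m, h1, h2, h3, h4, h5, h6⟩ := m
  refine ⟨⟨m 0 0, h1⟩, ⟨m 1 1, h2⟩, m 2 0, m 2 1, m 2 2, Subtype.ext ?_⟩
  show m = mat (m 0 0) 0 0 0 0 + mat 0 (m 1 1) 0 0 0 + mat 0 0 0 0 (m 2 0) * mat 0 0 1 0 0 +
    mat 0 0 0 0 (m 2 1) * mat 0 0 0 1 0 + mat 0 0 0 0 (m 2 2)
  rw [mat_mul, mat_mul, mat_add, mat_add, mat_add, mat_add]
  ext i j
  fin_cases i <;> fin_cases j <;> simp [mat, h3, h4, h5, h6]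

end Lam

/-! ### components of `Lam`-modules -/

section Comp

variable {DD : Type u} [Ring DD] (L : Line DD)
variable (Y : Type*) [AddCommGroup Y] [Module (Lam L) Y]

/-- the `V`-component -/
abbrev cA : AddSubgroup Y := Cmp (iA L) Y
/-- the `O`-component -/
abbrev cB : AddSubgroup Y := Cmp (iB L) Y
/-- the `DD`-component -/
abbrev cC : AddSubgroup Y := Cmp (iC L) Y

variable {Y}

/-- the arrow `A → C` -/
def al : cA L Y →ₛₗ[L.V.subtype] cC L Y where
  toFun y := ⟨tA L • (y : Y), by rw [mem_Cmp, smul_smul, iC_tA]⟩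
  map_add' x y := Subtype.ext (smul_add _ _ _)
  map_smul' s y := Subtype.ext (by
    show tA L • (iA L s • (y : Y)) = iC L (s : DD) • tA L • (y : Y)
    rw [smul_smul, smul_smul, tA_iA])

/-- the arrow `B → C` -/
def be : cB L Y →ₛₗ[L.O.subtype] cC L Y where
  toFun y := ⟨tB L • (y : Y), by rw [mem_Cmp, smul_smul, iC_tB]⟩
  map_add' x y := Subtype.ext (smul_add _ _ _)
  map_smul' s y := Subtype.ext (by
    show tB L • (iB L s • (y : Y)) = iC L (s : DD) • tB L • (y : Y)
    rw [smul_smul, smul_smul, tB_iB])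

@[simp] theorem coe_al (y : cA L Y) : ((al L y : cC L Y) : Y) = tA L • (y : Y) := rfl
@[simp] theorem coe_be (y : cB L Y) : ((be L y : cC L Y) : Y) = tB L • (y : Y) := rfl

variable {Z : Type*} [AddCommGroup Z] [Module (Lam L) Z]

theorem al_map (f : Y →ₗ[Lam L] Z) (y : cA L Y) :
    al L (Cmap (iA L) f y) = Cmap (iC L) f (al L y) :=
  Subtype.ext (by rw [coe_al, coe_Cmap, coe_Cmap, coe_al, map_smul])

theorem be_map (f : Y →ₗ[Lam L] Z) (y : cB L Y) :
    be L (Cmap (iB L) f y) = Cmap (iC L) f (be L y) :=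
  Subtype.ext (by rw [coe_be, coe_Cmap, coe_Cmap, coe_be, map_smul])




theorem iB_smul_A (v : L.O) (y : cA L Y) : iB L v • (y : Y) = 0 := by
  rw [← one_smul_Cmp (iA L) y, smul_smul, iB_iA, zero_smul]
theorem iB_smul_C (v : L.O) (y : cC L Y) : iB L v • (y : Y) = 0 := by
  rw [← one_smul_Cmp (iC L) y, smul_smul, iB_iC, zero_smul]

/-- additive maps commuting with the generators of `Lam` are linear -/
def mkLin (f : Y →+ Z) (hA : ∀ v y, f (iA L v • y) = iA L v • f y)
    (hB : ∀ v y, f (iB L v • y) = iB L v • f y) (hC : ∀ v y, f (iC L v • y) = iC L v • f y)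
    (ha : ∀ y, f (tA L • y) = tA L • f y) (hb : ∀ y, f (tB L • y) = tB L • f y) :
    Y →ₗ[Lam L] Z where
  toFun := f
  map_add' := f.map_add
  map_smul' := fun m y => by
    obtain ⟨v, o, a, b, c, rfl⟩ := eq_sum L m
    simp only [add_smul, mul_smul, map_add, hA, hB, hC, ha, hb, RingHom.id_apply]

@[simp] theorem mkLin_apply (f : Y →+ Z) (hA hB hC ha hb) (y : Y) :
    mkLin L f hA hB hC ha hb y = f y := rfl


end Comp

end Crest.Agent.R181.VA
end

-- ▼ part R181/VA980d

/-! R181, V-chain, V2a (A3): concrete triples inside a `DD`-module, `Θ = OO(1)`, `OO(-m)`, `P0`. -/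

set_option autoImplicit false
set_option linter.unusedSectionVars false

open MulOpposite

namespace Crest.Agent.R181.VA

open LK V868

universe u

section Tr

variable {DD : Type u} [Ring DD] (L : Line DD)

/-- three copies of a `DD`-module, as a `Lam L`-module -/
@[nolint unusedArguments]
def Tr (_ : Line DD) (C : Type*) : Type _ := C × C × C

variable (C : Type*) [AddCommGroup C] [Module DD C]

instance : AddCommGroup (Tr L C) := inferInstanceAs (AddCommGroup (C × C × C))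

/-- the action of the triangular ring on triples -/
instance : Module (Lam L) (Tr L C) where
  smul m y := ((m : Matrix (Fin 3) (Fin 3) DD) 0 0 • y.1, (m : Matrix (Fin 3) (Fin 3) DD) 1 1 • y.2.1,
    (m : Matrix (Fin 3) (Fin 3) DD) 2 0 • y.1 + (m : Matrix (Fin 3) (Fin 3) DD) 2 1 • y.2.1 +
      (m : Matrix (Fin 3) (Fin 3) DD) 2 2 • y.2.2)
  one_smul y := by
    show (((1 : Matrix (Fin 3) (Fin 3) DD) 0 0 • y.1, (1 : Matrix (Fin 3) (Fin 3) DD) 1 1 • y.2.1,
      (1 : Matrix (Fin 3) (Fin 3) DD) 2 0 • y.1 + (1 : Matrix (Fin 3) (Fin 3) DD) 2 1 • y.2.1 +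
      (1 : Matrix (Fin 3) (Fin 3) DD) 2 2 • y.2.2) : C × C × C) = y
    simp
  mul_smul a b y := by
    obtain ⟨a, h1, h2, h3, h4, h5, h6⟩ := a
    obtain ⟨b, k1, k2, k3, k4, k5, k6⟩ := b
    show (((a * b) 0 0 • y.1, (a * b) 1 1 • y.2.1,
      (a * b) 2 0 • y.1 + (a * b) 2 1 • y.2.1 + (a * b) 2 2 • y.2.2) : C × C × C) =
      (a 0 0 • b 0 0 • y.1, a 1 1 • b 1 1 • y.2.1, a 2 0 • b 0 0 • y.1 + a 2 1 • b 1 1 • y.2.1 +
        a 2 2 • (b 2 0 • y.1 + b 2 1 • y.2.1 + b 2 2 • y.2.2))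
    simp only [Matrix.mul_apply, Fin.sum_univ_three, h3, h4, h5, h6, k3, k4, k5, k6, zero_mul,
      mul_zero, add_zero, zero_add, add_smul, mul_smul, smul_add]
    refine Prod.ext rfl (Prod.ext rfl ?_)
    show _ = _
    abel
  smul_zero a := by
    show ((_ • (0 : C), _ • (0 : C), _ • (0 : C) + _ • (0 : C) + _ • (0 : C)) : C × C × C) = 0
    simp
  smul_add a x y := by
    show ((_ • (x.1 + y.1), _ • (x.2.1 + y.2.1), _ • (x.1 + y.1) + _ • (x.2.1 + y.2.1) +
      _ • (x.2.2 + y.2.2)) : C × C × C) = (_ • x.1 + _ • y.1, _ • x.2.1 + _ • y.2.1,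
        (_ • x.1 + _ • x.2.1 + _ • x.2.2) + (_ • y.1 + _ • y.2.1 + _ • y.2.2))
    simp only [smul_add]
    refine Prod.ext rfl (Prod.ext rfl ?_)
    show _ = _
    abel
  add_smul a b y := by
    obtain ⟨a, h1, h2, h3, h4, h5, h6⟩ := a
    obtain ⟨b, k1, k2, k3, k4, k5, k6⟩ := b
    show (((a + b) 0 0 • y.1, (a + b) 1 1 • y.2.1,
      (a + b) 2 0 • y.1 + (a + b) 2 1 • y.2.1 + (a + b) 2 2 • y.2.2) : C × C × C) =
      (a 0 0 • y.1 + b 0 0 • y.1, a 1 1 • y.2.1 + b 1 1 • y.2.1,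
        (a 2 0 • y.1 + a 2 1 • y.2.1 + a 2 2 • y.2.2) +
        (b 2 0 • y.1 + b 2 1 • y.2.1 + b 2 2 • y.2.2))
    simp only [Matrix.add_apply, add_smul]
    refine Prod.ext rfl (Prod.ext rfl ?_)
    show _ = _
    abel
  zero_smul y := by
    show (((0 : Matrix (Fin 3) (Fin 3) DD) 0 0 • y.1, (0 : Matrix (Fin 3) (Fin 3) DD) 1 1 • y.2.1,
      (0 : Matrix (Fin 3) (Fin 3) DD) 2 0 • y.1 + (0 : Matrix (Fin 3) (Fin 3) DD) 2 1 • y.2.1 +
      (0 : Matrix (Fin 3) (Fin 3) DD) 2 2 • y.2.2) : C × C × C) = 0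
    simp

variable {C}

theorem Tr_smul (m : Lam L) (y : Tr L C) : m • y =
    ((m : Matrix (Fin 3) (Fin 3) DD) 0 0 • y.1, (m : Matrix (Fin 3) (Fin 3) DD) 1 1 • y.2.1,
    (m : Matrix (Fin 3) (Fin 3) DD) 2 0 • y.1 + (m : Matrix (Fin 3) (Fin 3) DD) 2 1 • y.2.1 +
      (m : Matrix (Fin 3) (Fin 3) DD) 2 2 • y.2.2) := rfl

theorem Tr_iA (v : L.V) (y : Tr L C) : iA L v • y = (((v : DD) • y.1, 0, 0) : C × C × C) := by
  rw [Tr_smul]
  show (((v : DD) • y.1, (0 : DD) • y.2.1, (0 : DD) • y.1 + (0 : DD) • y.2.1 + (0 : DD) • y.2.2) :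
    C × C × C) = _
  simp

theorem Tr_iB (v : L.O) (y : Tr L C) : iB L v • y = ((0, (v : DD) • y.2.1, 0) : C × C × C) := by
  rw [Tr_smul]
  show (((0 : DD) • y.1, (v : DD) • y.2.1, (0 : DD) • y.1 + (0 : DD) • y.2.1 + (0 : DD) • y.2.2) :
    C × C × C) = _
  simp

theorem Tr_iC (v : DD) (y : Tr L C) : iC L v • y = ((0, 0, v • y.2.2) : C × C × C) := by
  rw [Tr_smul]
  show (((0 : DD) • y.1, (0 : DD) • y.2.1, (0 : DD) • y.1 + (0 : DD) • y.2.1 + v • y.2.2) :
    C × C × C) = _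
  simp

theorem Tr_tA (y : Tr L C) : tA L • y = ((0, 0, y.1) : C × C × C) := by
  rw [Tr_smul]
  show (((0 : DD) • y.1, (0 : DD) • y.2.1, (1 : DD) • y.1 + (0 : DD) • y.2.1 + (0 : DD) • y.2.2) :
    C × C × C) = _
  simp

theorem Tr_tB (y : Tr L C) : tB L • y = ((0, 0, y.2.1) : C × C × C) := by
  rw [Tr_smul]
  show (((0 : DD) • y.1, (0 : DD) • y.2.1, (0 : DD) • y.1 + (1 : DD) • y.2.1 + (0 : DD) • y.2.2) :
    C × C × C) = _
  simp

@[simp] theorem Tr_add_1 (x y : Tr L C) : (x + y).1 = x.1 + y.1 := rfl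
@[simp] theorem Tr_add_2 (x y : Tr L C) : (x + y).2.1 = x.2.1 + y.2.1 := rfl
@[simp] theorem Tr_add_3 (x y : Tr L C) : (x + y).2.2 = x.2.2 + y.2.2 := rfl
@[simp] theorem Tr_zero_1 : (0 : Tr L C).1 = 0 := rfl
@[simp] theorem Tr_zero_2 : (0 : Tr L C).2.1 = 0 := rfl
@[simp] theorem Tr_zero_3 : (0 : Tr L C).2.2 = 0 := rfl

theorem Tr_ext {x y : Tr L C} (h1 : x.1 = y.1) (h2 : x.2.1 = y.2.1) (h3 : x.2.2 = y.2.2) : x = y :=
  Prod.ext h1 (Prod.ext h2 h3)

variable {L}

/-- the triple `(A, B, D)` of subgroups of a `DD`-module -/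
def tri (A : Submodule L.V C) (B : Submodule L.O C) (D : Submodule DD C)
    (hA : ∀ a ∈ A, a ∈ D) (hB : ∀ b ∈ B, b ∈ D) : Submodule (Lam L) (Tr L C) where
  carrier := {y | y.1 ∈ A ∧ y.2.1 ∈ B ∧ y.2.2 ∈ D}
  add_mem' := fun ha hb => ⟨A.add_mem ha.1 hb.1, B.add_mem ha.2.1 hb.2.1, D.add_mem ha.2.2 hb.2.2⟩
  zero_mem' := ⟨A.zero_mem, B.zero_mem, D.zero_mem⟩
  smul_mem' := by
    rintro ⟨m, h1, h2, h3, h4, h5, h6⟩ y ⟨k1, k2, k3⟩
    exact ⟨A.smul_mem ⟨_, h1⟩ k1, B.smul_mem ⟨_, h2⟩ k2,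
      D.add_mem (D.add_mem (D.smul_mem _ (hA _ k1)) (D.smul_mem _ (hB _ k2))) (D.smul_mem _ k3)⟩


end Tr

section Std

variable {DD : Type u} [Ring DD] (L : Line DD)

/-- `E = V ∩ O` -/
abbrev EE : Subring DD := L.V ⊓ L.O

/-- `V` as a submodule of `DD` -/
def Vs : Submodule L.V DD where
  carrier := L.V
  add_mem' := L.V.add_mem
  zero_mem' := L.V.zero_mem
  smul_mem' := fun v _ hx => L.V.mul_mem v.2 hx

/-- `x O = {y | p y ∈ O}` -/
def Ox : Submodule L.O DD where
  carrier := {y | L.p * y ∈ L.O}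
  add_mem' := fun {a b} ha hb => by
    show L.p * (a + b) ∈ L.O
    rw [mul_add]; exact L.O.add_mem ha hb
  zero_mem' := by show L.p * 0 ∈ L.O; rw [mul_zero]; exact L.O.zero_mem
  smul_mem' := fun v y hx => by
    show L.p * ((v : DD) * y) ∈ L.O
    rw [← mul_assoc, L.pc, mul_assoc]; exact L.O.mul_mem v.2 hx

/-- `p^m O` -/
def Op (m : ℕ) : Submodule L.O DD where
  carrier := {y | ∃ o ∈ L.O, y = L.p ^ m * o}
  add_mem' := by
    rintro _ _ ⟨a, ha, rfl⟩ ⟨b, hb, rfl⟩
    exact ⟨a + b, L.O.add_mem ha hb, by rw [mul_add]⟩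
  zero_mem' := ⟨0, L.O.zero_mem, by rw [mul_zero]⟩
  smul_mem' := by
    rintro v _ ⟨a, ha, rfl⟩
    refine ⟨v * a, L.O.mul_mem v.2 ha, ?_⟩
    show (v : DD) * (L.p ^ m * a) = L.p ^ m * (v * a)
    rw [← mul_assoc, ← mul_assoc, (Commute.pow_left (show Commute L.p (v : DD) from L.pc v) m).eq]

theorem mem_Ox {y : DD} : y ∈ Ox L ↔ L.p * y ∈ L.O := Iff.rfl
theorem mem_Op {m : ℕ} {y : DD} : y ∈ Op L m ↔ ∃ o ∈ L.O, y = L.p ^ m * o := Iff.rfl
theorem mem_Op_zero {y : DD} : y ∈ Op L 0 ↔ y ∈ L.O := by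
  rw [mem_Op]
  constructor
  · rintro ⟨o, ho, rfl⟩; simpa using ho
  · intro h; exact ⟨y, h, by simp⟩

/-- `Θ = OO(1) = (V, xO, DD)` -/
def TT : Submodule (Lam L) (Tr L DD) := tri (Vs L) (Ox L) ⊤ (fun _ _ => Submodule.mem_top)
    (fun _ _ => Submodule.mem_top)

/-- `OO(-m) = (V, p^m O, DD)` -/
def OO (m : ℕ) : Submodule (Lam L) (Tr L DD) :=
  tri (Vs L) (Op L m) ⊤ (fun _ _ => Submodule.mem_top) (fun _ _ => Submodule.mem_top)

/-- `P0 = (V, 0, DD)` -/
def P0 : Submodule (Lam L) (Tr L DD) := tri (Vs L) ⊥ ⊤ (fun _ _ => Submodule.mem_top)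
    (fun _ _ => Submodule.mem_top)

theorem mem_TT {y : Tr L DD} : y ∈ TT L ↔ y.1 ∈ L.V ∧ L.p * y.2.1 ∈ L.O :=
  ⟨fun h => ⟨h.1, h.2.1⟩, fun h => ⟨h.1, h.2, trivial⟩⟩

theorem mem_OO {m : ℕ} {y : Tr L DD} : y ∈ OO L m ↔ y.1 ∈ L.V ∧ y.2.1 ∈ Op L m :=
  ⟨fun h => ⟨h.1, h.2.1⟩, fun h => ⟨h.1, h.2, trivial⟩⟩

theorem mem_P0 {y : Tr L DD} : y ∈ P0 L ↔ y.1 ∈ L.V ∧ y.2.1 = 0 :=
  ⟨fun h => ⟨h.1, (Submodule.mem_bot L.O).1 h.2.1⟩, fun h => ⟨h.1, (Submodule.mem_bot L.O).2 h.2, trivial⟩⟩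


/-- right multiplication by an element of `DD` -/
instance trOp : SMul DDᵐᵒᵖ (Tr L DD) := ⟨fun e y => ((y.1 * unop e, y.2.1 * unop e, y.2.2 * unop e) :
  DD × DD × DD)⟩


instance trOpMod : Module DDᵐᵒᵖ (Tr L DD) where
  one_smul y := by show ((_ * 1, _ * 1, _ * 1) : DD × DD × DD) = y; simp
  mul_smul a b y := by
    show ((_ * (unop b * unop a), _ * (unop b * unop a), _ * (unop b * unop a)) : DD × DD × DD) =
      (_ * unop b * unop a, _ * unop b * unop a, _ * unop b * unop a)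
    simp only [mul_assoc]
  smul_zero a := by
    show ((0 * unop a, 0 * unop a, 0 * unop a) : DD × DD × DD) = 0
    simp
  smul_add a x y := by
    show (((x.1 + y.1) * unop a, (x.2.1 + y.2.1) * unop a, (x.2.2 + y.2.2) * unop a) :
      DD × DD × DD) = (x.1 * unop a + y.1 * unop a, x.2.1 * unop a + y.2.1 * unop a,
        x.2.2 * unop a + y.2.2 * unop a)
    simp only [add_mul]
  add_smul a b x := by
    show ((x.1 * (unop a + unop b), x.2.1 * (unop a + unop b), x.2.2 * (unop a + unop b)) :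
      DD × DD × DD) = (x.1 * unop a + x.1 * unop b, x.2.1 * unop a + x.2.1 * unop b,
        x.2.2 * unop a + x.2.2 * unop b)
    simp only [mul_add]
  zero_smul x := by
    show ((x.1 * 0, x.2.1 * 0, x.2.2 * 0) : DD × DD × DD) = 0
    simp

instance trOpComm : SMulCommClass (Lam L) DDᵐᵒᵖ (Tr L DD) where
  smul_comm m e y := by
    rw [Tr_smul]
    show ((_ * (y.1 * unop e), _ * (y.2.1 * unop e), _ * (y.1 * unop e) + _ * (y.2.1 * unop e) +
      _ * (y.2.2 * unop e)) : DD × DD × DD) =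
      ((_ * y.1) * unop e, (_ * y.2.1) * unop e, (_ * y.1 + _ * y.2.1 + _ * y.2.2) * unop e)
    simp only [mul_assoc, add_mul]

/-- a submodule of `Tr L DD` stable under right multiplication by `E` -/
def EStable (S : Submodule (Lam L) (Tr L DD)) : Prop := ∀ e ∈ EE L, ∀ y ∈ S, op e • y ∈ S

variable {L}

/-- the right `E`-module structure of an `E`-stable submodule -/
@[reducible] def eMod (S : Submodule (Lam L) (Tr L DD)) (hS : EStable L S) :
    Module (EE L)ᵐᵒᵖ S where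
  smul e y := ⟨op ((unop e : EE L) : DD) • (y : Tr L DD), hS _ (unop e).2 _ y.2⟩
  one_smul y := Subtype.ext (one_smul DDᵐᵒᵖ (y : Tr L DD))
  mul_smul a b y := Subtype.ext (by
    show op (((unop b : EE L) : DD) * ((unop a : EE L) : DD)) • (y : Tr L DD) = _
    rw [op_mul, mul_smul]; rfl)
  smul_zero a := Subtype.ext (smul_zero _)
  smul_add a x y := Subtype.ext (smul_add _ _ _)
  add_smul a b y := Subtype.ext (by
    show op (((unop a : EE L) : DD) + ((unop b : EE L) : DD)) • (y : Tr L DD) = _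
    rw [op_add, add_smul]; rfl)
  zero_smul y := Subtype.ext (by
    show op (0 : DD) • (y : Tr L DD) = 0
    rw [op_zero, zero_smul])

variable (L)

theorem eStable_TT : EStable L (TT L) := by
  intro e he y hy
  rw [mem_TT] at hy ⊢
  exact ⟨L.V.mul_mem hy.1 he.1, by
    show L.p * (y.2.1 * e) ∈ L.O
    rw [← mul_assoc]; exact L.O.mul_mem hy.2 he.2⟩

theorem eStable_OO (m : ℕ) : EStable L (OO L m) := by
  intro e he y hy
  rw [mem_OO] at hy ⊢
  obtain ⟨h1, o, ho, h2⟩ := hy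
  exact ⟨L.V.mul_mem h1 he.1, o * e, L.O.mul_mem ho he.2, by
    show y.2.1 * e = L.p ^ m * (o * e)
    rw [h2, mul_assoc]⟩

theorem eStable_P0 : EStable L (P0 L) := by
  intro e he y hy
  rw [mem_P0] at hy ⊢
  exact ⟨L.V.mul_mem hy.1 he.1, by
    show y.2.1 * e = 0
    rw [hy.2, zero_mul]⟩

instance : Module (EE L)ᵐᵒᵖ (TT L) := eMod _ (eStable_TT L)
instance (m : ℕ) : Module (EE L)ᵐᵒᵖ (OO L m) := eMod _ (eStable_OO L m)
instance : Module (EE L)ᵐᵒᵖ (P0 L) := eMod _ (eStable_P0 L)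


instance : SMulCommClass (Lam L) (EE L)ᵐᵒᵖ (TT L) :=
  ⟨fun m e y => Subtype.ext (smul_comm m (op ((unop e : EE L) : DD)) (y : Tr L DD))⟩
instance (m : ℕ) : SMulCommClass (Lam L) (EE L)ᵐᵒᵖ (OO L m) :=
  ⟨fun m e y => Subtype.ext (smul_comm m (op ((unop e : EE L) : DD)) (y : Tr L DD))⟩
instance : SMulCommClass (Lam L) (EE L)ᵐᵒᵖ (P0 L) :=
  ⟨fun m e y => Subtype.ext (smul_comm m (op ((unop e : EE L) : DD)) (y : Tr L DD))⟩

end Std

/-! ### components of concrete triples -/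

section TriComp

variable {DD : Type u} [Ring DD] {L : Line DD} {C : Type*} [AddCommGroup C] [Module DD C]
variable {A : Submodule L.V C} {B : Submodule L.O C} {D : Submodule DD C}
    {hA : ∀ a ∈ A, a ∈ D} {hB : ∀ b ∈ B, b ∈ D}

/-- the `V`-component of a concrete triple -/
def cA_tri : cA L (tri A B D hA hB) ≃ₗ[L.V] A where
  toFun y := ⟨((y : tri A B D hA hB) : Tr L C).1, (y : tri A B D hA hB).2.1⟩
  invFun a := ⟨⟨(((a : C), 0, 0) : C × C × C), a.2, B.zero_mem, D.zero_mem⟩, by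
    rw [mem_Cmp]
    apply Subtype.ext
    show iA L 1 • (_ : Tr L C) = _
    rw [Tr_iA]; simp⟩
  map_add' _ _ := rfl
  map_smul' v y := Subtype.ext (by
    show (iA L v • ((y : tri A B D hA hB) : Tr L C)).1 = _
    rw [Tr_iA]; rfl)
  left_inv y := Subtype.ext (Subtype.ext (by
    have h : iA L 1 • ((y : tri A B D hA hB) : Tr L C) = ((y : tri A B D hA hB) : Tr L C) :=
      congrArg Subtype.val y.2
    rw [Tr_iA] at h
    rw [← h]
    simp))
  right_inv a := rfl

/-- the `O`-component of a concrete triple -/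
def cB_tri : cB L (tri A B D hA hB) ≃ₗ[L.O] B where
  toFun y := ⟨((y : tri A B D hA hB) : Tr L C).2.1, (y : tri A B D hA hB).2.2.1⟩
  invFun a := ⟨⟨((0, (a : C), 0) : C × C × C), A.zero_mem, a.2, D.zero_mem⟩, by
    rw [mem_Cmp]
    apply Subtype.ext
    show iB L 1 • (_ : Tr L C) = _
    rw [Tr_iB]; simp⟩
  map_add' _ _ := rfl
  map_smul' v y := Subtype.ext (by
    show (iB L v • ((y : tri A B D hA hB) : Tr L C)).2.1 = _
    rw [Tr_iB]; rfl)
  left_inv y := Subtype.ext (Subtype.ext (by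
    have h : iB L 1 • ((y : tri A B D hA hB) : Tr L C) = ((y : tri A B D hA hB) : Tr L C) :=
      congrArg Subtype.val y.2
    rw [Tr_iB] at h
    rw [← h]
    simp))
  right_inv a := rfl

/-- the `DD`-component of a concrete triple -/
def cC_tri : cC L (tri A B D hA hB) ≃ₗ[DD] D where
  toFun y := ⟨((y : tri A B D hA hB) : Tr L C).2.2, (y : tri A B D hA hB).2.2.2⟩
  invFun a := ⟨⟨((0, 0, (a : C)) : C × C × C), A.zero_mem, B.zero_mem, a.2⟩, by
    rw [mem_Cmp]
    apply Subtype.ext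
    show iC L 1 • (_ : Tr L C) = _
    rw [Tr_iC]; simp⟩
  map_add' _ _ := rfl
  map_smul' v y := Subtype.ext (by
    show (iC L v • ((y : tri A B D hA hB) : Tr L C)).2.2 = _
    rw [Tr_iC]; rfl)
  left_inv y := Subtype.ext (Subtype.ext (by
    have h : iC L 1 • ((y : tri A B D hA hB) : Tr L C) = ((y : tri A B D hA hB) : Tr L C) :=
      congrArg Subtype.val y.2
    rw [Tr_iC] at h
    rw [← h]
    simp))
  right_inv a := rfl

theorem coe_cC_tri_al (y : cA L (tri A B D hA hB)) :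
    (cC_tri (al L y) : C) = (cA_tri y : C) := by
  show (tA L • ((y : tri A B D hA hB) : Tr L C)).2.2 = _
  rw [Tr_tA]; rfl

theorem coe_cC_tri_be (y : cB L (tri A B D hA hB)) :
    (cC_tri (be L y) : C) = (cB_tri y : C) := by
  show (tB L • ((y : tri A B D hA hB) : Tr L C)).2.2 = _
  rw [Tr_tB]; rfl


theorem be_cB_tri_symm (a : B) : be L ((cB_tri (A := A) (hA := hA) (hB := hB)).symm a) =
    cC_tri.symm ⟨(a : C), hB _ a.2⟩ := by
  apply cC_tri.injective
  apply Subtype.ext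
  rw [coe_cC_tri_be, LinearEquiv.apply_symm_apply, LinearEquiv.apply_symm_apply]

end TriComp

end Crest.Agent.R181.VA
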