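import Mathlib

-- ▼ part R181/LK980a
section

/-! R181, Lemma K: classes of modules, exact sequences, extension closure of an exact abelian
class is wide. -/

set_option autoImplicit false
set_option linter.unusedSectionVars false

namespace Crest.Agent.R181.LK

universe u

variable {R : Type u} [Ring R]

section SES

/-- short exact sequence, elementwise -/
structure SES {A M B : Type*} [AddCommGroup A] [Module R A] [AddCommGroup M] [Module R M]
    [AddCommGroup B] [Module R B] (i : A →ₗ[R] M) (p : M →ₗ[R] B) : Prop where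
  inj : Function.Injective i
  surj : Function.Surjective p
  ex : ∀ x, p x = 0 ↔ ∃ a, i a = x

variable {A M B C N : Type*} [AddCommGroup A] [Module R A] [AddCommGroup M] [Module R M]
    [AddCommGroup B] [Module R B] [AddCommGroup C] [Module R C] [AddCommGroup N] [Module R N]

theorem SES.comp_zero {i : A →ₗ[R] M} {p : M →ₗ[R] B} (h : SES i p) (a : A) : p (i a) = 0 :=
  (h.ex _).2 ⟨a, rfl⟩

theorem SES.subtype_mkQ (S : Submodule R M) : SES S.subtype S.mkQ :=
  ⟨S.subtype_injective, S.mkQ_surjective, fun x => by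
    simp [Submodule.Quotient.mk_eq_zero]⟩

theorem SES.ker {f : M →ₗ[R] N} (hf : Function.Surjective f) : SES (LinearMap.ker f).subtype f :=
  ⟨Submodule.subtype_injective _, hf, fun x => by simp [LinearMap.mem_ker]⟩

theorem SES.range {f : A →ₗ[R] M} (hf : Function.Injective f) :
    SES f (LinearMap.range f).mkQ :=
  ⟨hf, Submodule.mkQ_surjective _, fun x => by simp [Submodule.Quotient.mk_eq_zero]⟩

theorem exists_equiv_of_ker_eq {p : M →ₗ[R] B} {q : M →ₗ[R] C}
    (hp : Function.Surjective p) (hq : Function.Surjective q)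
    (h : ∀ x, p x = 0 ↔ q x = 0) : ∃ e : B ≃ₗ[R] C, ∀ x, e (p x) = q x := by
  have hk : LinearMap.ker p = LinearMap.ker q := by ext x; simp [h x]
  refine ⟨((p.quotKerEquivOfSurjective hp).symm.trans
    (Submodule.quotEquivOfEq _ _ hk)).trans (q.quotKerEquivOfSurjective hq), fun x => ?_⟩
  have h1 : (p.quotKerEquivOfSurjective hp).symm (p x) = Submodule.Quotient.mk x := by
    rw [LinearEquiv.symm_apply_eq]; rfl
  simp only [LinearEquiv.trans_apply, h1]
  rfl

theorem exists_equiv_of_range_eq {i : A →ₗ[R] M} {j : B →ₗ[R] M}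
    (hi : Function.Injective i) (hj : Function.Injective j)
    (h : ∀ x, (∃ a, i a = x) ↔ ∃ b, j b = x) : ∃ e : A ≃ₗ[R] B, ∀ a, j (e a) = i a := by
  have hr : LinearMap.range i = LinearMap.range j := by ext x; simp [h x]
  refine ⟨((LinearEquiv.ofInjective i hi).trans (LinearEquiv.ofEq _ _ hr)).trans
    (LinearEquiv.ofInjective j hj).symm, fun a => ?_⟩
  have : ∀ y : LinearMap.range j, j ((LinearEquiv.ofInjective j hj).symm y) = y := by
    intro y
    have := congrArg Subtype.val ((LinearEquiv.ofInjective j hj).apply_symm_apply y)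
    simpa using this
  simp only [LinearEquiv.trans_apply, this]
  rfl

/-- factor a map through a surjection -/
theorem exists_desc {p : M →ₗ[R] B} (hp : Function.Surjective p) (f : M →ₗ[R] N)
    (h : ∀ x, p x = 0 → f x = 0) : ∃ g : B →ₗ[R] N, ∀ x, g (p x) = f x := by
  refine ⟨((LinearMap.ker p).liftQ f (fun x hx => h x (by simpa using hx))).comp
    (p.quotKerEquivOfSurjective hp).symm.toLinearMap, fun x => ?_⟩
  have h1 : (p.quotKerEquivOfSurjective hp).symm (p x) = Submodule.Quotient.mk x := by
    rw [LinearEquiv.symm_apply_eq]; rfl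
  simp only [LinearMap.comp_apply, LinearEquiv.coe_coe, h1]
  rfl

/-- factor a map through an injection -/
theorem exists_lift {i : A →ₗ[R] M} (hi : Function.Injective i) (f : N →ₗ[R] M)
    (h : ∀ x, ∃ a, i a = f x) : ∃ g : N →ₗ[R] A, ∀ x, i (g x) = f x := by
  refine ⟨(LinearEquiv.ofInjective i hi).symm.toLinearMap.comp
    (f.codRestrict (LinearMap.range i) (fun x => by simpa using h x)), fun x => ?_⟩
  have : ∀ y : LinearMap.range i, i ((LinearEquiv.ofInjective i hi).symm y) = y := by
    intro y
    have := congrArg Subtype.val ((LinearEquiv.ofInjective i hi).apply_symm_apply y)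
    simpa using this
  simp [this]

end SES

/-- a class of modules, closed under isomorphism, kernels and cokernels, containing 0 -/
structure AbClass (R : Type u) [Ring R] where
  mem : ∀ (M : Type u) [AddCommGroup M] [Module R M], Prop
  iso : ∀ {M N : Type u} [AddCommGroup M] [Module R M] [AddCommGroup N] [Module R N],
    (M ≃ₗ[R] N) → mem M → mem N
  zero : ∀ (M : Type u) [AddCommGroup M] [Module R M], Subsingleton M → mem M
  ker : ∀ {M N : Type u} [AddCommGroup M] [Module R M] [AddCommGroup N] [Module R N],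
    mem M → mem N → ∀ f : M →ₗ[R] N, mem (LinearMap.ker f)
  coker : ∀ {M N : Type u} [AddCommGroup M] [Module R M] [AddCommGroup N] [Module R N],
    mem M → mem N → ∀ f : M →ₗ[R] N, mem (N ⧸ LinearMap.range f)

namespace AbClass

variable (W : AbClass R)
variable {A M B C N : Type u} [AddCommGroup A] [Module R A] [AddCommGroup M] [Module R M]
    [AddCommGroup B] [Module R B] [AddCommGroup C] [Module R C] [AddCommGroup N] [Module R N]

variable {W}

theorem ker' (hM : W.mem M) (hN : W.mem N) (f : M →ₗ[R] N) (i : A →ₗ[R] M)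
    (hi : Function.Injective i) (h : ∀ x, f x = 0 ↔ ∃ a, i a = x) : W.mem A := by
  obtain ⟨e, -⟩ := exists_equiv_of_range_eq (Submodule.subtype_injective (LinearMap.ker f)) hi
    (fun x => by rw [← h x]; simp)
  exact W.iso e (W.ker hM hN f)


theorem range (hM : W.mem M) (hN : W.mem N) (f : M →ₗ[R] N) : W.mem (LinearMap.range f) :=
  W.ker' hN (W.coker hM hN f) (LinearMap.range f).mkQ (LinearMap.range f).subtype
    (Submodule.subtype_injective _) (fun x => by simp [Submodule.Quotient.mk_eq_zero])




variable (W)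

/-- modules with a filtration of length `n` with quotients in `W` -/
def FN : ℕ → ∀ (M : Type u) [AddCommGroup M] [Module R M], Prop
  | 0 => fun M _ _ => Subsingleton M
  | n + 1 => fun M _ _ => ∃ N : Submodule R M, W.mem N ∧ FN n (M ⧸ N)

variable {W}

theorem FN_iso : ∀ (n : ℕ) {M N : Type u} [AddCommGroup M] [Module R M] [AddCommGroup N]
    [Module R N] (_ : M ≃ₗ[R] N), W.FN n M → W.FN n N
  | 0, M, N, _, _, _, _, e, h => by
      have : Subsingleton M := h
      exact e.symm.toEquiv.subsingleton
  | n + 1, M, N, _, _, _, _, e, h => by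
      obtain ⟨S, hS, hq⟩ := h
      refine ⟨S.map e.toLinearMap, W.iso (e.submoduleMap S) hS, ?_⟩
      exact FN_iso n (Submodule.Quotient.equiv S (S.map e.toLinearMap) e rfl) hq

theorem FN_succ {n : ℕ} {i : A →ₗ[R] M} {p : M →ₗ[R] B} (h : SES i p) (hA : W.mem A)
    (hB : W.FN n B) : W.FN (n + 1) M := by
  refine ⟨LinearMap.range i, W.iso (LinearEquiv.ofInjective i h.inj) hA, ?_⟩
  obtain ⟨e, -⟩ := exists_equiv_of_ker_eq h.surj (Submodule.mkQ_surjective (LinearMap.range i))
    (fun x => by rw [h.ex x]; simp [Submodule.Quotient.mk_eq_zero])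
  exact FN_iso n e hB

theorem FN_succ_iff {n : ℕ} : W.FN (n + 1) M ↔
    ∃ (A : Type u) (_ : AddCommGroup A) (_ : Module R A) (B : Type u) (_ : AddCommGroup B)
      (_ : Module R B) (i : A →ₗ[R] M) (p : M →ₗ[R] B), SES i p ∧ W.mem A ∧ W.FN n B := by
  constructor
  · rintro ⟨S, hS, hq⟩
    exact ⟨S, inferInstance, inferInstance, M ⧸ S, inferInstance, inferInstance, S.subtype,
      S.mkQ, SES.subtype_mkQ S, hS, hq⟩
  · rintro ⟨A, _, _, B, _, _, i, p, h, hA, hB⟩
    exact FN_succ h hA hB

/-- closed under extensions, lengths add -/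
theorem FN_ext : ∀ (m n : ℕ) {A M B : Type u} [AddCommGroup A] [Module R A] [AddCommGroup M]
    [Module R M] [AddCommGroup B] [Module R B] {i : A →ₗ[R] M} {p : M →ₗ[R] B} (_ : SES i p),
    W.FN m A → W.FN n B → W.FN (m + n) M
  | 0, n, A, M, B, _, _, _, _, _, _, i, p, h, hA, hB => by
      have : Subsingleton A := hA
      have hinj : Function.Injective p := by
        rw [injective_iff_map_eq_zero]
        intro x hx
        obtain ⟨a, rfl⟩ := (h.ex x).1 hx
        rw [Subsingleton.elim a 0, map_zero]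
      rw [Nat.zero_add]
      exact FN_iso n (LinearEquiv.ofBijective p ⟨hinj, h.surj⟩).symm hB
  | m + 1, n, A, M, B, _, _, _, _, _, _, i, p, h, hA, hB => by
      obtain ⟨A1, _, _, A2, _, _, j, q, hjq, hA1, hA2⟩ := FN_succ_iff.1 hA
      -- M / i(j A1) is an extension of B by A2
      let S : Submodule R M := LinearMap.range (i.comp j)
      obtain ⟨i', hi'⟩ := exists_desc (N := M ⧸ S) hjq.surj (S.mkQ.comp i) (by
        intro x hx
        obtain ⟨a, rfl⟩ := (hjq.ex x).1 hx
        simp only [LinearMap.comp_apply, Submodule.mkQ_apply, Submodule.Quotient.mk_eq_zero]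
        exact ⟨a, rfl⟩)
      obtain ⟨p', hp'⟩ := exists_desc (N := B) S.mkQ_surjective p (by
        intro x hx
        simp only [Submodule.mkQ_apply, Submodule.Quotient.mk_eq_zero] at hx
        obtain ⟨a, rfl⟩ := hx
        exact h.comp_zero _)
      have hs : SES i' p' := by
        refine ⟨?_, ?_, ?_⟩
        · rw [injective_iff_map_eq_zero]
          intro y hy
          obtain ⟨x, rfl⟩ := hjq.surj y
          rw [hi'] at hy
          simp only [LinearMap.comp_apply, Submodule.mkQ_apply, Submodule.Quotient.mk_eq_zero] at hy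
          obtain ⟨a, ha⟩ := hy
          have : j a = x := h.inj ha
          rw [← this]; exact hjq.comp_zero a
        · intro b
          obtain ⟨x, rfl⟩ := h.surj b
          exact ⟨S.mkQ x, hp' x⟩
        · intro y
          obtain ⟨x, rfl⟩ := S.mkQ_surjective y
          rw [hp']
          constructor
          · intro hx
            obtain ⟨a, rfl⟩ := (h.ex x).1 hx
            exact ⟨q a, hi' a⟩
          · rintro ⟨a, ha⟩
            obtain ⟨a, rfl⟩ := hjq.surj a
            rw [hi'] at ha
            have : S.mkQ (i a - x) = 0 := by rw [map_sub, sub_eq_zero]; exact ha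
            simp only [Submodule.mkQ_apply, Submodule.Quotient.mk_eq_zero] at this
            obtain ⟨c, hc⟩ := this
            have hx : x = i (a - j c) := by
              rw [map_sub, ← LinearMap.comp_apply i j, hc]; abel
            rw [hx]; exact h.comp_zero _
      have := FN_ext m n hs hA2 hB
      rw [Nat.add_right_comm]
      refine FN_succ (i := i.comp j) (p := S.mkQ) ?_ hA1 this
      exact SES.range (h.inj.comp hjq.inj)

end AbClass

end Crest.Agent.R181.LK
end

-- ▼ part R181/LK980b
section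

/-! R181, Lemma K: the extension closure of an exact abelian class is wide (closed under kernels and
cokernels). -/

set_option autoImplicit false
set_option linter.unusedSectionVars false

namespace Crest.Agent.R181.LK

universe u

variable {R : Type u} [Ring R]

namespace AbClass

variable {W : AbClass R}



/-- kernels and cokernels of maps from `W` to a filtered module -/
theorem one_n : ∀ (n : ℕ) {M N : Type u} [AddCommGroup M] [Module R M] [AddCommGroup N] [Module R N]
    (_ : W.mem M) (_ : W.FN n N) (f : M →ₗ[R] N), W.mem (LinearMap.ker f) ∧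
      W.FN n (N ⧸ LinearMap.range f)
  | 0, M, N, _, _, _, _, hM, hN, f => by
      have : Subsingleton N := hN
      refine ⟨?_, ?_⟩
      · refine W.ker' hM (W.zero N this) f _ (Submodule.subtype_injective _) (fun x => by simp)
      · exact (Submodule.mkQ_surjective (LinearMap.range f)).subsingleton
  | n + 1, M, N, _, _, _, _, hM, hN, f => by
      obtain ⟨A, _, _, B, _, _, i, p, h, hA, hB⟩ := FN_succ_iff.1 hN
      obtain ⟨hk, hc⟩ := one_n n hM hB (p.comp f)
      -- the restriction of `f` to `ker (p ∘ f)` lands in `A`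
      obtain ⟨f', hf'⟩ := exists_lift h.inj (f.comp (LinearMap.ker (p.comp f)).subtype) (by
        intro x
        exact (h.ex _).1 x.2)
      have hker : ∀ x, f x = 0 ↔ ∃ a : LinearMap.ker f', (a : LinearMap.ker (p.comp f)) = x := by
        intro x
        constructor
        · intro hx
          have hx' : x ∈ LinearMap.ker (p.comp f) := by simp [hx]
          refine ⟨⟨⟨x, hx'⟩, ?_⟩, rfl⟩
          rw [LinearMap.mem_ker]
          apply h.inj
          rw [hf', map_zero]
          exact hx
        · rintro ⟨⟨a, ha⟩, rfl⟩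
          have := hf' a
          rw [LinearMap.mem_ker.1 ha, map_zero] at this
          exact this.symm
      have h1 : W.mem (LinearMap.ker f') := W.ker hk hA f'
      have h2 : W.mem (LinearMap.ker f) := by
        obtain ⟨e, -⟩ := exists_equiv_of_range_eq
          (i := (LinearMap.ker (p.comp f)).subtype.comp (LinearMap.ker f').subtype)
          (j := (LinearMap.ker f).subtype)
          ((Submodule.subtype_injective _).comp (Submodule.subtype_injective _))
          (Submodule.subtype_injective _) (by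
            intro x
            constructor
            · rintro ⟨a, rfl⟩
              exact ⟨⟨_, LinearMap.mem_ker.2 ((hker _).2 ⟨a, rfl⟩)⟩, rfl⟩
            · rintro ⟨b, rfl⟩
              obtain ⟨a, ha⟩ := (hker b).1 b.2
              exact ⟨a, ha⟩)
        exact W.iso e h1
      refine ⟨h2, ?_⟩
      have h3 : W.mem (A ⧸ LinearMap.range f') := W.coker hk hA f'
      -- maps
      obtain ⟨i', hi'⟩ := exists_desc (N := N ⧸ LinearMap.range f)
        (Submodule.mkQ_surjective (LinearMap.range f')) ((LinearMap.range f).mkQ.comp i) (by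
          intro a ha
          simp only [Submodule.mkQ_apply, Submodule.Quotient.mk_eq_zero] at ha
          obtain ⟨x, rfl⟩ := ha
          simp only [LinearMap.comp_apply, Submodule.mkQ_apply, Submodule.Quotient.mk_eq_zero, hf']
          exact ⟨_, rfl⟩)
      obtain ⟨p', hp'⟩ := exists_desc (N := B ⧸ LinearMap.range (p.comp f))
        (Submodule.mkQ_surjective (LinearMap.range f)) ((LinearMap.range (p.comp f)).mkQ.comp p) (by
          intro a ha
          simp only [Submodule.mkQ_apply, Submodule.Quotient.mk_eq_zero] at ha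
          obtain ⟨x, rfl⟩ := ha
          simp only [LinearMap.comp_apply, Submodule.mkQ_apply, Submodule.Quotient.mk_eq_zero]
          exact ⟨x, rfl⟩)
      have hs : SES i' p' := by
        refine ⟨?_, ?_, ?_⟩
        · rw [injective_iff_map_eq_zero]
          intro y hy
          obtain ⟨a, rfl⟩ := Submodule.mkQ_surjective _ y
          rw [hi'] at hy
          simp only [LinearMap.comp_apply, Submodule.mkQ_apply, Submodule.Quotient.mk_eq_zero] at hy
          obtain ⟨x, hx⟩ := hy
          have hx' : x ∈ LinearMap.ker (p.comp f) := by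
            simp [hx, h.comp_zero]
          simp only [Submodule.mkQ_apply, Submodule.Quotient.mk_eq_zero]
          refine ⟨⟨x, hx'⟩, h.inj ?_⟩
          rw [hf']; exact hx
        · intro y
          obtain ⟨b, rfl⟩ := Submodule.mkQ_surjective _ y
          obtain ⟨x, rfl⟩ := h.surj b
          exact ⟨Submodule.mkQ _ x, hp' x⟩
        · intro y
          obtain ⟨x, rfl⟩ := Submodule.mkQ_surjective _ y
          rw [hp']
          constructor
          · intro hx
            simp only [LinearMap.comp_apply, Submodule.mkQ_apply,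
              Submodule.Quotient.mk_eq_zero] at hx
            obtain ⟨m, hm⟩ := hx
            obtain ⟨a, ha⟩ := (h.ex (x - f m)).1 (by
              rw [map_sub, sub_eq_zero]; exact hm.symm)
            refine ⟨Submodule.mkQ _ a, ?_⟩
            rw [hi']
            simp only [LinearMap.comp_apply, ha, map_sub]
            rw [sub_eq_self]
            simp only [Submodule.mkQ_apply, Submodule.Quotient.mk_eq_zero]
            exact ⟨m, rfl⟩
          · rintro ⟨a, ha⟩
            obtain ⟨a, rfl⟩ := Submodule.mkQ_surjective _ a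
            rw [hi'] at ha
            have h0 : (LinearMap.range f).mkQ (x - i a) = 0 := by
              rw [map_sub, sub_eq_zero]; exact ha.symm
            simp only [Submodule.mkQ_apply, Submodule.Quotient.mk_eq_zero] at h0
            obtain ⟨m, hm⟩ := h0
            simp only [LinearMap.comp_apply, Submodule.mkQ_apply, Submodule.Quotient.mk_eq_zero]
            refine ⟨m, ?_⟩
            rw [LinearMap.comp_apply, hm, map_sub, h.comp_zero, sub_zero]
      exact FN_succ hs h3 hc

/-- kernels and cokernels of maps between filtered modules -/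
theorem m_n : ∀ (m : ℕ) {n : ℕ} {M N : Type u} [AddCommGroup M] [Module R M] [AddCommGroup N]
    [Module R N] (_ : W.FN m M) (_ : W.FN n N) (f : M →ₗ[R] N), W.FN m (LinearMap.ker f) ∧
      W.FN n (N ⧸ LinearMap.range f)
  | 0, n, M, N, _, _, _, _, hM, hN, f => by
      have : Subsingleton M := hM
      refine ⟨(Submodule.subtype_injective (LinearMap.ker f)).subsingleton, ?_⟩
      obtain ⟨e, -⟩ := exists_equiv_of_ker_eq (p := (LinearMap.id : N →ₗ[R] N))
        (q := (LinearMap.range f).mkQ) Function.surjective_id (Submodule.mkQ_surjective _) (by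
          intro x
          simp only [LinearMap.id_apply, Submodule.mkQ_apply, Submodule.Quotient.mk_eq_zero]
          constructor
          · rintro rfl; exact Submodule.zero_mem _
          · rintro ⟨y, rfl⟩
            rw [Subsingleton.elim y 0, map_zero])
      exact FN_iso n e hN
  | m + 1, n, M, N, _, _, _, _, hM, hN, f => by
      obtain ⟨A, _, _, B, _, _, i, p, h, hA, hB⟩ := FN_succ_iff.1 hM
      obtain ⟨hk, hc⟩ := one_n n hA hN (f.comp i)
      obtain ⟨g, hg⟩ := exists_desc (N := N ⧸ LinearMap.range (f.comp i)) h.surj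
        ((LinearMap.range (f.comp i)).mkQ.comp f) (by
          intro x hx
          obtain ⟨a, rfl⟩ := (h.ex x).1 hx
          simp only [LinearMap.comp_apply, Submodule.mkQ_apply, Submodule.Quotient.mk_eq_zero]
          exact ⟨a, rfl⟩)
      obtain ⟨hk', hc'⟩ := m_n m hB hc g
      constructor
      · -- 0 → ker (f i) → ker f → ker g → 0
        obtain ⟨i', hi'⟩ := exists_lift (Submodule.subtype_injective (LinearMap.ker f))
          (i.comp (LinearMap.ker (f.comp i)).subtype) (by
            intro x
            exact ⟨⟨i x, x.2⟩, rfl⟩)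
        obtain ⟨p', hp'⟩ := exists_lift (Submodule.subtype_injective (LinearMap.ker g))
          (p.comp (LinearMap.ker f).subtype) (by
            intro x
            refine ⟨⟨p x, ?_⟩, rfl⟩
            rw [LinearMap.mem_ker, hg, LinearMap.comp_apply, LinearMap.mem_ker.1 x.2, map_zero])
        refine FN_succ (i := i') (p := p') ⟨?_, ?_, ?_⟩ hk hk'
        · intro x y hxy
          have := congrArg (LinearMap.ker f).subtype hxy
          rw [hi', hi'] at this
          exact Subtype.ext (h.inj this)
        · rintro ⟨b, hb⟩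
          obtain ⟨x, rfl⟩ := h.surj b
          rw [LinearMap.mem_ker, hg] at hb
          simp only [LinearMap.comp_apply, Submodule.mkQ_apply, Submodule.Quotient.mk_eq_zero] at hb
          obtain ⟨a, ha⟩ := hb
          refine ⟨⟨x - i a, by rw [LinearMap.mem_ker, map_sub, sub_eq_zero]; exact ha.symm⟩, ?_⟩
          apply Submodule.subtype_injective (LinearMap.ker g)
          rw [hp']
          simp [h.comp_zero]
        · intro x
          constructor
          · intro hx
            have h1 := hp' x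
            rw [hx, map_zero] at h1
            obtain ⟨a, ha⟩ := (h.ex _).1 h1.symm
            refine ⟨⟨a, ?_⟩, ?_⟩
            · rw [LinearMap.mem_ker, LinearMap.comp_apply, ha]; exact x.2
            · apply Submodule.subtype_injective (LinearMap.ker f)
              rw [hi']; exact ha
          · rintro ⟨a, rfl⟩
            apply Submodule.subtype_injective (LinearMap.ker g)
            rw [hp', map_zero, LinearMap.comp_apply, hi', LinearMap.comp_apply, h.comp_zero]
      · obtain ⟨e, -⟩ := exists_equiv_of_ker_eq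
          (p := (LinearMap.range g).mkQ.comp (LinearMap.range (f.comp i)).mkQ)
          (q := (LinearMap.range f).mkQ)
          ((Submodule.mkQ_surjective _).comp (Submodule.mkQ_surjective _))
          (Submodule.mkQ_surjective _) (by
            intro x
            simp only [LinearMap.comp_apply, Submodule.mkQ_apply, Submodule.Quotient.mk_eq_zero,
              LinearMap.mem_range]
            constructor
            · rintro ⟨b, hb⟩
              obtain ⟨y, rfl⟩ := h.surj b
              rw [hg] at hb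
              have h0 : (LinearMap.range (f.comp i)).mkQ (x - f y) = 0 := by
                rw [map_sub, sub_eq_zero]; exact hb.symm
              simp only [Submodule.mkQ_apply, Submodule.Quotient.mk_eq_zero] at h0
              obtain ⟨a, ha⟩ := h0
              refine ⟨y + i a, ?_⟩
              rw [map_add]
              rw [LinearMap.comp_apply] at ha
              rw [ha]; abel
            · rintro ⟨y, rfl⟩
              exact ⟨p y, hg y⟩)
        exact FN_iso n e hc'

/-- the extension closure, as a class -/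
def filt (W : AbClass R) : AbClass R where
  mem := fun M _ _ => ∃ n, W.FN n M
  iso := fun e h => by obtain ⟨n, hn⟩ := h; exact ⟨n, FN_iso n e hn⟩
  zero := fun M _ _ h => ⟨0, h⟩
  ker := fun hM hN f => by
    obtain ⟨m, hm⟩ := hM
    obtain ⟨n, hn⟩ := hN
    exact ⟨m, (m_n m hm hn f).1⟩
  coker := fun hM hN f => by
    obtain ⟨m, hm⟩ := hM
    obtain ⟨n, hn⟩ := hN
    exact ⟨n, (m_n m hm hn f).2⟩

theorem filt_ext {A M B : Type u} [AddCommGroup A] [Module R A] [AddCommGroup M] [Module R M]
    [AddCommGroup B] [Module R B] {i : A →ₗ[R] M} {p : M →ₗ[R] B} (h : SES i p)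
    (hA : W.filt.mem A) (hB : W.filt.mem B) : W.filt.mem M := by
  obtain ⟨m, hm⟩ := hA
  obtain ⟨n, hn⟩ := hB
  exact ⟨m + n, FN_ext m n h hm hn⟩

theorem filt_of_mem {M : Type u} [AddCommGroup M] [Module R M] (h : W.mem M) : W.filt.mem M :=
  ⟨1, ⟨⊤, W.iso Submodule.topEquiv.symm h,
    (Submodule.Quotient.subsingleton_iff.2 rfl : Subsingleton (M ⧸ (⊤ : Submodule R M)))⟩⟩


end AbClass

end Crest.Agent.R181.LK
end

-- ▼ part R181/VA980a

/-! R181, V-chain, V2a (A1): the class of modules `Theta (x)_E M`, `M` finitely generated over the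
left noetherian ring `E`, in matrix form, is closed under kernels and cokernels. -/

set_option autoImplicit false
set_option linter.unusedSectionVars false

open MulOpposite

namespace Crest.Agent.R181.VA

open LK

universe u

variable {Lam : Type u} [Ring Lam] {E : Type u} [Ring E]
variable (Θ : Type u) [AddCommGroup Θ] [Module Lam Θ] [Module Eᵐᵒᵖ Θ] [SMulCommClass Lam Eᵐᵒᵖ Θ]

section mR

variable {ι κ μ : Type} [Fintype ι] [Fintype κ] [Fintype μ]

variable (Lam) in
/-- right multiplication of row vectors over `Θ` by a matrix over `E` -/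
def mR (A : Matrix ι κ E) : (ι → Θ) →ₗ[Lam] (κ → Θ) where
  toFun θ j := ∑ i, op (A i j) • θ i
  map_add' x y := by
    funext j
    simp [smul_add, Finset.sum_add_distrib]
  map_smul' c x := by
    funext j
    simp only [Pi.smul_apply, RingHom.id_apply, Finset.smul_sum]
    exact Finset.sum_congr rfl fun i _ => (smul_comm _ _ _).symm

@[simp] theorem mR_apply (A : Matrix ι κ E) (θ : ι → Θ) (j : κ) :
    mR Lam Θ A θ j = ∑ i, op (A i j) • θ i := rfl

theorem mR_mul (A : Matrix ι κ E) (B : Matrix κ μ E) (θ : ι → Θ) :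
    mR Lam Θ (A * B) θ = mR Lam Θ B (mR Lam Θ A θ) := by
  funext j
  simp only [mR_apply, Matrix.mul_apply, Finset.op_sum, op_mul, Finset.sum_smul, Finset.smul_sum,
    smul_smul]
  rw [Finset.sum_comm]

theorem mR_zero (θ : ι → Θ) : mR Lam Θ (0 : Matrix ι κ E) θ = 0 := by
  funext j; simp

theorem mR_fromRows (A : Matrix ι μ E) (B : Matrix κ μ E) (x : ι → Θ) (y : κ → Θ) :
    mR Lam Θ (Matrix.fromRows A B) (Sum.elim x y) = mR Lam Θ A x + mR Lam Θ B y := by
  funext j
  simp [Fintype.sum_sum_type]

theorem mR_fromCols (A : Matrix ι κ E) (B : Matrix ι μ E) (x : ι → Θ) :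
    mR Lam Θ (Matrix.fromCols A B) x = Sum.elim (mR Lam Θ A x) (mR Lam Θ B x) := by
  funext j
  rcases j with j | j <;> simp

end mR

/-- matrix flatness of `Θ` over `E` (on the right) -/
def Flat (Lam : Type u) [Ring Lam] (E : Type u) [Ring E] (Θ : Type u) [AddCommGroup Θ]
    [Module Lam Θ] [Module Eᵐᵒᵖ Θ] [SMulCommClass Lam Eᵐᵒᵖ Θ] : Prop :=
  ∀ (ι κ μ : Type) [Fintype ι] [Fintype κ] [Fintype μ] (A : Matrix ι κ E) (B : Matrix κ μ E),
    (∀ v : κ → E, Matrix.vecMul v B = 0 ↔ ∃ w : ι → E, Matrix.vecMul w A = v) →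
    ∀ v : κ → Θ, mR Lam Θ B v = 0 → ∃ w : ι → Θ, mR Lam Θ A w = v


/-- maps out of `Θ` into `Θ ⊗ M` are elements of `M` -/
def Full (Lam : Type u) [Ring Lam] (E : Type u) [Ring E] (Θ : Type u) [AddCommGroup Θ]
    [Module Lam Θ] [Module Eᵐᵒᵖ Θ] [SMulCommClass Lam Eᵐᵒᵖ Θ] : Prop :=
  ∀ (ι κ : Type) [Fintype ι] [Fintype κ] (C : Matrix ι κ E)
    (f : Θ →ₗ[Lam] ((κ → Θ) ⧸ LinearMap.range (mR Lam Θ C))),
    ∃ g : κ → E, ∀ θ, f θ = (LinearMap.range (mR Lam Θ C)).mkQ (fun j => op (g j) • θ)

variable {Θ}

/-- over a left noetherian ring every matrix has a matrix of syzygies -/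
theorem exists_syz [IsNoetherianRing E] {κ μ : Type} [Fintype κ] [Fintype μ] (B : Matrix κ μ E) :
    ∃ (k : ℕ) (A : Matrix (Fin k) κ E),
      ∀ v : κ → E, Matrix.vecMul v B = 0 ↔ ∃ w : Fin k → E, Matrix.vecMul w A = v := by
  classical
  have hN : IsNoetherian E (κ → E) := inferInstance
  obtain ⟨k, s, hs⟩ := Submodule.fg_iff_exists_fin_generating_family.1
    (hN.noetherian (LinearMap.ker (Matrix.vecMulLinear B)))
  refine ⟨k, Matrix.of s, fun v => ?_⟩
  have h1 : Matrix.vecMul v B = 0 ↔ v ∈ Submodule.span E (Set.range s) := by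
    rw [hs, LinearMap.mem_ker]; rfl
  rw [h1, Submodule.mem_span_range_iff_exists_fun]
  constructor
  · rintro ⟨c, hc⟩
    refine ⟨c, ?_⟩
    rw [← hc]
    funext j
    simp [Matrix.vecMul, dotProduct]
  · rintro ⟨c, hc⟩
    refine ⟨c, ?_⟩
    rw [← hc]
    funext j
    simp [Matrix.vecMul, dotProduct]

theorem mkQ_eq_zero_iff {M : Type u} [AddCommGroup M] [Module Lam M] {ι κ : Type} [Fintype ι]
    [Fintype κ] (C : Matrix ι κ E) (x : κ → Θ) :
    (LinearMap.range (mR Lam Θ C)).mkQ x = 0 ↔ ∃ w, mR Lam Θ C w = x := by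
  simp [Submodule.Quotient.mk_eq_zero]

/-- a map between `Θ ⊗ M` and `Θ ⊗ M'` is given by a matrix -/
theorem exists_matrix (hH : Full Lam E Θ) {ι κ ι' κ' : Type} [Fintype ι] [Fintype κ] [Fintype ι']
    [Fintype κ'] (A : Matrix ι κ E) (C : Matrix ι' κ' E)
    (f : ((κ → Θ) ⧸ LinearMap.range (mR Lam Θ A)) →ₗ[Lam]
      ((κ' → Θ) ⧸ LinearMap.range (mR Lam Θ C))) :
    ∃ G : Matrix κ κ' E, ∀ v, f ((LinearMap.range (mR Lam Θ A)).mkQ v) =
      (LinearMap.range (mR Lam Θ C)).mkQ (mR Lam Θ G v) := by
  classical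
  have h := fun k : κ => hH ι' κ' C
    ((f.comp (LinearMap.range (mR Lam Θ A)).mkQ).comp (LinearMap.single Lam (fun _ : κ => Θ) k))
  choose g hg using h
  refine ⟨Matrix.of g, fun v => ?_⟩
  have hv : v = ∑ k, LinearMap.single Lam (fun _ : κ => Θ) k (v k) := by
    funext j
    simp [Finset.sum_apply, Pi.single_apply]
  conv_lhs => rw [hv]
  rw [map_sum, map_sum]
  have h2 : mR Lam Θ (Matrix.of g) v = ∑ k, fun j => op (g k j) • v k := by
    funext j
    simp [Finset.sum_apply]
  rw [h2, map_sum]
  exact Finset.sum_congr rfl fun k _ => hg k (v k)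

variable (Lam E Θ) in
/-- the class of modules `Θ ⊗_E M`, `M` a finitely generated left `E`-module -/
def memTH (Y : Type u) [AddCommGroup Y] [Module Lam Y] : Prop :=
  ∃ (ι κ : Type) (_ : Fintype ι) (_ : Fintype κ) (C : Matrix ι κ E),
    Nonempty (Y ≃ₗ[Lam] ((κ → Θ) ⧸ LinearMap.range (mR Lam Θ C)))

theorem memTH_of_surj {Y : Type u} [AddCommGroup Y] [Module Lam Y] {ι κ : Type} [Fintype ι]
    [Fintype κ] (C : Matrix ι κ E) (p : (κ → Θ) →ₗ[Lam] Y) (hp : Function.Surjective p)
    (h : ∀ x, p x = 0 ↔ ∃ w, mR Lam Θ C w = x) : memTH Lam E Θ Y := by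
  obtain ⟨e, -⟩ := exists_equiv_of_ker_eq hp (Submodule.mkQ_surjective
    (LinearMap.range (mR Lam Θ C))) (fun x => by
      rw [h x]; simp [Submodule.Quotient.mk_eq_zero])
  exact ⟨ι, κ, inferInstance, inferInstance, C, ⟨e⟩⟩

theorem memTH_zero {Y : Type u} [AddCommGroup Y] [Module Lam Y] (h : Subsingleton Y) :
    memTH Lam E Θ Y := by
  refine memTH_of_surj (ι := Empty) (κ := Empty) (0 : Matrix Empty Empty E) 0 ?_ ?_
  · intro y; exact ⟨0, Subsingleton.elim _ _⟩
  · intro x
    constructor
    · intro _; exact ⟨0, Subsingleton.elim _ _⟩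
    · intro _; rfl

theorem ker_matrix [IsNoetherianRing E] (hF : Flat Lam E Θ)
    {ι κ ι' κ' : Type} [Fintype ι] [Fintype κ] [Fintype ι']
    [Fintype κ'] (A : Matrix ι κ E) (C : Matrix ι' κ' E) (G : Matrix κ κ' E)
    (f : ((κ → Θ) ⧸ LinearMap.range (mR Lam Θ A)) →ₗ[Lam]
      ((κ' → Θ) ⧸ LinearMap.range (mR Lam Θ C)))
    (hG : ∀ v, f ((LinearMap.range (mR Lam Θ A)).mkQ v) =
      (LinearMap.range (mR Lam Θ C)).mkQ (mR Lam Θ G v)) :
    memTH Lam E Θ (LinearMap.ker f) := by
  classical
  obtain ⟨k, K, hK⟩ := exists_syz (Matrix.fromRows G C)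
  -- K1 : first block of columns
  let K1 : Matrix (Fin k) κ E := fun i j => K i (Sum.inl j)
  let K2 : Matrix (Fin k) ι' E := fun i j => K i (Sum.inr j)
  have hKK : K = Matrix.fromCols K1 K2 := by
    ext i j; rcases j with j | j <;> rfl
  obtain ⟨l, R, hR⟩ := exists_syz (Matrix.fromRows K1 A)
  let R1 : Matrix (Fin l) (Fin k) E := fun i j => R i (Sum.inl j)
  let R2 : Matrix (Fin l) ι E := fun i j => R i (Sum.inr j)
  have hRR : R = Matrix.fromCols R1 R2 := by
    ext i j; rcases j with j | j <;> rfl
  -- products are zero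
  have hKz : K * Matrix.fromRows G C = 0 := by
    ext i j
    have := (hK (K i)).2 ⟨Pi.single i 1, by simp; rfl⟩
    exact congrFun this j
  have hRz : R * Matrix.fromRows K1 A = 0 := by
    ext i j
    have := (hR (R i)).2 ⟨Pi.single i 1, by simp; rfl⟩
    exact congrFun this j
  have key1 : ∀ u : Fin k → Θ, mR Lam Θ G (mR Lam Θ K1 u) = mR Lam Θ C (- mR Lam Θ K2 u) := by
    intro u
    have h1 : mR Lam Θ (K * Matrix.fromRows G C) u = 0 := by rw [hKz, mR_zero]
    rw [mR_mul, hKK, mR_fromCols, mR_fromRows] at h1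
    rw [map_neg]
    exact eq_neg_of_add_eq_zero_left h1
  let p : (Fin k → Θ) →ₗ[Lam] LinearMap.ker f :=
    ((LinearMap.range (mR Lam Θ A)).mkQ.comp (mR Lam Θ K1)).codRestrict (LinearMap.ker f) (by
      intro u
      rw [LinearMap.mem_ker, LinearMap.comp_apply, hG, key1]
      rw [mkQ_eq_zero_iff (M := Θ)]
      exact ⟨_, rfl⟩)
  refine memTH_of_surj R1 p ?_ ?_
  · rintro ⟨y, hy⟩
    obtain ⟨v, rfl⟩ := Submodule.mkQ_surjective _ y
    rw [LinearMap.mem_ker, hG, mkQ_eq_zero_iff (M := Θ)] at hy
    obtain ⟨w, hw⟩ := hy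
    have h1 : mR Lam Θ (Matrix.fromRows G C) (Sum.elim v (-w)) = 0 := by
      rw [mR_fromRows, map_neg, hw]; abel
    obtain ⟨u, hu⟩ := hF _ _ _ K (Matrix.fromRows G C) hK _ h1
    refine ⟨u, Subtype.ext ?_⟩
    change (LinearMap.range (mR Lam Θ A)).mkQ (mR Lam Θ K1 u) =
      (LinearMap.range (mR Lam Θ A)).mkQ v
    congr 1
    rw [hKK, mR_fromCols] at hu
    funext j
    exact congrFun hu (Sum.inl j)
  · intro u
    have h0 : p u = 0 ↔ (LinearMap.range (mR Lam Θ A)).mkQ (mR Lam Θ K1 u) = 0 := by
      rw [Subtype.ext_iff]; rfl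
    rw [h0, mkQ_eq_zero_iff (M := Θ)]
    constructor
    · rintro ⟨w, hw⟩
      have h1 : mR Lam Θ (Matrix.fromRows K1 A) (Sum.elim u (-w)) = 0 := by
        rw [mR_fromRows, map_neg, hw]; abel
      obtain ⟨s, hs⟩ := hF _ _ _ R (Matrix.fromRows K1 A) hR _ h1
      refine ⟨s, ?_⟩
      rw [hRR, mR_fromCols] at hs
      funext j
      exact congrFun hs (Sum.inl j)
    · rintro ⟨s, rfl⟩
      have h1 : mR Lam Θ (R * Matrix.fromRows K1 A) s = 0 := by rw [hRz, mR_zero]
      rw [mR_mul, hRR, mR_fromCols, mR_fromRows] at h1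
      refine ⟨- mR Lam Θ R2 s, ?_⟩
      rw [map_neg]
      exact (eq_neg_of_add_eq_zero_left h1).symm

theorem coker_matrix {ι κ ι' κ' : Type} [Fintype ι] [Fintype κ] [Fintype ι']
    [Fintype κ'] (A : Matrix ι κ E) (C : Matrix ι' κ' E) (G : Matrix κ κ' E)
    (f : ((κ → Θ) ⧸ LinearMap.range (mR Lam Θ A)) →ₗ[Lam]
      ((κ' → Θ) ⧸ LinearMap.range (mR Lam Θ C)))
    (hG : ∀ v, f ((LinearMap.range (mR Lam Θ A)).mkQ v) =
      (LinearMap.range (mR Lam Θ C)).mkQ (mR Lam Θ G v)) :
    memTH Lam E Θ (((κ' → Θ) ⧸ LinearMap.range (mR Lam Θ C)) ⧸ LinearMap.range f) := by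
  refine memTH_of_surj (Matrix.fromRows G C)
    ((LinearMap.range f).mkQ.comp (LinearMap.range (mR Lam Θ C)).mkQ)
    ((Submodule.mkQ_surjective _).comp (Submodule.mkQ_surjective _)) ?_
  intro x
  have h0 : ((LinearMap.range f).mkQ.comp (LinearMap.range (mR Lam Θ C)).mkQ) x = 0 ↔
      ∃ y, f y = (LinearMap.range (mR Lam Θ C)).mkQ x := by
    simp [Submodule.Quotient.mk_eq_zero]
  rw [h0]
  constructor
  · rintro ⟨y, hy⟩
    obtain ⟨v, rfl⟩ := Submodule.mkQ_surjective _ y
    rw [hG] at hy
    have h1 : (LinearMap.range (mR Lam Θ C)).mkQ (x - mR Lam Θ G v) = 0 := by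
      rw [map_sub, sub_eq_zero]; exact hy.symm
    rw [mkQ_eq_zero_iff (M := Θ)] at h1
    obtain ⟨w, hw⟩ := h1
    refine ⟨Sum.elim v w, ?_⟩
    rw [mR_fromRows, hw]; abel
  · rintro ⟨w, rfl⟩
    have hw : w = Sum.elim (fun i => w (Sum.inl i)) (fun i => w (Sum.inr i)) := by
      funext i; rcases i with i | i <;> rfl
    refine ⟨(LinearMap.range (mR Lam Θ A)).mkQ (fun i => w (Sum.inl i)), ?_⟩
    rw [hG, hw, mR_fromRows, map_add]
    have : (LinearMap.range (mR Lam Θ C)).mkQ (mR Lam Θ C (fun i => w (Sum.inr i))) = 0 :=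
      (mkQ_eq_zero_iff (M := Θ) _ _).2 ⟨_, rfl⟩
    simp [this]

/-- the exact abelian class of all `Θ ⊗_E M` -/
def thClass [IsNoetherianRing E] (hF : Flat Lam E Θ) (hH : Full Lam E Θ) : AbClass Lam where
  mem := fun Y _ _ => memTH Lam E Θ Y
  iso := by
    rintro M N _ _ _ _ e ⟨ι, κ, _, _, C, ⟨e'⟩⟩
    exact ⟨ι, κ, inferInstance, inferInstance, C, ⟨e.symm.trans e'⟩⟩
  zero := fun _ _ _ h => memTH_zero h
  ker := by
    rintro M N _ _ _ _ ⟨ι, κ, _, _, A, ⟨e⟩⟩ ⟨ι', κ', _, _, C, ⟨e'⟩⟩ f
    obtain ⟨G, hG⟩ := exists_matrix hH A C ((e'.toLinearMap.comp f).comp e.symm.toLinearMap)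
    obtain ⟨ι1, κ1, _, _, C1, ⟨e1⟩⟩ := ker_matrix hF A C G _ hG
    obtain ⟨e2, -⟩ := exists_equiv_of_range_eq (i := (LinearMap.ker f).subtype)
      (j := e.symm.toLinearMap.comp
        (LinearMap.ker ((e'.toLinearMap.comp f).comp e.symm.toLinearMap)).subtype)
      (Submodule.subtype_injective _) (e.symm.injective.comp (Submodule.subtype_injective _)) (by
        intro x
        constructor
        · rintro ⟨a, rfl⟩
          refine ⟨⟨e a, ?_⟩, ?_⟩
          · have := a.2
            rw [LinearMap.mem_ker] at this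
            simp [this]
          · simp
        · rintro ⟨b, rfl⟩
          refine ⟨⟨e.symm b, ?_⟩, rfl⟩
          have := b.2
          rw [LinearMap.mem_ker] at this
          rw [LinearMap.mem_ker]
          apply e'.injective
          rw [map_zero]
          exact this)
    exact ⟨ι1, κ1, inferInstance, inferInstance, C1, ⟨e2.trans e1⟩⟩
  coker := by
    rintro M N _ _ _ _ ⟨ι, κ, _, _, A, ⟨e⟩⟩ ⟨ι', κ', _, _, C, ⟨e'⟩⟩ f
    obtain ⟨G, hG⟩ := exists_matrix hH A C ((e'.toLinearMap.comp f).comp e.symm.toLinearMap)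
    obtain ⟨ι1, κ1, _, _, C1, ⟨e1⟩⟩ := coker_matrix A C G _ hG
    obtain ⟨e2, -⟩ := exists_equiv_of_ker_eq (p := (LinearMap.range f).mkQ)
      (q := (LinearMap.range ((e'.toLinearMap.comp f).comp e.symm.toLinearMap)).mkQ.comp
        e'.toLinearMap)
      (Submodule.mkQ_surjective _) ((Submodule.mkQ_surjective _).comp e'.surjective) (by
        intro x
        simp only [LinearMap.comp_apply, Submodule.mkQ_apply, Submodule.Quotient.mk_eq_zero,
          LinearMap.mem_range, LinearEquiv.coe_coe]
        constructor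
        · rintro ⟨y, rfl⟩
          exact ⟨e y, by simp⟩
        · rintro ⟨y, hy⟩
          exact ⟨e.symm y, e'.injective hy⟩)
    exact ⟨ι1, κ1, inferInstance, inferInstance, C1, ⟨e2.trans e1⟩⟩

end Crest.Agent.R181.VA
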