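import Mathlib
import Crest.Agent.R181.FR459a
import Crest.Agent.R181.VA980a
import Crest.Agent.R181.VA980d

-- ▼ part R181/PR980a
section

/-!
# R181: finite resolutions by powers of a projective module `P` (left modules)

The same as helper459's `FR459a` with the ring `R` replaced by a projective module `P`.
`Res R P n M`: `M` has a resolution of length `n` by finite powers of `P`;
`FFR R P M := ∃ n, Res R P n M`; `StFree R P M`: `M × P^m ≃ P^n`.
2-of-3 in short exact sequences, projective + FFR ↔ stably free, filtrations, direct summands.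
-/

set_option linter.unusedSectionVars false

namespace Crest.Agent.R181.PR

universe u

/-- resolution of length `n` by f.g. free modules -/
def Res (R : Type u) [Ring R] (P : Type u) [AddCommGroup P] [Module R P] :
    ℕ → ∀ (M : Type u) [AddCommGroup M] [Module R M], Prop
  | 0, M, _, _ => ∃ k : ℕ, Nonempty (M ≃ₗ[R] (Fin k → P))
  | n + 1, M, _, _ => ∃ (k : ℕ) (f : (Fin k → P) →ₗ[R] M),
      Function.Surjective f ∧ Res R P n (LinearMap.ker f)

/-- `M` has a finite resolution by f.g. free modules -/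
def FFR (R : Type u) [Ring R] (P : Type u) [AddCommGroup P] [Module R P] (M : Type u) [AddCommGroup M] [Module R M] : Prop :=
  ∃ n, Res R P n M

/-- `M` is (f.g.) stably free -/
def StFree (R : Type u) [Ring R] (P : Type u) [AddCommGroup P] [Module R P] (M : Type u) [AddCommGroup M] [Module R M] : Prop :=
  ∃ m n : ℕ, Nonempty ((M × (Fin m → P)) ≃ₗ[R] (Fin n → P))

variable {R : Type u} [Ring R] {P : Type u} [AddCommGroup P] [Module R P]

section Basic

variable {M N : Type u} [AddCommGroup M] [Module R M] [AddCommGroup N] [Module R N]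

/-- `R^a × R^b ≃ R^(a+b)` -/
noncomputable def powProd (R : Type u) [Ring R] (P : Type u) [AddCommGroup P] [Module R P] (a b : ℕ) :
    ((Fin a → P) × (Fin b → P)) ≃ₗ[R] (Fin (a + b) → P) :=
  (LinearEquiv.sumArrowLequivProdArrow (Fin a) (Fin b) R P).symm.trans
    (LinearEquiv.funCongrLeft R P finSumFinEquiv.symm)

theorem Res.of_equiv : ∀ {n : ℕ} {M N : Type u} [AddCommGroup M] [Module R M] [AddCommGroup N]
    [Module R N], (M ≃ₗ[R] N) → Res R P n M → Res R P n N
  | 0, M, N, _, _, _, _, e, ⟨k, ⟨g⟩⟩ => ⟨k, ⟨e.symm.trans g⟩⟩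
  | n + 1, M, N, _, _, _, _, e, ⟨k, f, hf, h⟩ => by
    refine ⟨k, e.toLinearMap.comp f, e.surjective.comp hf, ?_⟩
    have h1 : LinearMap.ker (e.toLinearMap.comp f) = LinearMap.ker f := by
      rw [LinearEquiv.ker_comp]
    exact Res.of_equiv (LinearEquiv.ofEq _ _ h1.symm) h

theorem Res.of_free (k : ℕ) : ∀ n, Res R P n (Fin k → P)
  | 0 => ⟨k, ⟨LinearEquiv.refl R _⟩⟩
  | n + 1 => by
    refine ⟨k, LinearMap.id, Function.surjective_id, ?_⟩
    have h1 : (LinearMap.ker (LinearMap.id : (Fin k → P) →ₗ[R] (Fin k → P))) = ⊥ := LinearMap.ker_id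
    refine Res.of_equiv ?_ (Res.of_free 0 n)
    haveI : Subsingleton (LinearMap.ker (LinearMap.id : (Fin k → P) →ₗ[R] (Fin k → P))) := by
      rw [h1]; infer_instance
    exact LinearEquiv.ofSubsingleton _ _

theorem Res.succ : ∀ {n : ℕ} {M : Type u} [AddCommGroup M] [Module R M],
    Res R P n M → Res R P (n + 1) M
  | 0, _, _, _, ⟨k, ⟨e⟩⟩ => Res.of_equiv e.symm (Res.of_free k 1)
  | _ + 1, _, _, _, ⟨k, f, hf, h⟩ => ⟨k, f, hf, Res.succ h⟩

theorem Res.mono {n m : ℕ} (hnm : n ≤ m) (h : Res R P n M) : Res R P m M := by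
  induction m, hnm using Nat.le_induction with
  | base => exact h
  | succ m _ ih => exact ih.succ

/-- build a resolution from a surjection from a module isomorphic to `R^k` -/
theorem Res.of_surj {n k : ℕ} (e : N ≃ₗ[R] (Fin k → P)) (f : N →ₗ[R] M)
    (hf : Function.Surjective f) (h : Res R P n (LinearMap.ker f)) : Res R P (n + 1) M := by
  refine ⟨k, f.comp e.symm.toLinearMap, hf.comp e.symm.surjective, ?_⟩
  refine Res.of_equiv ?_ h
  have h1 : LinearMap.ker (f.comp e.symm.toLinearMap) = (LinearMap.ker f).map e.toLinearMap := by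
    ext x
    simp only [LinearMap.mem_ker, LinearMap.comp_apply, Submodule.mem_map]
    constructor
    · intro hx
      exact ⟨e.symm x, hx, by simp⟩
    · rintro ⟨y, hy, rfl⟩
      simpa using hy
  exact (e.submoduleMap (LinearMap.ker f)).trans (LinearEquiv.ofEq _ _ h1.symm)

end Basic

instance projPow [Module.Projective R P] (k : ℕ) : Module.Projective R (Fin k → P) :=
  Module.Projective.of_equiv (DFinsupp.linearEquivFunOnFintype (R := R) (M := fun _ : Fin k => P))

section Exact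

variable [Module.Projective R P]

/-- the horseshoe lemma -/
theorem Res.mid : ∀ {n : ℕ} {A B C : Type u} [AddCommGroup A] [Module R A] [AddCommGroup B]
    [Module R B] [AddCommGroup C] [Module R C] {f : A →ₗ[R] B} {g : B →ₗ[R] C},
    Function.Injective f → Function.Surjective g → Function.Exact f g →
    Res R P n A → Res R P n C → Res R P n B
  | 0, A, B, C, _, _, _, _, _, _, f, g, hf, hg, hfg, ⟨a, ⟨ea⟩⟩, ⟨c, ⟨ec⟩⟩ => by
    have : Module.Projective R C := Module.Projective.of_equiv ec.symm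
    obtain ⟨s, hs⟩ := Module.projective_lifting_property g LinearMap.id hg
    have hs' : ∀ x, g (s x) = x := fun x => LinearMap.congr_fun hs x
    have e : (A × C) ≃ₗ[R] B := LinearEquiv.ofBijective (f.coprod s) (by
      constructor
      · rw [injective_iff_map_eq_zero]
        rintro ⟨x, y⟩ hxy
        simp only [LinearMap.coprod_apply] at hxy
        have h1 : y = 0 := by
          have := congrArg g hxy
          rw [map_add, hfg.apply_apply_eq_zero, hs', map_zero, zero_add] at this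
          exact this
        subst h1
        rw [map_zero, add_zero] at hxy
        have h2 : x = 0 := hf (by rw [hxy, map_zero])
        rw [h2]; rfl
      · intro b
        have h1 : g (b - s (g b)) = 0 := by rw [map_sub, hs', sub_self]
        obtain ⟨x, hx⟩ := (hfg _).mp h1
        exact ⟨(x, g b), by simp [hx]⟩)
    exact ⟨a + c, ⟨e.symm.trans ((LinearEquiv.prodCongr ea ec).trans (powProd R P a c))⟩⟩
  | n + 1, A, B, C, _, _, _, _, _, _, f, g, hf, hg, hfg, ⟨a, α, hα, ha⟩, ⟨c, γ, hγ, hc⟩ => by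
    obtain ⟨γ', hγ'⟩ := Module.projective_lifting_property g γ hg
    have hγ'' : ∀ x, g (γ' x) = γ x := fun x => LinearMap.congr_fun hγ' x
    let β : ((Fin a → P) × (Fin c → P)) →ₗ[R] B := (f.comp α).coprod γ'
    have hβdef : ∀ x y, β (x, y) = f (α x) + γ' y := fun x y => by simp [β]
    have hβ : Function.Surjective β := by
      intro b
      obtain ⟨y, hy⟩ := hγ (g b)
      have h1 : g (b - γ' y) = 0 := by rw [map_sub, hγ'', hy, sub_self]
      obtain ⟨x, hx⟩ := (hfg _).mp h1
      obtain ⟨x', rfl⟩ := hα x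
      exact ⟨(x', y), by rw [hβdef, hx]; simp⟩
    have hgβ : ∀ x y, g (β (x, y)) = γ y := by
      intro x y
      rw [hβdef, map_add, hfg.apply_apply_eq_zero, zero_add, hγ'']
    refine Res.of_surj (powProd R P a c) β hβ ?_
    let i : LinearMap.ker α →ₗ[R] LinearMap.ker β :=
      LinearMap.codRestrict _ ((LinearMap.inl R (Fin a → P) (Fin c → P)).comp
        (LinearMap.ker α).subtype) (by
        intro x
        rw [LinearMap.mem_ker]
        show β (x.1, 0) = 0
        rw [hβdef, LinearMap.mem_ker.mp x.2]; simp)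
    let p : LinearMap.ker β →ₗ[R] LinearMap.ker γ :=
      LinearMap.codRestrict _ ((LinearMap.snd R (Fin a → P) (Fin c → P)).comp
        (LinearMap.ker β).subtype) (by
        rintro ⟨⟨x, y⟩, hxy⟩
        rw [LinearMap.mem_ker]
        show γ y = 0
        rw [← hgβ x y, LinearMap.mem_ker.mp hxy, map_zero])
    refine Res.mid (f := i) (g := p) ?_ ?_ ?_ ha hc
    · intro x y hxy
      have h1 : ((x : Fin a → P), (0 : Fin c → P)) = ((y : Fin a → P), 0) := congrArg Subtype.val hxy
      exact Subtype.ext (Prod.ext_iff.mp h1).1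
    · rintro ⟨y, hy⟩
      have h1 : g (γ' y) = 0 := by rw [hγ'']; exact hy
      obtain ⟨x, hx⟩ := (hfg _).mp h1
      obtain ⟨x', rfl⟩ := hα x
      refine ⟨⟨(-x', y), ?_⟩, rfl⟩
      rw [LinearMap.mem_ker, hβdef, map_neg, map_neg, hx, neg_add_cancel]
    · rintro ⟨⟨x, y⟩, hxy⟩
      constructor
      · intro h
        have h1 : y = 0 := congrArg Subtype.val h
        subst h1
        have h2 : f (α x) = 0 := by
          have := LinearMap.mem_ker.mp hxy
          rw [hβdef, map_zero, add_zero] at this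
          exact this
        refine ⟨⟨x, ?_⟩, rfl⟩
        rw [LinearMap.mem_ker]
        exact hf (by rw [h2, map_zero])
      · rintro ⟨z, hz⟩
        have h1 : ((z : Fin a → P), (0 : Fin c → P)) = (x, y) := congrArg Subtype.val hz
        have h2 : y = 0 := (Prod.ext_iff.mp h1).2.symm
        subst h2
        rfl

variable {A B C : Type u} [AddCommGroup A] [Module R A] [AddCommGroup B]
    [Module R B] [AddCommGroup C] [Module R C]

theorem FFR.of_equiv (e : A ≃ₗ[R] B) (h : FFR R P A) : FFR R P B := by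
  obtain ⟨n, h⟩ := h
  exact ⟨n, h.of_equiv e⟩

theorem FFR.of_free (k : ℕ) : FFR R P (Fin k → P) := ⟨0, Res.of_free k 0⟩

theorem FFR.of_subsingleton [Subsingleton A] : FFR R P A :=
  ⟨0, 0, ⟨LinearEquiv.ofSubsingleton _ _⟩⟩

theorem FFR.self : FFR R P P :=
  FFR.of_equiv (LinearEquiv.funUnique (Fin 1) R P) (FFR.of_free 1)

/-- 2-of-3, middle term -/
theorem FFR.mid {f : A →ₗ[R] B} {g : B →ₗ[R] C} (hf : Function.Injective f)
    (hg : Function.Surjective g) (hfg : Function.Exact f g) (hA : FFR R P A) (hC : FFR R P C) :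
    FFR R P B := by
  obtain ⟨n, hn⟩ := hA
  obtain ⟨m, hm⟩ := hC
  exact ⟨max n m, Res.mid hf hg hfg (hn.mono (le_max_left _ _)) (hm.mono (le_max_right _ _))⟩

theorem FFR.prod (hA : FFR R P A) (hC : FFR R P C) : FFR R P (A × C) :=
  FFR.mid (f := LinearMap.inl R A C) (g := LinearMap.snd R A C) LinearMap.inl_injective
    LinearMap.snd_surjective (by
      rintro ⟨x, y⟩
      constructor
      · intro h
        have h1 : y = 0 := h
        exact ⟨x, by rw [h1]; rfl⟩
      · rintro ⟨z, hz⟩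
        rw [← hz]; rfl) hA hC

/-- surjection from a free module with FFR kernel -/
theorem FFR.of_surj {k : ℕ} (f : (Fin k → P) →ₗ[R] A) (hf : Function.Surjective f)
    (h : FFR R P (LinearMap.ker f)) : FFR R P A := by
  obtain ⟨n, h⟩ := h
  exact ⟨n + 1, k, f, hf, h⟩

theorem FFR.exists_surj (h : FFR R P A) : ∃ (k : ℕ) (f : (Fin k → P) →ₗ[R] A),
    Function.Surjective f ∧ FFR R P (LinearMap.ker f) := by
  obtain ⟨n, h⟩ := h
  obtain ⟨k, f, hf, h⟩ := h.succ
  exact ⟨k, f, hf, n, h⟩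

/-- 2-of-3, right term -/
theorem FFR.right {f : A →ₗ[R] B} {g : B →ₗ[R] C} (hf : Function.Injective f)
    (hg : Function.Surjective g) (hfg : Function.Exact f g) (hA : FFR R P A) (hB : FFR R P B) :
    FFR R P C := by
  obtain ⟨b, β, hβ, hk⟩ := hB.exists_surj
  refine FFR.of_surj (g.comp β) (hg.comp hβ) ?_
  -- `0 → ker β → ker (g β) → ker g ≃ A → 0`
  let i : LinearMap.ker β →ₗ[R] LinearMap.ker (g.comp β) :=
    Submodule.inclusion (LinearMap.ker_le_ker_comp β g)
  let p : LinearMap.ker (g.comp β) →ₗ[R] LinearMap.ker g :=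
    LinearMap.codRestrict _ (β.comp (LinearMap.ker (g.comp β)).subtype) (fun x => x.2)
  have hr : LinearMap.range f = LinearMap.ker g := (LinearMap.exact_iff.mp hfg).symm
  have e : A ≃ₗ[R] LinearMap.ker g :=
    (LinearEquiv.ofInjective f hf).trans (LinearEquiv.ofEq _ _ hr)
  refine FFR.mid (f := i) (g := p) (Submodule.inclusion_injective _) ?_ ?_ hk (hA.of_equiv e)
  · rintro ⟨y, hy⟩
    obtain ⟨x, rfl⟩ := hβ y
    exact ⟨⟨x, hy⟩, rfl⟩
  · rintro ⟨x, hx⟩
    constructor
    · intro h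
      have h1 : β x = 0 := congrArg Subtype.val h
      exact ⟨⟨x, h1⟩, rfl⟩
    · rintro ⟨z, hz⟩
      have h1 : (z : Fin b → P) = x := congrArg Subtype.val hz
      apply Subtype.ext
      show β x = 0
      rw [← h1]; exact z.2

/-- cancelling a free summand -/
theorem FFR.of_prod_free {k : ℕ} (h : FFR R P (A × (Fin k → P))) : FFR R P A :=
  FFR.right (f := LinearMap.inr R A (Fin k → P)) (g := LinearMap.fst R A (Fin k → P))
    LinearMap.inr_injective LinearMap.fst_surjective (by
      rintro ⟨x, y⟩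
      constructor
      · intro h
        have h1 : x = 0 := h
        exact ⟨y, by rw [h1]; rfl⟩
      · rintro ⟨z, hz⟩
        rw [← hz]; rfl) (FFR.of_free k) h

/-- 2-of-3, left term -/
theorem FFR.left {f : A →ₗ[R] B} {g : B →ₗ[R] C} (hf : Function.Injective f)
    (hg : Function.Surjective g) (hfg : Function.Exact f g) (hB : FFR R P B) (hC : FFR R P C) :
    FFR R P A := by
  obtain ⟨c, γ, hγ, hk⟩ := hC.exists_surj
  obtain ⟨γ', hγ'⟩ := Module.projective_lifting_property g γ hg
  have hγ'' : ∀ x, g (γ' x) = γ x := fun x => LinearMap.congr_fun hγ' x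
  apply FFR.of_prod_free (k := c)
  let φ : (A × (Fin c → P)) →ₗ[R] B := f.coprod γ'
  have hφdef : ∀ x y, φ (x, y) = f x + γ' y := fun x y => by simp [φ]
  have hφ : Function.Surjective φ := by
    intro b
    obtain ⟨y, hy⟩ := hγ (g b)
    have h1 : g (b - γ' y) = 0 := by rw [map_sub, hγ'', hy, sub_self]
    obtain ⟨x, hx⟩ := (hfg _).mp h1
    exact ⟨(x, y), by rw [hφdef, hx]; simp⟩
  let p : LinearMap.ker φ →ₗ[R] LinearMap.ker γ :=
    LinearMap.codRestrict _ ((LinearMap.snd R A (Fin c → P)).comp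
      (LinearMap.ker φ).subtype) (by
      rintro ⟨⟨x, y⟩, hxy⟩
      rw [LinearMap.mem_ker]
      show γ y = 0
      have h1 := congrArg g (LinearMap.mem_ker.mp hxy)
      rw [hφdef, map_add, hfg.apply_apply_eq_zero, zero_add, hγ'', map_zero] at h1
      exact h1)
  have hp : Function.Bijective p := by
    constructor
    · rw [injective_iff_map_eq_zero]
      rintro ⟨⟨x, y⟩, hxy⟩ h
      have h1 : y = 0 := congrArg Subtype.val h
      subst h1
      have h2 : f x = 0 := by
        have := LinearMap.mem_ker.mp hxy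
        rw [hφdef, map_zero, add_zero] at this
        exact this
      have h3 : x = 0 := hf (by rw [h2, map_zero])
      subst h3
      rfl
    · rintro ⟨y, hy⟩
      have h1 : g (γ' y) = 0 := by rw [hγ'']; exact hy
      obtain ⟨x, hx⟩ := (hfg _).mp h1
      refine ⟨⟨(-x, y), ?_⟩, rfl⟩
      rw [LinearMap.mem_ker, hφdef, map_neg, hx, neg_add_cancel]
  have hkφ : FFR R P (LinearMap.ker φ) := hk.of_equiv (LinearEquiv.ofBijective p hp).symm
  exact FFR.mid (f := (LinearMap.ker φ).subtype) (g := φ) (Submodule.subtype_injective _) hφ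
    (LinearMap.exact_subtype_ker_map φ) hkφ hB

/-- every surjection from a free module onto an FFR module has FFR kernel -/
theorem FFR.ker {k : ℕ} (f : (Fin k → P) →ₗ[R] A) (hf : Function.Surjective f) (h : FFR R P A) :
    FFR R P (LinearMap.ker f) :=
  FFR.left (f := (LinearMap.ker f).subtype) (g := f) (Submodule.subtype_injective _) hf
    (LinearMap.exact_subtype_ker_map f) (FFR.of_free k) h







end Exact

section Projective

variable [Module.Projective R P]
variable {A B : Type u} [AddCommGroup A] [Module R A] [AddCommGroup B] [Module R B]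

theorem StFree.of_equiv (e : A ≃ₗ[R] B) (h : StFree R P A) : StFree R P B := by
  obtain ⟨m, n, ⟨f⟩⟩ := h
  exact ⟨m, n, ⟨(LinearEquiv.prodCongr e.symm (LinearEquiv.refl R _)).trans f⟩⟩

theorem StFree.of_free (k : ℕ) : StFree R P (Fin k → P) :=
  ⟨0, k + 0, ⟨powProd R P k 0⟩⟩



/-- stably free modules have finite free resolutions -/
theorem StFree.ffr (h : StFree R P A) : FFR R P A := by
  obtain ⟨m, n, ⟨f⟩⟩ := h
  exact FFR.of_prod_free ((FFR.of_free n).of_equiv f.symm)

/-- sums of stably free modules -/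
theorem StFree.prod (hA : StFree R P A) (hB : StFree R P B) : StFree R P (A × B) := by
  obtain ⟨m, n, ⟨f⟩⟩ := hA
  obtain ⟨m', n', ⟨f'⟩⟩ := hB
  refine ⟨m + m', n + n', ⟨?_⟩⟩
  have e1 : ((A × B) × (Fin (m + m') → P)) ≃ₗ[R] ((A × B) × ((Fin m → P) × (Fin m' → P))) :=
    LinearEquiv.prodCongr (LinearEquiv.refl R _) (powProd R P m m').symm
  have e2 : ((A × B) × ((Fin m → P) × (Fin m' → P))) ≃ₗ[R]
      ((A × (Fin m → P)) × (B × (Fin m' → P))) :=
    LinearEquiv.prodProdProdComm R A B (Fin m → P) (Fin m' → P)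
  have e3 : ((A × (Fin m → P)) × (B × (Fin m' → P))) ≃ₗ[R] ((Fin n → P) × (Fin n' → P)) :=
    LinearEquiv.prodCongr f f'
  exact (e1.trans e2).trans (e3.trans (powProd R P n n'))






end Projective

section Summand

variable [Module.Projective R P]

/-- a surjection onto a projective module splits -/
theorem split_equiv {B C : Type u} [AddCommGroup B] [Module R B] [AddCommGroup C] [Module R C]
    [Module.Projective R C] (g : B →ₗ[R] C) (hg : Function.Surjective g) :
    Nonempty ((LinearMap.ker g × C) ≃ₗ[R] B) := by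
  obtain ⟨s, hs⟩ := Module.projective_lifting_property g LinearMap.id hg
  have hs' : ∀ x, g (s x) = x := fun x => LinearMap.congr_fun hs x
  refine ⟨LinearEquiv.ofBijective ((LinearMap.ker g).subtype.coprod s) ⟨?_, ?_⟩⟩
  · rw [injective_iff_map_eq_zero]
    rintro ⟨⟨x, hx⟩, y⟩ hxy
    simp only [LinearMap.coprod_apply, Submodule.subtype_apply] at hxy
    have h1 : y = 0 := by
      have := congrArg g hxy
      rw [map_add, hs', LinearMap.mem_ker.mp hx, zero_add, map_zero] at this
      exact this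
    subst h1
    rw [map_zero, add_zero] at hxy
    subst hxy
    rfl
  · intro b
    refine ⟨(⟨b - s (g b), ?_⟩, g b), by simp⟩
    rw [LinearMap.mem_ker, map_sub, hs', sub_self]

/-- the fibre product of two maps -/
abbrev pull {F G X : Type u} [AddCommGroup F] [Module R F] [AddCommGroup G] [Module R G]
    [AddCommGroup X] [Module R X] (f : F →ₗ[R] X) (g : G →ₗ[R] X) : Submodule R (F × G) :=
  LinearMap.ker (f.comp (LinearMap.fst R F G) - g.comp (LinearMap.snd R F G))

/-- a Schanuel lemma: `Res n (ker f)`, `G` free ⇒ `Res n (ker g × F)` -/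
theorem Res.schanuel {n : ℕ} {F G X : Type u} [AddCommGroup F] [Module R F] [AddCommGroup G]
    [Module R G] [AddCommGroup X] [Module R X] [Module.Projective R F]
    (f : F →ₗ[R] X) (g : G →ₗ[R] X) (hf : Function.Surjective f) (hg : Function.Surjective g)
    (hG : Res R P n G) (h : Res R P n (LinearMap.ker f)) :
    Res R P n (LinearMap.ker g × F) := by
  have hmem : ∀ (x : F) (y : G), (x, y) ∈ pull f g ↔ f x = g y := by
    intro x y
    rw [LinearMap.mem_ker]
    simp only [LinearMap.sub_apply, LinearMap.comp_apply, LinearMap.fst_apply,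
      LinearMap.snd_apply, sub_eq_zero]
  -- `0 → ker f → pull → G → 0`
  have h1 : Res R P n (pull f g) := by
    let i : LinearMap.ker f →ₗ[R] pull f g :=
      LinearMap.codRestrict _ ((LinearMap.inl R F G).comp (LinearMap.ker f).subtype) (by
        rintro ⟨x, hx⟩
        show (x, 0) ∈ pull f g
        rw [hmem, map_zero]; exact hx)
    let p : pull f g →ₗ[R] G := (LinearMap.snd R F G).comp (pull f g).subtype
    refine Res.mid (f := i) (g := p) ?_ ?_ ?_ h hG
    · rintro ⟨x, hx⟩ ⟨y, hy⟩ hxy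
      have h1 : ((x, (0 : G)) : F × G) = (y, 0) := congrArg Subtype.val hxy
      exact Subtype.ext (Prod.ext_iff.mp h1).1
    · intro y
      obtain ⟨x, hx⟩ := hf (g y)
      exact ⟨⟨(x, y), (hmem x y).mpr hx⟩, rfl⟩
    · rintro ⟨⟨x, y⟩, hxy⟩
      constructor
      · intro h
        have h1 : y = 0 := h
        subst h1
        have h2 := (hmem _ _).mp hxy
        rw [map_zero] at h2
        exact ⟨⟨x, h2⟩, rfl⟩
      · rintro ⟨⟨z, hz⟩, h⟩
        have h1 : ((z, (0 : G)) : F × G) = (x, y) := congrArg Subtype.val h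
        exact (Prod.ext_iff.mp h1).2.symm
  -- `pull ≃ ker p' × F`, `ker p' ≃ ker g`
  let q : pull f g →ₗ[R] F := (LinearMap.fst R F G).comp (pull f g).subtype
  have hq : Function.Surjective q := by
    intro x
    obtain ⟨y, hy⟩ := hg (f x)
    exact ⟨⟨(x, y), (hmem x y).mpr hy.symm⟩, rfl⟩
  obtain ⟨e⟩ := split_equiv q hq
  let j : LinearMap.ker q →ₗ[R] LinearMap.ker g :=
    LinearMap.codRestrict _ ((LinearMap.snd R F G).comp
      ((pull f g).subtype.comp (LinearMap.ker q).subtype)) (by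
      rintro ⟨⟨⟨x, y⟩, hxy⟩, hx⟩
      have hx' : x = 0 := hx
      subst hx'
      rw [LinearMap.mem_ker]
      show g y = 0
      rw [← (hmem _ _).mp hxy, map_zero])
  have hj : Function.Bijective j := by
    constructor
    · rw [injective_iff_map_eq_zero]
      rintro ⟨⟨⟨x, y⟩, hxy⟩, hx⟩ h
      have hx' : x = 0 := hx
      have hy' : y = 0 := congrArg Subtype.val h
      subst hx' hy'
      rfl
    · rintro ⟨y, hy⟩
      refine ⟨⟨⟨(0, y), (hmem _ _).mpr ?_⟩, rfl⟩, rfl⟩
      rw [map_zero]; exact hy.symm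
  exact h1.of_equiv (e.symm.trans
    (LinearEquiv.prodCongr (LinearEquiv.ofBijective j hj) (LinearEquiv.refl R F)))

/-- direct summands of powers of `P` are stably `P`-free -/
def SumFree (R : Type u) [Ring R] (P : Type u) [AddCommGroup P] [Module R P] : Prop :=
  ∀ (M N : Type u) [AddCommGroup M] [Module R M] [AddCommGroup N] [Module R N] (k : ℕ),
    Nonempty ((M × N) ≃ₗ[R] (Fin k → P)) → StFree R P M

/-- direct summands of modules with finite `P`-resolutions have finite `P`-resolutions -/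
theorem Res.of_summand (hS : SumFree R P) : ∀ {n : ℕ} {M N : Type u} [AddCommGroup M]
    [Module R M] [AddCommGroup N] [Module R N], Res R P n (M × N) → FFR R P M
  | 0, M, N, _, _, _, _, ⟨k, he⟩ => (hS M N k he).ffr
  | n + 1, M, N, _, _, _, _, ⟨k, f, hf, h⟩ => by
    let f1 : (Fin k → P) →ₗ[R] M := (LinearMap.fst R M N).comp f
    let f2 : (Fin k → P) →ₗ[R] N := (LinearMap.snd R M N).comp f
    have hf1 : Function.Surjective f1 := fun x => by
      obtain ⟨z, hz⟩ := hf (x, 0)
      exact ⟨z, by show (f z).1 = x; rw [hz]⟩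
    have hf2 : Function.Surjective f2 := fun y => by
      obtain ⟨z, hz⟩ := hf (0, y)
      exact ⟨z, by show (f z).2 = y; rw [hz]⟩
    let g : ((Fin k → P) × (Fin k → P)) →ₗ[R] (M × N) := f1.prodMap f2
    have hg : Function.Surjective g := by
      rintro ⟨x, y⟩
      obtain ⟨a, ha⟩ := hf1 x
      obtain ⟨b, hb⟩ := hf2 y
      exact ⟨(a, b), Prod.ext ha hb⟩
    have h1 : Res R P n (LinearMap.ker g × (Fin k → P)) :=
      Res.schanuel f g hf hg ((Res.of_free (k + k) n).of_equiv (powProd R P k k).symm) h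
    let e : LinearMap.ker g ≃ₗ[R] (LinearMap.ker f1 × LinearMap.ker f2) :=
      { toFun := fun z => (⟨z.1.1, congrArg Prod.fst z.2⟩, ⟨z.1.2, congrArg Prod.snd z.2⟩)
        invFun := fun z => ⟨(z.1.1, z.2.1), Prod.ext z.1.2 z.2.2⟩
        map_add' := fun _ _ => rfl
        map_smul' := fun _ _ => rfl
        left_inv := fun _ => rfl
        right_inv := fun _ => rfl }
    have h2 : Res R P n (LinearMap.ker f1 × (LinearMap.ker f2 × (Fin k → P))) :=
      h1.of_equiv ((LinearEquiv.prodCongr e (LinearEquiv.refl R _)).trans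
        (LinearEquiv.prodAssoc R _ _ _))
    exact FFR.of_surj f1 hf1 (Res.of_summand hS h2)

/-- direct summands of modules with finite `P`-resolutions have finite `P`-resolutions -/
theorem FFR.of_summand (hS : SumFree R P) {M N : Type u} [AddCommGroup M]
    [Module R M] [AddCommGroup N] [Module R N] (h : FFR R P (M × N)) : FFR R P M := by
  obtain ⟨n, h⟩ := h
  exact h.of_summand hS

end Summand

end Crest.Agent.R181.PR
end

-- ▼ part R181/MF459a
section

/-!
# R181 B6 (A5): base change of finite free resolutions in matrix form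

`Θ` a `(Lam, E)`-bimodule, matrix-flat over `E` on the right.  If `coker C` (`C` a matrix over `E`)
has a finite free resolution over `E` then `Θ ⊗ coker C = (κ → Θ) ⧸ range (mR C)` has a finite
resolution by powers of `Θ`.
-/

set_option linter.unusedSectionVars false

namespace Crest.Agent.R181.MF

open MulOpposite VA

universe u

section

variable {Lam : Type u} [Ring Lam] {E : Type u} [Ring E]
variable (Θ : Type u) [AddCommGroup Θ] [Module Lam Θ] [Module Eᵐᵒᵖ Θ] [SMulCommClass Lam Eᵐᵒᵖ Θ]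
variable {ι κ μ ι' κ' : Type} [Fintype ι] [Fintype κ] [Fintype μ] [Fintype ι'] [Fintype κ']

theorem mR_add (A B : Matrix ι κ E) (x : ι → Θ) :
    mR Lam Θ (A + B) x = mR Lam Θ A x + mR Lam Θ B x := by
  funext j
  simp [add_smul, Finset.sum_add_distrib]

theorem mR_one [DecidableEq κ] (x : κ → Θ) : mR Lam Θ (1 : Matrix κ κ E) x = x := by
  funext j
  simp only [mR_apply]
  rw [Finset.sum_eq_single j]
  · simp
  · intro i _ hij
    rw [Matrix.one_apply_ne hij]; simp
  · intro h; exact absurd (Finset.mem_univ j) h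

variable {M : Type*} [AddCommGroup M] [Module E M]

omit [Fintype μ] in
theorem lin_apply [DecidableEq κ] (p : (κ → E) →ₗ[E] M) (v : κ → E) :
    p v = ∑ i, v i • p (Pi.single i 1) := by
  have h : v = ∑ i, v i • (Pi.single i 1 : κ → E) := by
    funext j
    simp [Finset.sum_apply, Pi.single_apply]
  conv_lhs => rw [h]
  rw [map_sum]
  exact Finset.sum_congr rfl fun i _ => map_smul _ _ _

theorem vecMul_sum (H : Matrix κ κ' E) (v : κ → E) :
    Matrix.vecMul v H = ∑ i, v i • (H i : κ' → E) := by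
  funext j
  simp [Matrix.vecMul, dotProduct, Finset.sum_apply]

/-- a comparison matrix between two presentations of `M` -/
theorem exists_comparison (p : (κ → E) →ₗ[E] M) (p' : (κ' → E) →ₗ[E] M)
    (hp' : Function.Surjective p') :
    ∃ H : Matrix κ κ' E, ∀ v, p' (Matrix.vecMul v H) = p v := by
  classical
  choose H hH using fun i : κ => hp' (p (Pi.single i 1))
  refine ⟨Matrix.of H, fun v => ?_⟩
  rw [vecMul_sum, map_sum, lin_apply p v]
  apply Finset.sum_congr rfl
  intro i _
  rw [map_smul]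
  congr 1
  exact hH i

theorem exists_factor (p' : (κ' → E) →ₗ[E] M) (C' : Matrix ι' κ' E)
    (hC' : ∀ v, p' v = 0 ↔ ∃ w, Matrix.vecMul w C' = v) (Z : Matrix ι κ' E)
    (hZ : ∀ i, p' (Z i) = 0) : ∃ X : Matrix ι ι' E, Z = X * C' := by
  choose X hX using fun i => (hC' (Z i)).1 (hZ i)
  refine ⟨Matrix.of X, ?_⟩
  ext i j
  have := congrFun (hX i) j
  rw [← this]
  rfl

/-- the map `Θ ⊗ coker C → Θ ⊗ coker C'` -/
noncomputable def thMap (C : Matrix ι κ E) (C' : Matrix ι' κ' E) (H : Matrix κ κ' E)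
    (hH : ∃ X : Matrix ι ι' E, C * H = X * C') :
    ((κ → Θ) ⧸ LinearMap.range (mR Lam Θ C)) →ₗ[Lam]
      ((κ' → Θ) ⧸ LinearMap.range (mR Lam Θ C')) :=
  (LinearMap.range (mR Lam Θ C)).mapQ (LinearMap.range (mR Lam Θ C')) (mR Lam Θ H) (by
    rintro _ ⟨x, rfl⟩
    obtain ⟨X, hX⟩ := hH
    refine ⟨mR Lam Θ X x, ?_⟩
    rw [← mR_mul, ← mR_mul, hX])

theorem thMap_mkQ (C : Matrix ι κ E) (C' : Matrix ι' κ' E) (H : Matrix κ κ' E)
    (hH : ∃ X : Matrix ι ι' E, C * H = X * C') (v : κ → Θ) :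
    thMap (Lam := Lam) Θ C C' H hH ((LinearMap.range (mR Lam Θ C)).mkQ v) =
      (LinearMap.range (mR Lam Θ C')).mkQ (mR Lam Θ H v) := rfl

variable (Lam) in
/-- independence of the presentation -/
theorem TH_equiv (C : Matrix ι κ E) (C' : Matrix ι' κ' E)
    (p : (κ → E) →ₗ[E] M) (hp : Function.Surjective p)
    (hC : ∀ v, p v = 0 ↔ ∃ w, Matrix.vecMul w C = v)
    (p' : (κ' → E) →ₗ[E] M) (hp' : Function.Surjective p')
    (hC' : ∀ v, p' v = 0 ↔ ∃ w, Matrix.vecMul w C' = v) :
    Nonempty (((κ → Θ) ⧸ LinearMap.range (mR Lam Θ C)) ≃ₗ[Lam]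
      ((κ' → Θ) ⧸ LinearMap.range (mR Lam Θ C'))) := by
  classical
  obtain ⟨H, hH⟩ := exists_comparison p p' hp'
  obtain ⟨H', hH'⟩ := exists_comparison p' p hp
  have hrow : ∀ (C : Matrix ι κ E) (i : ι), ∃ w, Matrix.vecMul w C = C i := fun C i =>
    ⟨Pi.single i 1, by simp; rfl⟩
  have hrow' : ∀ (C : Matrix ι' κ' E) (i : ι'), ∃ w, Matrix.vecMul w C = C i := fun C i =>
    ⟨Pi.single i 1, by simp; rfl⟩
  have h1 : ∃ X : Matrix ι ι' E, C * H = X * C' := by
    apply exists_factor p' C' hC'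
    intro i
    have : (C * H) i = Matrix.vecMul (C i) H := rfl
    rw [this, hH]
    exact (hC _).2 (hrow C i)
  have h2 : ∃ X : Matrix ι' ι E, C' * H' = X * C := by
    apply exists_factor p C hC
    intro i
    have : (C' * H') i = Matrix.vecMul (C' i) H' := rfl
    rw [this, hH']
    exact (hC' _).2 (hrow' C' i)
  have h3 : ∃ Y : Matrix κ ι E, H * H' - 1 = Y * C := by
    apply exists_factor p C hC
    intro i
    have : (H * H' - 1 : Matrix κ κ E) i = Matrix.vecMul (H i) H' - (1 : Matrix κ κ E) i := rfl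
    rw [this, map_sub, hH']
    have e1 : (H i : κ' → E) = Matrix.vecMul (Pi.single i 1) H := by simp; rfl
    have e2 : ((1 : Matrix κ κ E) i : κ → E) = Pi.single i 1 := by
      funext j; simp [Matrix.one_apply, Pi.single_apply, eq_comm]
    rw [e1, hH, e2, sub_self]
  have h4 : ∃ Y : Matrix κ' ι' E, H' * H - 1 = Y * C' := by
    apply exists_factor p' C' hC'
    intro i
    have : (H' * H - 1 : Matrix κ' κ' E) i = Matrix.vecMul (H' i) H - (1 : Matrix κ' κ' E) i := rfl
    rw [this, map_sub, hH]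
    have e1 : (H' i : κ → E) = Matrix.vecMul (Pi.single i 1) H' := by simp; rfl
    have e2 : ((1 : Matrix κ' κ' E) i : κ' → E) = Pi.single i 1 := by
      funext j; simp [Matrix.one_apply, Pi.single_apply, eq_comm]
    rw [e1, hH', e2, sub_self]
  obtain ⟨Y, hY⟩ := h3
  obtain ⟨Y', hY'⟩ := h4
  refine ⟨LinearEquiv.ofLinearMap (thMap (Lam := Lam) Θ C C' H h1)
    (thMap (Lam := Lam) Θ C' C H' h2) ?_ ?_⟩
  · refine LinearMap.ext fun y => ?_
    obtain ⟨v, rfl⟩ := Submodule.mkQ_surjective _ y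
    rw [LinearMap.comp_apply, thMap_mkQ, thMap_mkQ, ← mR_mul]
    have e1 : H' * H = 1 + Y' * C' := by rw [← hY']; abel
    rw [e1, mR_add, mR_one, mR_mul, map_add]
    have e2 : (LinearMap.range (mR Lam Θ C')).mkQ (mR Lam Θ C' (mR Lam Θ Y' v)) = 0 :=
      (mkQ_eq_zero_iff (M := Θ) _ _).2 ⟨_, rfl⟩
    rw [e2, add_zero]
    rfl
  · refine LinearMap.ext fun y => ?_
    obtain ⟨v, rfl⟩ := Submodule.mkQ_surjective _ y
    rw [LinearMap.comp_apply, thMap_mkQ, thMap_mkQ, ← mR_mul]
    have e1 : H * H' = 1 + Y * C := by rw [← hY]; abel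
    rw [e1, mR_add, mR_one, mR_mul, map_add]
    have e2 : (LinearMap.range (mR Lam Θ C)).mkQ (mR Lam Θ C (mR Lam Θ Y v)) = 0 :=
      (mkQ_eq_zero_iff (M := Θ) _ _).2 ⟨_, rfl⟩
    rw [e2, add_zero]
    rfl

variable (Lam) in
/-- **(A5)** -/
theorem res_TH [IsNoetherianRing E] (hF : Flat Lam E Θ) :
    ∀ (n : ℕ) (ι κ : Type) [Fintype ι] [Fintype κ] (C : Matrix ι κ E) (M : Type u)
      [AddCommGroup M] [Module E M] (p : (κ → E) →ₗ[E] M) (_ : Function.Surjective p)
      (_ : ∀ v, p v = 0 ↔ ∃ w, Matrix.vecMul w C = v), FR.Res E n M →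
      PR.Res Lam Θ n ((κ → Θ) ⧸ LinearMap.range (mR Lam Θ C))
  | 0, ι, κ, _, _, C, M, _, _, p, hp, hC, ⟨k, ⟨e⟩⟩ => by
    obtain ⟨e1⟩ := TH_equiv Lam Θ C (0 : Matrix (Fin 0) (Fin k) E) p hp hC
      e.symm.toLinearMap e.symm.surjective (by
        intro v
        constructor
        · intro h
          have hv : v = 0 := e.symm.injective (by rw [map_zero]; exact h)
          exact ⟨0, by rw [hv]; simp⟩
        · rintro ⟨w, rfl⟩
          simp)
    have h0 : LinearMap.range (mR Lam Θ (0 : Matrix (Fin 0) (Fin k) E)) = ⊥ := by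
      rw [eq_bot_iff]
      rintro _ ⟨x, rfl⟩
      rw [mR_zero]; exact zero_mem _
    refine ⟨k, ⟨e1.trans (Submodule.quotEquivOfEqBot _ h0)⟩⟩
  | n + 1, ι, κ, _, _, C, M, _, _, p, hp, hC, ⟨k, f, hf, hk⟩ => by
    classical
    -- generators of the kernel
    have hN : IsNoetherian E (Fin k → E) := inferInstance
    obtain ⟨m, s, hs⟩ := Submodule.fg_iff_exists_fin_generating_family.1
      (hN.noetherian (LinearMap.ker f))
    let G : Matrix (Fin m) (Fin k) E := Matrix.of s
    have hG : ∀ v, f v = 0 ↔ ∃ w, Matrix.vecMul w G = v := by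
      intro v
      have h1 : f v = 0 ↔ v ∈ Submodule.span E (Set.range s) := by
        rw [hs, LinearMap.mem_ker]
      rw [h1, Submodule.mem_span_range_iff_exists_fun]
      constructor
      · rintro ⟨c, hc⟩
        exact ⟨c, by rw [← hc, vecMul_sum]; rfl⟩
      · rintro ⟨c, hc⟩
        exact ⟨c, by rw [← hc, vecMul_sum]; rfl⟩
    obtain ⟨l, D, hD⟩ := exists_syz G
    -- `ker f = range G = E^m / range D`
    let q : (Fin m → E) →ₗ[E] LinearMap.ker f :=
      LinearMap.codRestrict _ (Matrix.vecMulLinear G) (fun v => (hG _).2 ⟨v, rfl⟩)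
    have hq : Function.Surjective q := by
      rintro ⟨v, hv⟩
      obtain ⟨w, hw⟩ := (hG v).1 hv
      exact ⟨w, Subtype.ext hw⟩
    have hqD : ∀ v, q v = 0 ↔ ∃ w, Matrix.vecMul w D = v := by
      intro v
      rw [← hD v]
      constructor
      · intro h; exact congrArg Subtype.val h
      · intro h; exact Subtype.ext h
    have ih := res_TH hF n (Fin l) (Fin m) D (LinearMap.ker f) q hq hqD hk
    -- `Θ^m / range D ≃ range (mR G) = ker (Θ^k → Θ^k / range G)`
    have hexact : ∀ v : Fin m → Θ, mR Lam Θ G v = 0 ↔ ∃ w, mR Lam Θ D w = v := by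
      intro v
      constructor
      · intro h; exact hF _ _ _ D G hD v h
      · rintro ⟨w, rfl⟩
        have hDG : D * G = 0 := by
          ext i j
          have := (hD (D i)).2 ⟨Pi.single i 1, by simp; rfl⟩
          exact congrFun this j
        rw [← mR_mul, hDG, mR_zero]
    let g : (Fin m → Θ) →ₗ[Lam] LinearMap.ker (LinearMap.range (mR Lam Θ G)).mkQ :=
      LinearMap.codRestrict _ (mR Lam Θ G) (fun v => by
        rw [Submodule.ker_mkQ]; exact ⟨v, rfl⟩)
    have hg : Function.Surjective g := by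
      rintro ⟨v, hv⟩
      rw [Submodule.ker_mkQ] at hv
      obtain ⟨w, hw⟩ := hv
      exact ⟨w, Subtype.ext hw⟩
    have hgk : LinearMap.ker g = LinearMap.range (mR Lam Θ D) := by
      ext v
      rw [LinearMap.mem_ker, LinearMap.mem_range, ← hexact v]
      constructor
      · intro h; exact congrArg Subtype.val h
      · intro h; exact Subtype.ext h
    have e1 : ((Fin m → Θ) ⧸ LinearMap.range (mR Lam Θ D)) ≃ₗ[Lam]
        LinearMap.ker (LinearMap.range (mR Lam Θ G)).mkQ :=
      (Submodule.quotEquivOfEq _ _ hgk.symm).trans (g.quotKerEquivOfSurjective hg)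
    have h2 : PR.Res Lam Θ (n + 1) ((Fin k → Θ) ⧸ LinearMap.range (mR Lam Θ G)) :=
      ⟨k, (LinearMap.range (mR Lam Θ G)).mkQ, Submodule.mkQ_surjective _, ih.of_equiv e1⟩
    obtain ⟨e2⟩ := TH_equiv Lam Θ G C f hf hG p hp hC
    exact h2.of_equiv e2

variable (Lam) in
/-- **(A5), final form** -/
theorem ffr_TH [IsNoetherianRing E] (hF : Flat Lam E Θ) {ι κ : Type} [Fintype ι] [Fintype κ]
    (C : Matrix ι κ E)
    (h : FR.FFR E ((κ → E) ⧸ LinearMap.range (Matrix.vecMulLinear C))) :
    PR.FFR Lam Θ ((κ → Θ) ⧸ LinearMap.range (mR Lam Θ C)) := by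
  obtain ⟨n, hn⟩ := h
  exact ⟨n, res_TH Lam Θ hF n ι κ C _ (LinearMap.range (Matrix.vecMulLinear C)).mkQ
    (Submodule.mkQ_surjective _) (by
      intro v
      rw [Submodule.mkQ_apply, Submodule.Quotient.mk_eq_zero]
      rfl) hn⟩

variable (Lam) in
/-- every object of the class `memTH` has a finite resolution by powers of `Θ` if all f.g.
`E`-modules have finite free resolutions -/
theorem ffr_of_memTH [IsNoetherianRing E] (hF : Flat Lam E Θ)
    (hE : ∀ (M : Type u) [AddCommGroup M] [Module E M], Module.Finite E M → FR.FFR E M)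
    {Y : Type u} [AddCommGroup Y] [Module Lam Y] (hY : memTH Lam E Θ Y) : PR.FFR Lam Θ Y := by
  obtain ⟨ι, κ, _, _, C, ⟨e⟩⟩ := hY
  obtain ⟨n, hn⟩ := ffr_TH Lam Θ hF C (hE _ inferInstance)
  exact ⟨n, hn.of_equiv e.symm⟩



end

end Crest.Agent.R181.MF
end

-- ▼ part R181/SF459a
section

/-!
# R181 (V2x): transfer of "projectives are stably free" from `V` to summands of powers of `P`

`P` an `R`-module, `ρ : Vᵐᵒᵖ ≃+* Module.End R P`.  If every f.g. projective `V`-module is stably
free then every direct summand of a power of `P` is stably `P`-free.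
-/

namespace Crest.Agent.R181.SF

open MulOpposite

universe u

section Hom

variable {R : Type u} [Ring R] {P : Type u} [AddCommGroup P] [Module R P] {V : Type u} [Ring V]
  (ρ : Vᵐᵒᵖ ≃+* Module.End R P)

/-- `Hom_R(P, M)` as a left `V`-module -/
def HomP (_ρ : Vᵐᵒᵖ ≃+* Module.End R P) (M : Type u) [AddCommGroup M] [Module R M] : Type u :=
  P →ₗ[R] M

variable {M N : Type u} [AddCommGroup M] [Module R M] [AddCommGroup N] [Module R N]

instance : AddCommGroup (HomP ρ M) := inferInstanceAs (AddCommGroup (P →ₗ[R] M))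

/-- to linear maps -/
def toL (f : HomP ρ M) : P →ₗ[R] M := f

/-- from linear maps -/
def ofL (f : P →ₗ[R] M) : HomP ρ M := f

@[simp] theorem toL_ofL (f : P →ₗ[R] M) : toL ρ (ofL ρ f) = f := rfl
@[simp] theorem ofL_toL (f : HomP ρ M) : ofL ρ (toL ρ f) = f := rfl
@[simp] theorem toL_add (f g : HomP ρ M) : toL ρ (f + g) = toL ρ f + toL ρ g := rfl
@[simp] theorem toL_zero : toL ρ (0 : HomP ρ M) = 0 := rfl
theorem toL_sum {ι : Type*} (s : Finset ι) (F : ι → HomP ρ M) :
    toL ρ (∑ i ∈ s, F i) = ∑ i ∈ s, toL ρ (F i) := by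
  classical
  induction s using Finset.induction_on with
  | empty => rfl
  | insert a s ha ih => rw [Finset.sum_insert ha, Finset.sum_insert ha, toL_add, ih]

theorem toL_inj {f g : HomP ρ M} (h : toL ρ f = toL ρ g) : f = g := h

instance : SMul V (HomP ρ M) where
  smul v f := ofL ρ ((toL ρ f).comp (ρ (op v)))

@[simp] theorem toL_smul (v : V) (f : HomP ρ M) : toL ρ (v • f) = (toL ρ f).comp (ρ (op v)) := rfl

instance : Module V (HomP ρ M) where
  one_smul f := by
    apply toL_inj
    rw [toL_smul, op_one, map_one]; rfl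
  mul_smul v w f := by
    apply toL_inj
    rw [toL_smul, toL_smul, toL_smul, op_mul, map_mul, LinearMap.comp_assoc]; rfl
  smul_zero v := by
    apply toL_inj
    rw [toL_smul, toL_zero, LinearMap.zero_comp]
  smul_add v f g := by
    apply toL_inj
    rw [toL_smul, toL_add, LinearMap.add_comp]; rfl
  add_smul v w f := by
    apply toL_inj
    rw [toL_smul, toL_add, toL_smul, toL_smul, op_add, map_add, LinearMap.comp_add]
  zero_smul f := by
    apply toL_inj
    rw [toL_smul, op_zero, map_zero, LinearMap.comp_zero, toL_zero]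

/-- functoriality -/
def mapP (g : M →ₗ[R] N) : HomP ρ M →ₗ[V] HomP ρ N where
  toFun f := ofL ρ (g.comp (toL ρ f))
  map_add' f f' := by apply toL_inj; simp [LinearMap.comp_add]
  map_smul' v f := by apply toL_inj; simp [LinearMap.comp_assoc]

@[simp] theorem toL_mapP (g : M →ₗ[R] N) (f : HomP ρ M) : toL ρ (mapP ρ g f) = g.comp (toL ρ f) := rfl

/-- isomorphisms -/
def mapPEquiv (e : M ≃ₗ[R] N) : HomP ρ M ≃ₗ[V] HomP ρ N :=
  LinearEquiv.ofLinearMap (mapP ρ e.toLinearMap) (mapP ρ e.symm.toLinearMap)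
    (by ext f; apply toL_inj; ext x; simp)
    (by ext f; apply toL_inj; ext x; simp)

/-- products -/
def prodP : HomP ρ (M × N) ≃ₗ[V] (HomP ρ M × HomP ρ N) where
  toFun f := (ofL ρ ((LinearMap.fst R M N).comp (toL ρ f)), ofL ρ ((LinearMap.snd R M N).comp (toL ρ f)))
  map_add' f f' := by
    apply Prod.ext <;> apply toL_inj <;> simp [LinearMap.comp_add]
  map_smul' v f := by
    apply Prod.ext <;> apply toL_inj <;> simp [LinearMap.comp_assoc]
  invFun f := ofL ρ ((toL ρ f.1).prod (toL ρ f.2))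
  left_inv f := by
    apply toL_inj; ext x <;> simp
  right_inv f := by
    apply Prod.ext <;> apply toL_inj <;> ext x <;> simp

/-- `Hom(P, P^k) = V^k` -/
def powP (k : ℕ) : HomP ρ (Fin k → P) ≃ₗ[V] (Fin k → V) where
  toFun f := fun j => unop (ρ.symm ((LinearMap.proj j).comp (toL ρ f)))
  map_add' f f' := by
    ext j
    simp [LinearMap.comp_add]
  map_smul' v f := by
    ext j
    have h1 : (LinearMap.proj j : (Fin k → P) →ₗ[R] P).comp ((toL ρ f).comp (ρ (op v))) =
        ((LinearMap.proj j).comp (toL ρ f) : Module.End R P) * ρ (op v) := rfl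
    rw [toL_smul, h1, map_mul, RingEquiv.symm_apply_apply, unop_mul]
    rfl
  invFun v := ofL ρ (LinearMap.pi fun j => ρ (op (v j)))
  left_inv f := by
    apply toL_inj
    ext x j
    simp
  right_inv v := by
    ext j
    have h1 : (LinearMap.proj j : (Fin k → P) →ₗ[R] P).comp
        (LinearMap.pi fun j => (ρ (op (v j)) : P →ₗ[R] P)) = ρ (op (v j)) := by
      ext x; simp
    simp only [toL_ofL]
    rw [h1, RingEquiv.symm_apply_apply, unop_op]

/-- every `V`-linear map `Hom(P,X) → Hom(P,Y)` comes from `X → Y` if `X` is a summand of `P^k` -/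
theorem exists_map {X Y X' : Type u} [AddCommGroup X] [Module R X] [AddCommGroup Y] [Module R Y]
    [AddCommGroup X'] [Module R X'] {k : ℕ} (e : (X × X') ≃ₗ[R] (Fin k → P))
    (α : HomP ρ X →ₗ[V] HomP ρ Y) : ∃ g : X →ₗ[R] Y, ∀ f, toL ρ (α f) = g.comp (toL ρ f) := by
  classical
  let i : Fin k → X →ₗ[R] P := fun j =>
    (LinearMap.proj j).comp (e.toLinearMap.comp (LinearMap.inl R X X'))
  let p : Fin k → P →ₗ[R] X := fun j =>
    (LinearMap.fst R X X').comp (e.symm.toLinearMap.comp (LinearMap.single R (fun _ => P) j))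
  have hpi : ∀ x : X, ∑ j, p j (i j x) = x := by
    intro x
    have h1 : ∑ j, Pi.single (M := fun _ : Fin k => P) j (e (x, 0) j) = e (x, 0) :=
      Finset.univ_sum_single _
    have h2 : ∑ j, p j (i j x) = (e.symm (∑ j, Pi.single (M := fun _ : Fin k => P) j (e (x, 0) j))).1 := by
      rw [map_sum, Prod.fst_sum]
      rfl
    rw [h2, h1, LinearEquiv.symm_apply_apply]
  refine ⟨∑ j, (toL ρ (α (ofL ρ (p j)))).comp (i j), ?_⟩
  intro f
  have h1 : f = ∑ j, (unop (ρ.symm ((i j).comp (toL ρ f)))) • ofL ρ (p j) := by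
    apply toL_inj
    have h2 : toL ρ (∑ j, (unop (ρ.symm ((i j).comp (toL ρ f)))) • ofL ρ (p j)) =
        ∑ j, toL ρ ((unop (ρ.symm ((i j).comp (toL ρ f)))) • ofL ρ (p j)) :=
      toL_sum ρ _ _
    rw [h2]
    ext x
    rw [LinearMap.sum_apply]
    conv_lhs => rw [← hpi (toL ρ f x)]
    apply Finset.sum_congr rfl
    intro j _
    rw [toL_smul, op_unop, RingEquiv.apply_symm_apply]
    rfl
  conv_lhs => rw [h1]
  rw [map_sum]
  have h2 : toL ρ (∑ j, α ((unop (ρ.symm ((i j).comp (toL ρ f)))) • ofL ρ (p j))) =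
      ∑ j, toL ρ (α ((unop (ρ.symm ((i j).comp (toL ρ f)))) • ofL ρ (p j))) :=
    toL_sum ρ _ _
  rw [h2]
  ext x
  rw [LinearMap.sum_apply, LinearMap.comp_apply, LinearMap.sum_apply]
  apply Finset.sum_congr rfl
  intro j _
  rw [map_smul, toL_smul, op_unop, RingEquiv.apply_symm_apply]
  rfl

/-- `Hom(P, -)` is faithful on summands of powers of `P` -/
theorem eq_of_comp {X Y X' : Type u} [AddCommGroup X] [Module R X] [AddCommGroup Y] [Module R Y]
    [AddCommGroup X'] [Module R X'] {k : ℕ} (e : (X × X') ≃ₗ[R] (Fin k → P))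
    {g g' : X →ₗ[R] Y} (h : ∀ f : P →ₗ[R] X, g.comp f = g'.comp f) : g = g' := by
  classical
  ext x
  have h1 : ∑ j, Pi.single (M := fun _ : Fin k => P) j (e (x, 0) j) = e (x, 0) :=
    Finset.univ_sum_single _
  have h2 : x = ∑ j, (LinearMap.fst R X X').comp (e.symm.toLinearMap.comp
      (LinearMap.single R (fun _ => P) j)) (e (x, 0) j) := by
    have h3 : (∑ j, (LinearMap.fst R X X').comp (e.symm.toLinearMap.comp
        (LinearMap.single R (fun _ => P) j)) (e (x, 0) j)) =
        (e.symm (∑ j, Pi.single (M := fun _ : Fin k => P) j (e (x, 0) j))).1 := by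
      rw [map_sum, Prod.fst_sum]
      rfl
    rw [h3, h1, LinearEquiv.symm_apply_apply]
  rw [h2, map_sum, map_sum]
  apply Finset.sum_congr rfl
  intro j _
  exact LinearMap.congr_fun (h _) _

/-- `Hom(P, -)` reflects isomorphisms on summands of powers of `P` -/
theorem exists_equiv {X Y X' Y' : Type u} [AddCommGroup X] [Module R X] [AddCommGroup Y]
    [Module R Y] [AddCommGroup X'] [Module R X'] [AddCommGroup Y'] [Module R Y'] {k l : ℕ}
    (e : (X × X') ≃ₗ[R] (Fin k → P)) (e' : (Y × Y') ≃ₗ[R] (Fin l → P))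
    (α : HomP ρ X ≃ₗ[V] HomP ρ Y) : Nonempty (X ≃ₗ[R] Y) := by
  obtain ⟨g, hg⟩ := exists_map ρ e α.toLinearMap
  obtain ⟨h, hh⟩ := exists_map ρ e' α.symm.toLinearMap
  refine ⟨LinearEquiv.ofLinearMap g h ?_ ?_⟩
  · apply eq_of_comp e'
    intro f
    have h1 := hh (ofL ρ f)
    have h2 := hg (α.symm (ofL ρ f))
    simp only [LinearEquiv.coe_coe, LinearEquiv.apply_symm_apply, toL_ofL] at h1 h2
    rw [LinearMap.comp_assoc, ← h1, ← h2]
    rfl
  · apply eq_of_comp e
    intro f
    have h1 := hg (ofL ρ f)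
    have h2 := hh (α (ofL ρ f))
    simp only [LinearEquiv.coe_coe, LinearEquiv.symm_apply_apply, toL_ofL] at h1 h2
    rw [LinearMap.comp_assoc, ← h1, ← h2]
    rfl

end Hom

/-- **(V2x)** -/
theorem sumFree {R : Type u} [Ring R] {P : Type u} [AddCommGroup P] [Module R P] {V : Type u}
    [Ring V] (ρ : Vᵐᵒᵖ ≃+* Module.End R P)
    (hV : ∀ (Q : Type u) [AddCommGroup Q] [Module V Q], Module.Finite V Q →
      Module.Projective V Q → FR.StFree V Q) : PR.SumFree R P := by
  intro M N _ _ _ _ k ⟨e⟩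
  have e1 : (HomP ρ M × HomP ρ N) ≃ₗ[V] (Fin k → V) :=
    (prodP ρ).symm.trans ((mapPEquiv ρ e).trans (powP ρ k))
  have hfin : Module.Finite V (HomP ρ M) :=
    Module.Finite.of_surjective ((LinearMap.fst V (HomP ρ M) (HomP ρ N)).comp e1.symm.toLinearMap)
      (fun x => ⟨e1 (x, 0), by simp⟩)
  have hproj : Module.Projective V (HomP ρ M) :=
    Module.Projective.of_split
      (e1.toLinearMap.comp (LinearMap.inl V (HomP ρ M) (HomP ρ N)))
      ((LinearMap.fst V (HomP ρ M) (HomP ρ N)).comp e1.symm.toLinearMap) (by ext x; simp)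
  obtain ⟨m, n, ⟨f⟩⟩ := hV _ hfin hproj
  refine ⟨m, n, ?_⟩
  have e2 : HomP ρ (M × (Fin m → P)) ≃ₗ[V] HomP ρ (Fin n → P) := by
    have a1 : (HomP ρ M × HomP ρ (Fin m → P)) ≃ₗ[V] (HomP ρ M × (Fin m → V)) :=
      LinearEquiv.prodCongr (LinearEquiv.refl V _) (powP ρ m)
    exact (prodP ρ).trans (a1.trans (f.trans (powP ρ n).symm))
  have e3 : ((M × (Fin m → P)) × N) ≃ₗ[R] (Fin (k + m) → P) := by
    have a1 : ((M × (Fin m → P)) × N) ≃ₗ[R] ((M × N) × (Fin m → P)) :=
      { toFun := fun x => ((x.1.1, x.2), x.1.2)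
        invFun := fun x => ((x.1.1, x.2), x.1.2)
        map_add' := fun _ _ => rfl
        map_smul' := fun _ _ => rfl
        left_inv := fun _ => rfl
        right_inv := fun _ => rfl }
    have a2 : ((M × N) × (Fin m → P)) ≃ₗ[R] ((Fin k → P) × (Fin m → P)) :=
      LinearEquiv.prodCongr e (LinearEquiv.refl R _)
    exact a1.trans (a2.trans (PR.powProd R P k m))
  have e4 : ((Fin n → P) × (Fin 0 → P)) ≃ₗ[R] (Fin (n + 0) → P) := PR.powProd R P n 0
  exact exists_equiv ρ e3 e4 e2

end Crest.Agent.R181.SF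
end

-- ▼ part R181/VA980e
section

/-! R181, V-chain, V2a (A4): the part `(A, 0, C)` of a triple, the projective module `P0`, good
triples. -/

set_option autoImplicit false
set_option linter.unusedSectionVars false

open MulOpposite

namespace Crest.Agent.R181.VA

open LK V868

universe u

section AC

variable {DD : Type u} [Ring DD] (L : Line DD)
variable (Y : Type*) [AddCommGroup Y] [Module (Lam L) Y]

theorem iB_one_mul (m : Lam L) : ∃ o : L.O, iB L 1 * m = iB L o * iB L 1 := by
  obtain ⟨v, o, a, b, c, rfl⟩ := eq_sum L m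
  refine ⟨o, ?_⟩
  rw [mul_add, mul_add, mul_add, mul_add, iB_iA, ← mul_assoc, iB_iC, zero_mul, ← mul_assoc, iB_iC,
    zero_mul, iB_iC, ← map_mul, ← map_mul, one_mul, mul_one, zero_add, add_zero, add_zero, add_zero]

theorem iB_one_iB_one : iB L 1 * iB L 1 = iB L 1 := by rw [← map_mul, one_mul]

/-- the part `(A, 0, C)` of a triple `(A, B, C)` -/
def AC : Submodule (Lam L) Y where
  carrier := {y | iB L 1 • y = 0}
  add_mem' := fun {a b} ha hb => by
    have ha' : iB L 1 • a = 0 := ha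
    have hb' : iB L 1 • b = 0 := hb
    show iB L 1 • (a + b) = 0
    rw [smul_add, ha', hb', add_zero]
  zero_mem' := smul_zero _
  smul_mem' := fun m y hy => by
    have hy' : iB L 1 • y = 0 := hy
    obtain ⟨o, ho⟩ := iB_one_mul L m
    show iB L 1 • m • y = 0
    rw [smul_smul, ho, mul_smul, hy', smul_zero]

variable {Y}

theorem mem_AC {y : Y} : y ∈ AC L Y ↔ iB L 1 • y = 0 := Iff.rfl

/-- the projection `Y → AC Y` -/
def acpr (y : Y) : AC L Y := ⟨y - iB L 1 • y, by
  rw [mem_AC, smul_sub, smul_smul, iB_one_iB_one, sub_self]⟩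

@[simp] theorem coe_acpr (y : Y) : (acpr L y : Y) = y - iB L 1 • y := rfl

variable {Z X : Type*} [AddCommGroup Z] [Module (Lam L) Z] [AddCommGroup X] [Module (Lam L) X]

/-- functoriality of `AC` -/
def ACmap (f : Y →ₗ[Lam L] Z) : AC L Y →ₗ[Lam L] AC L Z where
  toFun y := ⟨f y, by
    have h : iB L 1 • (y : Y) = 0 := y.2
    rw [mem_AC, ← map_smul, h, map_zero]⟩
  map_add' x y := Subtype.ext (map_add f _ _)
  map_smul' c y := Subtype.ext (map_smul f _ _)

@[simp] theorem coe_ACmap (f : Y →ₗ[Lam L] Z) (y : AC L Y) : (ACmap L f y : Z) = f y := rfl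

theorem ACmap_injective {f : Y →ₗ[Lam L] Z} (hf : Function.Injective f) :
    Function.Injective (ACmap L f) := fun _ _ h => Subtype.ext (hf (congrArg Subtype.val h))

theorem ACmap_surjective {f : Y →ₗ[Lam L] Z} (hf : Function.Surjective f) :
    Function.Surjective (ACmap L f) := by
  rintro ⟨z, hz⟩
  obtain ⟨y, rfl⟩ := hf z
  refine ⟨acpr L y, Subtype.ext ?_⟩
  rw [mem_AC] at hz
  rw [coe_ACmap, coe_acpr, map_sub, map_smul, hz, sub_zero]

theorem ACmap_exact {f : Y →ₗ[Lam L] Z} {g : Z →ₗ[Lam L] X} (h : Function.Exact f g) :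
    Function.Exact (ACmap L f) (ACmap L g) := by
  rintro ⟨z, hz⟩
  constructor
  · intro h1
    have h2 : g z = 0 := congrArg Subtype.val h1
    obtain ⟨y, rfl⟩ := (h _).1 h2
    refine ⟨acpr L y, Subtype.ext ?_⟩
    rw [mem_AC] at hz
    rw [coe_ACmap, coe_acpr, map_sub, map_smul, hz, sub_zero]
  · rintro ⟨y, h1⟩
    rw [← h1]
    exact Subtype.ext (h.apply_apply_eq_zero _)

/-- `AC` of an isomorphism -/
def ACequiv (e : Y ≃ₗ[Lam L] Z) : AC L Y ≃ₗ[Lam L] AC L Z :=
  { ACmap L e.toLinearMap with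
    invFun := ACmap L e.symm.toLinearMap
    left_inv := fun _ => Subtype.ext (e.symm_apply_apply _)
    right_inv := fun _ => Subtype.ext (e.apply_symm_apply _) }

/-- `AC` of a power -/
def ACpi (κ : Type*) : AC L (κ → Y) ≃ₗ[Lam L] (κ → AC L Y) where
  toFun y j := ⟨(y : κ → Y) j, congrFun y.2 j⟩
  invFun z := ⟨fun j => (z j : Y), funext fun j => (z j).2⟩
  map_add' _ _ := rfl
  map_smul' _ _ := rfl
  left_inv _ := rfl
  right_inv _ := rfl

/-- `AC` of a product -/
def ACprod : AC L (Y × Z) ≃ₗ[Lam L] (AC L Y × AC L Z) where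
  toFun y := (⟨(y : Y × Z).1, congrArg Prod.fst y.2⟩, ⟨(y : Y × Z).2, congrArg Prod.snd y.2⟩)
  invFun z := ⟨((z.1 : Y), (z.2 : Z)), Prod.ext z.1.2 z.2.2⟩
  map_add' _ _ := rfl
  map_smul' _ _ := rfl
  left_inv _ := rfl
  right_inv _ := rfl

/-- `AC` of a kernel -/
def ACker (f : Y →ₗ[Lam L] Z) : AC L (LinearMap.ker f) ≃ₗ[Lam L] LinearMap.ker (ACmap L f) where
  toFun y := ⟨⟨((y : LinearMap.ker f) : Y), congrArg Subtype.val y.2⟩,
    Subtype.ext (y : LinearMap.ker f).2⟩
  invFun z := ⟨⟨((z : AC L Y) : Y), congrArg Subtype.val z.2⟩, Subtype.ext (z : AC L Y).2⟩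
  map_add' _ _ := rfl
  map_smul' _ _ := rfl
  left_inv _ := rfl
  right_inv _ := rfl

/-- `AC` of a concrete triple -/
def ACtri {C : Type*} [AddCommGroup C] [Module DD C] {A : Submodule L.V C} {B : Submodule L.O C}
    {D : Submodule DD C} {hA : ∀ a ∈ A, a ∈ D} {hB : ∀ b ∈ B, b ∈ D}
    {hB' : ∀ b ∈ (⊥ : Submodule L.O C), b ∈ D} :
    AC L (tri A B D hA hB) ≃ₗ[Lam L] tri A ⊥ D hA hB' where
  toFun y := ⟨((y : tri A B D hA hB) : Tr L C), (y : tri A B D hA hB).2.1, by
    have h : iB L 1 • ((y : tri A B D hA hB) : Tr L C) = 0 := congrArg Subtype.val y.2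
    rw [Tr_iB] at h
    have h2 := congrArg (fun z : C × C × C => z.2.1) h
    simp only [OneMemClass.coe_one, one_smul] at h2
    rw [Submodule.mem_bot]; exact h2, (y : tri A B D hA hB).2.2.2⟩
  invFun z := ⟨⟨(z : Tr L C), z.2.1, by
    have h := (Submodule.mem_bot L.O).1 z.2.2.1
    rw [h]; exact B.zero_mem, z.2.2.2⟩, by
    have h := (Submodule.mem_bot L.O).1 z.2.2.1
    rw [mem_AC]
    apply Subtype.ext
    show iB L 1 • (z : Tr L C) = 0
    rw [Tr_iB, h, smul_zero]; rfl⟩
  map_add' _ _ := rfl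
  map_smul' _ _ := rfl
  left_inv _ := rfl
  right_inv _ := rfl

/-- `AC (OO(1)) = P0` -/
def ACTT : AC L (TT L) ≃ₗ[Lam L] P0 L := ACtri L

/-- `AC (OO(-m)) = P0` -/
def ACOO (m : ℕ) : AC L (OO L m) ≃ₗ[Lam L] P0 L := ACtri L

end AC

/-! ### `P0` is projective with endomorphism ring `V` -/

section P0

variable {DD : Type u} [Ring DD] (L : Line DD)

/-- a triple of elements -/
def T3 {C : Type*} (a b c : C) : Tr L C := ((a, b, c) : C × C × C)

/-- the generator of `P0` -/
def gP : P0 L := ⟨((1, 0, 0) : DD × DD × DD), (mem_P0 L).2 ⟨L.V.one_mem, rfl⟩⟩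

theorem eq_smul_gP (y : P0 L) : y =
    (iA L ⟨(y : Tr L DD).1, ((mem_P0 L).1 y.2).1⟩ + iC L (y : Tr L DD).2.2 * tA L) • gP L := by
  apply Subtype.ext
  show (y : Tr L DD) = (_ + _) • T3 L (1 : DD) 0 0
  rw [add_smul, mul_smul, Tr_iA, Tr_tA, Tr_iC]
  refine Tr_ext L ?_ ?_ ?_
  · show _ = (y : Tr L DD).1 • (1 : DD) + 0
    rw [add_zero, smul_eq_mul, mul_one]
  · show _ = (0 : DD) + 0
    rw [add_zero]; exact ((mem_P0 L).1 y.2).2
  · show _ = (0 : DD) + (y : Tr L DD).2.2 • (1 : DD)
    rw [zero_add, smul_eq_mul, mul_one]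

theorem gP_mem : gP L ∈ cA L (P0 L) := by
  rw [mem_Cmp]
  apply Subtype.ext
  show iA L 1 • T3 L (1 : DD) 0 0 = _
  rw [Tr_iA]
  show (((1 : DD) • (1 : DD), 0, 0) : DD × DD × DD) = (1, 0, 0)
  rw [one_smul]

theorem P0_hom_ext {Y : Type*} [AddCommGroup Y] [Module (Lam L) Y] {f g : P0 L →ₗ[Lam L] Y}
    (h : f (gP L) = g (gP L)) : f = g := by
  ext y
  rw [eq_smul_gP L y, map_smul, map_smul, h]

/-- maps out of `P0` -/
def homP {Y : Type*} [AddCommGroup Y] [Module (Lam L) Y] (a : cA L Y) : P0 L →ₗ[Lam L] Y :=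
  mkLin L
    { toFun := fun y => iA L ⟨(y : Tr L DD).1, ((mem_P0 L).1 y.2).1⟩ • (a : Y) +
        iC L (y : Tr L DD).2.2 • tA L • (a : Y)
      map_zero' := by
        have h : (⟨((0 : P0 L) : Tr L DD).1, ((mem_P0 L).1 (0 : P0 L).2).1⟩ : L.V) = 0 := rfl
        rw [h, map_zero, zero_smul]
        show 0 + iC L 0 • tA L • (a : Y) = 0
        rw [map_zero, zero_smul, add_zero]
      map_add' := fun x y => by
        have h : (⟨((x + y : P0 L) : Tr L DD).1, ((mem_P0 L).1 (x + y).2).1⟩ : L.V) =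
          ⟨(x : Tr L DD).1, ((mem_P0 L).1 x.2).1⟩ + ⟨(y : Tr L DD).1, ((mem_P0 L).1 y.2).1⟩ := rfl
        rw [h, map_add, add_smul]
        show _ + iC L ((x : Tr L DD).2.2 + (y : Tr L DD).2.2) • tA L • (a : Y) = _
        rw [map_add, add_smul]
        abel }
    (fun v y => by
      show iA L ⟨((iA L v • y : P0 L) : Tr L DD).1, _⟩ • (a : Y) +
        iC L ((iA L v • y : P0 L) : Tr L DD).2.2 • tA L • (a : Y) = iA L v • (_ + _)
      have h1 : (⟨((iA L v • y : P0 L) : Tr L DD).1, ((mem_P0 L).1 (iA L v • y).2).1⟩ : L.V) =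
          v * ⟨(y : Tr L DD).1, ((mem_P0 L).1 y.2).1⟩ := Subtype.ext (by
        show (iA L v • (y : Tr L DD)).1 = _
        rw [Tr_iA]; rfl)
      have h2 : ((iA L v • y : P0 L) : Tr L DD).2.2 = 0 := by
        show (iA L v • (y : Tr L DD)).2.2 = _
        rw [Tr_iA]
      rw [h1, h2, map_mul, mul_smul, map_zero, zero_smul, smul_add, smul_smul (iA L v) (iC L _),
        iA_iC, zero_smul])
    (fun v y => by
      show iA L ⟨((iB L v • y : P0 L) : Tr L DD).1, _⟩ • (a : Y) +
        iC L ((iB L v • y : P0 L) : Tr L DD).2.2 • tA L • (a : Y) = iB L v • (_ + _)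
      have h1 : (⟨((iB L v • y : P0 L) : Tr L DD).1, ((mem_P0 L).1 (iB L v • y).2).1⟩ : L.V) =
          0 := Subtype.ext (by
        show (iB L v • (y : Tr L DD)).1 = _
        rw [Tr_iB]; rfl)
      have h2 : ((iB L v • y : P0 L) : Tr L DD).2.2 = 0 := by
        show (iB L v • (y : Tr L DD)).2.2 = _
        rw [Tr_iB]
      rw [h1, h2, map_zero, zero_smul, map_zero, zero_smul, smul_add, smul_smul (iB L v) (iC L _),
        smul_smul (iB L v) (iA L _), iB_iC, iB_iA, zero_smul, zero_smul])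
    (fun v y => by
      show iA L ⟨((iC L v • y : P0 L) : Tr L DD).1, _⟩ • (a : Y) +
        iC L ((iC L v • y : P0 L) : Tr L DD).2.2 • tA L • (a : Y) = iC L v • (_ + _)
      have h1 : (⟨((iC L v • y : P0 L) : Tr L DD).1, ((mem_P0 L).1 (iC L v • y).2).1⟩ : L.V) =
          0 := Subtype.ext (by
        show (iC L v • (y : Tr L DD)).1 = _
        rw [Tr_iC]; rfl)
      have h2 : ((iC L v • y : P0 L) : Tr L DD).2.2 = v * (y : Tr L DD).2.2 := by
        show (iC L v • (y : Tr L DD)).2.2 = _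
        rw [Tr_iC]; rfl
      rw [h1, h2, map_zero, zero_smul, map_mul, mul_smul, smul_add, smul_smul (iC L v) (iA L _),
        iC_iA, zero_smul])
    (fun y => by
      show iA L ⟨((tA L • y : P0 L) : Tr L DD).1, _⟩ • (a : Y) +
        iC L ((tA L • y : P0 L) : Tr L DD).2.2 • tA L • (a : Y) = tA L • (_ + _)
      have h1 : (⟨((tA L • y : P0 L) : Tr L DD).1, ((mem_P0 L).1 (tA L • y).2).1⟩ : L.V) =
          0 := Subtype.ext (by
        show (tA L • (y : Tr L DD)).1 = _
        rw [Tr_tA]; rfl)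
      have h2 : ((tA L • y : P0 L) : Tr L DD).2.2 = (y : Tr L DD).1 := by
        show (tA L • (y : Tr L DD)).2.2 = _
        rw [Tr_tA]
      rw [h1, h2, map_zero, zero_smul, smul_add, smul_smul (tA L) (iA L _), tA_iA,
        smul_smul (tA L) (iC L _), tA_iC, zero_smul, mul_smul, zero_add, add_zero])
    (fun y => by
      show iA L ⟨((tB L • y : P0 L) : Tr L DD).1, _⟩ • (a : Y) +
        iC L ((tB L • y : P0 L) : Tr L DD).2.2 • tA L • (a : Y) = tB L • (_ + _)
      have h1 : (⟨((tB L • y : P0 L) : Tr L DD).1, ((mem_P0 L).1 (tB L • y).2).1⟩ : L.V) =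
          0 := Subtype.ext (by
        show (tB L • (y : Tr L DD)).1 = _
        rw [Tr_tB]; rfl)
      have h2 : ((tB L • y : P0 L) : Tr L DD).2.2 = 0 := by
        show (tB L • (y : Tr L DD)).2.2 = _
        rw [Tr_tB]; exact ((mem_P0 L).1 y.2).2
      rw [h1, h2, map_zero, zero_smul, map_zero, zero_smul, smul_add, smul_smul (tB L) (iC L _),
        smul_smul (tB L) (iA L _), tB_iC, tB_iA, zero_smul, zero_smul])

theorem homP_gP {Y : Type*} [AddCommGroup Y] [Module (Lam L) Y] (a : cA L Y) :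
    homP L a (gP L) = a := by
  show iA L 1 • (a : Y) + iC L 0 • tA L • (a : Y) = a
  rw [map_zero, zero_smul, add_zero, one_smul_Cmp]


theorem map_gP_mem {Y : Type*} [AddCommGroup Y] [Module (Lam L) Y] (f : P0 L →ₗ[Lam L] Y) :
    f (gP L) ∈ cA L Y := by
  rw [mem_Cmp, ← map_smul]
  exact congrArg f (gP_mem L)

instance projective_P0 : Module.Projective (Lam L) (P0 L) := by
  apply Module.Projective.of_lifting_property
  intro M N _ _ _ _ f g hf
  obtain ⟨m, hm⟩ := Cmap_surjective (iA L) hf ⟨g (gP L), map_gP_mem L g⟩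
  refine ⟨homP L m, P0_hom_ext L ?_⟩
  rw [LinearMap.comp_apply, homP_gP]
  exact congrArg Subtype.val hm

instance finite_P0 : Module.Finite (Lam L) (P0 L) :=
  Module.Finite.of_surjective (LinearMap.toSpanSingleton (Lam L) (P0 L) (gP L)) (fun y =>
    ⟨_, (eq_smul_gP L y).symm⟩)

/-- right multiplication by an element of `V` -/
def rV (v : L.V) : P0 L →ₗ[Lam L] P0 L where
  toFun y := ⟨op (v : DD) • (y : Tr L DD), by
    have h := (mem_P0 L).1 y.2
    rw [mem_P0]
    exact ⟨L.V.mul_mem h.1 v.2, by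
      show (y : Tr L DD).2.1 * v = 0
      rw [h.2, zero_mul]⟩⟩
  map_add' x y := Subtype.ext (smul_add _ _ _)
  map_smul' m y := Subtype.ext (smul_comm m (op (v : DD)) (y : Tr L DD)).symm

theorem coe_rV_gP (v : L.V) : ((rV L v (gP L) : P0 L) : Tr L DD) = (((v : DD), 0, 0) : DD × DD × DD) := by
  show ((1 * (v : DD), 0 * (v : DD), 0 * (v : DD)) : DD × DD × DD) = _
  rw [one_mul, zero_mul]

/-- the endomorphism ring of `P0` -/
noncomputable def endP : (L.V)ᵐᵒᵖ ≃+* Module.End (Lam L) (P0 L) :=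
  RingEquiv.ofBijective
    ({ toFun := fun v => rV L (unop v)
       map_one' := LinearMap.ext fun y => Subtype.ext (one_smul DDᵐᵒᵖ (y : Tr L DD))
       map_mul' := fun v w => LinearMap.ext fun y => Subtype.ext (by
         show op (((unop w : L.V) : DD) * ((unop v : L.V) : DD)) • (y : Tr L DD) = _
         rw [op_mul, mul_smul]; rfl)
       map_zero' := LinearMap.ext fun y => Subtype.ext (zero_smul DDᵐᵒᵖ (y : Tr L DD))
       map_add' := fun v w => LinearMap.ext fun y => Subtype.ext (by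
         show op (((unop v : L.V) : DD) + ((unop w : L.V) : DD)) • (y : Tr L DD) = _
         rw [op_add, add_smul]; rfl) } : (L.V)ᵐᵒᵖ →+* Module.End (Lam L) (P0 L))
    ⟨by
      intro v w h
      have h1 : rV L (unop v) (gP L) = rV L (unop w) (gP L) := LinearMap.congr_fun h (gP L)
      have h2 := congrArg (fun z : P0 L => (z : Tr L DD).1) h1
      simp only [coe_rV_gP] at h2
      exact unop_injective (Subtype.ext h2), by
      intro f
      have h1 := (mem_P0 L).1 (f (gP L)).2
      have h3 : iA L 1 • ((f (gP L) : P0 L) : Tr L DD) = ((f (gP L) : P0 L) : Tr L DD) :=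
        congrArg Subtype.val (map_gP_mem L f)
      rw [Tr_iA] at h3
      refine ⟨op ⟨_, h1.1⟩, P0_hom_ext L (Subtype.ext ?_)⟩
      show ((rV L ⟨_, h1.1⟩ (gP L) : P0 L) : Tr L DD) = _
      rw [coe_rV_gP]
      have h4 : (0 : DD) = ((f (gP L) : P0 L) : Tr L DD).2.2 :=
        congrArg (fun z : Tr L DD => z.2.2) h3
      exact Tr_ext L rfl h1.2.symm h4⟩

/-- direct summands of powers of `P0` are stably `P0`-free -/
theorem sumFree_P0 (hV : ∀ (Q : Type u) [AddCommGroup Q] [Module L.V Q], Module.Finite L.V Q →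
      Module.Projective L.V Q → FR.StFree L.V Q) : PR.SumFree (Lam L) (P0 L) :=
  SF.sumFree (endP L) hV

end P0

end Crest.Agent.R181.VA
end

-- ▼ part R181/VA980f
section

/-! R181, V-chain, V2a (A4): good triples. -/

set_option autoImplicit false
set_option linter.unusedSectionVars false

open MulOpposite

namespace Crest.Agent.R181.VA

open LK V868

universe u

section

variable {DD : Type u} [Ring DD] (L : Line DD)

/-- the properties of good triples which are stable under extensions -/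
structure PreGood (Z : Type u) [AddCommGroup Z] [Module (Lam L) Z] : Prop where
  fin : Module.Finite L.O (cB L Z)
  tor : ∀ c : cC L Z, ∃ (m : ℕ) (b : cB L Z), be L b = L.p ^ m • c
  ffr : PR.FFR (Lam L) (P0 L) (AC L Z)

/-- good triples: the input of Step 5 -/
structure Good (Z : Type u) [AddCommGroup Z] [Module (Lam L) Z] : Prop extends PreGood L Z where
  inj : Function.Injective (be L : cB L Z → cC L Z)

variable {L}
variable {X Y Z : Type u} [AddCommGroup X] [Module (Lam L) X] [AddCommGroup Y] [Module (Lam L) Y]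
  [AddCommGroup Z] [Module (Lam L) Z]

theorem tor_of_surj {f : Y →ₗ[Lam L] Z} (hf : Function.Surjective f)
    (h : ∀ c : cC L Y, ∃ (m : ℕ) (b : cB L Y), be L b = L.p ^ m • c) :
    ∀ c : cC L Z, ∃ (m : ℕ) (b : cB L Z), be L b = L.p ^ m • c := by
  intro c
  obtain ⟨c', rfl⟩ := Cmap_surjective (iC L) hf c
  obtain ⟨m, b, hb⟩ := h c'
  exact ⟨m, Cmap (iB L) f b, by rw [be_map, hb, map_smul]⟩

theorem fin_of_surj {f : Y →ₗ[Lam L] Z} (hf : Function.Surjective f)
    (h : Module.Finite L.O (cB L Y)) : Module.Finite L.O (cB L Z) :=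
  Module.Finite.of_surjective (Cmap (iB L) f) (Cmap_surjective (iB L) hf)

theorem inj_of_inj {f : Y →ₗ[Lam L] Z} (hf : Function.Injective f)
    (h : Function.Injective (be L : cB L Z → cC L Z)) :
    Function.Injective (be L : cB L Y → cC L Y) := by
  intro a b hab
  apply Cmap_injective (iB L) hf
  apply h
  rw [be_map, be_map, hab]

/-- larger exponents -/
theorem tor_mono {m n : ℕ} (hmn : m ≤ n) {c : cC L Z} {b : cB L Z} (hb : be L b = L.p ^ m • c) :
    ∃ b' : cB L Z, be L b' = L.p ^ n • c := by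
  obtain ⟨k, rfl⟩ := Nat.exists_eq_add_of_le hmn
  refine ⟨(⟨L.p, L.pO⟩ : L.O) ^ k • b, ?_⟩
  rw [map_smulₛₗ, hb, smul_smul]
  congr 1
  show (L.p ^ k : DD) * L.p ^ m = _
  rw [← pow_add, add_comm]

theorem PreGood.iso (e : Y ≃ₗ[Lam L] Z) (h : PreGood L Y) : PreGood L Z where
  fin := fin_of_surj e.surjective h.fin
  tor := tor_of_surj e.surjective h.tor
  ffr := h.ffr.of_equiv (ACequiv L e)

theorem PreGood.ext {i : X →ₗ[Lam L] Y} {p : Y →ₗ[Lam L] Z} (h : SES i p) (hX : PreGood L X)
    (hZ : PreGood L Z) : PreGood L Y where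
  fin := by
    haveI := hX.fin
    haveI := hZ.fin
    exact Module.Finite.of_exact (Cmap_exact (iB L) (SES.exact h)) (Cmap_surjective (iB L) h.surj)
  tor := by
    intro c
    obtain ⟨m, b, hb⟩ := hZ.tor (Cmap (iC L) p c)
    obtain ⟨b', rfl⟩ := Cmap_surjective (iB L) h.surj b
    have h1 : Cmap (iC L) p (L.p ^ m • c - be L b') = 0 := by
      rw [map_sub, map_smul, ← hb, be_map, sub_self]
    obtain ⟨c', hc'⟩ := (Cmap_exact (iC L) (SES.exact h) _).1 h1
    obtain ⟨k, a, ha⟩ := hX.tor c'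
    refine ⟨k + m, Cmap (iB L) i a + (⟨L.p, L.pO⟩ : L.O) ^ k • b', ?_⟩
    rw [map_add, be_map, ha, map_smul, hc', map_smulₛₗ, smul_sub, smul_smul, ← pow_add]
    show _ - _ + (L.p ^ k : DD) • be L b' = _
    rw [sub_add_cancel]
  ffr := PR.FFR.mid (ACmap_injective L h.inj) (ACmap_surjective L h.surj)
    (ACmap_exact L (SES.exact h)) hX.ffr hZ.ffr

theorem PreGood.of_subsingleton (h : Subsingleton Y) : PreGood L Y where
  fin := by
    haveI : Subsingleton (cB L Y) := ⟨fun a b => Subtype.ext (Subsingleton.elim _ _)⟩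
    infer_instance
  tor := fun c => ⟨0, 0, Subtype.ext (Subsingleton.elim _ _)⟩
  ffr := by
    haveI : Subsingleton (AC L Y) := ⟨fun a b => Subtype.ext (Subsingleton.elim _ _)⟩
    exact PR.FFR.of_subsingleton

theorem PreGood.pi (h : PreGood L Y) : ∀ r : ℕ, PreGood L (Fin r → Y)
  | 0 => PreGood.of_subsingleton inferInstance
  | r + 1 => by
    have ih := PreGood.pi h r
    refine PreGood.ext (X := Y) (Y := Fin (r + 1) → Y) (Z := Fin r → Y)
      (i := LinearMap.single (Lam L) (fun _ : Fin (r + 1) => Y) 0)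
      (p := { toFun := fun v j => v j.succ
              map_add' := fun _ _ => rfl
              map_smul' := fun _ _ => rfl }) ⟨?_, ?_, ?_⟩ h ih
    · intro a b h
      simpa using congrFun h 0
    · intro v
      exact ⟨Fin.cons 0 v, by funext j; simp⟩
    · intro v
      constructor
      · intro hv
        refine ⟨v 0, ?_⟩
        funext j
        refine Fin.cases ?_ (fun j => ?_) j
        · simp
        · have := congrFun hv j
          simpa using this.symm
      · rintro ⟨a, rfl⟩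
        funext j
        simp

/-- `AC` takes `Θ`-resolutions to `P0`-resolutions -/
theorem res_AC : ∀ {n : ℕ} {Y : Type u} [AddCommGroup Y] [Module (Lam L) Y],
    PR.Res (Lam L) (TT L) n Y → PR.Res (Lam L) (P0 L) n (AC L Y)
  | 0, Y, _, _, ⟨k, ⟨e⟩⟩ => ⟨k, ⟨(ACequiv L e).trans ((ACpi L (Fin k)).trans
      (LinearEquiv.piCongrRight fun _ => ACTT L))⟩⟩
  | n + 1, Y, _, _, ⟨k, f, hf, h⟩ =>
      PR.Res.of_surj (N := AC L (Fin k → TT L))
        ((ACpi L (Fin k)).trans (LinearEquiv.piCongrRight fun _ => ACTT L))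
        (ACmap L f) (ACmap_surjective L hf) ((res_AC h).of_equiv (ACker L f))

/-! ### the standard triples -/

theorem tor_tri {C : Type*} [AddCommGroup C] [Module DD C] {A : Submodule L.V C}
    {B : Submodule L.O C} {D : Submodule DD C} {hA : ∀ a ∈ A, a ∈ D} {hB : ∀ b ∈ B, b ∈ D}
    (h : ∀ d ∈ D, ∃ m : ℕ, L.p ^ m • d ∈ B) :
    ∀ c : cC L (tri A B D hA hB), ∃ (m : ℕ) (b : cB L (tri A B D hA hB)),
      be L b = L.p ^ m • c := by
  intro c
  obtain ⟨m, hm⟩ := h _ (cC_tri c).2
  refine ⟨m, cB_tri.symm ⟨L.p ^ m • (cC_tri c : C), hm⟩, ?_⟩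
  rw [be_cB_tri_symm]
  apply cC_tri.injective
  rw [LinearEquiv.apply_symm_apply, map_smul]
  rfl

theorem tor_TT : ∀ c : cC L (TT L), ∃ (m : ℕ) (b : cB L (TT L)), be L b = L.p ^ m • c :=
  tor_tri (fun d _ => by
    obtain ⟨m, hm⟩ := L.exh d
    exact ⟨m, L.O.mul_mem L.pO hm⟩)

theorem fin_TT : Module.Finite L.O (cB L (TT L)) := by
  let f : L.O →ₗ[L.O] Ox L :=
    { toFun := fun o => ⟨L.x * o, by
        rw [mem_Ox, ← mul_assoc, L.px, one_mul]; exact o.2⟩
      map_add' := fun a b => Subtype.ext (mul_add _ _ _)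
      map_smul' := fun a b => Subtype.ext (by
        show L.x * ((a : DD) * b) = a * (L.x * b)
        rw [← mul_assoc, ← mul_assoc, L.xc]) }
  have hf : Function.Surjective f := by
    rintro ⟨y, hy⟩
    refine ⟨⟨L.p * y, hy⟩, Subtype.ext ?_⟩
    show L.x * (L.p * y) = y
    rw [← mul_assoc, L.xp, one_mul]
  exact Module.Finite.of_surjective (cB_tri.symm.toLinearMap.comp f)
    ((cB_tri (L := L)).symm.surjective.comp hf)

theorem tor_pi {κ : Type} [Fintype κ]
    (h : ∀ c : cC L Y, ∃ (m : ℕ) (b : cB L Y), be L b = L.p ^ m • c) :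
    ∀ c : cC L (κ → Y), ∃ (m : ℕ) (b : cB L (κ → Y)), be L b = L.p ^ m • c := by
  intro c
  choose m b hb using fun j => h (Cpi (iC L) κ c j)
  have h1 : ∀ j, ∃ b' : cB L Y, be L b' = L.p ^ (Finset.univ.sup m) • Cpi (iC L) κ c j := fun j =>
    tor_mono (Finset.le_sup (Finset.mem_univ j)) (hb j)
  choose b' hb' using h1
  refine ⟨Finset.univ.sup m, (Cpi (iB L) κ).symm b', ?_⟩
  apply (Cpi (iC L) κ).injective
  rw [map_smul]
  funext j
  rw [Pi.smul_apply, ← hb' j]
  rfl

theorem fin_pi {κ : Type} [Fintype κ] (h : Module.Finite L.O (cB L Y)) :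
    Module.Finite L.O (cB L (κ → Y)) :=
  Module.Finite.equiv (Cpi (iB L) κ).symm

/-- objects `Θ ⊗ M` are pre-good -/
theorem preGood_of_memTH [IsNoetherianRing (EE L)] (hF : Flat (Lam L) (EE L) (TT L))
    (hE : ∀ (M : Type u) [AddCommGroup M] [Module (EE L) M], Module.Finite (EE L) M →
      FR.FFR (EE L) M) (hY : memTH (Lam L) (EE L) (TT L) Y) : PreGood L Y := by
  obtain ⟨n, hn⟩ := MF.ffr_of_memTH (Lam L) (TT L) hF hE hY
  obtain ⟨ι, κ, _, _, C, ⟨e⟩⟩ := hY
  have hs : Function.Surjective (e.symm.toLinearMap.comp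
      (LinearMap.range (mR (Lam L) (TT L) C)).mkQ) :=
    e.symm.surjective.comp (Submodule.mkQ_surjective _)
  exact ⟨fin_of_surj hs (fin_pi fin_TT), tor_of_surj hs (tor_pi tor_TT), n, res_AC hn⟩

theorem preGood_of_filt [IsNoetherianRing (EE L)] (hF : Flat (Lam L) (EE L) (TT L))
    (hH : Full (Lam L) (EE L) (TT L))
    (hE : ∀ (M : Type u) [AddCommGroup M] [Module (EE L) M], Module.Finite (EE L) M →
      FR.FFR (EE L) M) (hY : (thClass hF hH).filt.mem Y) : PreGood L Y := by
  refine filt_induction (thClass hF hH) (fun M _ _ => PreGood L M) ?_ ?_ ?_ hY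
  · intro M _ _ h; exact PreGood.of_subsingleton h
  · intro M _ _ h; exact preGood_of_memTH hF hE h
  · intro A M B _ _ _ _ _ _ i p h hA hB; exact PreGood.ext h hA hB

theorem preGood_OO (m : ℕ) : PreGood L (OO L m) where
  fin := by
    let f : L.O →ₗ[L.O] Op L m :=
      { toFun := fun o => ⟨L.p ^ m * o, o, o.2, rfl⟩
        map_add' := fun a b => Subtype.ext (mul_add _ _ _)
        map_smul' := fun a b => Subtype.ext (by
          show L.p ^ m * ((a : DD) * b) = a * (L.p ^ m * b)
          rw [← mul_assoc, ← mul_assoc,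
            (Commute.pow_left (show Commute L.p (a : DD) from L.pc a) m).eq]) }
    have hf : Function.Surjective f := by
      rintro ⟨y, o, ho, rfl⟩
      exact ⟨⟨o, ho⟩, rfl⟩
    exact Module.Finite.of_surjective (cB_tri.symm.toLinearMap.comp f)
      ((cB_tri (L := L)).symm.surjective.comp hf)
  tor := tor_tri (fun d _ => by
    obtain ⟨k, hk⟩ := L.exh d
    exact ⟨m + k, _, hk, by rw [pow_add, smul_eq_mul, mul_assoc]⟩)
  ffr := PR.FFR.of_equiv (ACOO L m).symm PR.FFR.self

theorem inj_tri {C : Type*} [AddCommGroup C] [Module DD C] {A : Submodule L.V C}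
    {B : Submodule L.O C} {D : Submodule DD C} {hA : ∀ a ∈ A, a ∈ D} {hB : ∀ b ∈ B, b ∈ D} :
    Function.Injective (be L : cB L (tri A B D hA hB) → cC L (tri A B D hA hB)) := by
  intro a b hab
  apply cB_tri.injective
  apply Subtype.ext
  rw [← coe_cC_tri_be, ← coe_cC_tri_be, hab]

theorem inj_pi {κ : Type*} {Y : Type*} [AddCommGroup Y] [Module (Lam L) Y]
    (h : Function.Injective (be L : cB L Y → cC L Y)) :
    Function.Injective (be L : cB L (κ → Y) → cC L (κ → Y)) := by
  intro a b hab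
  apply (Cpi (iB L) κ).injective
  funext j
  apply h
  exact congrFun (congrArg (Cpi (iC L) κ) hab) j

/-! ### direct summands -/

/-- the two parts of a module under an idempotent endomorphism -/
noncomputable def splitE {R : Type*} [Ring R] {M : Type*} [AddCommGroup M] [Module R M]
    (N : Submodule R M) (e : M →ₗ[R] M) (he : ∀ y, e (e y) = e y) (hN : ∀ y ∈ N, e y ∈ N) :
    N ≃ₗ[R] (N.map e) × ↥(N ⊓ LinearMap.ker e) where
  toFun y := (⟨e y, y, y.2, rfl⟩, ⟨y - e y, N.sub_mem y.2 (hN _ y.2), by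
    show e ((y : M) - e y) = 0
    rw [map_sub, he, sub_self]⟩)
  invFun z := ⟨(z.1 : M) + (z.2 : M), N.add_mem (by
    obtain ⟨y, hy, h⟩ := z.1.2
    rw [← h]; exact hN y hy) z.2.2.1⟩
  map_add' x y := by
    refine Prod.ext (Subtype.ext (map_add e _ _)) (Subtype.ext ?_)
    show ((x : M) + y) - e ((x : M) + y) = (x - e x) + (y - e y)
    rw [map_add]; abel
  map_smul' c x := by
    refine Prod.ext (Subtype.ext (map_smul e _ _)) (Subtype.ext ?_)
    show (c • (x : M)) - e (c • (x : M)) = c • ((x : M) - e x)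
    rw [map_smul, smul_sub]
  left_inv y := Subtype.ext (by
    show e (y : M) + ((y : M) - e y) = y
    abel)
  right_inv z := by
    obtain ⟨⟨a, ha⟩, ⟨b, hb⟩⟩ := z
    have h1 : e a = a := by
      obtain ⟨y, _, h⟩ := ha
      have h' : e y = a := h
      rw [← h', he]
    have h2 : e b = 0 := hb.2
    refine Prod.ext (Subtype.ext ?_) (Subtype.ext ?_)
    · show e (a + b) = a
      rw [map_add, h1, h2, add_zero]
    · show a + b - e (a + b) = b
      rw [map_add, h1, h2]; abel

theorem good_summand (hV : ∀ (Q : Type u) [AddCommGroup Q] [Module L.V Q], Module.Finite L.V Q →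
      Module.Projective L.V Q → FR.StFree L.V Q)
    {N : Submodule (Lam L) Y} (hN : Good L N) (e : Y →ₗ[Lam L] Y) (he : ∀ y, e (e y) = e y)
    (heN : ∀ y ∈ N, e y ∈ N) : Good L (N.map e) := by
  let s := splitE N e he heN
  have hs : Function.Surjective ((LinearMap.fst (Lam L) (N.map e)
      ↥(N ⊓ LinearMap.ker e)).comp s.toLinearMap) := fun x => ⟨s.symm (x, 0), by simp⟩
  have hi : Function.Injective (Submodule.inclusion (show N.map e ≤ N by
      rintro _ ⟨y, hy, rfl⟩; exact heN y hy)) := Submodule.inclusion_injective _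
  exact
    { fin := fin_of_surj hs hN.fin
      tor := tor_of_surj hs hN.tor
      ffr := PR.FFR.of_summand (sumFree_P0 L hV)
        (hN.ffr.of_equiv ((ACequiv L s).trans (ACprod L)))
      inj := inj_of_inj hi hN.inj }

end

end Crest.Agent.R181.VA
end

-- ▼ part R181/VA980g

/-! R181, V-chain, V2a: the final theorem (a good direct summand inside a power of `GG`). -/

set_option autoImplicit false
set_option linter.unusedSectionVars false

open MulOpposite

namespace Crest.Agent.R181.VA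

open LK V868

universe u

section

variable {DD : Type u} [Ring DD] {L : Line DD}

/-- powers of a submodule -/
def piEquiv {R M : Type*} [Ring R] [AddCommGroup M] [Module R M] (N : Submodule R M) (r : ℕ) :
    ↥(Submodule.pi Set.univ (fun _ : Fin r => N)) ≃ₗ[R] (Fin r → N) where
  toFun v j := ⟨(v : Fin r → M) j, (Submodule.mem_pi.1 v.2) j trivial⟩
  invFun w := ⟨fun j => (w j : M), Submodule.mem_pi.2 fun j _ => (w j).2⟩
  map_add' _ _ := rfl
  map_smul' _ _ := rfl
  left_inv _ := rfl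
  right_inv _ := rfl

/-- `OO(-m)` is generated by `(1, 0, 0)` and `(0, p^m, 0)` -/
instance finite_OO (m : ℕ) : Module.Finite (Lam L) (OO L m) := by
  let a : OO L m := ⟨T3 L (1 : DD) 0 0, (mem_OO L).2 ⟨L.V.one_mem, 0, L.O.zero_mem, by
    rw [mul_zero]; rfl⟩⟩
  let b : OO L m := ⟨T3 L (0 : DD) (L.p ^ m) 0, (mem_OO L).2 ⟨L.V.zero_mem, 1, L.O.one_mem, by
    rw [mul_one]; rfl⟩⟩
  refine Module.Finite.of_surjective
    ((LinearMap.toSpanSingleton (Lam L) (OO L m) a).coprod
      (LinearMap.toSpanSingleton (Lam L) (OO L m) b)) (fun y => ?_)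
  obtain ⟨h1, o, ho, h2⟩ := (mem_OO L).1 y.2
  refine ⟨(iA L ⟨_, h1⟩ + iC L (y : Tr L DD).2.2 * tA L, iB L ⟨o, ho⟩), Subtype.ext ?_⟩
  rw [LinearMap.coprod_apply, LinearMap.toSpanSingleton_apply, LinearMap.toSpanSingleton_apply]
  show (_ + _) • T3 L (1 : DD) 0 0 + iB L ⟨o, ho⟩ • T3 L (0 : DD) (L.p ^ m) 0 = (y : Tr L DD)
  rw [add_smul, mul_smul, Tr_iA, Tr_tA, Tr_iC, Tr_iB]
  refine Tr_ext L ?_ ?_ ?_
  · show (y : Tr L DD).1 • (1 : DD) + 0 + 0 = _
    rw [add_zero, add_zero, smul_eq_mul, mul_one]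
  · show (0 : DD) + 0 + o • L.p ^ m = _
    rw [add_zero, zero_add, h2, smul_eq_mul]
    exact (Commute.pow_left (show Commute L.p o from L.pc o) m).eq.symm
  · show (0 : DD) + (y : Tr L DD).2.2 • (1 : DD) + 0 = _
    rw [add_zero, zero_add, smul_eq_mul, mul_one]

/-- `OO(1)` is generated by `(1, 0, 0)` and `(0, x, 0)` -/
instance finite_TT : Module.Finite (Lam L) (TT L) := by
  let a : TT L := ⟨T3 L (1 : DD) 0 0, (mem_TT L).2 ⟨L.V.one_mem, by
    show L.p * 0 ∈ L.O
    rw [mul_zero]; exact L.O.zero_mem⟩⟩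
  let b : TT L := ⟨T3 L (0 : DD) L.x 0, (mem_TT L).2 ⟨L.V.zero_mem, by
    show L.p * L.x ∈ L.O
    rw [L.px]; exact L.O.one_mem⟩⟩
  refine Module.Finite.of_surjective
    ((LinearMap.toSpanSingleton (Lam L) (TT L) a).coprod
      (LinearMap.toSpanSingleton (Lam L) (TT L) b)) (fun y => ?_)
  obtain ⟨h1, h2⟩ := (mem_TT L).1 y.2
  refine ⟨(iA L ⟨_, h1⟩ + iC L (y : Tr L DD).2.2 * tA L, iB L ⟨_, h2⟩), Subtype.ext ?_⟩
  rw [LinearMap.coprod_apply, LinearMap.toSpanSingleton_apply, LinearMap.toSpanSingleton_apply]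
  show (_ + _) • T3 L (1 : DD) 0 0 + iB L ⟨_, h2⟩ • T3 L (0 : DD) L.x 0 = (y : Tr L DD)
  rw [add_smul, mul_smul, Tr_iA, Tr_tA, Tr_iC, Tr_iB]
  refine Tr_ext L ?_ ?_ ?_
  · show (y : Tr L DD).1 • (1 : DD) + 0 + 0 = _
    rw [add_zero, add_zero, smul_eq_mul, mul_one]
  · show (0 : DD) + 0 + (L.p * (y : Tr L DD).2.1) • L.x = _
    rw [add_zero, zero_add, smul_eq_mul, mul_assoc, ← L.xc, ← mul_assoc, L.px, one_mul]
  · show (0 : DD) + (y : Tr L DD).2.2 • (1 : DD) + 0 = _
    rw [add_zero, zero_add, smul_eq_mul, mul_one]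

/-- **V2a**: an idempotent endomorphism of a power of `GG` has a stable good lattice -/
theorem exists_good [IsNoetherianRing (EE L)] (hF : Flat (Lam L) (EE L) (TT L))
    (hH : Full (Lam L) (EE L) (TT L))
    (hE : ∀ (M : Type u) [AddCommGroup M] [Module (EE L) M], Module.Finite (EE L) M →
      FR.FFR (EE L) M)
    (hV : ∀ (Q : Type u) [AddCommGroup Q] [Module L.V Q], Module.Finite L.V Q →
      Module.Projective L.V Q → FR.StFree L.V Q)
    {G : Type u} [AddCommGroup G] [Module (Lam L) G]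
    (hG : Function.Injective (be L : cB L G → cC L G))
    {ι : Type*} (Ls : ι → Submodule (Lam L) G) (O : Submodule (Lam L) G)
    (eO : OO L 0 ≃ₗ[Lam L] O) (hLfg : ∀ i, (Ls i).FG) (hOL : ∀ i, O ≤ Ls i)
    (hne : Nonempty ι) (hdir : ∀ i j, ∃ k, Ls i ≤ Ls k ∧ Ls j ≤ Ls k)
    (hex : ∀ x : G, ∃ i, x ∈ Ls i)
    (hO : ∀ i, (thClass hF hH).filt.mem (SQ (Ls i) O))
    (hLL : ∀ i j, Ls i ≤ Ls j → (thClass hF hH).filt.mem (SQ (Ls j) (Ls i)))
    (r : ℕ) (e : (Fin r → G) →ₗ[Lam L] (Fin r → G)) (he : ∀ y, e (e y) = e y) :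
    ∃ M : Submodule (Lam L) (Fin r → G),
      Submodule.pi Set.univ (fun _ : Fin r => O) ≤ M ∧ (∀ y ∈ M, e y ∈ M) ∧
      (thClass hF hH).filt.mem (SQ M (Submodule.pi Set.univ (fun _ : Fin r => O))) ∧
      Good L M ∧ Good L (M.map e) := by
  have hOfg : O.FG := by
    haveI : Module.Finite (Lam L) O := Module.Finite.equiv eO
    exact Module.Finite.iff_fg.1 inferInstance
  obtain ⟨i, M, h1, -, h3, h4⟩ := exists_lattice (extClosed_filt (thClass hF hH)) Ls O hOfg hLfg
    hOL hne hdir hex hO hLL r e he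
  have h5 : PreGood L ↥(Submodule.submoduleOf (Submodule.pi Set.univ (fun _ : Fin r => O)) M) :=
    PreGood.iso ((LinearEquiv.piCongrRight fun _ => eO).trans
      ((piEquiv O r).symm.trans (Submodule.submoduleOfEquivOfLe h1).symm))
      ((preGood_OO 0).pi r)
  have h6 : PreGood L M := PreGood.ext (SES.subtype_mkQ _) h5 (preGood_of_filt hF hH hE h4)
  have h7 : Good L M := { h6 with inj := inj_of_inj (Submodule.subtype_injective M) (inj_pi hG) }
  exact ⟨M, h1, h3, h4, h7, good_summand hV h7 e he h3⟩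

end

end Crest.Agent.R181.VA
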