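import Crest.Agent.R181.VB789c
import Crest.Agent.R181.FR459a

-- ▼ part R181/VB789d
section

/-!
R181, V-chain, block V2b (helper789): plain triples `A -al→ C ←be- B` and `Psi0`, `Psi1`.
-/

set_option autoImplicit false

namespace Crest.Agent.R181.VB

open V868

universe u

variable {DD : Type u} [Ring DD] {L : Line DD} {T : Type u} [Ring T] {U : UnivT L T} (R : RB U)

section lin

variable (S : Subring DD) {A C C' : Type u} [AddCommGroup A] [Module S A] [AddCommGroup C]
  [Module DD C] [AddCommGroup C'] [Module DD C']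

/-- a semilinear map over the inclusion of a subring as a linear map over the subring -/
def lin (al : A →ₛₗ[S.subtype] C) : A →ₗ[S] C where
  toFun := al
  map_add' := map_add al
  map_smul' s a := by rw [map_smulₛₗ]; rfl

@[simp] theorem lin_apply (al : A →ₛₗ[S.subtype] C) (a : A) : lin S al a = al a := rfl

/-- restriction of scalars to a subring -/
def res (f : C →ₗ[DD] C') : C →ₗ[S] C' where
  toFun := f
  map_add' := map_add f
  map_smul' s c := map_smul f (s : DD) c

@[simp] theorem res_apply (f : C →ₗ[DD] C') (c : C) : res S f c = f c := rfl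

end lin

theorem _root_.Crest.Agent.R181.V868.Line.ppow_comm (L : Line DD) (k : ℕ) (d : DD) :
    L.p ^ k * d = d * L.p ^ k := by
  induction k with
  | zero => simp
  | succ k ih => rw [pow_succ, mul_assoc, L.pc, ← mul_assoc, ih, mul_assoc]


theorem _root_.Crest.Agent.R181.V868.Line.xp_pow (L : Line DD) (k : ℕ) :
    L.x ^ k * L.p ^ k = 1 := by
  induction k with
  | zero => simp
  | succ k ih => rw [pow_succ, pow_succ', mul_assoc, ← mul_assoc L.x, L.xp, one_mul, ih]

section pmul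

variable {B C : Type u} [AddCommGroup B] [Module L.O B] [AddCommGroup C] [Module DD C]

/-- `p^k • be` -/
def pmul (k : ℕ) (be : B →ₛₗ[L.O.subtype] C) : B →ₗ[L.O] C where
  toFun y := L.p ^ k • be y
  map_add' a b := by rw [map_add, smul_add]
  map_smul' o y := by
    rw [map_smulₛₗ, RingHom.id_apply]
    change L.p ^ k • (o : DD) • be y = (o : DD) • L.p ^ k • be y
    rw [smul_smul, smul_smul, L.ppow_comm]

@[simp] theorem pmul_apply (k : ℕ) (be : B →ₛₗ[L.O.subtype] C) (y : B) :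
    pmul k be y = L.p ^ k • be y := rfl

end pmul

section delta

variable {A B C : Type u} [AddCommGroup A] [Module L.V A] [AddCommGroup B] [Module L.O B]
  [AddCommGroup C] [Module DD C]

/-- the two term complex of a plain triple -/
noncomputable def delta (al : A →ₛₗ[L.V.subtype] C) (be : B →ₛₗ[L.O.subtype] C) :
    (Fr R.ρV A × Fr R.ρO B) →ₗ[T] Fr R.ρV C :=
  (Fr.map R.ρV (lin L.V al)).coprod ((R.cmp C).comp (Fr.map R.ρO (pmul 2 be)))

/-- `Psi⁰` -/
abbrev Psi0 (al : A →ₛₗ[L.V.subtype] C) (be : B →ₛₗ[L.O.subtype] C) : Type u :=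
  LinearMap.ker (delta R al be)

/-- `Psi¹` -/
abbrev Psi1 (al : A →ₛₗ[L.V.subtype] C) (be : B →ₛₗ[L.O.subtype] C) : Type u :=
  Fr R.ρV C ⧸ LinearMap.range (delta R al be)

end delta

section maps

variable {A B C A' B' C' A'' B'' C'' : Type u} [AddCommGroup A] [Module L.V A] [AddCommGroup B]
  [Module L.O B] [AddCommGroup C] [Module DD C] [AddCommGroup A'] [Module L.V A']
  [AddCommGroup B'] [Module L.O B'] [AddCommGroup C'] [Module DD C'] [AddCommGroup A'']
  [Module L.V A''] [AddCommGroup B''] [Module L.O B''] [AddCommGroup C''] [Module DD C'']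
  {al : A →ₛₗ[L.V.subtype] C} {be : B →ₛₗ[L.O.subtype] C}
  {al' : A' →ₛₗ[L.V.subtype] C'} {be' : B' →ₛₗ[L.O.subtype] C'}
  {al'' : A'' →ₛₗ[L.V.subtype] C''} {be'' : B'' →ₛₗ[L.O.subtype] C''}

theorem cmp_map (f : C →ₗ[DD] C') (y : Fr R.ρO C) :
    R.cmp C' (Fr.map R.ρO (res L.O f) y) = Fr.map R.ρV (res L.V f) (R.cmp C y) :=
  act_map R.P f y

/-- a morphism of plain triples commutes with `delta` -/
theorem delta_map (fA : A →ₗ[L.V] A') (fB : B →ₗ[L.O] B') (fC : C →ₗ[DD] C')
    (hA : ∀ a, al' (fA a) = fC (al a)) (hB : ∀ b, be' (fB b) = fC (be b))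
    (y : Fr R.ρV A × Fr R.ρO B) :
    delta R al' be' ((Fr.map R.ρV fA).prodMap (Fr.map R.ρO fB) y) =
      Fr.map R.ρV (res L.V fC) (delta R al be y) := by
  obtain ⟨a, b⟩ := y
  simp only [delta, LinearMap.coprod_apply, LinearMap.prodMap_apply, LinearMap.comp_apply, map_add]
  rw [← cmp_map]
  congr 1
  · refine Finsupp.ext fun w => ?_
    exact hA _
  · congr 1
    refine Finsupp.ext fun w => ?_
    change L.p ^ 2 • be' (fB _) = fC (L.p ^ 2 • be _)
    rw [hB, map_smul]

/-- short exact sequences of plain triples -/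
structure TS (al' : A' →ₛₗ[L.V.subtype] C') (be' : B' →ₛₗ[L.O.subtype] C')
    (al : A →ₛₗ[L.V.subtype] C) (be : B →ₛₗ[L.O.subtype] C)
    (al'' : A'' →ₛₗ[L.V.subtype] C'') (be'' : B'' →ₛₗ[L.O.subtype] C'')
    (fA : A' →ₗ[L.V] A) (fB : B' →ₗ[L.O] B) (fC : C' →ₗ[DD] C)
    (gA : A →ₗ[L.V] A'') (gB : B →ₗ[L.O] B'') (gC : C →ₗ[DD] C'') : Prop where
  fA_inj : Function.Injective fA
  fB_inj : Function.Injective fB
  fC_inj : Function.Injective fC
  gA_surj : Function.Surjective gA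
  gB_surj : Function.Surjective gB
  gC_surj : Function.Surjective gC
  exA : Function.Exact fA gA
  exB : Function.Exact fB gB
  exC : Function.Exact fC gC
  fal : ∀ a, al (fA a) = fC (al' a)
  fbe : ∀ b, be (fB b) = fC (be' b)
  gal : ∀ a, al'' (gA a) = gC (al a)
  gbe : ∀ b, be'' (gB b) = gC (be b)

variable {fA : A' →ₗ[L.V] A} {fB : B' →ₗ[L.O] B} {fC : C' →ₗ[DD] C}
    {gA : A →ₗ[L.V] A''} {gB : B →ₗ[L.O] B''} {gC : C →ₗ[DD] C''}

/-- the snake diagram of a short exact sequence of plain triples -/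
theorem TS.ses (h : TS al' be' al be al'' be'' fA fB fC gA gB gC) :
    SES2 ((Fr.map R.ρV fA).prodMap (Fr.map R.ρO fB)) ((Fr.map R.ρV gA).prodMap (Fr.map R.ρO gB))
      (Fr.map R.ρV (res L.V fC)) (Fr.map R.ρV (res L.V gC)) (delta R al' be') (delta R al be)
      (delta R al'' be'') where
  i_inj := by
    rintro ⟨a, b⟩ ⟨c, d⟩ h1
    have h2 := congrArg Prod.fst h1
    have h3 := congrArg Prod.snd h1
    exact Prod.ext (Fr.map_injective R.ρV fA h.fA_inj h2) (Fr.map_injective R.ρO fB h.fB_inj h3)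
  q_surj := by
    rintro ⟨a, b⟩
    obtain ⟨a', ha'⟩ := Fr.map_surjective R.ρV gA h.gA_surj a
    obtain ⟨b', hb'⟩ := Fr.map_surjective R.ρO gB h.gB_surj b
    exact ⟨(a', b'), Prod.ext ha' hb'⟩
  ex := by
    rintro ⟨a, b⟩
    constructor
    · intro h1
      obtain ⟨a', ha'⟩ := (Fr.map_exact R.ρV fA gA h.exA a).1 (congrArg Prod.fst h1)
      obtain ⟨b', hb'⟩ := (Fr.map_exact R.ρO fB gB h.exB b).1 (congrArg Prod.snd h1)
      exact ⟨(a', b'), Prod.ext ha' hb'⟩
    · rintro ⟨⟨a', b'⟩, h1⟩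
      rw [← h1]
      exact Prod.ext ((Fr.map_exact R.ρV fA gA h.exA).apply_apply_eq_zero a')
        ((Fr.map_exact R.ρO fB gB h.exB).apply_apply_eq_zero b')
  j_inj := Fr.map_injective R.ρV _ h.fC_inj
  r_surj := Fr.map_surjective R.ρV _ h.gC_surj
  ex' := Fr.map_exact R.ρV (res L.V fC) (res L.V gC) h.exC
  c1 := fun y => delta_map R fA fB fC h.fal h.fbe y
  c2 := fun y => delta_map R gA gB gC h.gal h.gbe y

/-- `Psi¹` of a morphism of plain triples -/
noncomputable def psi1Map (fA : A →ₗ[L.V] A') (fB : B →ₗ[L.O] B') (fC : C →ₗ[DD] C')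
    (hA : ∀ a, al' (fA a) = fC (al a)) (hB : ∀ b, be' (fB b) = fC (be b)) :
    Psi1 R al be →ₗ[T] Psi1 R al' be' :=
  Submodule.mapQ _ _ (Fr.map R.ρV (res L.V fC)) (by
    rintro _ ⟨y, rfl⟩
    exact ⟨(Fr.map R.ρV fA).prodMap (Fr.map R.ρO fB) y, delta_map R fA fB fC hA hB y⟩)


/-- extension of triples with bijective `delta` -/
theorem TS.bij (h : TS al' be' al be al'' be'' fA fB fC gA gB gC)
    (h1 : Function.Bijective (delta R al' be')) (h2 : Function.Bijective (delta R al'' be'')) :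
    Function.Bijective (delta R al be) := by
  have s := h.ses R
  constructor
  · rw [injective_iff_map_eq_zero]
    intro y hy
    have h3 := s.c2 y
    rw [hy, map_zero] at h3
    have h4 := h2.1 (h3.trans (map_zero _).symm)
    obtain ⟨y', rfl⟩ := (s.ex y).1 h4
    rw [s.c1] at hy
    have h5 := s.j_inj (hy.trans (map_zero _).symm)
    have h6 := h1.1 (h5.trans (map_zero _).symm)
    rw [h6, map_zero]
  · intro z
    obtain ⟨y'', hy''⟩ := h2.2 (Fr.map R.ρV (res L.V gC) z)
    obtain ⟨y, rfl⟩ := s.q_surj y''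
    have h3 : Fr.map R.ρV (res L.V gC) (z - delta R al be y) = 0 := by
      rw [map_sub, ← s.c2, hy'', sub_self]
    obtain ⟨z', hz'⟩ := (s.ex' _).1 h3
    obtain ⟨y', rfl⟩ := h1.2 z'
    rw [← s.c1] at hz'
    exact ⟨_ + y, by rw [map_add, hz', sub_add_cancel]⟩

/-- cokernels: `X₀ → X → X'' → 0` exact, `delta` of `X₀` surjective, of `X` bijective -/
theorem bij_coker (fA : A' →ₗ[L.V] A) (fB : B' →ₗ[L.O] B) (fC : C' →ₗ[DD] C)
    (gA : A →ₗ[L.V] A'') (gB : B →ₗ[L.O] B'') (gC : C →ₗ[DD] C'')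
    (gA_surj : Function.Surjective gA) (gB_surj : Function.Surjective gB)
    (gC_surj : Function.Surjective gC)
    (exA : Function.Exact fA gA) (exB : Function.Exact fB gB) (exC : Function.Exact fC gC)
    (fal : ∀ a, al (fA a) = fC (al' a)) (fbe : ∀ b, be (fB b) = fC (be' b))
    (gal : ∀ a, al'' (gA a) = gC (al a)) (gbe : ∀ b, be'' (gB b) = gC (be b))
    (h1 : Function.Surjective (delta R al' be')) (h2 : Function.Bijective (delta R al be)) :
    Function.Bijective (delta R al'' be'') := by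
  have c1 := delta_map R fA fB fC fal fbe
  have c2 := delta_map R gA gB gC gal gbe
  constructor
  · rw [injective_iff_map_eq_zero]
    rintro ⟨a'', b''⟩ hy
    obtain ⟨a, rfl⟩ := Fr.map_surjective R.ρV gA gA_surj a''
    obtain ⟨b, rfl⟩ := Fr.map_surjective R.ρO gB gB_surj b''
    have h3 := c2 (a, b)
    have h4 : delta R al'' be'' (((Fr.map R.ρV gA).prodMap (Fr.map R.ρO gB)) (a, b)) = 0 := hy
    rw [h4] at h3
    obtain ⟨z', hz'⟩ := (Fr.map_exact R.ρV (res L.V fC) (res L.V gC) exC _).1 h3.symm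
    obtain ⟨y', rfl⟩ := h1 z'
    rw [← c1] at hz'
    have h5 := h2.1 hz'
    have h6 : a = Fr.map R.ρV fA y'.1 := (congrArg Prod.fst h5).symm
    have h7 : b = Fr.map R.ρO fB y'.2 := (congrArg Prod.snd h5).symm
    refine Prod.ext ?_ ?_
    · change Fr.map R.ρV gA a = 0
      rw [h6]; exact (Fr.map_exact R.ρV fA gA exA).apply_apply_eq_zero _
    · change Fr.map R.ρO gB b = 0
      rw [h7]; exact (Fr.map_exact R.ρO fB gB exB).apply_apply_eq_zero _
  · intro z''
    obtain ⟨z, rfl⟩ := Fr.map_surjective R.ρV (res L.V gC) gC_surj z''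
    obtain ⟨y, rfl⟩ := h2.2 z
    exact ⟨_, c2 y⟩

end maps

section tors

variable {A B C : Type u} [AddCommGroup A] [Module L.V A] [AddCommGroup B] [Module L.O B]
  [AddCommGroup C] [Module DD C]

/-- `Psi⁰(0, τ, 0) = Fr' τ` -/
noncomputable def psi0Tors (al : A →ₛₗ[L.V.subtype] C) (be : B →ₛₗ[L.O.subtype] C)
    [Subsingleton A] [Subsingleton C] : Psi0 R al be ≃ₗ[T] Fr R.ρO B := by
  have : Subsingleton (Fr R.ρV C) := ⟨fun f g => Finsupp.ext fun w => Subsingleton.elim _ _⟩
  have : Subsingleton (Fr R.ρV A) := ⟨fun f g => Finsupp.ext fun w => Subsingleton.elim _ _⟩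
  refine LinearEquiv.ofBijective ((LinearMap.snd T _ _).comp (LinearMap.ker (delta R al be)).subtype)
    ⟨?_, ?_⟩
  · rintro ⟨⟨a, b⟩, h⟩ ⟨⟨a', b'⟩, h'⟩ hab
    exact Subtype.ext (Prod.ext (Subsingleton.elim _ _) hab)
  · intro b
    exact ⟨⟨(0, b), Subsingleton.elim _ _⟩, rfl⟩

theorem psi1_subsingleton (al : A →ₛₗ[L.V.subtype] C) (be : B →ₛₗ[L.O.subtype] C)
    [Subsingleton C] : Subsingleton (Psi1 R al be) := by
  have : Subsingleton (Fr R.ρV C) := ⟨fun f g => Finsupp.ext fun w => Subsingleton.elim _ _⟩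
  infer_instance

end tors

end Crest.Agent.R181.VB
end

-- ▼ part R181/VB789e

/-!
R181, V-chain, block V2b (helper789): `Psi` of `OO(1)` and `OO(-m)`.
-/

set_option autoImplicit false

namespace Crest.Agent.R181.VB

open V868

universe u

variable {DD : Type u} [Ring DD] {L : Line DD} {T : Type u} [Ring T] {U : UnivT L T} (R : RB U)

section tr

variable {T : Type*} [Ring T]

/-- the part in `T[x]` -/
def tr0 (z : LaurentSeries T) : LaurentSeries T where
  coeff n := if n ≤ 0 then z.coeff n else 0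
  isPWO_support' := z.isPWO_support.mono (by
    intro n hn
    rw [Function.mem_support] at hn
    rw [HahnSeries.mem_support]
    intro h
    apply hn
    simp [h])

theorem coeff_tr0 (z : LaurentSeries T) (n : ℤ) :
    (tr0 z).coeff n = if n ≤ 0 then z.coeff n else 0 := rfl

theorem aff_tr0 (z : LaurentSeries T) : Aff (tr0 z) := fun n hn => by
  rw [coeff_tr0, if_neg (by omega)]

end tr

theorem ΘP (U : UnivT L T) : U.Θ L.p = HahnSeries.single 1 1 := by
  have h1 : U.Θ L.x * U.Θ L.p = 1 := by rw [← map_mul, L.xp, map_one]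
  have h2 : (HahnSeries.single (1 : ℤ) (1 : T)) * U.Θ L.x = 1 := by
    rw [U.Θx, HahnSeries.single_mul_single]; simp
  calc U.Θ L.p = (HahnSeries.single (1 : ℤ) (1 : T) * U.Θ L.x) * U.Θ L.p := by rw [h2, one_mul]
    _ = _ := by rw [mul_assoc, h1, mul_one]

theorem ΘPpow (U : UnivT L T) (k : ℕ) : U.Θ (L.p ^ k) = HahnSeries.single (k : ℤ) 1 := by
  rw [map_pow, ΘP, HahnSeries.single_pow]
  simp

theorem Θxpow (U : UnivT L T) (k : ℕ) : U.Θ (L.x ^ k) = HahnSeries.single (-(k : ℤ)) 1 := by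
  rw [map_pow, U.Θx, HahnSeries.single_pow]
  simp

namespace RB

/-- splitting lemma -/
theorem split (k : ℕ) (f : R.W →₀ DD)
    (h : ∀ n : ℤ, 0 < n → n < k → (evm U.Θ R.b f).coeff n = 0) :
    ∃ (a : R.W →₀ L.V) (o : R.W →₀ L.O), f = up L.V a + act R.P (rmul (up L.O o) (L.p ^ k)) := by
  obtain ⟨a, ha⟩ := R.exists_V (tr0 (evm U.Θ R.b f)) (aff_tr0 _)
  have h1 : Inf (evm U.Θ R.b (rmul (f - up L.V a) (L.x ^ k))) := by
    intro n hn
    rw [evm_rmul, Θxpow, coeff_mul_sing, map_sub, ha, HahnSeries.coeff_sub, coeff_tr0]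
    split_ifs with h2
    · rw [sub_self]
    · rw [sub_zero]
      exact h _ (by omega) (by omega)
  obtain ⟨o, ho⟩ := R.exists_O _ h1
  refine ⟨a, o, ?_⟩
  have h2 : rmul (rmul (f - up L.V a) (L.x ^ k)) (L.p ^ k) = f - up L.V a := by
    ext w; simp [mul_assoc, L.xp_pow]
  have h3 : rmul (act R.P (up L.O o)) (L.p ^ k) = act R.P (rmul (up L.O o) (L.p ^ k)) := by
    apply R.evm_injective
    rw [evm_rmul, R.evm_act_P, R.evm_act_P, evm_rmul]
  rw [← h3, ← ho, h2]
  abel

theorem eq_zero_of_split (k : ℕ) (hk : 0 < k) (a : R.W →₀ L.V) (o : R.W →₀ L.O)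
    (h : up L.V a + act R.P (rmul (up L.O o) (L.p ^ k)) = 0) : a = 0 ∧ o = 0 := by
  have h1 : evm U.Θ R.b (up L.V a) + evm U.Θ R.b' (up L.O o) * HahnSeries.single (k : ℤ) 1 = 0 := by
    have := congrArg (evm U.Θ R.b) h
    rwa [map_add, R.evm_act_P, evm_rmul, ΘPpow, map_zero] at this
  have hA := R.aff_evm a
  have hI := R.inf_evm o
  have h2 : evm U.Θ R.b' (up L.O o) * HahnSeries.single (k : ℤ) 1 = 0 := by
    ext n
    rcases lt_or_ge 0 n with hn | hn
    · have h3 := congrArg (fun z => HahnSeries.coeff z n) h1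
      simp only [HahnSeries.coeff_add, HahnSeries.coeff_zero] at h3
      rw [hA n hn, zero_add] at h3
      rw [h3]; simp
    · rw [coeff_mul_sing, hI _ (by omega)]; simp
  have h3 : evm U.Θ R.b (up L.V a) = 0 := by rwa [h2, add_zero] at h1
  have h4 : evm U.Θ R.b' (up L.O o) = 0 := by
    ext n
    have := congrArg (fun z => HahnSeries.coeff z (n + k)) h2
    simp only [coeff_mul_sing, add_sub_cancel_right, HahnSeries.coeff_zero] at this
    rw [this]; simp
  exact ⟨R.evm_up_injective (by simp only; rw [h3, up_zero, map_zero]),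
    R.evm'_up_injective (by simp only; rw [h4, up_zero, map_zero])⟩

end RB

section OO

variable (L)

/-- the inclusion `V → DD` -/
def alV : L.V →ₛₗ[L.V.subtype] DD where
  toFun := Subtype.val
  map_add' _ _ := rfl
  map_smul' _ _ := rfl

/-- `o ↦ p^m o` -/
def beP (m : ℕ) : L.O →ₛₗ[L.O.subtype] DD where
  toFun o := L.p ^ m * o
  map_add' a b := by push_cast; rw [mul_add]
  map_smul' o y := by
    simp only [smul_eq_mul, Subring.subtype_apply]
    push_cast
    rw [← mul_assoc, ← mul_assoc, L.ppow_comm]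

/-- `o ↦ x o` -/
def beX : L.O →ₛₗ[L.O.subtype] DD where
  toFun o := L.x * o
  map_add' a b := by push_cast; rw [mul_add]
  map_smul' o y := by
    simp only [smul_eq_mul, Subring.subtype_apply]
    push_cast
    rw [← mul_assoc, ← mul_assoc, L.xc]

variable {L}

theorem co_delta_P (m : ℕ) (a : Fr R.ρV L.V) (o : Fr R.ρO L.O) :
    Fr.co R.ρV (delta R (alV L) (beP L m) (a, o)) =
      up L.V a + act R.P (rmul (up L.O o) (L.p ^ (m + 2))) := by
  have h1 : Fr.co R.ρO (Fr.map R.ρO (pmul 2 (beP L m)) o) = rmul (up L.O o) (L.p ^ (m + 2)) := by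
    refine Finsupp.ext fun w => ?_
    change L.p ^ 2 • (L.p ^ m * ((Fr.co R.ρO o) w : DD)) = ((Fr.co R.ρO o) w : DD) * _
    rw [smul_eq_mul, ← mul_assoc, ← pow_add, add_comm 2 m, L.ppow_comm]
  have h2 : Fr.co R.ρV (Fr.map R.ρV (lin L.V (alV L)) a) = up L.V a := rfl
  rw [← h1, ← h2]
  rfl

theorem co_delta_X (a : Fr R.ρV L.V) (o : Fr R.ρO L.O) :
    Fr.co R.ρV (delta R (alV L) (beX L) (a, o)) =
      up L.V a + act R.P (rmul (up L.O o) (L.p ^ 1)) := by
  have h1 : Fr.co R.ρO (Fr.map R.ρO (pmul 2 (beX L)) o) = rmul (up L.O o) (L.p ^ 1) := by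
    refine Finsupp.ext fun w => ?_
    change L.p ^ 2 • (L.x * ((Fr.co R.ρO o) w : DD)) = ((Fr.co R.ρO o) w : DD) * _
    rw [smul_eq_mul, ← mul_assoc, pow_two, mul_assoc L.p, L.px, mul_one, pow_one, L.pc]
  have h2 : Fr.co R.ρV (Fr.map R.ρV (lin L.V (alV L)) a) = up L.V a := rfl
  rw [← h1, ← h2]
  rfl

/-- `Psi(OO(1)) = 0` -/
theorem delta_theta : Function.Bijective (delta R (alV L) (beX L)) := by
  constructor
  · rw [injective_iff_map_eq_zero]
    rintro ⟨a, o⟩ h
    have h1 := co_delta_X R a o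
    rw [h] at h1
    obtain ⟨h2, h3⟩ := R.eq_zero_of_split 1 one_pos a o h1.symm
    exact Prod.ext h2 h3
  · intro f
    obtain ⟨a, o, h⟩ := R.split 1 (Fr.co R.ρV f) (fun n h1 h2 => by
      exfalso; norm_cast at h2; omega)
    exact ⟨(Fr.mk R.ρV a, Fr.mk R.ρO o), (co_delta_X R _ _).trans h.symm⟩

/-- `Psi⁰(OO(-m)) = 0` -/
theorem delta_P_injective (m : ℕ) : Function.Injective (delta R (alV L) (beP L m)) := by
  rw [injective_iff_map_eq_zero]
  rintro ⟨a, o⟩ h
  have h1 := co_delta_P R m a o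
  rw [h] at h1
  obtain ⟨h2, h3⟩ := R.eq_zero_of_split (m + 2) (by omega) a o h1.symm
  exact Prod.ext h2 h3

/-- `p^k b_{w0}` -/
noncomputable def pk (k : ℕ) : Fr R.ρV DD := Fr.mk R.ρV (Finsupp.single R.w0 (L.p ^ k))

theorem evm_smul_pk (t : T) (k : ℕ) :
    evm U.Θ R.b (Fr.co R.ρV (t • pk R k)) = HahnSeries.single (k : ℤ) t := by
  change evm U.Θ R.b (act (R.mV t) (Finsupp.single R.w0 (L.p ^ k))) = _
  rw [act_up L.V, act_single, evm_col, R.mV_w0_eq, ΘPpow]
  ext n
  rw [coeff_mul_sing]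
  simp only [HahnSeries.C_apply, HahnSeries.coeff_single]
  by_cases h : n = k
  · subst h; simp
  · rw [if_neg (by omega), if_neg h]

/-- the map `T^{m+1} → Psi¹(OO(-m))` -/
noncomputable def toPsiP (m : ℕ) : (Fin (m + 1) → T) →ₗ[T] Psi1 R (alV L) (beP L m) :=
  (LinearMap.range (delta R (alV L) (beP L m))).mkQ.comp
    (∑ k : Fin (m + 1), (LinearMap.toSpanSingleton T (Fr R.ρV DD) (pk R (k + 1))).comp
      (LinearMap.proj k))

theorem toPsiP_apply (m : ℕ) (t : Fin (m + 1) → T) :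
    toPsiP R m t = (LinearMap.range (delta R (alV L) (beP L m))).mkQ
      (∑ k : Fin (m + 1), t k • pk R (k + 1)) := by
  simp [toPsiP, LinearMap.toSpanSingleton_apply]

theorem coeff_sum_pk (m : ℕ) (t : Fin (m + 1) → T) (n : ℤ) :
    (evm U.Θ R.b (Fr.co R.ρV (∑ k : Fin (m + 1), t k • pk R (k + 1)))).coeff n =
      ∑ k : Fin (m + 1), if n = ((k : ℕ) : ℤ) + 1 then t k else 0 := by
  have h1 : ∀ s : Finset (Fin (m + 1)),
      (evm U.Θ R.b (Fr.co R.ρV (∑ k ∈ s, t k • pk R (k + 1)))).coeff n =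
      ∑ k ∈ s, if n = ((k : ℕ) : ℤ) + 1 then t k else 0 := by
    intro s
    classical
    induction s using Finset.induction_on with
    | empty =>
      rw [Finset.sum_empty, Finset.sum_empty]
      have : Fr.co R.ρV (0 : Fr R.ρV DD) = 0 := rfl
      rw [this, map_zero]; simp
    | insert a s ha ih =>
      rw [Finset.sum_insert ha, Finset.sum_insert ha]
      have : Fr.co R.ρV (t a • pk R (a + 1) + ∑ k ∈ s, t k • pk R (k + 1)) =
        Fr.co R.ρV (t a • pk R (a + 1)) + Fr.co R.ρV (∑ k ∈ s, t k • pk R (k + 1)) := rfl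
      rw [this, map_add, HahnSeries.coeff_add, ih, evm_smul_pk, HahnSeries.coeff_single]
      push_cast
      rfl
  exact h1 Finset.univ

theorem toPsiP_bijective (m : ℕ) : Function.Bijective (toPsiP R m (L := L)) := by
  constructor
  · rw [injective_iff_map_eq_zero]
    intro t ht
    rw [toPsiP_apply, Submodule.mkQ_apply, Submodule.Quotient.mk_eq_zero] at ht
    obtain ⟨⟨a, o⟩, h⟩ := ht
    have h1 := co_delta_P R m a o
    rw [h] at h1
    funext k
    have h2 := congrArg (fun z => HahnSeries.coeff (evm U.Θ R.b z) (((k : ℕ) : ℤ) + 1)) h1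
    rw [coeff_sum_pk, map_add, HahnSeries.coeff_add, R.evm_act_P, evm_rmul, ΘPpow,
      coeff_mul_sing, R.aff_evm a _ (by omega), R.inf_evm o _ (by push_cast; omega)] at h2
    rw [Finset.sum_eq_single k] at h2
    · simpa using h2
    · intro j _ hj
      rw [if_neg]
      intro h3
      apply hj
      ext
      omega
    · intro h3; exact absurd (Finset.mem_univ _) h3
  · intro z
    obtain ⟨f, rfl⟩ := Submodule.mkQ_surjective _ z
    let t : Fin (m + 1) → T := fun k => (evm U.Θ R.b (Fr.co R.ρV f)).coeff (((k : ℕ) : ℤ) + 1)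
    refine ⟨t, ?_⟩
    rw [toPsiP_apply]
    rw [← sub_eq_zero, ← map_sub, Submodule.mkQ_apply, Submodule.Quotient.mk_eq_zero]
    obtain ⟨a, o, h⟩ := R.split (m + 2)
      (Fr.co R.ρV ((∑ k : Fin (m + 1), t k • pk R (k + 1)) - f)) (by
        intro n h1 h2
        have h3 : Fr.co R.ρV ((∑ k : Fin (m + 1), t k • pk R (k + 1)) - f) =
          Fr.co R.ρV (∑ k : Fin (m + 1), t k • pk R (k + 1)) - Fr.co R.ρV f := rfl
        rw [h3, map_sub, HahnSeries.coeff_sub, coeff_sum_pk]
        push_cast at h2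
        have hn : n.toNat - 1 < m + 1 := by omega
        rw [Finset.sum_eq_single (⟨n.toNat - 1, hn⟩ : Fin (m + 1))]
        · have h4 : (((⟨n.toNat - 1, hn⟩ : Fin (m + 1)) : ℕ) : ℤ) + 1 = n := by
            simp only
            omega
          rw [h4, if_pos rfl]
          simp only [t]
          rw [h4, sub_self]
        · intro j _ hj
          rw [if_neg]
          intro h3
          apply hj
          ext
          simp only
          omega
        · intro h3; exact absurd (Finset.mem_univ _) h3)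
    exact ⟨(Fr.mk R.ρV a, Fr.mk R.ρO o), (co_delta_P R m _ _).trans h.symm⟩

/-- `Psi¹(OO(-m)) = T^{m+1}` -/
noncomputable def psiPEquiv (m : ℕ) : (Fin (m + 1) → T) ≃ₗ[T] Psi1 R (alV L) (beP L m) :=
  LinearEquiv.ofBijective (toPsiP R m) (toPsiP_bijective R m)

end OO

end Crest.Agent.R181.VB
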