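import Mathlib
import Crest.Agent.R181.VA980d
import Crest.Agent.R181.VB789e

-- ▼ part R181/VT495a
section

/-!
# R181, V-chain, block V2: matrix flatness over a subring `E` inside a big ring `K`

`FlatIn E M` (`M ⊆ K` an additive subgroup): an exact sequence of matrices over `E` stays exact on
row vectors with entries in `M`.
* `FlatIn.of_basis`: `M` right free over `E`
* `FlatIn.of_complete`: `O` complete with respect to a central `p`, `O/pO` right free over `E`
* `FlatIn.of_exhaust`: `K = ⋃ p^{-m} O`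
* `pure_of_basis`, `pure_of_basis_mod`: `E^k ∩ M^i C ⊆ E^i C`
-/

set_option autoImplicit false

namespace Crest.Agent.R181.VT

universe u

variable {K : Type u} [Ring K]

/-- matrix flatness of `M ⊆ K` over the subring `E ⊆ K` (right action) -/
def FlatIn (E : Subring K) (M : AddSubgroup K) : Prop :=
  ∀ (ι κ μ : Type) [Fintype ι] [Fintype κ] [Fintype μ] (A : Matrix ι κ E) (B : Matrix κ μ E),
    (∀ v : κ → E, Matrix.vecMul v B = 0 ↔ ∃ w : ι → E, Matrix.vecMul w A = v) →
    ∀ v : κ → K, (∀ i, v i ∈ M) → (∀ j, ∑ i, v i * (B i j : K) = 0) →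
      ∃ w : ι → K, (∀ i, w i ∈ M) ∧ ∀ j, ∑ i, w i * (A i j : K) = v j

/-- purity of `E` in `M ⊆ K` -/
def PureIn (E : Subring K) (M : AddSubgroup K) : Prop :=
  ∀ (ι κ : Type) [Fintype ι] [Fintype κ] (A : Matrix ι κ E) (v : κ → K), (∀ i, v i ∈ E) →
    ∀ w : ι → K, (∀ i, w i ∈ M) → (∀ j, ∑ i, w i * (A i j : K) = v j) →
      ∃ w' : ι → K, (∀ i, w' i ∈ E) ∧ ∀ j, ∑ i, w' i * (A i j : K) = v j

variable {E : Subring K}

theorem vecMul_coe {ι κ : Type} [Fintype ι] (A : Matrix ι κ E) (w : ι → E) (j : κ) :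
    ((Matrix.vecMul w A j : E) : K) = ∑ i, (w i : K) * (A i j : K) := by
  simp [Matrix.vecMul, dotProduct]

/-- exactness over `E`, elementwise in `K` -/
theorem exact_coe {ι κ μ : Type} [Fintype ι] [Fintype κ] [Fintype μ] {A : Matrix ι κ E}
    {B : Matrix κ μ E}
    (h : ∀ v : κ → E, Matrix.vecMul v B = 0 ↔ ∃ w : ι → E, Matrix.vecMul w A = v)
    (v : κ → K) (hv : ∀ i, v i ∈ E) (h0 : ∀ j, ∑ i, v i * (B i j : K) = 0) :
    ∃ w : ι → K, (∀ i, w i ∈ E) ∧ ∀ j, ∑ i, w i * (A i j : K) = v j := by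
  obtain ⟨w, hw⟩ := (h (fun i => ⟨v i, hv i⟩)).1 (by
    funext j
    apply Subtype.ext
    rw [vecMul_coe]
    exact h0 j)
  refine ⟨fun i => w i, fun i => (w i).2, fun j => ?_⟩
  rw [← vecMul_coe, hw]

theorem sum_smul_right {J : Type u} {ι : Type} [Fintype ι] (c : J → K) (e : ι → J →₀ K)
    (b : ι → K) :
    ((∑ i, (e i).mapRange (fun r => r * b i) (zero_mul _)).sum fun j r => c j * r) =
      ∑ i, ((e i).sum fun j r => c j * r) * b i := by
  classical
  rw [← Finsupp.sum_finsetSum_index (fun _ => mul_zero _) (fun _ _ _ => mul_add _ _ _)]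
  refine Finset.sum_congr rfl fun i _ => ?_
  rw [Finsupp.sum_mapRange_index (fun _ => mul_zero _), Finsupp.sum_mul]
  refine Finset.sum_congr rfl fun j _ => ?_
  exact (mul_assoc _ _ _).symm

theorem mapRange_sum_apply {J : Type u} {ι : Type} [Fintype ι] (e : ι → J →₀ K)
    (b : ι → K) (j : J) :
    (∑ i, (e i).mapRange (fun r => r * b i) (zero_mul _)) j = ∑ i, e i j * b i := by
  simp [Finsupp.finsetSum_apply]

/-- one step: freeness modulo `M'` -/
theorem step {M M' : AddSubgroup K} (hM' : ∀ m ∈ M', ∀ e ∈ E, m * e ∈ M') {J : Type u} (c : J → K)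
    (hc : ∀ j, ∀ e ∈ E, c j * e ∈ M)
    (span : ∀ m ∈ M, ∃ e : J →₀ K, (∀ j, e j ∈ E) ∧ m - (e.sum fun j r => c j * r) ∈ M')
    (ind : ∀ e : J →₀ K, (∀ j, e j ∈ E) → (e.sum fun j r => c j * r) ∈ M' → e = 0)
    {ι κ μ : Type} [Fintype ι] [Fintype κ] [Fintype μ] {A : Matrix ι κ E}
    {B : Matrix κ μ E}
    (hAB : ∀ v : κ → E, Matrix.vecMul v B = 0 ↔ ∃ w : ι → E, Matrix.vecMul w A = v)
    (v : κ → K) (hv : ∀ i, v i ∈ M) (h0 : ∀ j, ∑ i, v i * (B i j : K) ∈ M') :
    ∃ w : ι → K, (∀ i, w i ∈ M) ∧ ∀ j, v j - ∑ i, w i * (A i j : K) ∈ M' := by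
  classical
  choose! e he hve using span
  have hrow : ∀ j, ∀ b, ∑ i, e (v i) j * (B i b : K) = 0 := by
    intro j b
    rw [← mapRange_sum_apply (fun i => e (v i)) (fun i => (B i b : K)) j]
    have : (∑ i, (e (v i)).mapRange (fun r => r * (B i b : K)) (zero_mul _)) = 0 := by
      refine ind _ (fun j => ?_) ?_
      · rw [mapRange_sum_apply]
        exact E.sum_mem fun i _ => E.mul_mem (he _ (hv i) j) (B i b).2
      · rw [sum_smul_right]
        have h1 : ∑ i, ((e (v i)).sum fun j r => c j * r) * (B i b : K) =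
            (∑ i, v i * (B i b : K)) -
              ∑ i, (v i - (e (v i)).sum fun j r => c j * r) * (B i b : K) := by
          rw [← Finset.sum_sub_distrib]
          refine Finset.sum_congr rfl fun i _ => ?_
          rw [sub_mul]; abel
        rw [h1]
        exact M'.sub_mem (h0 b) (M'.sum_mem fun i _ => hM' _ (hve _ (hv i)) _ (B i b).2)
    rw [this]; rfl
  let S : Finset J := Finset.univ.biUnion fun i => (e (v i)).support
  have hS : ∀ i, ((e (v i)).sum fun j r => c j * r) = ∑ j ∈ S, c j * e (v i) j := by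
    intro i
    rw [Finsupp.sum_of_support_subset _ (s := S) ?_ _ (fun _ _ => mul_zero _)]
    exact Finset.subset_biUnion_of_mem (fun i => (e (v i)).support) (Finset.mem_univ i)
  have hw : ∀ j, ∃ w : ι → K, (∀ i, w i ∈ E) ∧ ∀ k, ∑ i, w i * (A i k : K) = e (v k) j := fun j =>
    exact_coe hAB (fun i => e (v i) j) (fun i => he _ (hv i) j) (hrow j)
  choose w hwE hwA using hw
  refine ⟨fun i => ∑ j ∈ S, c j * w j i, fun i => M.sum_mem fun j _ => hc j _ (hwE j i),
    fun k => ?_⟩
  have h2 : ∑ i, (∑ j ∈ S, c j * w j i) * (A i k : K) = (e (v k)).sum fun j r => c j * r := by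
    rw [hS k]
    simp only [Finset.sum_mul]
    rw [Finset.sum_comm]
    refine Finset.sum_congr rfl fun j _ => ?_
    rw [← hwA j k, Finset.mul_sum]
    exact Finset.sum_congr rfl fun i _ => mul_assoc _ _ _
  rw [h2]
  exact hve _ (hv k)

/-- right free modules are flat -/
theorem FlatIn.of_basis {M : AddSubgroup K} {J : Type u} (c : J → K)
    (hc : ∀ j, ∀ e ∈ E, c j * e ∈ M)
    (span : ∀ m ∈ M, ∃ e : J →₀ K, (∀ j, e j ∈ E) ∧ m = e.sum fun j r => c j * r)
    (ind : ∀ e : J →₀ K, (∀ j, e j ∈ E) → (e.sum fun j r => c j * r) = 0 → e = 0) :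
    FlatIn E M := by
  intro ι κ μ _ _ _ A B hAB v hv h0
  obtain ⟨w, hw, h⟩ := step (M := M) (M' := ⊥) (by
      rintro m hm e -
      rw [AddSubgroup.mem_bot] at hm ⊢
      rw [hm, zero_mul]) c hc
    (fun m hm => by
      obtain ⟨e, he, h⟩ := span m hm
      exact ⟨e, he, by rw [AddSubgroup.mem_bot, h, sub_self]⟩)
    (fun e he h => ind e he (AddSubgroup.mem_bot.1 h)) hAB v hv
    (fun j => AddSubgroup.mem_bot.2 (h0 j))
  exact ⟨w, hw, fun j => (sub_eq_zero.1 (AddSubgroup.mem_bot.1 (h j))).symm⟩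

/-- purity when `1` is in a right basis modulo `M'` -/
theorem pureIn_of_mod {M M' : AddSubgroup K} (hM' : ∀ m ∈ M', ∀ e ∈ E, m * e ∈ M') {J : Type u}
    (c : J → K) (j0 : J) (h1 : c j0 = 1)
    (span : ∀ m ∈ M, ∃ e : J →₀ K, (∀ j, e j ∈ E) ∧ m - (e.sum fun j r => c j * r) ∈ M')
    (ind : ∀ e : J →₀ K, (∀ j, e j ∈ E) → (e.sum fun j r => c j * r) ∈ M' → e = 0) :
    PureIn E M := by
  classical
  intro ι κ _ _ A v hv w hw hwv
  choose! e he hve using span
  refine ⟨fun i => e (w i) j0, fun i => he _ (hw i) j0, fun k => ?_⟩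
  -- the combination `∑ e_i A_ik - v_k` at `j0`
  have key : (∑ i, (e (w i)).mapRange (fun r => r * (A i k : K)) (zero_mul _)) -
      Finsupp.single j0 (v k) = 0 := by
    refine ind _ (fun j => ?_) ?_
    · rw [Finsupp.sub_apply, mapRange_sum_apply]
      refine E.sub_mem (E.sum_mem fun i _ => E.mul_mem (he _ (hw i) j) (A i k).2) ?_
      rw [Finsupp.single_apply]
      split_ifs
      · exact hv k
      · exact E.zero_mem
    · rw [Finsupp.sum_sub_index (fun _ _ _ => mul_sub _ _ _), sum_smul_right,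
        Finsupp.sum_single_index (mul_zero _), h1, one_mul]
      have h2 : ∑ i, ((e (w i)).sum fun j r => c j * r) * (A i k : K) =
            (∑ i, w i * (A i k : K)) -
              ∑ i, (w i - (e (w i)).sum fun j r => c j * r) * (A i k : K) := by
        rw [← Finset.sum_sub_distrib]
        refine Finset.sum_congr rfl fun i _ => ?_
        rw [sub_mul]; abel
      rw [h2, hwv, sub_sub_cancel_left]
      exact M'.neg_mem (M'.sum_mem fun i _ => hM' _ (hve _ (hw i)) _ (A i k).2)
  have h3 := DFunLike.congr_fun key j0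
  rw [Finsupp.sub_apply, mapRange_sum_apply, Finsupp.single_eq_same, Finsupp.zero_apply,
    sub_eq_zero] at h3
  exact h3

/-- purity when `1` is in a right basis -/
theorem PureIn.of_basis {M : AddSubgroup K} {J : Type u} (c : J → K) (j0 : J) (h1 : c j0 = 1)
    (span : ∀ m ∈ M, ∃ e : J →₀ K, (∀ j, e j ∈ E) ∧ m = e.sum fun j r => c j * r)
    (ind : ∀ e : J →₀ K, (∀ j, e j ∈ E) → (e.sum fun j r => c j * r) = 0 → e = 0) :
    PureIn E M :=
  pureIn_of_mod (M := M) (M' := ⊥) (by
      rintro m hm e -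
      rw [AddSubgroup.mem_bot] at hm ⊢
      rw [hm, zero_mul]) c j0 h1
    (fun m hm => by
      obtain ⟨e, he, h⟩ := span m hm
      exact ⟨e, he, by rw [AddSubgroup.mem_bot, h, sub_self]⟩)
    (fun e he h => ind e he (AddSubgroup.mem_bot.1 h))

section Complete

variable {O : Subring K} {p : K}

/-- `pO` -/
def pSub (O : Subring K) (p : K) : AddSubgroup K where
  carrier := {m | ∃ o ∈ O, m = p * o}
  add_mem' := by
    rintro _ _ ⟨a, ha, rfl⟩ ⟨b, hb, rfl⟩
    exact ⟨a + b, O.add_mem ha hb, (mul_add _ _ _).symm⟩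
  zero_mem' := ⟨0, O.zero_mem, (mul_zero _).symm⟩
  neg_mem' := by
    rintro _ ⟨a, ha, rfl⟩
    exact ⟨-a, O.neg_mem ha, (mul_neg _ _).symm⟩

theorem pSub_mul (hEO : E ≤ O) : ∀ m ∈ pSub O p, ∀ e ∈ E, m * e ∈ pSub O p := by
  rintro _ ⟨a, ha, rfl⟩ e he
  exact ⟨a * e, O.mul_mem ha (hEO he), mul_assoc _ _ _⟩


/-- a complete ring whose residue ring is right free is flat -/
theorem FlatIn.of_complete (hEO : E ≤ O) (pO : p ∈ O) (pc : ∀ d, p * d = d * p)
    (preg : ∀ d, p * d = 0 → d = 0) {J : Type u} (c : J → K) (hcO : ∀ j, c j ∈ O)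
    (span : ∀ o ∈ O, ∃ e : J →₀ K, (∀ j, e j ∈ E) ∧ ∃ o' ∈ O,
      o = (e.sum fun j r => c j * r) + p * o')
    (ind : ∀ e : J →₀ K, (∀ j, e j ∈ E) → ∀ o' ∈ O, (e.sum fun j r => c j * r) = p * o' → e = 0)
    (hsum : ∀ a : ℕ → K, (∀ n, a n ∈ O) → ∃ s ∈ O, ∀ N, ∃ r ∈ O,
      s = ∑ n ∈ Finset.range N, p ^ n * a n + p ^ N * r)
    (hsep : ∀ f ∈ O, (∀ N, ∃ r ∈ O, f = p ^ N * r) → f = 0) : FlatIn E O.toAddSubgroup := by
  classical
  intro ι κ μ _ _ _ A B hAB v hv h0
  have hst : ∀ v : κ → K, (∀ i, v i ∈ O) → (∀ j, ∑ i, v i * (B i j : K) = 0) →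
      ∃ (w : ι → K) (v' : κ → K), (∀ i, w i ∈ O) ∧ (∀ i, v' i ∈ O) ∧
        (∀ j, ∑ i, v' i * (B i j : K) = 0) ∧ ∀ j, v j = ∑ i, w i * (A i j : K) + p * v' j := by
    intro v hv h0
    obtain ⟨w, hw, h⟩ := step (M := O.toAddSubgroup) (M' := pSub O p) (pSub_mul hEO) c
      (fun j e he => O.mul_mem (hcO j) (hEO he))
      (fun m hm => by
        obtain ⟨e, he, o', ho', h⟩ := span m hm
        exact ⟨e, he, o', ho', by rw [h, add_sub_cancel_left]⟩)
      (fun e he h => by
        obtain ⟨o', ho', h'⟩ := h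
        exact ind e he o' ho' h') hAB v hv
      (fun j => ⟨0, O.zero_mem, by rw [h0 j, mul_zero]⟩)
    choose v' hv' hvv using h
    refine ⟨w, v', hw, hv', fun b => preg _ ?_, fun j => ?_⟩
    · rw [Finset.mul_sum]
      have h1 : ∀ i, p * (v' i * (B i b : K)) = v i * (B i b : K) -
          (∑ k, w k * (A k i : K)) * (B i b : K) := by
        intro i
        rw [← mul_assoc, ← hvv i, sub_mul]
      simp only [h1, Finset.sum_sub_distrib, h0 b, zero_sub, neg_eq_zero]
      -- `w A B = 0`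
      have h2 : ∀ k, ∑ i, (A k i : K) * (B i b : K) = 0 := by
        intro k
        have := (hAB (fun i => A k i)).2 ⟨Pi.single k 1, by simp; rfl⟩
        have h3 := congrFun this b
        have h4 := congrArg Subtype.val h3
        rw [vecMul_coe] at h4
        exact h4
      simp only [Finset.sum_mul]
      rw [Finset.sum_comm]
      refine Finset.sum_eq_zero fun k _ => ?_
      have : ∑ i, w k * (A k i : K) * (B i b : K) = w k * ∑ i, (A k i : K) * (B i b : K) := by
        rw [Finset.mul_sum]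
        exact Finset.sum_congr rfl fun i _ => mul_assoc _ _ _
      rw [this, h2, mul_zero]
    · rw [← hvv j]; abel
  choose! W V' hW hV' hVB hVA using hst
  let vs : ℕ → κ → K := fun n => V'^[n] v
  have hvs : ∀ n, (∀ i, vs n i ∈ O) ∧ ∀ j, ∑ i, vs n i * (B i j : K) = 0 := by
    intro n
    induction n with
    | zero => exact ⟨hv, h0⟩
    | succ n ih =>
      have h1 : vs (n + 1) = V' (vs n) := Function.iterate_succ_apply' V' n v
      rw [h1]
      exact ⟨hV' _ ih.1 ih.2, hVB _ ih.1 ih.2⟩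
  have hvs1 : ∀ n j, vs n j = ∑ i, W (vs n) i * (A i j : K) + p * vs (n + 1) j := by
    intro n j
    have h1 : vs (n + 1) = V' (vs n) := Function.iterate_succ_apply' V' n v
    rw [h1]
    exact hVA _ (hvs n).1 (hvs n).2 j
  have hfin : ∀ N j, v j = ∑ n ∈ Finset.range N, p ^ n * ∑ i, W (vs n) i * (A i j : K) +
      p ^ N * vs N j := by
    intro N j
    induction N with
    | zero => simp [vs]
    | succ N ih =>
      rw [Finset.sum_range_succ, ih, pow_succ, mul_assoc, add_assoc, ← mul_add, ← hvs1 N j]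
  have hs : ∀ i, ∃ s ∈ O, ∀ N, ∃ r ∈ O,
      s = ∑ n ∈ Finset.range N, p ^ n * W (vs n) i + p ^ N * r := fun i =>
    hsum (fun n => W (vs n) i) (fun n => hW _ (hvs n).1 (hvs n).2 i)
  choose s hsO hs using hs
  refine ⟨s, hsO, fun j => ?_⟩
  have hpn : ∀ n : ℕ, ∀ d, p ^ n * d = d * p ^ n := by
    intro n d
    exact (Commute.pow_left (show Commute p d from pc d) n).eq
  have h5 : v j - ∑ i, s i * (A i j : K) = 0 := by
    refine hsep _ (O.sub_mem (hv j) (O.sum_mem fun i _ => O.mul_mem (hsO i) (hEO (A i j).2)))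
      fun N => ?_
    choose r hrO hr using fun i => hs i N
    refine ⟨vs N j - ∑ i, r i * (A i j : K), O.sub_mem ((hvs N).1 j)
      (O.sum_mem fun i _ => O.mul_mem (hrO i) (hEO (A i j).2)), ?_⟩
    rw [hfin N j, mul_sub]
    have h6 : ∑ i, s i * (A i j : K) = ∑ n ∈ Finset.range N, p ^ n * ∑ i, W (vs n) i * (A i j : K) +
        p ^ N * ∑ i, r i * (A i j : K) := by
      have h7 : ∀ i, s i * (A i j : K) = (∑ n ∈ Finset.range N, p ^ n * (W (vs n) i * (A i j : K))) +
          p ^ N * (r i * (A i j : K)) := by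
        intro i
        rw [hr i, add_mul, Finset.sum_mul, mul_assoc]
        congr 1
        exact Finset.sum_congr rfl fun n _ => mul_assoc _ _ _
      simp only [h7, Finset.sum_add_distrib, ← Finset.mul_sum]
      congr 1
      rw [Finset.sum_comm]
      exact Finset.sum_congr rfl fun n _ => (Finset.mul_sum _ _ _).symm
    rw [h6]; abel
  exact (sub_eq_zero.1 h5).symm

/-- flatness passes from `O` to `K = ⋃ p^{-m} O` -/
theorem FlatIn.of_exhaust (pc : ∀ d, p * d = d * p) {x : K} (xp : x * p = 1)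
    (pO : p ∈ O) (exh : ∀ d, ∃ m : ℕ, p ^ m * d ∈ O) (h : FlatIn E O.toAddSubgroup) :
    FlatIn E (⊤ : AddSubgroup K) := by
  classical
  intro ι κ μ _ _ _ A B hAB v _ h0
  choose m hm using exh
  let N : ℕ := Finset.univ.sup fun i => m (v i)
  have hN : ∀ i, p ^ N * v i ∈ O := by
    intro i
    have h1 : m (v i) ≤ N := Finset.le_sup (f := fun i => m (v i)) (Finset.mem_univ i)
    obtain ⟨k, hk⟩ := Nat.exists_eq_add_of_le h1
    rw [hk, add_comm, pow_add, mul_assoc]
    exact O.mul_mem (O.pow_mem pO k) (hm _)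
  obtain ⟨w, hw, h2⟩ := h ι κ μ A B hAB (fun i => p ^ N * v i) hN (fun j => by
    simp only [mul_assoc, ← Finset.mul_sum, h0 j, mul_zero])
  have hxp : x ^ N * p ^ N = 1 := by
    rw [← Commute.mul_pow, xp, one_pow]
    show x * p = p * x
    rw [pc]
  refine ⟨fun i => x ^ N * w i, fun _ => trivial, fun j => ?_⟩
  simp only [mul_assoc, ← Finset.mul_sum, h2 j]
  rw [← mul_assoc, hxp, one_mul]

/-- flatness is invariant under multiplication by a unit -/
theorem FlatIn.mul_unit {M M' : AddSubgroup K} {x p : K} (xp : x * p = 1) (px : p * x = 1)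
    (h1 : ∀ m ∈ M, x * m ∈ M') (h2 : ∀ m ∈ M', p * m ∈ M) (h : FlatIn E M) : FlatIn E M' := by
  intro ι κ μ _ _ _ A B hAB v hv h0
  obtain ⟨w, hw, h3⟩ := h ι κ μ A B hAB (fun i => p * v i) (fun i => h2 _ (hv i)) (fun j => by
    simp only [mul_assoc, ← Finset.mul_sum, h0 j, mul_zero])
  refine ⟨fun i => x * w i, fun i => h1 _ (hw i), fun j => ?_⟩
  simp only [mul_assoc, ← Finset.mul_sum, h3 j]
  rw [← mul_assoc, xp, one_mul]

end Complete

end Crest.Agent.R181.VT
end

-- ▼ part R181/VT495b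
section

/-!
# R181, V-chain, block V2: consequences of a right basis of `K/(V+O)` over `E = V ∩ O`

`full_aux`: if `a ∈ V^k`, `b ∈ O^k`, `a - b = kC` then `a ≡ g mod V^i C`, `b ≡ g mod O^i C`, `g ∈ E^k`.
`inj_V`, `inj_O`: `V^k/V^i C → K^k/K^i C` and `O^k/O^i C → K^k/K^i C` are injective.
-/

set_option autoImplicit false

namespace Crest.Agent.R181.VT

universe u

variable {K : Type u} [Ring K]

/-- right basis of `K/(V+O)` over `V ∩ O` -/
structure RG (V O : Subring K) where
  I0 : Type u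
  g0 : I0 → K
  span0 : ∀ d, ∃ c : I0 →₀ K, (∀ i, c i ∈ V ⊓ O) ∧
    ∃ v ∈ V, ∃ o ∈ O, d = v + o + c.sum (fun i e => g0 i * e)
  ind0 : ∀ c : I0 →₀ K, (∀ i, c i ∈ V ⊓ O) → ∀ v ∈ V, ∀ o ∈ O,
    c.sum (fun i e => g0 i * e) = v + o → c = 0

variable {V O : Subring K}

theorem RG.split (B : RG V O) {ι κ : Type} [Fintype ι] [Fintype κ]
    (C : Matrix ι κ ↥(V ⊓ O)) (k : ι → K)
    (hk : ∀ j, ∃ v ∈ V, ∃ o ∈ O, ∑ i, k i * (C i j : K) = v + o) :
    ∃ (v o : ι → K), (∀ i, v i ∈ V) ∧ (∀ i, o i ∈ O) ∧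
      ∀ j, ∑ i, k i * (C i j : K) = ∑ i, v i * (C i j : K) + ∑ i, o i * (C i j : K) := by
  classical
  choose c hc v hv o ho hd using B.span0
  refine ⟨fun i => v (k i), fun i => o (k i), fun i => hv _, fun i => ho _, fun j => ?_⟩
  have hCV : ∀ i j, (C i j : K) ∈ V := fun i j => (C i j).2.1
  have hCO : ∀ i j, (C i j : K) ∈ O := fun i j => (C i j).2.2
  have key : (∑ i, (c (k i)).mapRange (fun r => r * (C i j : K)) (zero_mul _)) = 0 := by
    obtain ⟨v', hv', o', ho', h⟩ := hk j
    refine B.ind0 _ (fun x => ?_) (v' - ∑ i, v (k i) * (C i j : K))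
      (V.sub_mem hv' (V.sum_mem fun i _ => V.mul_mem (hv _) (hCV i j)))
      (o' - ∑ i, o (k i) * (C i j : K))
      (O.sub_mem ho' (O.sum_mem fun i _ => O.mul_mem (ho _) (hCO i j))) ?_
    · rw [mapRange_sum_apply]
      exact Subring.sum_mem _ fun i _ => Subring.mul_mem _ (hc _ x) (C i j).2
    · rw [sum_smul_right]
      have h2 : ∀ i, ((c (k i)).sum fun x r => B.g0 x * r) * (C i j : K) =
          k i * (C i j : K) - v (k i) * (C i j : K) - o (k i) * (C i j : K) := by
        intro i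
        have h5 : k i * (C i j : K) = (v (k i) + o (k i) +
          (c (k i)).sum fun x r => B.g0 x * r) * (C i j : K) :=
          congrArg (· * (C i j : K)) (hd (k i))
        rw [h5, add_mul, add_mul]
        abel
      simp only [h2, Finset.sum_sub_distrib, h]
      abel
  have h3 := sum_smul_right B.g0 (fun i => c (k i)) (fun i => (C i j : K))
  rw [key, Finsupp.sum_zero_index] at h3
  have h4 : ∑ i, k i * (C i j : K) = ∑ i, (v (k i) * (C i j : K) + o (k i) * (C i j : K) +
      ((c (k i)).sum fun x r => B.g0 x * r) * (C i j : K)) := by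
    refine Finset.sum_congr rfl fun i _ => ?_
    have h5 : k i * (C i j : K) = (v (k i) + o (k i) +
      (c (k i)).sum fun x r => B.g0 x * r) * (C i j : K) :=
      congrArg (· * (C i j : K)) (hd (k i))
    rw [h5, add_mul, add_mul]
  rw [h4, Finset.sum_add_distrib, ← h3, add_zero, Finset.sum_add_distrib]

/-- maps out of `OO(1)` into `OO(1) ⊗ M` are elements of `M` -/
theorem RG.full_aux (B : RG V O) {ι κ : Type} [Fintype ι] [Fintype κ]
    (C : Matrix ι κ ↥(V ⊓ O)) (a b : κ → K) (ha : ∀ j, a j ∈ V) (hb : ∀ j, b j ∈ O) (k : ι → K)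
    (hk : ∀ j, a j - b j = ∑ i, k i * (C i j : K)) :
    ∃ (g : κ → ↥(V ⊓ O)) (v o : ι → K), (∀ i, v i ∈ V) ∧ (∀ i, o i ∈ O) ∧
      (∀ j, a j = g j + ∑ i, v i * (C i j : K)) ∧ (∀ j, b j = g j + ∑ i, o i * (C i j : K)) := by
  obtain ⟨v, o, hv, ho, h⟩ := B.split C k (fun j => ⟨a j, ha j, -b j, O.neg_mem (hb j), by
    rw [← hk j]; abel⟩)
  have h1 : ∀ j, a j - ∑ i, v i * (C i j : K) = b j + ∑ i, o i * (C i j : K) := by
    intro j
    have := hk j
    rw [h j] at this
    rw [sub_eq_iff_eq_add] at this ⊢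
    rw [this]; abel
  have hg : ∀ j, a j - ∑ i, v i * (C i j : K) ∈ V ⊓ O := by
    intro j
    refine ⟨V.sub_mem (ha j) (V.sum_mem fun i _ => V.mul_mem (hv i) (C i j).2.1), ?_⟩
    rw [h1 j]
    exact O.add_mem (hb j) (O.sum_mem fun i _ => O.mul_mem (ho i) (C i j).2.2)
  refine ⟨fun j => ⟨_, hg j⟩, v, fun i => - o i, hv, fun i => O.neg_mem (ho i), fun j => ?_,
    fun j => ?_⟩
  · simp
  · show b j = (a j - ∑ i, v i * (C i j : K)) + _
    rw [h1 j]
    simp



end Crest.Agent.R181.VT
end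

-- ▼ part R181/VT495d
section

/-!
# R181, V-chain, block V2: `Θ = OO(1)` is flat and full over `E`

* `flat_TT`, `flat_P0 : VA.Flat (Lam L) (EE L) _`
* `full_TT : VA.Full (Lam L) (EE L) (TT L)`
-/

set_option autoImplicit false
set_option linter.unusedSectionVars false

namespace Crest.Agent.R181.VT

open V868 VA MulOpposite

universe u

variable {DD : Type u} [Ring DD] {L : Line DD}

/-- `xO` as an additive subgroup -/
def xO (L : Line DD) : AddSubgroup DD where
  carrier := {y | L.p * y ∈ L.O}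
  add_mem' := fun {a b} ha hb => by
    show L.p * (a + b) ∈ L.O
    rw [mul_add]; exact L.O.add_mem ha hb
  zero_mem' := by show L.p * 0 ∈ L.O; rw [mul_zero]; exact L.O.zero_mem
  neg_mem' := fun {a} ha => by
    show L.p * (-a) ∈ L.O
    rw [mul_neg]; exact L.O.neg_mem ha

theorem flat_xO (h : FlatIn (EE L) L.O.toAddSubgroup) : FlatIn (EE L) (xO L) :=
  FlatIn.mul_unit (M := L.O.toAddSubgroup) (x := L.x) (p := L.p) L.xp L.px
    (fun m hm => by
      show L.p * (L.x * m) ∈ L.O
      rw [← mul_assoc, L.px, one_mul]; exact hm)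
    (fun m hm => hm) h

section Coord

variable {S : Submodule (Lam L) (Tr L DD)}

theorem sum_coe_1 {κ : Type} [Fintype κ] (f : κ → Tr L DD) : (∑ i, f i).1 = ∑ i, (f i).1 := by
  classical
  exact map_sum (⟨⟨fun y : Tr L DD => y.1, rfl⟩, fun _ _ => rfl⟩ : Tr L DD →+ DD) f _

theorem sum_coe_2 {κ : Type} [Fintype κ] (f : κ → Tr L DD) : (∑ i, f i).2.1 = ∑ i, (f i).2.1 := by
  classical
  exact map_sum (⟨⟨fun y : Tr L DD => y.2.1, rfl⟩, fun _ _ => rfl⟩ : Tr L DD →+ DD) f _

theorem sum_coe_3 {κ : Type} [Fintype κ] (f : κ → Tr L DD) : (∑ i, f i).2.2 = ∑ i, (f i).2.2 := by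
  classical
  exact map_sum (⟨⟨fun y : Tr L DD => y.2.2, rfl⟩, fun _ _ => rfl⟩ : Tr L DD →+ DD) f _

end Coord

section Comps

variable {C : Type*} [AddCommGroup C] [Module DD C]

/-- constructor for triples -/
def mk3 (L : Line DD) (a b c : C) : Tr L C := (a, b, c)

@[simp] theorem mk3_1 (a b c : C) : (mk3 L a b c).1 = a := rfl
@[simp] theorem mk3_2 (a b c : C) : (mk3 L a b c).2.1 = b := rfl
@[simp] theorem mk3_3 (a b c : C) : (mk3 L a b c).2.2 = c := rfl

theorem iA_1 (v : L.V) (y : Tr L C) : (iA L v • y).1 = (v : DD) • y.1 := by rw [Tr_iA]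
theorem iA_2 (v : L.V) (y : Tr L C) : (iA L v • y).2.1 = 0 := by rw [Tr_iA]
theorem iA_3 (v : L.V) (y : Tr L C) : (iA L v • y).2.2 = 0 := by rw [Tr_iA]
theorem iB_1 (v : L.O) (y : Tr L C) : (iB L v • y).1 = 0 := by rw [Tr_iB]
theorem iB_2 (v : L.O) (y : Tr L C) : (iB L v • y).2.1 = (v : DD) • y.2.1 := by rw [Tr_iB]
theorem iB_3 (v : L.O) (y : Tr L C) : (iB L v • y).2.2 = 0 := by rw [Tr_iB]
theorem iC_1 (v : DD) (y : Tr L C) : (iC L v • y).1 = 0 := by rw [Tr_iC]
theorem iC_2 (v : DD) (y : Tr L C) : (iC L v • y).2.1 = 0 := by rw [Tr_iC]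
theorem iC_3 (v : DD) (y : Tr L C) : (iC L v • y).2.2 = v • y.2.2 := by rw [Tr_iC]
theorem tA_3 (y : Tr L C) : (tA L • y).2.2 = y.1 := by rw [Tr_tA]
theorem tB_1 (y : Tr L C) : (tB L • y).1 = 0 := by rw [Tr_tB]
theorem tB_2 (y : Tr L C) : (tB L • y).2.1 = 0 := by rw [Tr_tB]
theorem tB_3 (y : Tr L C) : (tB L • y).2.2 = y.2.1 := by rw [Tr_tB]
theorem sub_1 (x y : Tr L C) : (x - y).1 = x.1 - y.1 := rfl
theorem sub_2 (x y : Tr L C) : (x - y).2.1 = x.2.1 - y.2.1 := rfl
theorem sub_3 (x y : Tr L C) : (x - y).2.2 = x.2.2 - y.2.2 := rfl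
theorem op_1 (e : DD) (y : Tr L DD) : (op e • y).1 = y.1 * e := rfl
theorem op_2 (e : DD) (y : Tr L DD) : (op e • y).2.1 = y.2.1 * e := rfl
theorem op_3 (e : DD) (y : Tr L DD) : (op e • y).2.2 = y.2.2 * e := rfl

end Comps

section TT

variable {ι κ μ : Type} [Fintype ι] [Fintype κ] [Fintype μ]

theorem mR_TT_coe (A : Matrix ι κ (EE L)) (v : ι → TT L) (j : κ) :
    ((mR (Lam L) (TT L) A v j : TT L) : Tr L DD) = ∑ i, op (A i j : DD) • (v i : Tr L DD) := by
  rw [mR_apply]
  rw [AddSubmonoidClass.coe_finsetSum]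
  rfl

theorem mR_TT_1 (A : Matrix ι κ (EE L)) (v : ι → TT L) (j : κ) :
    ((mR (Lam L) (TT L) A v j : TT L) : Tr L DD).1 = ∑ i, (v i : Tr L DD).1 * (A i j : DD) := by
  rw [mR_TT_coe, sum_coe_1]; rfl

theorem mR_TT_2 (A : Matrix ι κ (EE L)) (v : ι → TT L) (j : κ) :
    ((mR (Lam L) (TT L) A v j : TT L) : Tr L DD).2.1 = ∑ i, (v i : Tr L DD).2.1 * (A i j : DD) := by
  rw [mR_TT_coe, sum_coe_2]; rfl

theorem mR_TT_3 (A : Matrix ι κ (EE L)) (v : ι → TT L) (j : κ) :
    ((mR (Lam L) (TT L) A v j : TT L) : Tr L DD).2.2 = ∑ i, (v i : Tr L DD).2.2 * (A i j : DD) := by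
  rw [mR_TT_coe, sum_coe_3]; rfl




end TT

theorem flat_TT (hV : FlatIn (EE L) L.V.toAddSubgroup) (hO : FlatIn (EE L) L.O.toAddSubgroup)
    (hD : FlatIn (EE L) (⊤ : AddSubgroup DD)) : VA.Flat (Lam L) (EE L) (TT L) := by
  intro ι κ μ _ _ _ A B hAB v hv
  have hv' : ∀ j, ((mR (Lam L) (TT L) B v j : TT L) : Tr L DD) = 0 := fun j => by
    rw [hv]; rfl
  obtain ⟨w1, hw1, h1⟩ := hV ι κ μ A B hAB (fun i => (v i : Tr L DD).1)
    (fun i => ((mem_TT L).1 (v i).2).1) (fun j => by
      rw [← mR_TT_1, hv' j]; rfl)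
  obtain ⟨w2, hw2, h2⟩ := flat_xO hO ι κ μ A B hAB (fun i => (v i : Tr L DD).2.1)
    (fun i => ((mem_TT L).1 (v i).2).2) (fun j => by
      rw [← mR_TT_2, hv' j]; rfl)
  obtain ⟨w3, hw3, h3⟩ := hD ι κ μ A B hAB (fun i => (v i : Tr L DD).2.2)
    (fun i => trivial) (fun j => by
      rw [← mR_TT_3, hv' j]; rfl)
  refine ⟨fun i => ⟨(w1 i, w2 i, w3 i), (mem_TT L).2 ⟨hw1 i, hw2 i⟩⟩, ?_⟩
  funext j
  apply Subtype.ext
  apply Tr_ext
  · rw [mR_TT_1]; exact h1 j
  · rw [mR_TT_2]; exact h2 j
  · rw [mR_TT_3]; exact h3 j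


/-! ### fullness -/

/-- `1_A` -/
def oneA (L : Line DD) : TT L := ⟨mk3 L 1 0 0, (mem_TT L).2 ⟨L.V.one_mem, by
  rw [mk3_2, mul_zero]; exact L.O.zero_mem⟩⟩

/-- `x_B` -/
def xB (L : Line DD) : TT L := ⟨mk3 L 0 L.x 0, (mem_TT L).2 ⟨L.V.zero_mem, by
  rw [mk3_2, L.px]; exact L.O.one_mem⟩⟩

theorem oneA_coe : (oneA L : Tr L DD) = mk3 L 1 0 0 := rfl
theorem xB_coe : (xB L : Tr L DD) = mk3 L 0 L.x 0 := rfl

theorem eq_gen (θ : TT L) : θ = iA L ⟨(θ : Tr L DD).1, ((mem_TT L).1 θ.2).1⟩ • oneA L +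
    iB L ⟨L.p * (θ : Tr L DD).2.1, ((mem_TT L).1 θ.2).2⟩ • xB L +
    iC L (θ : Tr L DD).2.2 • tA L • oneA L := by
  apply Subtype.ext
  show (θ : Tr L DD) = iA L ⟨(θ : Tr L DD).1, ((mem_TT L).1 θ.2).1⟩ • (oneA L : Tr L DD) +
    iB L ⟨L.p * (θ : Tr L DD).2.1, ((mem_TT L).1 θ.2).2⟩ • (xB L : Tr L DD) +
    iC L (θ : Tr L DD).2.2 • tA L • (oneA L : Tr L DD)
  have h1 : (L.p * (θ : Tr L DD).2.1) * L.x = (θ : Tr L DD).2.1 := by
    rw [mul_assoc, ← L.xc, ← mul_assoc, L.px, one_mul]
  apply Tr_ext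
  · rw [Tr_add_1, Tr_add_1, iA_1, iB_1, iC_1, oneA_coe, mk3_1, smul_eq_mul, mul_one, add_zero,
      add_zero]
  · rw [Tr_add_2, Tr_add_2, iA_2, iB_2, iC_2, xB_coe, mk3_2, smul_eq_mul, zero_add, add_zero, h1]
  · rw [Tr_add_3, Tr_add_3, iA_3, iB_3, iC_3, tA_3, oneA_coe, mk3_1, smul_eq_mul, mul_one, zero_add,
      zero_add]

section Full

variable {ι κ : Type} [Fintype ι] [Fintype κ] (C : Matrix ι κ (EE L))

/-- the quotient map -/
abbrev qC : (κ → TT L) →ₗ[Lam L] ((κ → TT L) ⧸ LinearMap.range (mR (Lam L) (TT L) C)) :=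
  (LinearMap.range (mR (Lam L) (TT L) C)).mkQ

theorem qC_zero_iff (x : κ → TT L) : qC C x = 0 ↔ ∃ w, mR (Lam L) (TT L) C w = x :=
  mkQ_eq_zero_iff (M := TT L) C x

/-- `θ ↦ θ g` -/
def mg (g : κ → EE L) : TT L →ₗ[Lam L] (κ → TT L) where
  toFun θ j := op (g j) • θ
  map_add' s t := by funext j; exact smul_add _ _ _
  map_smul' m t := by
    funext j
    exact (smul_comm m (op (g j)) t).symm


theorem eq_mg (f : TT L →ₗ[Lam L] ((κ → TT L) ⧸ LinearMap.range (mR (Lam L) (TT L) C)))
    (g : κ → EE L) (h1 : f (oneA L) = qC C (mg g (oneA L))) (h2 : f (xB L) = qC C (mg g (xB L)))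
    (θ : TT L) : f θ = qC C (mg g θ) := by
  rw [eq_gen θ]
  simp only [map_add, map_smul, h1, h2]

theorem hA1 : iA L 1 • oneA L = oneA L := Subtype.ext (by
  show iA L 1 • (oneA L : Tr L DD) = _
  apply Tr_ext
  · rw [iA_1]; exact one_mul _
  · rw [iA_2]; rfl
  · rw [iA_3]; rfl)

theorem hB1 : iB L 1 • xB L = xB L := Subtype.ext (by
  show iB L 1 • (xB L : Tr L DD) = _
  apply Tr_ext
  · rw [iB_1]; rfl
  · rw [iB_2]; exact one_mul _
  · rw [iB_3]; rfl)

theorem hrel : iC L L.x • tA L • oneA L = tB L • xB L := Subtype.ext (by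
  show iC L L.x • tA L • (oneA L : Tr L DD) = tB L • (xB L : Tr L DD)
  apply Tr_ext
  · rw [iC_1, tB_1]
  · rw [iC_2, tB_2]
  · rw [iC_3, tB_3, tA_3, oneA_coe, xB_coe, mk3_1, mk3_2, smul_eq_mul, mul_one])

/-- agreement on `1_A` -/
theorem agree_A (a' : κ → TT L) (g : κ → EE L) (v : ι → DD) (hv : ∀ i, v i ∈ L.V)
    (h1 : ∀ j, (a' j : Tr L DD).1 = g j + ∑ i, v i * (C i j : DD)) :
    iA L 1 • qC C a' = qC C (mg g (oneA L)) := by
  rw [← map_smul, ← sub_eq_zero, ← map_sub, qC_zero_iff]
  refine ⟨fun i => ⟨mk3 L (v i) 0 0, (mem_TT L).2 ⟨hv i, by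
    rw [mk3_2, mul_zero]; exact L.O.zero_mem⟩⟩, ?_⟩
  funext j
  apply Subtype.ext
  have hR : (((iA L 1 • a' - mg g (oneA L)) j : TT L) : Tr L DD) =
      iA L 1 • (a' j : Tr L DD) - op (g j : DD) • mk3 L 1 0 0 := rfl
  rw [hR]
  apply Tr_ext
  · rw [mR_TT_1, sub_1, iA_1, op_1, mk3_1, one_mul]
    show ∑ i, v i * (C i j : DD) = (1 : DD) * (a' j : Tr L DD).1 - (g j : DD)
    rw [one_mul, h1 j]; abel
  · rw [mR_TT_2, sub_2, iA_2, op_2, mk3_2, zero_mul, sub_zero]
    exact Finset.sum_eq_zero fun i _ => zero_mul _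
  · rw [mR_TT_3, sub_3, iA_3, op_3, mk3_3, zero_mul, sub_zero]
    exact Finset.sum_eq_zero fun i _ => zero_mul _

/-- agreement on `x_B` -/
theorem agree_B (b' : κ → TT L) (g : κ → EE L) (o : ι → DD) (ho : ∀ i, o i ∈ L.O)
    (h2 : ∀ j, L.p * (b' j : Tr L DD).2.1 = g j + ∑ i, o i * (C i j : DD)) :
    iB L 1 • qC C b' = qC C (mg g (xB L)) := by
  rw [← map_smul, ← sub_eq_zero, ← map_sub, qC_zero_iff]
  refine ⟨fun i => ⟨mk3 L 0 (L.x * o i) 0, (mem_TT L).2 ⟨L.V.zero_mem, by
    rw [mk3_2, ← mul_assoc, L.px, one_mul]; exact ho i⟩⟩, ?_⟩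
  funext j
  apply Subtype.ext
  have hR : (((iB L 1 • b' - mg g (xB L)) j : TT L) : Tr L DD) =
      iB L 1 • (b' j : Tr L DD) - op (g j : DD) • mk3 L 0 L.x 0 := rfl
  rw [hR]
  apply Tr_ext
  · rw [mR_TT_1, sub_1, iB_1, op_1, mk3_1, zero_mul, sub_zero]
    exact Finset.sum_eq_zero fun i _ => zero_mul _
  · rw [mR_TT_2, sub_2, iB_2, op_2, mk3_2]
    show ∑ i, L.x * o i * (C i j : DD) = (1 : DD) * (b' j : Tr L DD).2.1 - L.x * (g j : DD)
    simp only [mul_assoc, ← Finset.mul_sum]
    have h3 : (b' j : Tr L DD).2.1 = L.x * (L.p * (b' j : Tr L DD).2.1) := by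
      rw [← mul_assoc, L.xp, one_mul]
    rw [one_mul, h3, h2 j, mul_add]; abel
  · rw [mR_TT_3, sub_3, iB_3, op_3, mk3_3, zero_mul, sub_zero]
    exact Finset.sum_eq_zero fun i _ => zero_mul _

end Full

theorem full_TT (B : RG L.V L.O) : VA.Full (Lam L) (EE L) (TT L) := by
  intro ι κ _ _ C f
  obtain ⟨a', ha'⟩ := Submodule.mkQ_surjective _ (f (oneA L))
  obtain ⟨b', hb'⟩ := Submodule.mkQ_surjective _ (f (xB L))
  have ha'' : qC C a' = f (oneA L) := ha'
  have hb'' : qC C b' = f (xB L) := hb'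
  have hrel2 : qC C (iC L L.x • tA L • a' - tB L • b') = 0 := by
    rw [map_sub, map_smul, map_smul, map_smul, ha'', hb'', ← map_smul, ← map_smul, ← map_smul, hrel,
      sub_self]
  rw [qC_zero_iff] at hrel2
  obtain ⟨w, hw⟩ := hrel2
  have hk : ∀ j, L.x * (a' j : Tr L DD).1 - (b' j : Tr L DD).2.1 =
      ∑ i, (w i : Tr L DD).2.2 * (C i j : DD) := by
    intro j
    rw [← mR_TT_3, hw]
    have hR : (((iC L L.x • tA L • a' - tB L • b') j : TT L) : Tr L DD) =
      iC L L.x • tA L • (a' j : Tr L DD) - tB L • (b' j : Tr L DD) := rfl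
    rw [hR, sub_3, iC_3, tA_3, tB_3]; rfl
  obtain ⟨g, v, o, hv, ho, h1, h2⟩ := B.full_aux C (fun j => (a' j : Tr L DD).1)
    (fun j => L.p * (b' j : Tr L DD).2.1) (fun j => ((mem_TT L).1 (a' j).2).1)
    (fun j => ((mem_TT L).1 (b' j).2).2) (fun i => L.p * (w i : Tr L DD).2.2) (fun j => by
      simp only [mul_assoc, ← Finset.mul_sum]
      rw [← hk j, mul_sub, ← mul_assoc, L.px, one_mul])
  refine ⟨g, fun θ => ?_⟩
  refine eq_mg C f g ?_ ?_ θ
  · rw [← agree_A C a' g v hv h1, ha'', ← map_smul, hA1]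
  · rw [← agree_B C b' g o ho h2, hb'', ← map_smul, hB1]

end Crest.Agent.R181.VT
end

-- ▼ part R181/VT495e
section

/-!
# R181, V-chain, block V2: `Psi` on modules over the triangular ring

`dZ R Y` is 789's `delta` of the components of a `Lam L`-module `Y`; `PZ R Y` says it is bijective
(`Psi⁰ Y = Psi¹ Y = 0`).  `PZ` holds on the extension closure `W` of `{Θ ⊗_E M}`.
-/

set_option autoImplicit false
set_option linter.unusedSectionVars false

namespace Crest.Agent.R181.VT

open V868 VA VB LK MulOpposite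

universe u

variable {DD : Type u} [Ring DD] {L : Line DD} {T : Type u} [Ring T] {U : UnivT L T} (R : RB U)

section iso

variable {A B C A' B' C' : Type u} [AddCommGroup A] [Module L.V A] [AddCommGroup B]
  [Module L.O B] [AddCommGroup C] [Module DD C] [AddCommGroup A'] [Module L.V A']
  [AddCommGroup B'] [Module L.O B'] [AddCommGroup C'] [Module DD C']
  {al : A →ₛₗ[L.V.subtype] C} {be : B →ₛₗ[L.O.subtype] C}
  {al' : A' →ₛₗ[L.V.subtype] C'} {be' : B' →ₛₗ[L.O.subtype] C'}

/-- isomorphic plain triples -/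
theorem delta_bij_iff (fA : A →ₗ[L.V] A') (fB : B →ₗ[L.O] B') (fC : C →ₗ[DD] C')
    (hA : ∀ a, al' (fA a) = fC (al a)) (hB : ∀ b, be' (fB b) = fC (be b))
    (bA : Function.Bijective fA) (bB : Function.Bijective fB) (bC : Function.Bijective fC) :
    Function.Bijective (delta R al' be') ↔ Function.Bijective (delta R al be) := by
  have h1 : Function.Bijective ((Fr.map R.ρV fA).prodMap (Fr.map R.ρO fB)) := by
    rw [LinearMap.coe_prodMap]
    exact Function.Bijective.prodMap ⟨Fr.map_injective _ _ bA.1, Fr.map_surjective _ _ bA.2⟩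
      ⟨Fr.map_injective _ _ bB.1, Fr.map_surjective _ _ bB.2⟩
  have h2 : Function.Bijective (Fr.map R.ρV (res L.V fC)) :=
    ⟨Fr.map_injective _ _ bC.1, Fr.map_surjective _ _ bC.2⟩
  have h3 : (delta R al' be' : _ → _) ∘ ((Fr.map R.ρV fA).prodMap (Fr.map R.ρO fB)) =
      (Fr.map R.ρV (res L.V fC) : _ → _) ∘ (delta R al be) :=
    funext fun y => delta_map R fA fB fC hA hB y
  rw [← Function.Bijective.of_comp_iff' h2, ← h3, Function.Bijective.of_comp_iff _ h1]

end iso

section Z

variable (Y : Type u) [AddCommGroup Y] [Module (Lam L) Y]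

/-- `delta` of a `Lam L`-module -/
noncomputable def dZ : (Fr R.ρV (cA L Y) × Fr R.ρO (cB L Y)) →ₗ[T] Fr R.ρV (cC L Y) :=
  delta R (al L (Y := Y)) (be L (Y := Y))

/-- `Psi` vanishes on `Y` -/
def PZ : Prop := Function.Bijective (dZ R Y)

variable {Y}
variable {M N : Type u} [AddCommGroup M] [Module (Lam L) M] [AddCommGroup N] [Module (Lam L) N]

/-- the short exact sequence of the components -/
theorem ts_of_ses {i : M →ₗ[Lam L] Y} {p : Y →ₗ[Lam L] N} (h : SES i p) :
    TS (al L (Y := M)) (be L (Y := M)) (al L (Y := Y)) (be L (Y := Y)) (al L (Y := N))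
      (be L (Y := N)) (Cmap (iA L) i) (Cmap (iB L) i) (Cmap (iC L) i) (Cmap (iA L) p)
      (Cmap (iB L) p) (Cmap (iC L) p) where
  fA_inj := Cmap_injective _ h.inj
  fB_inj := Cmap_injective _ h.inj
  fC_inj := Cmap_injective _ h.inj
  gA_surj := Cmap_surjective _ h.surj
  gB_surj := Cmap_surjective _ h.surj
  gC_surj := Cmap_surjective _ h.surj
  exA := Cmap_exact _ (SES.exact h)
  exB := Cmap_exact _ (SES.exact h)
  exC := Cmap_exact _ (SES.exact h)
  fal := fun a => al_map L i a
  fbe := fun a => be_map L i a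
  gal := fun a => al_map L p a
  gbe := fun a => be_map L p a

theorem PZ.ext {i : M →ₗ[Lam L] Y} {p : Y →ₗ[Lam L] N} (h : SES i p) (h1 : PZ R M)
    (h2 : PZ R N) : PZ R Y :=
  (ts_of_ses h).bij R h1 h2

theorem Cmap_bijective {S : Type*} [Ring S] (ι : S →ₙ+* Lam L) (e : M ≃ₗ[Lam L] N) :
    Function.Bijective (Cmap ι e.toLinearMap) :=
  ⟨Cmap_injective _ e.injective, Cmap_surjective _ e.surjective⟩

theorem PZ.iso (e : M ≃ₗ[Lam L] N) (h : PZ R M) : PZ R N :=
  (delta_bij_iff R (Cmap (iA L) e.toLinearMap) (Cmap (iB L) e.toLinearMap)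
    (Cmap (iC L) e.toLinearMap) (fun a => al_map L e.toLinearMap a)
    (fun a => be_map L e.toLinearMap a) (Cmap_bijective _ e) (Cmap_bijective _ e)
    (Cmap_bijective _ e)).2 h

theorem PZ.of_subsingleton (h : Subsingleton Y) : PZ R Y := by
  have h1 : Subsingleton (Fr R.ρV (cA L Y)) := ⟨fun f g => Finsupp.ext fun w =>
    Subsingleton.elim _ _⟩
  have h2 : Subsingleton (Fr R.ρO (cB L Y)) := ⟨fun f g => Finsupp.ext fun w =>
    Subsingleton.elim _ _⟩
  have h3 : Subsingleton (Fr R.ρV (cC L Y)) := ⟨fun f g => Finsupp.ext fun w =>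
    Subsingleton.elim _ _⟩
  exact ⟨fun x y _ => Subsingleton.elim _ _, fun y => ⟨0, Subsingleton.elim _ _⟩⟩

/-- cokernels -/
theorem PZ.coker {f : M →ₗ[Lam L] Y} {g : Y →ₗ[Lam L] N} (hg : Function.Surjective g)
    (hfg : Function.Exact f g) (h1 : PZ R M) (h2 : PZ R Y) : PZ R N :=
  bij_coker R (Cmap (iA L) f) (Cmap (iB L) f) (Cmap (iC L) f) (Cmap (iA L) g)
      (Cmap (iB L) g) (Cmap (iC L) g) (Cmap_surjective _ hg) (Cmap_surjective _ hg)
      (Cmap_surjective _ hg) (Cmap_exact _ hfg) (Cmap_exact _ hfg) (Cmap_exact _ hfg)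
      (fun a => al_map L f a) (fun a => be_map L f a) (fun a => al_map L g a)
      (fun a => be_map L g a) h1.2 h2

theorem PZ.pow (h : PZ R Y) : ∀ k : ℕ, PZ R (Fin k → Y)
  | 0 => PZ.of_subsingleton R inferInstance
  | k + 1 => by
    let f : Y →ₗ[Lam L] (Fin (k + 1) → Y) := LinearMap.single (Lam L) (fun _ => Y) 0
    let g : (Fin (k + 1) → Y) →ₗ[Lam L] (Fin k → Y) :=
      LinearMap.pi fun i => LinearMap.proj i.succ
    refine PZ.ext R (i := f) (p := g) ⟨?_, ?_, ?_⟩ h (PZ.pow h k)
    · intro a b hab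
      have := congrFun hab 0
      simpa [f] using this
    · intro y
      exact ⟨Fin.cons 0 y, by funext i; simp [g]⟩
    · intro y
      constructor
      · intro hy
        refine ⟨y 0, ?_⟩
        funext i
        refine Fin.cases ?_ (fun i => ?_) i
        · simp [f]
        · have := congrFun hy i
          simp only [g, LinearMap.pi_apply, LinearMap.proj_apply, Pi.zero_apply] at this
          rw [this]
          simp [f]
      · rintro ⟨x, rfl⟩
        funext i
        simp [f, g]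

theorem PZ.pi (h : PZ R Y) (κ : Type) [Fintype κ] : PZ R (κ → Y) :=
  (h.pow R (Fintype.card κ)).iso R (LinearEquiv.funCongrLeft (Lam L) Y (Fintype.equivFin κ))

end Z

section Theta

/-- the `V`-component of `Θ` -/
def eA : cA L (TT L) ≃ₗ[L.V] Vs L := cA_tri

/-- the `O`-component of `Θ` -/
def eB : cB L (TT L) ≃ₗ[L.O] Ox L := cB_tri

/-- the `DD`-component of `Θ` -/
def eC : cC L (TT L) ≃ₗ[DD] (⊤ : Submodule DD DD) := cC_tri

theorem eC_al (y : cA L (TT L)) : (eC (al L y) : DD) = (eA y : DD) := coe_cC_tri_al y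

theorem eC_be (y : cB L (TT L)) : (eC (be L y) : DD) = (eB y : DD) := coe_cC_tri_be y

/-- the `V`-component of `Θ` -/
def tA' : cA L (TT L) →ₗ[L.V] L.V where
  toFun y := ⟨(eA y : DD), (eA y).2⟩
  map_add' x y := Subtype.ext (by
    show ((eA (x + y) : Vs L) : DD) = (eA x : DD) + (eA y : DD)
    rw [map_add]; rfl)
  map_smul' v y := Subtype.ext (by
    show ((eA (v • y) : Vs L) : DD) = (v : DD) * (eA y : DD)
    rw [map_smul]; rfl)

/-- the `O`-component of `Θ` -/
def tB' : cB L (TT L) →ₗ[L.O] L.O where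
  toFun y := ⟨L.p * (eB y : DD), (eB y).2⟩
  map_add' x y := Subtype.ext (by
    show L.p * ((eB (x + y) : Ox L) : DD) = L.p * (eB x : DD) + L.p * (eB y : DD)
    rw [map_add, ← mul_add]; rfl)
  map_smul' v y := Subtype.ext (by
    show L.p * ((eB (v • y) : Ox L) : DD) = (v : DD) * (L.p * (eB y : DD))
    rw [map_smul, ← mul_assoc, ← L.pc, mul_assoc]; rfl)

/-- the `DD`-component of `Θ` -/
def tC' : cC L (TT L) →ₗ[DD] DD where
  toFun y := (eC y : DD)
  map_add' x y := by
    rw [map_add]; rfl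
  map_smul' v y := by
    rw [map_smul]; rfl

theorem PZ_TT : PZ R (TT L) := by
  refine (delta_bij_iff R (al := al L (Y := TT L)) (be := be L (Y := TT L)) (al' := alV L)
    (be' := beX L) tA' tB' tC' ?_ ?_ ?_ ?_ ?_).1 (delta_theta R)
  · intro a
    exact (eC_al a).symm
  · intro b
    show L.x * (L.p * (eB b : DD)) = (eC (be L b) : DD)
    rw [eC_be, ← mul_assoc, L.xp, one_mul]
  · constructor
    · intro x y hxy
      apply (eA (L := L)).injective
      exact Subtype.ext (congrArg (Subtype.val : L.V → DD) hxy)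
    · intro v
      exact ⟨eA.symm ⟨(v : DD), v.2⟩, Subtype.ext (by
        show ((eA (eA.symm ⟨(v : DD), v.2⟩) : Vs L) : DD) = v
        rw [LinearEquiv.apply_symm_apply])⟩
  · constructor
    · intro x y hxy
      apply (eB (L := L)).injective
      have h1 : L.p * (eB x : DD) = L.p * (eB y : DD) := congrArg (Subtype.val : L.O → DD) hxy
      have h2 := congrArg (L.x * ·) h1
      simp only [← mul_assoc, L.xp, one_mul] at h2
      exact Subtype.ext h2
    · intro v
      have hv : L.x * (v : DD) ∈ Ox L := by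
        rw [mem_Ox, ← mul_assoc, L.px, one_mul]; exact v.2
      exact ⟨eB.symm ⟨L.x * (v : DD), hv⟩, Subtype.ext (by
        show L.p * ((eB (eB.symm ⟨L.x * (v : DD), hv⟩) : Ox L) : DD) = v
        rw [LinearEquiv.apply_symm_apply, ← mul_assoc, L.px, one_mul])⟩
  · constructor
    · intro x y hxy
      apply (eC (L := L)).injective
      exact Subtype.ext hxy
    · intro v
      exact ⟨(eC (L := L)).symm ⟨(v : DD), trivial⟩, by
        show ((eC ((eC (L := L)).symm ⟨(v : DD), trivial⟩) : (⊤ : Submodule DD DD)) : DD) = v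
        rw [LinearEquiv.apply_symm_apply]⟩

/-- `Psi` vanishes on `Θ ⊗_E M` -/
theorem PZ_memTH {Y : Type u} [AddCommGroup Y] [Module (Lam L) Y]
    (h : memTH (Lam L) (EE L) (TT L) Y) : PZ R Y := by
  obtain ⟨ι, κ, _, _, C, ⟨e⟩⟩ := h
  refine PZ.iso R e.symm ?_
  refine PZ.coker R (f := mR (Lam L) (TT L) C) (g := (LinearMap.range (mR (Lam L) (TT L) C)).mkQ)
    (Submodule.mkQ_surjective _) ?_ ((PZ_TT R).pi R ι) ((PZ_TT R).pi R κ)
  intro y
  rw [Submodule.mkQ_apply, Submodule.Quotient.mk_eq_zero]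
  rfl

/-- **`Psi(W) = 0`** -/
theorem PZ_filt [IsNoetherianRing (EE L)] (hF : VA.Flat (Lam L) (EE L) (TT L))
    (hH : VA.Full (Lam L) (EE L) (TT L)) {Y : Type u} [AddCommGroup Y] [Module (Lam L) Y]
    (h : (thClass hF hH).filt.mem Y) : PZ R Y :=
  filt_induction (thClass hF hH) (fun M _ _ => PZ R M)
    (fun _ _ _ h => PZ.of_subsingleton R h) (fun _ _ _ h => PZ_memTH R h)
    (fun _ _ h hA hB => PZ.ext R h hA hB) h

end Theta

end Crest.Agent.R181.VT
end

-- ▼ part R181/VB789f
section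

/-!
R181, V-chain, block V2b (helper789): `Fr' τ` has a finite free resolution for `τ` finitely
generated over `O` and killed by a power of `p`.
-/

set_option autoImplicit false

namespace Crest.Agent.R181.VB

open V868

universe u

variable {DD : Type u} [Ring DD] {L : Line DD} {T : Type u} [Ring T] {U : UnivT L T} (R : RB U)

section base

variable {R0 R1 : Type*} [Ring R0] [Ring R1] {W : Type*} {T : Type*} [Ring T]

theorem mapRange_act (q : R0 →+* R1) (m : W → (W →₀ R0)) (f : W →₀ R0) :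
    (act m f).mapRange q (map_zero q) =
      act (fun w => (m w).mapRange q (map_zero q)) (f.mapRange q (map_zero q)) := by
  induction f using Finsupp.induction_linear with
  | zero => simp
  | add f g hf hg =>
    rw [map_add, Finsupp.mapRange_add (fun a b => map_add q a b),
      Finsupp.mapRange_add (fun a b => map_add q a b), map_add, hf, hg]
  | single w x =>
    rw [Finsupp.mapRange_single, act_single, act_single]
    ext w'
    simp

/-- change of the coefficient ring of a representation -/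
noncomputable def Rep.base (ρ : Rep T R0 W) (q : R0 →+* R1) : Rep T R1 W where
  m t w := (ρ.m t w).mapRange q (map_zero q)
  m_one w := by rw [ρ.m_one, Finsupp.mapRange_single, map_one]
  m_add s t w := by rw [ρ.m_add, Finsupp.mapRange_add (fun a b => map_add q a b)]
  m_mul s t w := by rw [ρ.m_mul, mapRange_act]

end base

/-- the point `p` of `O` -/
def pO (L : Line DD) : L.O := ⟨L.p, L.pO⟩

section N

/-- `G_inf = T ⊕ p G_inf` -/
theorem exists_T (o : R.W →₀ L.O) : ∃ (t : T) (o' : R.W →₀ L.O),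
    up L.O o = up L.O (R.mO t R.w0) + rmul (up L.O o') L.p := by
  let z := evm U.Θ R.b' (up L.O o)
  refine ⟨z.coeff 0, ?_⟩
  have hz : Inf z := R.inf_evm o
  have h1 : Inf (evm U.Θ R.b (rmul (act R.P (up L.O o - up L.O (R.mO (z.coeff 0) R.w0))) L.x)) := by
    intro n hn
    have h2 := Θxpow U 1
    rw [pow_one] at h2
    rw [evm_rmul, R.evm_act_P, map_sub, R.mO_w0_eq, h2, coeff_mul_sing, HahnSeries.coeff_sub]
    rcases lt_or_eq_of_le (show n - -((1 : ℕ) : ℤ) ≤ 0 by push_cast; omega) with h | h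
    · have h3 := hz _ h
      simp only [z] at h3
      rw [h3, HahnSeries.C_apply, HahnSeries.coeff_single_of_ne (by omega), sub_zero]
    · rw [h, HahnSeries.C_apply, HahnSeries.coeff_single_same, sub_self]
  obtain ⟨o', ho'⟩ := R.exists_O _ h1
  refine ⟨o', ?_⟩
  have h4 : act R.P (up L.O o - up L.O (R.mO (z.coeff 0) R.w0)) =
      act R.P (rmul (up L.O o') L.p) := by
    apply R.evm_injective
    have h5 : evm U.Θ R.b (rmul (rmul (act R.P (up L.O o - up L.O (R.mO (z.coeff 0) R.w0))) L.x)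
        L.p) = evm U.Θ R.b (rmul (act R.P (up L.O o')) L.p) := by rw [ho']
    have h6 : rmul (rmul (act R.P (up L.O o - up L.O (R.mO (z.coeff 0) R.w0))) L.x) L.p =
        act R.P (up L.O o - up L.O (R.mO (z.coeff 0) R.w0)) := by
      ext w; simp [mul_assoc, L.xp]
    rw [h6] at h5
    rw [h5, R.evm_act_P, evm_rmul, R.evm_act_P, evm_rmul]
  have h7 : up L.O o - up L.O (R.mO (z.coeff 0) R.w0) = rmul (up L.O o') L.p := by
    apply R.evm'_injective
    rw [← R.evm_act_P, ← R.evm_act_P, h4]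
  rw [← h7]; abel

theorem T_eq_zero (t : T) (o' : R.W →₀ L.O)
    (h : up L.O (R.mO t R.w0) = rmul (up L.O o') L.p) : t = 0 := by
  have h1 := congrArg (evm U.Θ R.b') h
  rw [R.mO_w0_eq, evm_rmul, ΘP] at h1
  have h2 := congrArg (fun z => HahnSeries.coeff z 0) h1
  simp only [HahnSeries.C_apply, HahnSeries.coeff_single_same, coeff_mul_sing] at h2
  rw [h2]
  exact R.inf_evm o' _ (by omega)

end N

section Delta

variable {Δ : Type u} [Ring Δ] (q : L.O →+* Δ)

/-- the `T`-module `T ⊗_Δ Y` -/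
noncomputable abbrev ρΔ : Rep T Δ R.W := R.ρO.base q

variable (hq : Function.Surjective q) (hker : ∀ o : L.O, q o = 0 ↔ ∃ o', o = pO L * o')

include hq hker in
/-- `T ⊗_Δ Δ = T` -/
theorem bij_root : Function.Bijective
    (LinearMap.toSpanSingleton T (Fr (ρΔ R q) Δ)
      (Fr.mk (ρΔ R q) (Finsupp.single R.w0 (1 : Δ)))) := by
  have hval : ∀ t : T, Fr.co (ρΔ R q) (LinearMap.toSpanSingleton T (Fr (ρΔ R q) Δ)
      (Fr.mk (ρΔ R q) (Finsupp.single R.w0 (1 : Δ))) t) =
      (R.mO t R.w0).mapRange q (map_zero q) := by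
    intro t
    change act ((ρΔ R q).m t) (Finsupp.single R.w0 (1 : Δ)) = _
    rw [act_single]
    ext w
    simp only [col_apply, smul_eq_mul, mul_one]
    rfl
  constructor
  · rw [injective_iff_map_eq_zero]
    intro t ht
    have h1 := hval t
    rw [ht] at h1
    have h2 : ∀ w, ∃ o', (R.mO t R.w0) w = pO L * o' := fun w =>
      (hker _).1 (DFunLike.congr_fun (F := R.W →₀ Δ) h1.symm w)
    classical
    choose g hg using h2
    refine T_eq_zero R t (Finsupp.onFinset (R.mO t R.w0).support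
      (fun w => if (R.mO t R.w0) w = 0 then 0 else g w) (fun w hw => by
        rw [Finsupp.mem_support_iff]
        intro h0
        simp [h0] at hw)) ?_
    ext w
    rw [rmul_apply, up_apply, up_apply, Finsupp.onFinset_apply]
    split_ifs with h0
    · rw [h0]; simp
    · have := congrArg Subtype.val (hg w)
      rw [this, ← L.pc]
      rfl
  · intro f
    classical
    have h1 : ∀ w, ∃ o : L.O, q o = (Fr.co (ρΔ R q) f) w := fun w => hq _
    choose g hg using h1
    let o : R.W →₀ L.O := Finsupp.onFinset (Fr.co (ρΔ R q) f).support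
      (fun w => if (Fr.co (ρΔ R q) f) w = 0 then 0 else g w) (fun w hw => by
        rw [Finsupp.mem_support_iff]
        intro h0
        simp [h0] at hw)
    have ho : o.mapRange q (map_zero q) = Fr.co (ρΔ R q) f := by
      ext w
      rw [Finsupp.mapRange_apply, Finsupp.onFinset_apply]
      split_ifs with h0
      · rw [map_zero, h0]
      · exact hg w
    obtain ⟨t, o', h2⟩ := exists_T R o
    refine ⟨t, ?_⟩
    have h3 : Fr.co (ρΔ R q) (LinearMap.toSpanSingleton T (Fr (ρΔ R q) Δ)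
      (Fr.mk (ρΔ R q) (Finsupp.single R.w0 (1 : Δ))) t) = Fr.co (ρΔ R q) f := by
      rw [hval, ← ho]
      ext w
      rw [Finsupp.mapRange_apply, Finsupp.mapRange_apply]
      have h4 : o w = R.mO t R.w0 w + pO L * o' w := by
        apply Subtype.ext
        have := DFunLike.congr_fun h2 w
        rw [Finsupp.add_apply, rmul_apply, up_apply, up_apply, up_apply, ← L.pc] at this
        exact this
      have h5 : q (pO L * o' w) = 0 := (hker _).2 ⟨_, rfl⟩
      rw [h4, map_add, h5, add_zero]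
    exact h3

variable {q}

include hq hker in
theorem ffr_Delta : FR.FFR T (Fr (ρΔ R q) Δ) :=
  FR.FFR.of_equiv (LinearEquiv.ofBijective _ (bij_root R q hq hker)) (FR.FFR.self)

include hq hker in
theorem ffr_pow : ∀ k : ℕ, FR.FFR T (Fr (ρΔ R q) (Fin k → Δ))
  | 0 => by
    have : Subsingleton (Fr (ρΔ R q) (Fin 0 → Δ)) :=
      ⟨fun f g => Finsupp.ext fun w => Subsingleton.elim _ _⟩
    exact FR.FFR.of_subsingleton
  | k + 1 => by
    have h1 := ffr_Delta R hq hker
    have h2 := ffr_pow k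
    let f : Δ →ₗ[Δ] (Fin (k + 1) → Δ) := LinearMap.single Δ (fun _ => Δ) 0
    let g : (Fin (k + 1) → Δ) →ₗ[Δ] (Fin k → Δ) :=
      LinearMap.pi fun i => LinearMap.proj i.succ
    refine FR.FFR.mid (f := Fr.map (ρΔ R q) f) (g := Fr.map (ρΔ R q) g)
      (Fr.map_injective _ _ ?_) (Fr.map_surjective _ _ ?_) (Fr.map_exact _ _ _ ?_) h1 h2
    · intro a b hab
      have := congrFun hab 0
      simpa [f] using this
    · intro y
      exact ⟨Fin.cons 0 y, by funext i; simp [g]⟩
    · intro y
      constructor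
      · intro hy
        refine ⟨y 0, ?_⟩
        funext i
        refine Fin.cases ?_ (fun i => ?_) i
        · simp [f]
        · have := congrFun hy i
          simp only [g, LinearMap.pi_apply, LinearMap.proj_apply, Pi.zero_apply] at this
          rw [this]
          simp [f]
      · rintro ⟨x, rfl⟩
        funext i
        simp [f, g]

include hq hker in
theorem ffr_res : ∀ (n : ℕ) (Y : Type u) [AddCommGroup Y] [Module Δ Y], FR.Res Δ n Y →
    FR.FFR T (Fr (ρΔ R q) Y)
  | 0, Y, _, _, h => by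
    obtain ⟨k, ⟨e⟩⟩ := h
    have h1 := ffr_pow R hq hker k
    refine FR.FFR.of_equiv (LinearEquiv.ofBijective (Fr.map (ρΔ R q) e.symm.toLinearMap)
      ⟨Fr.map_injective _ _ e.symm.injective, Fr.map_surjective _ _ e.symm.surjective⟩) h1
  | n + 1, Y, _, _, h => by
    obtain ⟨k, f, hf, hk⟩ := h
    have h1 := ffr_pow R hq hker k
    have h2 := ffr_res n (LinearMap.ker f) hk
    refine FR.FFR.right (f := Fr.map (ρΔ R q) (LinearMap.ker f).subtype)
      (g := Fr.map (ρΔ R q) f)
      (Fr.map_injective _ _ (Submodule.subtype_injective _)) (Fr.map_surjective _ _ hf)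
      (Fr.map_exact _ _ _ ?_) h2 h1
    intro y
    constructor
    · intro hy; exact ⟨⟨y, hy⟩, rfl⟩
    · rintro ⟨⟨x, hx⟩, rfl⟩; exact hx

end Delta

section tors

variable {Δ : Type u} [Ring Δ] {q : L.O →+* Δ}
  (hq : Function.Surjective q) (hker : ∀ o : L.O, q o = 0 ↔ ∃ o', o = pO L * o')
  (hΔ : ∀ (Y : Type u) [AddCommGroup Y] [Module Δ Y], Module.Finite Δ Y → FR.FFR Δ Y)

include hq hker hΔ in
/-- modules killed by `p` -/
theorem ffr_killed (B : Type u) [AddCommGroup B] [Module L.O B] (hfin : Module.Finite L.O B)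
    (hp : ∀ y : B, pO L • y = 0) : FR.FFR T (Fr R.ρO B) := by
  classical
  -- the `Δ`-module structure
  let sm : SMul Δ B := ⟨fun d y => (Function.surjInv hq d) • y⟩
  have hsm : ∀ (o : L.O) (y : B), q o • y = o • y := by
    intro o y
    change (Function.surjInv hq (q o)) • y = o • y
    have h1 : q (Function.surjInv hq (q o) - o) = 0 := by
      rw [map_sub, Function.surjInv_eq hq, sub_self]
    obtain ⟨o', ho'⟩ := (hker _).1 h1
    have h2 : (pO L * o') • y = o' • (pO L • y) := by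
      have : pO L * o' = o' * pO L := Subtype.ext (L.pc _)
      rw [this, mul_smul]
    rw [← sub_eq_zero, ← sub_smul, ho', h2, hp, smul_zero]
  let _ : Module Δ B := Function.Surjective.moduleLeft q hq hsm
  have hfin' : Module.Finite Δ B := by
    obtain ⟨s, hs⟩ := hfin.fg_top
    refine ⟨⟨s, ?_⟩⟩
    rw [eq_top_iff]
    intro y _
    have hy : y ∈ Submodule.span L.O (s : Set B) := by rw [hs]; trivial
    induction hy using Submodule.span_induction with
    | mem x hx => exact Submodule.subset_span hx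
    | zero => exact Submodule.zero_mem _
    | add a b _ _ ha hb => exact Submodule.add_mem _ (ha trivial) (hb trivial)
    | smul o a _ ha =>
      rw [← hsm]
      exact Submodule.smul_mem _ _ (ha trivial)
  obtain ⟨n, hn⟩ := hΔ B hfin'
  have h1 := ffr_res R hq hker n B hn
  have hact : ∀ (t : T) (f : R.W →₀ B), act (R.ρO.m t) f = act ((ρΔ R q).m t) f := by
    intro t f
    induction f using Finsupp.induction_linear with
    | zero => simp
    | add f g hf hg => rw [map_add, map_add, hf, hg]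
    | single w x =>
      rw [act_single, act_single]
      ext w'
      simp only [col_apply]
      exact (hsm _ _).symm
  let e : Fr (ρΔ R q) B ≃ₗ[T] Fr R.ρO B :=
    { toFun := fun f => f
      invFun := fun f => f
      left_inv := fun _ => rfl
      right_inv := fun _ => rfl
      map_add' := fun _ _ => rfl
      map_smul' := fun t f => (hact t f).symm }
  exact FR.FFR.of_equiv e h1

include hq hker hΔ in
/-- **(T4)** `τ` finitely generated over `O`, killed by `p^s`: `Fr' τ` has a finite free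
resolution over `T` -/
theorem ffr_tors : ∀ (s : ℕ) (B : Type u) [AddCommGroup B] [Module L.O B],
    Module.Finite L.O B → (∀ y : B, pO L ^ s • y = 0) → FR.FFR T (Fr R.ρO B)
  | 0, B, _, _, _, h0 => by
    have : Subsingleton B := ⟨fun a b => by
      have h1 := h0 a
      have h2 := h0 b
      rw [pow_zero, one_smul] at h1 h2
      rw [h1, h2]⟩
    have : Subsingleton (Fr R.ρO B) := ⟨fun f g => Finsupp.ext fun w => Subsingleton.elim _ _⟩
    exact FR.FFR.of_subsingleton
  | s + 1, B, _, _, hfin, h0 => by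
    -- multiplication by `p`
    let μ : B →ₗ[L.O] B :=
      { toFun := fun y => pO L • y
        map_add' := fun a b => smul_add _ _ _
        map_smul' := fun o y => by
          have : pO L * o = o * pO L := Subtype.ext (L.pc _)
          rw [RingHom.id_apply, ← mul_smul, this, mul_smul] }
    have h1 : FR.FFR T (Fr R.ρO (LinearMap.range μ)) := by
      refine ffr_tors s (LinearMap.range μ) inferInstance ?_
      rintro ⟨_, ⟨y, rfl⟩⟩
      apply Subtype.ext
      change pO L ^ s • (pO L • y) = 0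
      rw [← mul_smul, ← pow_succ, h0]
    have h2 : FR.FFR T (Fr R.ρO (B ⧸ LinearMap.range μ)) := by
      refine ffr_killed R hq hker hΔ _ inferInstance ?_
      intro y
      obtain ⟨y, rfl⟩ := Submodule.mkQ_surjective _ y
      rw [← map_smul, Submodule.mkQ_apply, Submodule.Quotient.mk_eq_zero]
      exact ⟨y, rfl⟩
    refine FR.FFR.mid (f := Fr.map R.ρO (LinearMap.range μ).subtype)
      (g := Fr.map R.ρO (LinearMap.range μ).mkQ)
      (Fr.map_injective _ _ (Submodule.subtype_injective _))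
      (Fr.map_surjective _ _ (Submodule.mkQ_surjective _)) (Fr.map_exact _ _ _ ?_) h1 h2
    intro y
    rw [Submodule.mkQ_apply, Submodule.Quotient.mk_eq_zero]
    constructor
    · intro hy; exact ⟨⟨y, hy⟩, rfl⟩
    · rintro ⟨x, rfl⟩; exact x.2

end tors

end Crest.Agent.R181.VB
end

-- ▼ part R181/VB789g
section

/-!
R181, V-chain, block V2b (helper789): finite powers, multiplication `mu_1`, `Psi¹` of a summand.
-/

set_option autoImplicit false
set_option linter.unusedSectionVars false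

namespace Crest.Agent.R181.VB

open V868

universe u

variable {DD : Type u} [Ring DD] {L : Line DD} {T : Type u} [Ring T] {U : UnivT L T} (R : RB U)

section pi

variable {ι : Type} [Fintype ι]
variable {A B C : Type u} [AddCommGroup A] [Module L.V A] [AddCommGroup B] [Module L.O B]
  [AddCommGroup C] [Module DD C]

/-- the power of a semilinear map -/
def piS (ι : Type) {S : Subring DD} {A C : Type u} [AddCommGroup A] [Module S A] [AddCommGroup C]
    [Module DD C] (al : A →ₛₗ[S.subtype] C) : (ι → A) →ₛₗ[S.subtype] (ι → C) where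
  toFun f i := al (f i)
  map_add' f g := by funext i; exact map_add al _ _
  map_smul' s f := by funext i; exact map_smulₛₗ al _ _

@[simp] theorem piS_apply {S : Subring DD} {A C : Type u} [AddCommGroup A] [Module S A]
    [AddCommGroup C] [Module DD C] (al : A →ₛₗ[S.subtype] C) (f : ι → A) (i : ι) :
    piS ι al f i = al (f i) := rfl

variable (al : A →ₛₗ[L.V.subtype] C) (be : B →ₛₗ[L.O.subtype] C)

theorem delta_pi_injective (h : Function.Injective (delta R al be)) :
    Function.Injective (delta R (piS ι al) (piS ι be)) := by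
  rw [injective_iff_map_eq_zero]
  rintro ⟨a, b⟩ hy
  have h1 : ∀ i, (Fr.map R.ρV (LinearMap.proj i : (ι → A) →ₗ[L.V] A) a,
      Fr.map R.ρO (LinearMap.proj i : (ι → B) →ₗ[L.O] B) b) = 0 := by
    intro i
    have h2 := delta_map R (al := piS ι al) (be := piS ι be) (al' := al) (be' := be)
      (LinearMap.proj i : (ι → A) →ₗ[L.V] A) (LinearMap.proj i : (ι → B) →ₗ[L.O] B)
      (LinearMap.proj i : (ι → C) →ₗ[DD] C) (fun _ => rfl) (fun _ => rfl) (a, b)
    rw [hy, map_zero] at h2
    exact h (h2.trans (map_zero _).symm)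
  refine Prod.ext ?_ ?_
  · refine Finsupp.ext fun w => ?_
    funext i
    exact DFunLike.congr_fun (F := R.W →₀ A) (congrArg Prod.fst (h1 i)) w
  · refine Finsupp.ext fun w => ?_
    funext i
    exact DFunLike.congr_fun (F := R.W →₀ B) (congrArg Prod.snd (h1 i)) w

theorem proj_comm {S : Subring DD} {A C : Type u} [AddCommGroup A] [Module S A]
    [AddCommGroup C] [Module DD C] (al : A →ₛₗ[S.subtype] C) (i : ι) (a : ι → A) :
    al ((LinearMap.proj i : (ι → A) →ₗ[S] A) a) =
      (LinearMap.proj i : (ι → C) →ₗ[DD] C) (piS ι al a) := rfl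

theorem single_comm [DecidableEq ι] {S : Subring DD} {A C : Type u} [AddCommGroup A] [Module S A]
    [AddCommGroup C] [Module DD C] (al : A →ₛₗ[S.subtype] C) (i : ι) (a : A) :
    piS ι al ((LinearMap.single S (fun _ => A) i) a) =
      (LinearMap.single DD (fun _ => C) i) (al a) := by
  funext j
  rw [piS_apply]
  simp only [LinearMap.coe_single]
  by_cases h : j = i
  · subst h; simp
  · rw [Pi.single_eq_of_ne h, Pi.single_eq_of_ne h, map_zero]

/-- `Psi¹` of a power, one projection -/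
noncomputable def psi1ProjI (i : ι) : Psi1 R (piS ι al) (piS ι be) →ₗ[T] Psi1 R al be :=
  psi1Map R (LinearMap.proj i : (ι → A) →ₗ[L.V] A)
    (LinearMap.proj i : (ι → B) →ₗ[L.O] B) (LinearMap.proj i : (ι → C) →ₗ[DD] C)
    (proj_comm al i) (proj_comm be i)

theorem psi1ProjI_mk (i : ι) (z : Fr R.ρV (ι → C)) :
    psi1ProjI R al be i ((LinearMap.range (delta R (piS ι al) (piS ι be))).mkQ z) =
      (LinearMap.range (delta R al be)).mkQ
        (Fr.map R.ρV (res L.V (LinearMap.proj i : (ι → C) →ₗ[DD] C)) z) := rfl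

/-- `Psi¹` of a power, projections -/
noncomputable def psi1Proj : Psi1 R (piS ι al) (piS ι be) →ₗ[T] (ι → Psi1 R al be) :=
  LinearMap.pi fun i => psi1ProjI R al be i

variable [DecidableEq ι]

/-- `Psi¹` of a power, inclusions -/
noncomputable def psi1Single (i : ι) : Psi1 R al be →ₗ[T] Psi1 R (piS ι al) (piS ι be) :=
  psi1Map R (LinearMap.single L.V (fun _ => A) i) (LinearMap.single L.O (fun _ => B) i)
    (LinearMap.single DD (fun _ => C) i) (single_comm al i) (single_comm be i)

theorem psi1Single_mk (i : ι) (z : Fr R.ρV C) :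
    psi1Single R al be i ((LinearMap.range (delta R al be)).mkQ z) =
      (LinearMap.range (delta R (piS ι al) (piS ι be))).mkQ
        (Fr.map R.ρV (res L.V (LinearMap.single DD (fun _ => C) i)) z) := rfl

/-- `Psi¹` commutes with finite powers -/
noncomputable def psi1Pi : Psi1 R (piS ι al) (piS ι be) ≃ₗ[T] (ι → Psi1 R al be) :=
  LinearEquiv.ofBijective (psi1Proj R al be) (by
    have hs : ∀ y : ι → Psi1 R al be,
        psi1Proj R al be (∑ i, psi1Single R al be i (y i)) = y := by
      intro y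
      funext j
      rw [map_sum, Finset.sum_apply, Finset.sum_eq_single j]
      · obtain ⟨z, hz⟩ := Submodule.mkQ_surjective _ (y j)
        rw [← hz, psi1Single_mk, psi1Proj, LinearMap.pi_apply, psi1ProjI_mk]
        congr 1
        refine Finsupp.ext fun w => ?_
        change (Pi.single j ((Fr.co R.ρV z) w) : ι → C) j = (Fr.co R.ρV z) w
        simp
      · intro i _ hij
        obtain ⟨z, hz⟩ := Submodule.mkQ_surjective _ (y i)
        rw [← hz, psi1Single_mk, psi1Proj, LinearMap.pi_apply, psi1ProjI_mk]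
        have : Fr.map R.ρV (res L.V (LinearMap.proj j : (ι → C) →ₗ[DD] C))
            (Fr.map R.ρV (res L.V (LinearMap.single DD (fun _ => C) i)) z) = 0 := by
          refine Finsupp.ext fun w => ?_
          change (Pi.single i ((Fr.co R.ρV z) w) : ι → C) j = 0
          exact Pi.single_eq_of_ne (Ne.symm hij) _
        rw [this, map_zero]
      · intro h; exact absurd (Finset.mem_univ _) h
    have hi : ∀ x : Psi1 R (piS ι al) (piS ι be),
        ∑ i, psi1Single R al be i (psi1Proj R al be x i) = x := by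
      intro x
      obtain ⟨z, rfl⟩ := Submodule.mkQ_surjective _ x
      have h1 : ∀ i, psi1Single R al be i (psi1Proj R al be
          ((LinearMap.range (delta R (piS ι al) (piS ι be))).mkQ z) i) =
          (LinearMap.range (delta R (piS ι al) (piS ι be))).mkQ
            (Fr.map R.ρV (res L.V (LinearMap.single DD (fun _ => C) i))
              (Fr.map R.ρV (res L.V (LinearMap.proj i : (ι → C) →ₗ[DD] C)) z)) := by
        intro i
        rw [psi1Proj, LinearMap.pi_apply, psi1ProjI_mk, psi1Single_mk]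
      rw [Finset.sum_congr rfl fun i _ => h1 i, ← map_sum]
      congr 1
      refine Finsupp.ext fun w => ?_
      have h2 : ∀ s : Finset ι, Fr.co R.ρV (∑ i ∈ s,
          (Fr.map R.ρV (res L.V (LinearMap.single DD (fun _ => C) i))
              (Fr.map R.ρV (res L.V (LinearMap.proj i : (ι → C) →ₗ[DD] C)) z))) w =
          ∑ i ∈ s, (Pi.single i ((Fr.co R.ρV z) w i) : ι → C) := by
        intro s
        induction s using Finset.induction_on with
        | empty => rfl
        | insert a s ha ih =>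
          rw [Finset.sum_insert ha, Finset.sum_insert ha, ← ih]
          rfl
      refine (h2 Finset.univ).trans ?_
      rw [Finset.univ_sum_single]
      rfl
    refine ⟨fun x y h => ?_, fun y => ⟨_, hs y⟩⟩
    rw [← hi x, ← hi y, h])



end pi

section mu

variable {C : Type u} [AddCommGroup C] [Module DD C]

/-- `f ↦ ∑ c_w φ(f_w)` -/
noncomputable def evC (c : R.W → LaurentSeries T) (φ : C →+ LaurentSeries T) :
    (R.W →₀ C) →+ LaurentSeries T :=
  Finsupp.liftAddHom fun w => (AddMonoidHom.mulLeft (c w)).comp φ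

@[simp] theorem evC_single (c : R.W → LaurentSeries T) (φ : C →+ LaurentSeries T) (w : R.W)
    (y : C) : evC R c φ (Finsupp.single w y) = c w * φ y := by
  simp [evC]

variable (φ : C →+ LaurentSeries T) (hφ : ∀ (d : DD) (y : C), φ (d • y) = U.Θ d * φ y)

include hφ

theorem evC_col (c : R.W → LaurentSeries T) (m : R.W →₀ DD) (y : C) :
    evC R c φ (col m y) = evm U.Θ c m * φ y := by
  induction m using Finsupp.induction_linear with
  | zero =>
    have : col (0 : R.W →₀ DD) y = 0 := by ext w; simp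
    rw [this]; simp
  | add f g hf hg => rw [col_add, map_add, hf, hg, map_add, add_mul]
  | single w d =>
    have : col (Finsupp.single w d) y = Finsupp.single w (d • y) := by
      classical
      ext w'
      rw [col_apply, Finsupp.single_apply, Finsupp.single_apply]
      split_ifs <;> simp
    rw [this, evC_single, evm_single, hφ, mul_assoc]

theorem evC_act (c : R.W → LaurentSeries T) (m : R.W → (R.W →₀ DD)) (f : R.W →₀ C) :
    evC R c φ (act m f) = evC R (fun w => evm U.Θ c (m w)) φ f := by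
  induction f using Finsupp.induction_linear with
  | zero => simp
  | add f g hf hg => rw [map_add, map_add, map_add, hf, hg]
  | single w y => rw [act_single, evC_single, evC_col R φ hφ]

omit hφ in
theorem mul_evC (c : R.W → LaurentSeries T) (k : LaurentSeries T) (f : R.W →₀ C) :
    k * evC R c φ f = evC R (fun w => k * c w) φ f := by
  induction f using Finsupp.induction_linear with
  | zero => simp
  | add f g hf hg => rw [map_add, map_add, mul_add, hf, hg]
  | single w y => rw [evC_single, evC_single, mul_assoc]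

theorem evC_smul (t : T) (f : Fr R.ρV C) :
    evC R R.b φ (Fr.co R.ρV (t • f)) = HahnSeries.C t * evC R R.b φ (Fr.co R.ρV f) := by
  change evC R R.b φ (act (R.mV t) (Fr.co R.ρV f)) = _
  rw [act_up L.V, evC_act R φ hφ, mul_evC]
  congr 1
  have : (fun w => evm U.Θ R.b (up L.V (R.mV t w))) = fun w => HahnSeries.C t * R.b w :=
    funext fun w => R.mV_spec t w
  rw [this]

/-- `f ↦` coefficient of `π` in `∑ b_w φ(f_w)` -/
noncomputable def mu0 : Fr R.ρV C →ₗ[T] T where
  toFun f := (evC R R.b φ (Fr.co R.ρV f)).coeff 1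
  map_add' f g := by
    have : Fr.co R.ρV (f + g) = Fr.co R.ρV f + Fr.co R.ρV g := rfl
    rw [this, map_add, HahnSeries.coeff_add]
  map_smul' t f := by
    rw [evC_smul R φ hφ, coeff_C_mul]
    rfl

theorem mu0_apply (f : Fr R.ρV C) :
    mu0 R φ hφ f = (evC R R.b φ (Fr.co R.ρV f)).coeff 1 := rfl

variable {A B : Type u} [AddCommGroup A] [Module L.V A] [AddCommGroup B] [Module L.O B]
  (al : A →ₛₗ[L.V.subtype] C) (be : B →ₛₗ[L.O.subtype] C)
  (hA : ∀ a, Aff (φ (al a))) (hB : ∀ b, Inf (φ (be b)))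

include hA hB in
theorem mu0_delta (y : Fr R.ρV A × Fr R.ρO B) : mu0 R φ hφ (delta R al be y) = 0 := by
  obtain ⟨a, b⟩ := y
  have h1 : delta R al be (a, b) = Fr.map R.ρV (lin L.V al) a +
      R.cmp C (Fr.map R.ρO (pmul 2 be) b) := rfl
  rw [h1, map_add]
  have h2 : mu0 R φ hφ (Fr.map R.ρV (lin L.V al) a) = 0 := by
    have h3 : ∀ f : R.W →₀ A, Aff (evC R R.b φ (f.mapRange (lin L.V al) (map_zero _))) := by
      intro f
      induction f using Finsupp.induction_linear with
      | zero => intro n _; simp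
      | add f g hf hg =>
        rw [Finsupp.mapRange_add (fun a b => map_add (lin L.V al) a b), map_add]
        exact hf.add hg
      | single w y =>
        rw [Finsupp.mapRange_single, evC_single]
        exact (R.b_aff w).mul (hA y)
    exact h3 (Fr.co R.ρV a) 1 one_pos
  have h4 : mu0 R φ hφ (R.cmp C (Fr.map R.ρO (pmul 2 be) b)) = 0 := by
    have h5 : ∀ f : R.W →₀ B, Inf (HahnSeries.single (-2) 1 *
        evC R R.b' φ (f.mapRange (pmul 2 be) (map_zero _))) := by
      intro f
      induction f using Finsupp.induction_linear with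
      | zero => intro n _; simp
      | add f g hf hg =>
        rw [Finsupp.mapRange_add (fun a b => map_add (pmul 2 be) a b), map_add, mul_add]
        exact hf.add hg
      | single w y =>
        rw [Finsupp.mapRange_single, evC_single, pmul_apply, hφ, ΘPpow]
        have h6 : (HahnSeries.single (-2 : ℤ) (1 : T)) *
            (R.b' w * (HahnSeries.single ((2 : ℕ) : ℤ) 1 * φ (be y))) = R.b' w * φ (be y) := by
          ext n
          rw [coeff_sing_mul]
          have h7 : R.b' w * (HahnSeries.single ((2 : ℕ) : ℤ) 1 * φ (be y)) =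
              (R.b' w * φ (be y)) * HahnSeries.single ((2 : ℕ) : ℤ) 1 := by
            have h8 : (HahnSeries.single ((2 : ℕ) : ℤ) (1 : T)) * φ (be y) =
                φ (be y) * HahnSeries.single ((2 : ℕ) : ℤ) 1 := by
              ext n; rw [coeff_sing_mul, coeff_mul_sing]
            rw [h8, mul_assoc]
          rw [h7, coeff_mul_sing]
          congr 1
          push_cast
          ring
        rw [h6]
        exact Inf.mul (R.inf w) (hB y)
    have h9 := h5 (Fr.co R.ρO b) (-1) (by norm_num)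
    rw [coeff_sing_mul] at h9
    have h10 : Fr.co R.ρV (R.cmp C (Fr.map R.ρO (pmul 2 be) b)) =
        act R.P ((Fr.co R.ρO b).mapRange (pmul 2 be) (map_zero _)) := rfl
    rw [mu0_apply, h10, evC_act R φ hφ]
    exact h9
  rw [h2, h4, add_zero]

/-- `mu_1 : Psi¹ → T` -/
noncomputable def mu1 : Psi1 R al be →ₗ[T] T :=
  (LinearMap.range (delta R al be)).liftQ (mu0 R φ hφ) (by
    rintro _ ⟨y, rfl⟩
    exact mu0_delta R φ hφ al be hA hB y)


end mu

end Crest.Agent.R181.VB
end

-- ▼ part R181/VB789h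

/-!
R181, V-chain, block V2b (helper789): `Psi¹` of a summand `Q = Z e` is `T^r E` (Step 4).
-/

set_option autoImplicit false
set_option linter.unusedSectionVars false

namespace Crest.Agent.R181.VB

open V868

universe u

variable {DD : Type u} [Ring DD] {L : Line DD} {T : Type u} [Ring T] {U : UnivT L T} (R : RB U)

section TS

variable {A B C A' B' C' A'' B'' C'' : Type u} [AddCommGroup A] [Module L.V A] [AddCommGroup B]
  [Module L.O B] [AddCommGroup C] [Module DD C] [AddCommGroup A'] [Module L.V A']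
  [AddCommGroup B'] [Module L.O B'] [AddCommGroup C'] [Module DD C'] [AddCommGroup A'']
  [Module L.V A''] [AddCommGroup B''] [Module L.O B''] [AddCommGroup C''] [Module DD C'']
  {al : A →ₛₗ[L.V.subtype] C} {be : B →ₛₗ[L.O.subtype] C}
  {al' : A' →ₛₗ[L.V.subtype] C'} {be' : B' →ₛₗ[L.O.subtype] C'}
  {al'' : A'' →ₛₗ[L.V.subtype] C''} {be'' : B'' →ₛₗ[L.O.subtype] C''}
  {fA : A' →ₗ[L.V] A} {fB : B' →ₗ[L.O] B} {fC : C' →ₗ[DD] C}
    {gA : A →ₗ[L.V] A''} {gB : B →ₗ[L.O] B''} {gC : C →ₗ[DD] C''}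

/-- if `delta''` is bijective then `Psi¹` of the sub and of the middle agree -/
theorem TS.psi1_bijective (h : TS al' be' al be al'' be'' fA fB fC gA gB gC)
    (h2 : Function.Bijective (delta R al'' be'')) :
    Function.Bijective (psi1Map R (al := al') (be := be') (al' := al) (be' := be)
      fA fB fC h.fal h.fbe) := by
  have s := h.ses R
  constructor
  · exact s.cokerMap_injective h2.1
  · intro z
    apply (s.exact_coker z).1
    have : Subsingleton (Psi1 R al'' be'') := by
      rw [Submodule.Quotient.subsingleton_iff, LinearMap.range_eq_top]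
      exact h2.2
    exact Subsingleton.elim _ _

theorem TS.delta_injective (h : TS al' be' al be al'' be'' fA fB fC gA gB gC)
    (h1 : Function.Injective (delta R al' be')) (h2 : Function.Injective (delta R al'' be'')) :
    Function.Injective (delta R al be) := by
  have s := h.ses R
  rw [injective_iff_map_eq_zero]
  intro y hy
  have h3 := s.c2 y
  rw [hy, map_zero] at h3
  have h4 := h2 (h3.trans (map_zero _).symm)
  obtain ⟨y', rfl⟩ := (s.ex y).1 h4
  rw [s.c1] at hy
  have h5 := s.j_inj (hy.trans (map_zero _).symm)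
  have h6 := h1 (h5.trans (map_zero _).symm)
  rw [h6, map_zero]

/-- sub-triples inherit injectivity of `delta` -/
theorem delta_injective_of_sub (fA : A' →ₗ[L.V] A) (fB : B' →ₗ[L.O] B) (fC : C' →ₗ[DD] C)
    (hfA : Function.Injective fA) (hfB : Function.Injective fB)
    (hA : ∀ a, al (fA a) = fC (al' a)) (hB : ∀ b, be (fB b) = fC (be' b))
    (h : Function.Injective (delta R al be)) : Function.Injective (delta R al' be') := by
  rw [injective_iff_map_eq_zero]
  rintro ⟨a, b⟩ hy
  have h1 := delta_map R fA fB fC hA hB (a, b)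
  rw [hy, map_zero] at h1
  have h2 := h (h1.trans (map_zero _).symm)
  have h3 : Fr.map R.ρV fA a = 0 := congrArg Prod.fst h2
  have h4 : Fr.map R.ρO fB b = 0 := congrArg Prod.snd h2
  exact Prod.ext (Fr.map_injective R.ρV fA hfA (h3.trans (map_zero _).symm))
    (Fr.map_injective R.ρO fB hfB (h4.trans (map_zero _).symm))

end TS

section evCmap

variable {C C' : Type u} [AddCommGroup C] [Module DD C] [AddCommGroup C'] [Module DD C']

theorem evC_map (c : R.W → LaurentSeries T) (φ : C' →+ LaurentSeries T) (g : C →ₗ[DD] C')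
    (f : Fr R.ρV C) :
    evC R c φ (Fr.co R.ρV (Fr.map R.ρV (res L.V g) f)) =
      evC R c (φ.comp (g : C →+ C')) (Fr.co R.ρV f) := by
  have h : ∀ f : R.W →₀ C, evC R c φ (f.mapRange (res L.V g) (map_zero _)) =
      evC R c (φ.comp (g : C →+ C')) f := by
    intro f
    induction f using Finsupp.induction_linear with
    | zero => simp
    | add f f' hf hf' =>
      rw [Finsupp.mapRange_add (fun a b => map_add (res L.V g) a b), map_add, map_add, hf, hf']
    | single w y => rw [Finsupp.mapRange_single, evC_single, evC_single]; rfl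
  exact h (Fr.co R.ρV f)

end evCmap

section main

variable {ι : Type} [Fintype ι] [DecidableEq ι]
variable {A B C A1 B1 C1 : Type u} [AddCommGroup A] [Module L.V A] [AddCommGroup B]
  [Module L.O B] [AddCommGroup C] [Module DD C] [AddCommGroup A1] [Module L.V A1]
  [AddCommGroup B1] [Module L.O B1] [AddCommGroup C1] [Module DD C1]
  (al : A →ₛₗ[L.V.subtype] C) (be : B →ₛₗ[L.O.subtype] C)
  (al1 : A1 →ₛₗ[L.V.subtype] C1) (be1 : B1 →ₛₗ[L.O.subtype] C1)

/-- **Step 4.**  `Z = (A, B, C)` with coordinates `φ i : C → T((π))`, a map `OO^ι → Z` inducing an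
isomorphism on `Psi¹`, and a direct summand `Q = (A1, B1, C1)` of `Z` such that the projector is
right multiplication with the matrix `E`: then `Psi¹ Q = T^ι E`. -/
theorem psi1_summand
    (φ : ι → C →+ LaurentSeries T) (hφ : ∀ i (d : DD) (y : C), φ i (d • y) = U.Θ d * φ i y)
    (hA : ∀ i a, Aff (φ i (al a))) (hB : ∀ i b, Inf (φ i (be b)))
    (fA : (ι → L.V) →ₗ[L.V] A) (fB : (ι → L.O) →ₗ[L.O] B) (fC : (ι → DD) →ₗ[DD] C)
    (fal : ∀ a, al (fA a) = fC (piS ι (alV L) a)) (fbe : ∀ b, be (fB b) = fC (piS ι (beP L 0) b))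
    (hf : Function.Bijective (psi1Map R (al := piS ι (alV L)) (be := piS ι (beP L 0))
      (al' := al) (be' := be) fA fB fC fal fbe))
    (hfφ : ∀ i j, φ i (fC (Pi.single j 1)) = if i = j then 1 else 0)
    (iA : A1 →ₗ[L.V] A) (iB : B1 →ₗ[L.O] B) (iC : C1 →ₗ[DD] C)
    (ial : ∀ a, al (iA a) = iC (al1 a)) (ibe : ∀ b, be (iB b) = iC (be1 b))
    (rA : A →ₗ[L.V] A1) (rB : B →ₗ[L.O] B1) (rC : C →ₗ[DD] C1)
    (ral : ∀ a, al1 (rA a) = rC (al a)) (rbe : ∀ b, be1 (rB b) = rC (be b))
    (hriC : ∀ c, rC (iC c) = c)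
    (E : Matrix ι ι T)
    (hE : ∀ i c, φ i (iC (rC c)) = ∑ j, φ j c * HahnSeries.C (E j i)) :
    Nonempty (Psi1 R al1 be1 ≃ₗ[T] LinearMap.range (Matrix.vecMulLinear E)) := by
  classical
  let mu : Psi1 R al be →ₗ[T] (ι → T) :=
    LinearMap.pi fun i => mu1 R (φ i) (hφ i) al be (hA i) (hB i)
  let F := psi1Map R (al := piS ι (alV L)) (be := piS ι (beP L 0)) (al' := al) (be' := be)
    fA fB fC fal fbe
  -- the standard parametrisation of `Psi¹(OO^ι)`
  let G : (ι → T) → Psi1 R (piS ι (alV L)) (piS ι (beP L 0)) := fun t =>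
    ∑ j, psi1Single R (alV L) (beP L 0) j (toPsiP R 0 fun _ => t j)
  have hGF : ∀ t, mu (F (G t)) = t := by
    intro t
    funext i
    simp only [mu, LinearMap.pi_apply, G, map_sum]
    rw [Finset.sum_eq_single i]
    · rw [toPsiP_apply, psi1Single_mk]
      change mu0 R (φ i) (hφ i) _ = _
      rw [mu0_apply, evC_map, evC_map]
      have h1 : (∑ k : Fin (0 + 1), (fun _ => t i : Fin (0 + 1) → T) k • pk R (k + 1) :
          Fr R.ρV DD) = t i • pk R 1 := by simp
      rw [h1, evC_smul R _ (fun d y => by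
        change φ i (fC _) = _
        change φ i (fC (Pi.single i (d * y))) = U.Θ d * φ i (fC (Pi.single i y))
        rw [← hφ, ← map_smul]
        congr 2
        funext j
        by_cases h : j = i
        · subst h; simp
        · simp [h])]
      rw [coeff_C_mul]
      have h2 : Fr.co R.ρV (pk R 1) = Finsupp.single R.w0 (L.p ^ 1) := rfl
      rw [h2, evC_single, R.b_w0, one_mul]
      change t i * (φ i (fC (Pi.single i (L.p ^ 1)))).coeff 1 = t i
      have h3 : (Pi.single i (L.p ^ 1) : ι → DD) = L.p ^ 1 • Pi.single i 1 := by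
        funext j
        by_cases h : j = i
        · subst h; simp
        · simp [h]
      rw [h3, map_smul, hφ, hfφ, if_pos rfl, ΘPpow, mul_one]
      simp
    · intro j _ hij
      rw [toPsiP_apply, psi1Single_mk]
      change mu0 R (φ i) (hφ i) _ = _
      rw [mu0_apply, evC_map, evC_map]
      have h1 : (∑ k : Fin (0 + 1), (fun _ => t j : Fin (0 + 1) → T) k • pk R (k + 1) :
          Fr R.ρV DD) = t j • pk R 1 := by simp
      rw [h1, evC_smul R _ (fun d y => by
        change φ i (fC (Pi.single j (d * y))) = U.Θ d * φ i (fC (Pi.single j y))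
        rw [← hφ, ← map_smul]
        congr 2
        funext k
        by_cases h : k = j
        · subst h; simp
        · simp [h])]
      rw [coeff_C_mul]
      have h2 : Fr.co R.ρV (pk R 1) = Finsupp.single R.w0 (L.p ^ 1) := rfl
      rw [h2, evC_single, R.b_w0, one_mul]
      change t j * (φ i (fC (Pi.single j (L.p ^ 1)))).coeff 1 = 0
      have h3 : (Pi.single j (L.p ^ 1) : ι → DD) = L.p ^ 1 • Pi.single j 1 := by
        funext k
        by_cases h : k = j
        · subst h; simp
        · simp [h]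
      rw [h3, map_smul, hφ, hfφ, if_neg (Ne.symm hij), mul_zero]
      simp
    · intro h; exact absurd (Finset.mem_univ _) h
  have hGs : Function.Surjective G := by
    intro z
    let y : ι → Psi1 R (alV L) (beP L 0) := psi1Pi R (alV L) (beP L 0) z
    have h1 : ∀ j, ∃ t : T, toPsiP R 0 (L := L) (fun _ => t) = y j := by
      intro j
      obtain ⟨t, ht⟩ := (toPsiP_bijective R 0 (L := L)).2 (y j)
      refine ⟨t 0, ?_⟩
      rw [← ht]
      congr 1
      funext k
      have hk : k = 0 := Fin.ext (by omega)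
      rw [hk]
    choose t ht using h1
    refine ⟨t, ?_⟩
    apply (psi1Pi R (alV L) (beP L 0)).injective
    change psi1Proj R (alV L) (beP L 0) (∑ j, psi1Single R (alV L) (beP L 0) j
      (toPsiP R 0 fun _ => t j)) = y
    simp only [ht]
    -- `psi1Proj ∘ ∑ psi1Single = id`
    funext j
    rw [map_sum, Finset.sum_apply, Finset.sum_eq_single j]
    · obtain ⟨z, hz⟩ := Submodule.mkQ_surjective _ (y j)
      rw [← hz, psi1Single_mk, psi1Proj, LinearMap.pi_apply, psi1ProjI_mk]
      congr 1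
      refine Finsupp.ext fun w => ?_
      change (Pi.single j ((Fr.co R.ρV z) w) : ι → DD) j = (Fr.co R.ρV z) w
      simp
    · intro i _ hij
      obtain ⟨z, hz⟩ := Submodule.mkQ_surjective _ (y i)
      rw [← hz, psi1Single_mk, psi1Proj, LinearMap.pi_apply, psi1ProjI_mk]
      have : Fr.map R.ρV (res L.V (LinearMap.proj j : (ι → DD) →ₗ[DD] DD))
          (Fr.map R.ρV (res L.V (LinearMap.single DD (fun _ => DD) i)) z) = 0 := by
        refine Finsupp.ext fun w => ?_
        change (Pi.single i ((Fr.co R.ρV z) w) : ι → DD) j = 0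
        exact Pi.single_eq_of_ne (Ne.symm hij) _
      rw [this, map_zero]
    · intro h; exact absurd (Finset.mem_univ _) h
  have hmu : Function.Bijective mu := by
    constructor
    · intro y y' h
      obtain ⟨z, rfl⟩ := hf.2 y
      obtain ⟨z', rfl⟩ := hf.2 y'
      obtain ⟨t, rfl⟩ := hGs z
      obtain ⟨t', rfl⟩ := hGs z'
      have h1 : mu (F (G t)) = mu (F (G t')) := h
      rw [hGF, hGF] at h1
      rw [h1]
    · intro t; exact ⟨F (G t), hGF t⟩
  -- the projector
  let I := psi1Map R (al := al1) (be := be1) (al' := al) (be' := be) iA iB iC ial ibe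
  let Q := psi1Map R (al := al) (be := be) (al' := al1) (be' := be1) rA rB rC ral rbe
  have hQI : ∀ y, Q (I y) = y := by
    intro y
    obtain ⟨z, rfl⟩ := Submodule.mkQ_surjective _ y
    change (LinearMap.range (delta R al1 be1)).mkQ (Fr.map R.ρV (res L.V rC)
      (Fr.map R.ρV (res L.V iC) z)) = _
    congr 1
    refine Finsupp.ext fun w => ?_
    exact hriC _
  have hmuE : ∀ y, mu (I (Q y)) = Matrix.vecMul (mu y) E := by
    intro y
    obtain ⟨z, rfl⟩ := Submodule.mkQ_surjective _ y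
    funext i
    change mu0 R (φ i) (hφ i) (Fr.map R.ρV (res L.V iC) (Fr.map R.ρV (res L.V rC) z)) =
      ∑ j, mu0 R (φ j) (hφ j) z * E j i
    rw [mu0_apply, evC_map, evC_map]
    have h1 : ∀ f : R.W →₀ C, evC R R.b (((φ i).comp (iC : C1 →+ C)).comp (rC : C →+ C1)) f =
        ∑ j, evC R R.b (φ j) f * HahnSeries.C (E j i) := by
      intro f
      induction f using Finsupp.induction_linear with
      | zero => simp
      | add f g hf hg =>
        rw [map_add, hf, hg, ← Finset.sum_add_distrib]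
        exact Finset.sum_congr rfl fun j _ => by rw [map_add, add_mul]
      | single w y =>
        rw [evC_single]
        change R.b w * φ i (iC (rC y)) = _
        rw [hE, Finset.mul_sum]
        exact Finset.sum_congr rfl fun j _ => by rw [evC_single, mul_assoc]
    have h2 : ∀ (s : Finset ι) (g : ι → LaurentSeries T),
        (∑ j ∈ s, g j).coeff 1 = ∑ j ∈ s, (g j).coeff 1 := by
      intro s g
      induction s using Finset.induction_on with
      | empty => simp
      | insert a s ha ih => rw [Finset.sum_insert ha, Finset.sum_insert ha, HahnSeries.coeff_add, ih]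
    rw [h1, h2]
    refine Finset.sum_congr rfl fun j _ => ?_
    rw [mu0_apply, HahnSeries.C_apply, HahnSeries.coeff_mul_single_zero]
  have hI : Function.Injective (mu.comp I) := by
    intro y y' h
    have h1 := hmu.1 h
    rw [← hQI y, ← hQI y', h1]
  have hr : LinearMap.range (mu.comp I) = LinearMap.range (Matrix.vecMulLinear E) := by
    apply le_antisymm
    · rintro _ ⟨y, rfl⟩
      refine ⟨mu (I y), ?_⟩
      rw [Matrix.vecMulLinear_apply, ← hmuE, hQI]
      rfl
    · rintro _ ⟨v, rfl⟩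
      obtain ⟨y, rfl⟩ := hmu.2 v
      exact ⟨Q y, hmuE y⟩
  exact ⟨(LinearEquiv.ofInjective (mu.comp I) hI).trans (LinearEquiv.ofEq _ _ hr)⟩

end main

end Crest.Agent.R181.VB
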