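import Crest.Agent.R181.VB789h_Mg
import Crest.Agent.R181.VA980g

/-!
# R181, V-chain, block V2: Step 4 for modules over the triangular ring
-/

set_option autoImplicit false
set_option linter.unusedSectionVars false

namespace Crest.Agent.R181.VT

open V868 VA VB LK MulOpposite

universe u

variable {DD : Type u} [Ring DD] {L : Line DD} {T : Type u} [Ring T] {U : UnivT L T} (R : RB U)

section OOcomp

/-- `V` -/
def vsE : Vs L ≃ₗ[L.V] L.V where
  toFun y := ⟨(y : DD), y.2⟩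
  invFun v := ⟨(v : DD), v.2⟩
  map_add' _ _ := rfl
  map_smul' _ _ := rfl
  left_inv _ := rfl
  right_inv _ := rfl

/-- `O` -/
def opE : Op L 0 ≃ₗ[L.O] L.O where
  toFun y := ⟨(y : DD), (mem_Op_zero L).1 y.2⟩
  invFun v := ⟨(v : DD), (mem_Op_zero L).2 v.2⟩
  map_add' _ _ := rfl
  map_smul' _ _ := rfl
  left_inv _ := rfl
  right_inv _ := rfl

/-- components of `OO = OO(0)` -/
def aO : cA L (OO L 0) ≃ₗ[L.V] L.V := (cA_tri : _ ≃ₗ[L.V] Vs L).trans vsE

/-- components of `OO = OO(0)` -/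
def bO : cB L (OO L 0) ≃ₗ[L.O] L.O := (cB_tri : _ ≃ₗ[L.O] Op L 0).trans opE

/-- components of `OO = OO(0)` -/
def cO : cC L (OO L 0) ≃ₗ[DD] DD :=
  (cC_tri : _ ≃ₗ[DD] (⊤ : Submodule DD DD)).trans Submodule.topEquiv

theorem cO_al (y : cA L (OO L 0)) : cO (al L y) = (aO y : DD) := coe_cC_tri_al y

theorem cO_be (y : cB L (OO L 0)) : cO (be L y) = (bO y : DD) := coe_cC_tri_be y

theorem al_aO (v : L.V) : al L (aO.symm v) = cO.symm (v : DD) := by
  apply cO.injective
  rw [cO_al, LinearEquiv.apply_symm_apply, LinearEquiv.apply_symm_apply]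

theorem be_bO (v : L.O) : be L (bO.symm v) = cO.symm (v : DD) := by
  apply cO.injective
  rw [cO_be, LinearEquiv.apply_symm_apply, LinearEquiv.apply_symm_apply]

variable {r : ℕ}

/-- components of `OO^r` -/
def aOr (r : ℕ) : (Fin r → L.V) ≃ₗ[L.V] cA L (Fin r → OO L 0) :=
  (LinearEquiv.piCongrRight fun _ => aO.symm).trans (Cpi (iA L) (Fin r)).symm

/-- components of `OO^r` -/
def bOr (r : ℕ) : (Fin r → L.O) ≃ₗ[L.O] cB L (Fin r → OO L 0) :=
  (LinearEquiv.piCongrRight fun _ => bO.symm).trans (Cpi (iB L) (Fin r)).symm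

/-- components of `OO^r` -/
def cOr (r : ℕ) : (Fin r → DD) ≃ₗ[DD] cC L (Fin r → OO L 0) :=
  (LinearEquiv.piCongrRight fun _ => cO.symm).trans (Cpi (iC L) (Fin r)).symm

theorem coe_aOr (v : Fin r → L.V) (j : Fin r) :
    ((aOr r v : cA L (Fin r → OO L 0)) : Fin r → OO L 0) j = (aO.symm (v j) : cA L (OO L 0)) := rfl

theorem coe_bOr (v : Fin r → L.O) (j : Fin r) :
    ((bOr r v : cB L (Fin r → OO L 0)) : Fin r → OO L 0) j = (bO.symm (v j) : cB L (OO L 0)) := rfl

theorem coe_cOr (v : Fin r → DD) (j : Fin r) :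
    ((cOr r v : cC L (Fin r → OO L 0)) : Fin r → OO L 0) j = (cO.symm (v j) : cC L (OO L 0)) := rfl

theorem al_aOr (v : Fin r → L.V) : al L (aOr r v) = cOr r (piS (Fin r) (alV L) v) := by
  apply Subtype.ext
  funext j
  show tA L • ((aOr r v : cA L (Fin r → OO L 0)) : Fin r → OO L 0) j = _
  rw [coe_aOr, coe_cOr]
  exact congrArg Subtype.val (al_aO (v j))

theorem be_bOr (v : Fin r → L.O) : be L (bOr r v) = cOr r (piS (Fin r) (beP L 0) v) := by
  apply Subtype.ext
  funext j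
  show tB L • ((bOr r v : cB L (Fin r → OO L 0)) : Fin r → OO L 0) j = _
  rw [coe_bOr, coe_cOr]
  have h1 : (piS (Fin r) (beP L 0) v) j = (v j : DD) := by
    show L.p ^ 0 * (v j : DD) = _
    rw [pow_zero, one_mul]
  rw [h1]
  exact congrArg Subtype.val (be_bO (v j))

end OOcomp

section precomp

variable {A B C A' B' C' A'' B'' C'' A0 B0 C0 : Type u} [AddCommGroup A] [Module L.V A]
  [AddCommGroup B]
  [Module L.O B] [AddCommGroup C] [Module DD C] [AddCommGroup A'] [Module L.V A']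
  [AddCommGroup B'] [Module L.O B'] [AddCommGroup C'] [Module DD C'] [AddCommGroup A'']
  [Module L.V A''] [AddCommGroup B''] [Module L.O B''] [AddCommGroup C''] [Module DD C'']
  [AddCommGroup A0] [Module L.V A0] [AddCommGroup B0] [Module L.O B0] [AddCommGroup C0]
  [Module DD C0]
  {al : A →ₛₗ[L.V.subtype] C} {be : B →ₛₗ[L.O.subtype] C}
  {al' : A' →ₛₗ[L.V.subtype] C'} {be' : B' →ₛₗ[L.O.subtype] C'}
  {al'' : A'' →ₛₗ[L.V.subtype] C''} {be'' : B'' →ₛₗ[L.O.subtype] C''}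
  {al0 : A0 →ₛₗ[L.V.subtype] C0} {be0 : B0 →ₛₗ[L.O.subtype] C0}
  {fA : A' →ₗ[L.V] A} {fB : B' →ₗ[L.O] B} {fC : C' →ₗ[DD] C}
    {gA : A →ₗ[L.V] A''} {gB : B →ₗ[L.O] B''} {gC : C →ₗ[DD] C''}

theorem ts_precomp (h : TS al' be' al be al'' be'' fA fB fC gA gB gC) (εA : A0 ≃ₗ[L.V] A')
    (εB : B0 ≃ₗ[L.O] B') (εC : C0 ≃ₗ[DD] C') (hA : ∀ a, al' (εA a) = εC (al0 a))
    (hB : ∀ a, be' (εB a) = εC (be0 a)) :
    TS al0 be0 al be al'' be'' (fA.comp εA.toLinearMap) (fB.comp εB.toLinearMap)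
      (fC.comp εC.toLinearMap) gA gB gC where
  fA_inj := h.fA_inj.comp εA.injective
  fB_inj := h.fB_inj.comp εB.injective
  fC_inj := h.fC_inj.comp εC.injective
  gA_surj := h.gA_surj
  gB_surj := h.gB_surj
  gC_surj := h.gC_surj
  exA := by
    intro x
    rw [h.exA x]
    constructor
    · rintro ⟨y, rfl⟩
      exact ⟨εA.symm y, by simp⟩
    · rintro ⟨y, rfl⟩
      exact ⟨εA y, rfl⟩
  exB := by
    intro x
    rw [h.exB x]
    constructor
    · rintro ⟨y, rfl⟩
      exact ⟨εB.symm y, by simp⟩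
    · rintro ⟨y, rfl⟩
      exact ⟨εB y, rfl⟩
  exC := by
    intro x
    rw [h.exC x]
    constructor
    · rintro ⟨y, rfl⟩
      exact ⟨εC.symm y, by simp⟩
    · rintro ⟨y, rfl⟩
      exact ⟨εC y, rfl⟩
  fal := fun a => by
    show al (fA (εA a)) = fC (εC (al0 a))
    rw [h.fal, hA]
  fbe := fun a => by
    show be (fB (εB a)) = fC (εC (be0 a))
    rw [h.fbe, hB]
  gal := h.gal
  gbe := h.gbe

end precomp

section Step4

variable {r : ℕ} {G : Type u} [AddCommGroup G] [Module (Lam L) G] {O : Submodule (Lam L) G}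
  (eO : OO L 0 ≃ₗ[Lam L] O) {M : Submodule (Lam L) (Fin r → G)}
  (hOM : Submodule.pi Set.univ (fun _ : Fin r => O) ≤ M)

/-- `OO^r → M` -/
def FM : (Fin r → OO L 0) →ₗ[Lam L] M :=
  ((Submodule.submoduleOf (Submodule.pi Set.univ (fun _ : Fin r => O)) M).subtype).comp
    (((LinearEquiv.piCongrRight fun _ => eO).trans
      ((piEquiv O r).symm.trans (Submodule.submoduleOfEquivOfLe hOM).symm)).toLinearMap)


theorem ses_FM : SES (FM eO hOM)
    (Submodule.submoduleOf (Submodule.pi Set.univ (fun _ : Fin r => O)) M).mkQ where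
  inj := (Submodule.subtype_injective _).comp (LinearEquiv.injective _)
  surj := Submodule.mkQ_surjective _
  ex := fun x => by
    rw [(SES.subtype_mkQ (Submodule.submoduleOf (Submodule.pi Set.univ
      (fun _ : Fin r => O)) M)).ex x]
    constructor
    · rintro ⟨a, rfl⟩
      obtain ⟨b, rfl⟩ := ((LinearEquiv.piCongrRight fun _ => eO).trans
        ((piEquiv O r).symm.trans (Submodule.submoduleOfEquivOfLe hOM).symm)).surjective a
      exact ⟨b, rfl⟩
    · rintro ⟨a, rfl⟩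
      exact ⟨_, rfl⟩

/-- the short exact sequence `OO^r → M → M/OO^r` of plain triples -/
theorem ts_FM : TS (piS (Fin r) (alV L)) (piS (Fin r) (beP L 0)) (al L (Y := M)) (be L (Y := M))
    (al L (Y := SQ M (Submodule.pi Set.univ (fun _ : Fin r => O))))
    (be L (Y := SQ M (Submodule.pi Set.univ (fun _ : Fin r => O))))
    ((Cmap (iA L) (FM eO hOM)).comp (aOr r).toLinearMap)
    ((Cmap (iB L) (FM eO hOM)).comp (bOr r).toLinearMap)
    ((Cmap (iC L) (FM eO hOM)).comp (cOr r).toLinearMap)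
    (Cmap (iA L) (Submodule.submoduleOf (Submodule.pi Set.univ (fun _ : Fin r => O)) M).mkQ)
    (Cmap (iB L) (Submodule.submoduleOf (Submodule.pi Set.univ (fun _ : Fin r => O)) M).mkQ)
    (Cmap (iC L) (Submodule.submoduleOf (Submodule.pi Set.univ (fun _ : Fin r => O)) M).mkQ) :=
  ts_precomp (ts_of_ses (ses_FM eO hOM)) (aOr r) (bOr r) (cOr r) al_aOr be_bOr

include eO hOM in
/-- `Psi⁰ M = 0` -/
theorem dZ_injective
    (hPZ : PZ R (SQ M (Submodule.pi Set.univ (fun _ : Fin r => O)))) :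
    Function.Injective (dZ R M) :=
  (ts_FM eO hOM).delta_injective R
    (delta_pi_injective R (alV L) (beP L 0) (delta_P_injective R 0)) hPZ.1

variable (φ : cC L G →+ LaurentSeries T) (hφ : ∀ (d : DD) (y : cC L G), φ (d • y) = U.Θ d * φ y)
  (hA : ∀ a : cA L G, Aff (φ (al L a))) (hB : ∀ b : cB L G, Inf (φ (be L b)))
  (hφ1 : φ (Cmap (iC L) (O.subtype.comp eO.toLinearMap) (cO.symm 1)) = 1)

/-- the `i`-th coordinate on `M` -/
def prM (M : Submodule (Lam L) (Fin r → G)) (i : Fin r) : M →ₗ[Lam L] G :=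
  (LinearMap.proj i).comp M.subtype

/-- `φ` of the `i`-th coordinate -/
def phiM (M : Submodule (Lam L) (Fin r → G)) (i : Fin r) : cC L M →+ LaurentSeries T :=
  φ.comp (Cmap (iC L) (prM M i)).toAddMonoidHom

/-- the projector `M → e M` -/
def eM {e : (Fin r → G) →ₗ[Lam L] (Fin r → G)} : M →ₗ[Lam L] M.map e :=
  (e.comp M.subtype).codRestrict (M.map e) (fun y => ⟨y, y.2, rfl⟩)

/-- the inclusion `e M → M` -/
def iM {e : (Fin r → G) →ₗ[Lam L] (Fin r → G)} (heM : ∀ y ∈ M, e y ∈ M) : M.map e →ₗ[Lam L] M :=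
  Submodule.inclusion (by rintro _ ⟨y, hy, rfl⟩; exact heM y hy)

theorem phiM_apply (i : Fin r) (y : cC L M) :
    phiM φ M i y = φ (Cmap (iC L) (prM M i) y) := rfl

theorem phiM_al (i : Fin r) (a : cA L M) :
    phiM φ M i (al L a) = φ (al L (Cmap (iA L) (prM M i) a)) := by
  rw [phiM_apply, al_map]

theorem phiM_be (i : Fin r) (a : cB L M) :
    phiM φ M i (be L a) = φ (be L (Cmap (iB L) (prM M i) a)) := by
  rw [phiM_apply, be_map]

include hφ in
theorem phiM_smul (i : Fin r) (d : DD) (y : cC L M) :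
    phiM φ M i (d • y) = U.Θ d * phiM φ M i y := by
  rw [phiM_apply, map_smul, hφ, phiM_apply]

/-- the third component of `OO^r → M` -/
def fCM : (Fin r → DD) →ₗ[DD] cC L M := (Cmap (iC L) (FM eO hOM)).comp (cOr r).toLinearMap

theorem prM_fCM (i : Fin r) (v : Fin r → DD) :
    Cmap (iC L) (prM M i) (fCM eO hOM v) =
      Cmap (iC L) (O.subtype.comp eO.toLinearMap) (cO.symm (v i)) := Subtype.ext rfl

include hφ1 in
theorem phiM_fCM (i j : Fin r) :
    phiM φ M i (fCM eO hOM (Pi.single j 1)) = if i = j then 1 else 0 := by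
  rw [phiM_apply, prM_fCM]
  by_cases h : i = j
  · subst h
    rw [if_pos rfl, Pi.single_eq_same, hφ1]
  · rw [if_neg h, Pi.single_eq_of_ne h, map_zero, map_zero, map_zero]

variable {e : (Fin r → G) →ₗ[Lam L] (Fin r → G)} (heM : ∀ y ∈ M, e y ∈ M)

theorem eM_iM (he : ∀ y, e (e y) = e y) (c : M.map e) : eM (M := M) (e := e) (iM heM c) = c := by
  apply Subtype.ext
  show e (c : Fin r → G) = (c : Fin r → G)
  obtain ⟨y, _, hy⟩ := c.2
  rw [← hy, he]

theorem Cmap_eM_iM (he : ∀ y, e (e y) = e y) (c : cC L (M.map e)) :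
    Cmap (iC L) (eM (M := M) (e := e)) (Cmap (iC L) (iM heM) c) = c :=
  Subtype.ext (eM_iM heM he _)

theorem phiM_iM_eM (E : Matrix (Fin r) (Fin r) T)
    (hE : ∀ (i : Fin r) (y : cC L (Fin r → G)),
      φ (Cmap (iC L) (LinearMap.proj i) (Cmap (iC L) e y)) =
        ∑ j, φ (Cmap (iC L) (LinearMap.proj j) y) * HahnSeries.C (E j i)) (i : Fin r)
    (c : cC L M) :
    phiM φ M i (Cmap (iC L) (iM heM) (Cmap (iC L) (eM (M := M) (e := e)) c)) =
      ∑ j, phiM φ M j c * HahnSeries.C (E j i) :=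
  hE i (Cmap (iC L) M.subtype c)

include hφ hA hB hφ1 hOM heM in
/-- Step 4 for modules over the triangular ring -/
theorem psi1_summand_Z
    (hPZ : PZ R (SQ M (Submodule.pi Set.univ (fun _ : Fin r => O))))
    (he : ∀ y, e (e y) = e y)
    (E : Matrix (Fin r) (Fin r) T)
    (hE : ∀ (i : Fin r) (y : cC L (Fin r → G)),
      φ (Cmap (iC L) (LinearMap.proj i) (Cmap (iC L) e y)) =
        ∑ j, φ (Cmap (iC L) (LinearMap.proj j) y) * HahnSeries.C (E j i)) :
    Nonempty (Psi1 R (al L (Y := M.map e)) (be L (Y := M.map e)) ≃ₗ[T]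
      LinearMap.range (Matrix.vecMulLinear E)) :=
  psi1_summand R (al L (Y := M)) (be L (Y := M)) (al L (Y := M.map e))
    (be L (Y := M.map e)) (phiM φ M) (phiM_smul φ hφ)
    (fun i a => by rw [phiM_al]; exact hA _)
    (fun i a => by rw [phiM_be]; exact hB _)
    ((Cmap (iA L) (FM eO hOM)).comp (aOr r).toLinearMap)
    ((Cmap (iB L) (FM eO hOM)).comp (bOr r).toLinearMap)
    (fCM eO hOM)
    (ts_FM eO hOM).fal (ts_FM eO hOM).fbe ((ts_FM eO hOM).psi1_bijective R hPZ)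
    (phiM_fCM eO hOM φ hφ1)
    (Cmap (iA L) (iM heM)) (Cmap (iB L) (iM heM)) (Cmap (iC L) (iM heM))
    (fun a => al_map L _ a) (fun a => be_map L _ a)
    (Cmap (iA L) eM) (Cmap (iB L) eM) (Cmap (iC L) eM)
    (fun a => al_map L _ a) (fun a => be_map L _ a) (Cmap_eM_iM heM he) E
    (phiM_iM_eM φ heM E hE)

end Step4

end Crest.Agent.R181.VT
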