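import Crest.Agent.R181.V868d
import Crest.Agent.R181.VA980d
import Crest.Agent.R181.VA980g
import Crest.Agent.R181.VB789b
import Crest.Agent.R181.VL963b
import Crest.Agent.R181.VB789c
import Crest.Agent.R181.VT495f
import Crest.Agent.R181.S5836a
import Crest.Agent.R181.TW825a
import Crest.Agent.R181.VB789h_Mg
import Crest.Agent.R181.RO789b
import Crest.Agent.R181.FR459b
import Crest.Agent.R181.FFR776b

-- ▼ part R181/V868e
section

/-!
# R181, V-chain, V2 Step 1 (LT), plain part: right `T`-action on `MM`, lattices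
-/

namespace Crest.Agent.R181.V868

universe u

namespace LB

variable {DD : Type u} [Ring DD] {L : Line DD} (B : LB L) {T : Type u} [Ring T] (U : UnivT L T)

section Rt
variable (hinj : Function.Injective (B.φ U))

lemma exists_Rt (t : T) (m : B.MM) : ∃ m', B.φ U m' = B.φ U m * HahnSeries.single 0 t := by
  have : B.φ U m * HahnSeries.single 0 t ∈ B.MMT U :=
    B.MMT_mul U ⟨m, rfl⟩ (fun n hn => HahnSeries.coeff_single_of_ne (by omega))
  exact this

/-- auxiliary -/
noncomputable def Rt0 (t : T) (m : B.MM) : B.MM := (B.exists_Rt U t m).choose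

lemma φ_Rt0 (t : T) (m : B.MM) : B.φ U (B.Rt0 U t m) = B.φ U m * HahnSeries.single 0 t :=
  (B.exists_Rt U t m).choose_spec

/-- the right `T`-action on `MM` -/
noncomputable def Rt (t : T) : B.MM →ₗ[DD] B.MM where
  toFun m := B.Rt0 U t m
  map_add' a b := by
    apply hinj
    rw [map_add, φ_Rt0, φ_Rt0, φ_Rt0, map_add, add_mul]
  map_smul' d a := by
    apply hinj
    rw [RingHom.id_apply, φ_smul, φ_Rt0, φ_Rt0, φ_smul, mul_assoc]

lemma φ_Rt (t : T) (m : B.MM) : B.φ U (B.Rt U hinj t m) = B.φ U m * HahnSeries.single 0 t :=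
  B.φ_Rt0 U t m

lemma Rt_one : B.Rt U hinj 1 = LinearMap.id := by
  ext1; ext1
  apply hinj
  rw [LinearMap.comp_apply, LinearMap.comp_apply, φ_Rt, HahnSeries.single_zero_one, mul_one]
  rfl

lemma Rt_mul (s t : T) : B.Rt U hinj (s * t) = (B.Rt U hinj t).comp (B.Rt U hinj s) := by
  refine LinearMap.ext fun m => hinj ?_
  rw [LinearMap.comp_apply, φ_Rt, φ_Rt, φ_Rt, mul_assoc, HahnSeries.single_mul_single, add_zero]

lemma Rt_add (s t : T) : B.Rt U hinj (s + t) = B.Rt U hinj s + B.Rt U hinj t := by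
  refine LinearMap.ext fun m => hinj ?_
  rw [LinearMap.add_apply, map_add, φ_Rt, φ_Rt, φ_Rt, ← mul_add, HahnSeries.single_add]

lemma Rt_zero : B.Rt U hinj 0 = 0 := by
  refine LinearMap.ext fun m => hinj ?_
  rw [φ_Rt]; simp

lemma single_pos (t : T) (n : ℤ) (hn : 0 < n) :
    (HahnSeries.single (0 : ℤ) t).coeff n = 0 := HahnSeries.coeff_single_of_ne (by omega)

lemma single_neg (t : T) (n : ℤ) (hn : n < 0) :
    (HahnSeries.single (0 : ℤ) t).coeff n = 0 := HahnSeries.coeff_single_of_ne (by omega)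

lemma Rt_Gaff (t : T) {m : B.MM} (hm : m ∈ B.Gaff) : B.Rt U hinj t m ∈ B.Gaff := by
  rw [B.mem_Gaff_iff_φ U hinj, φ_Rt]
  exact mul_coeff_pos (B.φ_Gaff U hm) (single_pos t)

lemma Rt_Ginf (t : T) {m : B.MM} (hm : m ∈ B.Ginf) : B.Rt U hinj t m ∈ B.Ginf := by
  rw [B.mem_Ginf_iff_φ U B.isCompl, φ_Rt]
  exact mul_coeff_neg (B.φ_Ginf U hm) (single_neg t)

end Rt

/-! ### lattices -/

/-- closed under parents -/
def Cl (S : Finset B.Wd) : Prop := ∀ κ ∈ S, ∀ κ', B.par κ = some κ' → κ' ∈ S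

/-- functions supported in `S ∪ root` -/
def LC (S : Finset B.Wd) : Submodule DD B.MM where
  carrier := {f | ∀ κ, κ ∉ S → f (some κ) = 0}
  add_mem' := fun {a b} ha hb κ hκ => by rw [Finsupp.add_apply, ha κ hκ, hb κ hκ, add_zero]
  zero_mem' := fun κ _ => rfl
  smul_mem' := fun d f hf κ hκ => by rw [Finsupp.smul_apply, hf κ hκ, smul_zero]

/-- the `V`-part -/
def LA (S : Finset B.Wd) : Submodule L.V B.MM where
  carrier := {f | f ∈ B.Gaff ∧ f ∈ B.LC S}
  add_mem' := fun ha hb => ⟨B.Gaff.add_mem ha.1 hb.1, (B.LC S).add_mem ha.2 hb.2⟩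
  zero_mem' := ⟨B.Gaff.zero_mem, (B.LC S).zero_mem⟩
  smul_mem' := fun d _ hf => ⟨B.Gaff_smul d.2 hf.1, (B.LC S).smul_mem (d : DD) hf.2⟩

/-- the `O`-part -/
noncomputable def LBn (S : Finset B.Wd) : Submodule L.O B.MM where
  carrier := {f | f ∈ B.Ginf ∧ f ∈ B.LC S}
  add_mem' := fun ha hb => ⟨B.Ginf.add_mem ha.1 hb.1, (B.LC S).add_mem ha.2 hb.2⟩
  zero_mem' := ⟨B.Ginf.zero_mem, (B.LC S).zero_mem⟩
  smul_mem' := fun d _ hf => ⟨B.Ginf_smul d.2 hf.1, (B.LC S).smul_mem (d : DD) hf.2⟩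

lemma mem_LA {S : Finset B.Wd} {f : B.MM} : f ∈ B.LA S ↔ f ∈ B.Gaff ∧ f ∈ B.LC S := Iff.rfl
lemma mem_LBn {S : Finset B.Wd} {f : B.MM} : f ∈ B.LBn S ↔ f ∈ B.Ginf ∧ f ∈ B.LC S := Iff.rfl

lemma LC_mono {S S' : Finset B.Wd} (h : S ⊆ S') : B.LC S ≤ B.LC S' :=
  fun _ hf κ hκ => hf κ (fun h' => hκ (h h'))
lemma LA_mono {S S' : Finset B.Wd} (h : S ⊆ S') : B.LA S ≤ B.LA S' :=
  fun _ hf => ⟨hf.1, B.LC_mono h hf.2⟩
lemma LBn_mono {S S' : Finset B.Wd} (h : S ⊆ S') : B.LBn S ≤ B.LBn S' :=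
  fun _ hf => ⟨hf.1, B.LC_mono h hf.2⟩

variable {B}

/-- if `dP c` is supported in `S ∪ root`, so is `c` -/
lemma supp_of_dP {S : Finset B.Wd} (hS : B.Cl S) {c : B.MM} (h : B.dP c ∈ B.LC S) :
    c ∈ B.LC S := by
  obtain ⟨m, hm⟩ := VL.exists_lev c
  have key : ∀ k : ℕ, ∀ κ : B.Wd, κ ∉ S → m < B.lev (some κ) + k → c (some κ) = 0 := by
    intro k
    induction k with
    | zero => intro κ _ h1; exact hm _ (by simpa using h1)
    | succ k ih =>
      intro κ hκ h1
      have h2 := VL.dP_apply_some c κ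
      rw [h κ hκ] at h2
      have h3 : VL.kid0 κ c = 0 := by
        ext i
        rw [VL.kid0_apply]
        refine ih (i :: κ.1, κ.2) (fun h4 => hκ (hS _ h4 κ rfl)) ?_
        simp only [lev, List.length_cons] at h1 ⊢
        omega
      rw [h3] at h2
      simpa using h2.symm
  intro κ hκ
  exact key (m + 1) κ hκ (by omega)

/-- `Cl` for adding a leaf -/
lemma Cl.insert {S : Finset B.Wd} (hS : B.Cl S) {κ : B.Wd}
    (hκ : ∀ κ', B.par κ = some κ' → κ' ∈ S) [DecidableEq B.Wd] : B.Cl (Insert.insert κ S) := by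
  intro κ1 h1 κ' h2
  rcases Finset.mem_insert.1 h1 with rfl | h1
  · exact Finset.mem_insert_of_mem (hκ κ' h2)
  · exact Finset.mem_insert_of_mem (hS κ1 h1 κ' h2)

section insert
variable [DecidableEq B.Wd] {S : Finset B.Wd} (hS : B.Cl S) {κ : B.Wd} (hκS : κ ∉ S)
  (hκ : ∀ κ', B.par κ = some κ' → κ' ∈ S)
include hS hκS hκ

lemma coord_Ginf {f : B.MM} (hf : f ∈ B.LBn (insert κ S)) : ∃ o ∈ L.O, f (some κ) = L.x * o := by
  obtain ⟨c, hc, h1⟩ := B.mem_BB.1 hf.1
  have h2 : c ∈ B.LC (insert κ S) := by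
    refine supp_of_dP (hS.insert hκ) ?_
    rw [h1]
    exact (B.LC _).smul_mem _ hf.2
  have h3 := VL.dP_apply_some c κ
  have h4 : VL.kid0 κ c = 0 := by
    ext i
    rw [VL.kid0_apply]
    refine h2 _ (fun h5 => ?_)
    rcases Finset.mem_insert.1 h5 with h5 | h5
    · have := congrArg (fun y : B.Wd => y.1.length) h5
      simp at this
    · exact hκS (hS _ h5 κ rfl)
  rw [h4, h1] at h3
  refine ⟨c (some κ), hc.2 κ, ?_⟩
  have h5 : L.p * f (some κ) = c (some κ) := by simpa using h3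
  rw [← h5, ← mul_assoc, L.xp, one_mul]

omit hS hκS in
lemma bi_mem_LC : B.bi (some κ) ∈ B.LC (insert κ S) := by
  rw [bi_some]
  refine (B.LC _).smul_mem _ ?_
  intro κ1 h1
  have h2 : κ ≠ κ1 := fun h => h1 (h ▸ Finset.mem_insert_self κ S)
  have h3 : B.par κ ≠ some κ1 := fun h => h1 (Finset.mem_insert_of_mem (hκ κ1 h))
  show (Finsupp.single (some κ) (1 : DD) - Finsupp.single (B.par κ) (B.lab κ)) (some κ1) = 0
  rw [Finsupp.sub_apply, Finsupp.single_eq_of_ne (by simpa using h2.symm),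
    Finsupp.single_eq_of_ne (fun h => h3 h.symm), sub_zero]

omit hS hκS hκ [DecidableEq B.Wd] in
lemma bi_coord : B.bi (some κ) (some κ) = L.x := by
  have h3 : B.par κ ≠ some κ := by
    rcases κ with ⟨_ | ⟨i, l⟩, j⟩
    · simp [par]
    · simp only [par, ne_eq, Option.some.injEq, Prod.mk.injEq, and_true]
      intro h
      have := congrArg List.length h
      simp at this
  rw [bi_some]
  show L.x • ((Finsupp.single (some κ) (1 : DD) - Finsupp.single (B.par κ) (B.lab κ)) (some κ)) = _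
  rw [Finsupp.sub_apply, Finsupp.single_eq_same, Finsupp.single_eq_of_ne (fun h => h3 h.symm),
    sub_zero, smul_eq_mul, mul_one]

omit hS hκS in
/-- surjectivity of the coordinate on the `O`-parts -/
lemma exists_LBn {o : DD} (ho : o ∈ L.O) : ∃ f ∈ B.LBn (insert κ S), f (some κ) = L.x * o := by
  refine ⟨o • B.bi (some κ), ⟨B.Ginf_smul ho (B.bi_mem _), (B.LC _).smul_mem _ (bi_mem_LC hκ)⟩, ?_⟩
  rw [Finsupp.smul_apply, bi_coord, smul_eq_mul, L.xc]

omit hS hκS hκ in
lemma exists_LA {v : DD} (hv : v ∈ L.V) : ∃ f ∈ B.LA (insert κ S), f (some κ) = v := by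
  refine ⟨Finsupp.single (some κ) v, ⟨fun w => ?_, fun κ1 h1 => ?_⟩, by simp⟩
  · by_cases h : some κ = w
    · subst h; simpa using hv
    · rw [Finsupp.single_eq_of_ne (fun h' => h h'.symm)]; exact L.V.zero_mem
  · rw [Finsupp.single_eq_of_ne]
    intro h
    exact h1 (Finset.mem_insert.2 (Or.inl (by simpa using h)))

omit hS hκS hκ in
lemma exists_LC (v : DD) : ∃ f ∈ B.LC (insert κ S), f (some κ) = v := by
  refine ⟨Finsupp.single (some κ) v, fun κ1 h1 => ?_, by simp⟩
  rw [Finsupp.single_eq_of_ne]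
  intro h
  exact h1 (Finset.mem_insert.2 (Or.inl (by simpa using h)))

omit hS hκ in
/-- kernel of the coordinate -/
lemma mem_LC_iff_coord {f : B.MM} (hf : f ∈ B.LC (insert κ S)) :
    f ∈ B.LC S ↔ f (some κ) = 0 := by
  refine ⟨fun h => h κ hκS, fun h κ1 h1 => ?_⟩
  by_cases h2 : κ1 = κ
  · rw [h2]; exact h
  · exact hf κ1 (fun h3 => by
      rcases Finset.mem_insert.1 h3 with h3 | h3
      · exact h2 h3
      · exact h1 h3)

end insert

/-- the ancestors of a word, including itself -/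
def anc : List B.I0 → B.I1 → List B.Wd
  | [], j => [([], j)]
  | i :: l, j => (i :: l, j) :: anc l j

lemma self_mem_anc (κ : B.Wd) : κ ∈ anc κ.1 κ.2 := by
  rcases κ with ⟨_ | ⟨i, l⟩, j⟩ <;> simp [anc]

lemma anc_closed (l : List B.I0) (j : B.I1) : ∀ κ ∈ anc l j, ∀ κ' : B.Wd, B.par κ = some κ' →
    κ' ∈ anc l j := by
  induction l with
  | nil =>
    intro κ h κ' h'
    simp only [anc, List.mem_singleton] at h
    subst h
    simp [par] at h'
  | cons i l ih =>
    intro κ h κ' h'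
    simp only [anc, List.mem_cons] at h ⊢
    rcases h with rfl | h
    · simp only [par, Option.some.injEq] at h'
      subst h'
      exact Or.inr (self_mem_anc (B := B) (l, j))
    · exact Or.inr (ih κ h κ' h')

/-- every finite set of words lies in a closed one -/
lemma exists_closed [DecidableEq B.Wd] (S : Finset B.Wd) : ∃ S', S ⊆ S' ∧ B.Cl S' := by
  refine ⟨S.biUnion (fun κ => (anc κ.1 κ.2).toFinset), fun κ h => ?_, ?_⟩
  · rw [Finset.mem_biUnion]
    exact ⟨κ, h, by simpa using self_mem_anc κ⟩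
  · intro κ h κ' h'
    rw [Finset.mem_biUnion] at h ⊢
    obtain ⟨κ0, h0, h1⟩ := h
    refine ⟨κ0, h0, ?_⟩
    rw [List.mem_toFinset] at h1 ⊢
    exact anc_closed _ _ κ h1 κ' h'

lemma Cl.union [DecidableEq B.Wd] {S S' : Finset B.Wd} (h : B.Cl S) (h' : B.Cl S') :
    B.Cl (S ∪ S') := by
  intro κ hκ κ' hp
  rcases Finset.mem_union.1 hκ with h1 | h1
  · exact Finset.mem_union_left _ (h κ h1 κ' hp)
  · exact Finset.mem_union_right _ (h' κ h1 κ' hp)

lemma Cl.empty : B.Cl (∅ : Finset B.Wd) := fun κ h => absurd h (Finset.notMem_empty κ)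

/-- exhaustion -/
lemma exists_LC_mem [DecidableEq B.Wd] (f : B.MM) : ∃ S, B.Cl S ∧ f ∈ B.LC S := by
  obtain ⟨S, h1, h2⟩ := exists_closed (B := B)
    (f.support.preimage some (Option.some_injective _).injOn)
  refine ⟨S, h2, fun κ hκ => ?_⟩
  by_contra h
  exact hκ (h1 (by simpa using h))

/-- if `S ⊆ S'` are closed and different there is a leaf to add -/
lemma exists_leaf {S S' : Finset B.Wd} (hS' : B.Cl S') (h : S ⊆ S') (hne : S ≠ S') :
    ∃ κ ∈ S', κ ∉ S ∧ ∀ κ', B.par κ = some κ' → κ' ∈ S := by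
  classical
  have hn : (S' \ S).Nonempty := by
    rw [Finset.sdiff_nonempty]
    exact fun h' => hne (Finset.Subset.antisymm h h')
  obtain ⟨κ, h1, h2⟩ := Finset.exists_min_image (S' \ S) (fun κ => κ.1.length) hn
  rw [Finset.mem_sdiff] at h1
  refine ⟨κ, h1.1, h1.2, fun κ' hp => ?_⟩
  by_contra h3
  have h4 := h2 κ' (Finset.mem_sdiff.2 ⟨hS' κ h1.1 κ' hp, h3⟩)
  rcases κ with ⟨_ | ⟨i, l⟩, j⟩
  · simp [par] at hp
  · simp only [par, Option.some.injEq] at hp
    subst hp
    simp at h4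

variable (B)

/-- the `V`-part is spanned by the words -/
lemma LA_span (S : Finset B.Wd) {f : B.MM} (hf : f ∈ B.LA S) :
    f ∈ Submodule.span L.V (Set.range (fun w : Option S =>
      (Finsupp.single (w.map Subtype.val) 1 : B.MM))) := by
  classical
  rw [← f.sum_single, Finsupp.sum]
  refine Submodule.sum_mem _ fun w hw => ?_
  have e : (Finsupp.single w (f w) : B.MM) = (⟨f w, hf.1 w⟩ : L.V) • Finsupp.single w (1 : DD) := by
    show _ = (f w) • (Finsupp.single w (1 : DD) : B.MM)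
    rw [Finsupp.smul_single, smul_eq_mul, mul_one]
  rw [e]
  refine Submodule.smul_mem _ _ (Submodule.subset_span ?_)
  rcases w with _ | κ
  · exact ⟨none, rfl⟩
  · have : κ ∈ S := by
      by_contra h
      rw [Finsupp.mem_support_iff] at hw
      exact hw (hf.2 κ h)
    exact ⟨some ⟨κ, this⟩, rfl⟩

/-- the `DD`-part is spanned by the words -/
lemma LC_span (S : Finset B.Wd) {f : B.MM} (hf : f ∈ B.LC S) :
    f ∈ Submodule.span DD (Set.range (fun w : Option S =>
      (Finsupp.single (w.map Subtype.val) 1 : B.MM))) := by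
  classical
  rw [← f.sum_single, Finsupp.sum]
  refine Submodule.sum_mem _ fun w hw => ?_
  have e : (Finsupp.single w (f w) : B.MM) = (f w) • Finsupp.single w (1 : DD) := by
    rw [Finsupp.smul_single, smul_eq_mul, mul_one]
  rw [e]
  refine Submodule.smul_mem _ _ (Submodule.subset_span ?_)
  rcases w with _ | κ
  · exact ⟨none, rfl⟩
  · have : κ ∈ S := by
      by_contra h
      rw [Finsupp.mem_support_iff] at hw
      exact hw (hf κ h)
    exact ⟨some ⟨κ, this⟩, rfl⟩

/-- the `O`-part is spanned by the `bi w` -/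
lemma LBn_span {S : Finset B.Wd} (hS : B.Cl S) {f : B.MM} (hf : f ∈ B.LBn S) :
    f ∈ Submodule.span L.O (Set.range (fun w : Option S => B.bi (w.map Subtype.val))) := by
  classical
  obtain ⟨o, ⟨h1, h2⟩, -⟩ := B.existsUnique_Ginf f hf.1
  have h3 : B.dP (o + Finsupp.single none (L.p * o none - o none)) ∈ B.LC S := by
    rw [← smul_bi_sum, ← h2]
    exact (B.LC S).smul_mem _ hf.2
  have h4 := supp_of_dP hS h3
  have h5 : o ∈ B.LC S := fun κ hκ => by
    have := h4 κ hκ
    simpa using this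
  rw [h2, Finsupp.sum]
  refine Submodule.sum_mem _ fun w hw => ?_
  have e : o w • B.bi w = (⟨o w, h1 w⟩ : L.O) • B.bi w := rfl
  rw [e]
  refine Submodule.smul_mem _ _ (Submodule.subset_span ?_)
  rcases w with _ | κ
  · exact ⟨none, rfl⟩
  · have : κ ∈ S := by
      by_contra h
      rw [Finsupp.mem_support_iff] at hw
      exact hw (h5 κ h)
    exact ⟨some ⟨κ, this⟩, rfl⟩

lemma single_mem_LA {S : Finset B.Wd} (w : Option S) :
    (Finsupp.single (w.map Subtype.val) 1 : B.MM) ∈ B.LA S := by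
  classical
  refine ⟨VL.single_mem_Gaff L.V.one_mem, fun κ hκ => ?_⟩
  rw [Finsupp.single_eq_of_ne]
  rcases w with _ | κ1
  · simp
  · simp only [Option.map_some, ne_eq, Option.some.injEq]
    rintro rfl
    exact hκ κ1.2

lemma bi_mem_LBn {S : Finset B.Wd} (hS : B.Cl S) (w : Option S) :
    B.bi (w.map Subtype.val) ∈ B.LBn S := by
  classical
  refine ⟨B.bi_mem _, ?_⟩
  rcases w with _ | κ1
  · intro κ hκ
    simp
  · have h := bi_mem_LC (B := B) (S := S) (κ := κ1.1) (fun κ' h => hS κ1 κ1.2 κ' h)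
    rwa [Finset.insert_eq_of_mem κ1.2] at h

/-- the trivial lattice -/
lemma mem_LC_empty {f : B.MM} (hf : f ∈ B.LC ∅) : f = Finsupp.single none (f none) := by
  ext w
  rcases w with _ | κ
  · simp
  · simp [hf κ (Finset.notMem_empty κ)]

lemma mem_LA_empty {f : B.MM} : f ∈ B.LA ∅ ↔ ∃ v ∈ L.V, f = Finsupp.single none v := by
  constructor
  · intro h
    exact ⟨f none, h.1 none, B.mem_LC_empty h.2⟩
  · rintro ⟨v, hv, rfl⟩
    exact ⟨VL.single_mem_Gaff hv, fun κ _ => by simp⟩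

lemma mem_LBn_empty {f : B.MM} : f ∈ B.LBn ∅ ↔ ∃ o ∈ L.O, f = Finsupp.single none o := by
  constructor
  · intro h
    have h1 := B.mem_LC_empty h.2
    obtain ⟨c, hc, h2⟩ := B.mem_BB.1 h.1
    refine ⟨f none, ?_, h1⟩
    have h3 : c ∈ B.LC ∅ := supp_of_dP Cl.empty (by
      rw [h2]; exact (B.LC _).smul_mem _ h.2)
    have h4 := VL.dP_apply_none c
    have h5 : VL.kid1 c = 0 := by
      ext j
      rw [VL.kid1_apply]
      exact h3 _ (Finset.notMem_empty _)
    rw [h5, h2] at h4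
    obtain ⟨⟨o, ho, h6⟩, -⟩ := hc
    have h7 : L.p * f none = L.p * o := by rw [← h6]; simpa using h4
    have h8 : f none = o := by
      have := congrArg (fun y => L.x * y) h7
      simpa [← mul_assoc, L.xp] using this
    rw [h8]; exact ho
  · rintro ⟨o, ho, rfl⟩
    refine ⟨?_, fun κ _ => by simp⟩
    rw [mem_Ginf, Finsupp.smul_single, smul_eq_mul]
    exact B.single_none_mem_BB ho

end LB

end Crest.Agent.R181.V868
private theorem rz_eafc5912d9 : type_of% @_root_.Crest.Agent.R181.V868.LB.anc.eq_def := @_root_.Crest.Agent.R181.V868.LB.anc.eq_def -- L234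
private theorem rz_2ae1e5d123 : type_of% @_root_.Crest.Agent.R181.V868.LB.anc.eq_1 := @_root_.Crest.Agent.R181.V868.LB.anc.eq_1 -- L234
end

-- ▼ part R181/V868f
section

/-!
# R181, V-chain, V2 Step 1 (LT): the triple `G = (G_aff, G_inf, MM)` over the triangular ring,
its lattices, its right `T`-action, and the `e`-stable lattice
-/

set_option autoImplicit false
set_option linter.unusedSectionVars false

open MulOpposite

namespace Crest.Agent.R181.V868

open VA LK

universe u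

section trMap

variable {DD : Type u} [Ring DD] {L : Line DD} {C C' C'' : Type*} [AddCommGroup C] [Module DD C]
  [AddCommGroup C'] [Module DD C'] [AddCommGroup C''] [Module DD C'']

/-- functoriality of `Tr` -/
def trMap (f : C →ₗ[DD] C') : Tr L C →ₗ[Lam L] Tr L C' where
  toFun y := ((f y.1, f y.2.1, f y.2.2) : C' × C' × C')
  map_add' x y := by
    show ((f (x.1 + y.1), f (x.2.1 + y.2.1), f (x.2.2 + y.2.2)) : C' × C' × C') =
      (f x.1 + f y.1, f x.2.1 + f y.2.1, f x.2.2 + f y.2.2)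
    simp only [map_add]
  map_smul' m y := Tr_ext L (map_smul f _ _) (map_smul f _ _) (by
    show f ((m : Matrix (Fin 3) (Fin 3) DD) 2 0 • y.1 +
      (m : Matrix (Fin 3) (Fin 3) DD) 2 1 • y.2.1 + (m : Matrix (Fin 3) (Fin 3) DD) 2 2 • y.2.2) =
      (m : Matrix (Fin 3) (Fin 3) DD) 2 0 • f y.1 +
      (m : Matrix (Fin 3) (Fin 3) DD) 2 1 • f y.2.1 +
      (m : Matrix (Fin 3) (Fin 3) DD) 2 2 • f y.2.2
    rw [map_add, map_add, map_smul, map_smul, map_smul])

@[simp] lemma trMap_1 (f : C →ₗ[DD] C') (y : Tr L C) : (trMap f y).1 = f y.1 := rfl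
@[simp] lemma trMap_2 (f : C →ₗ[DD] C') (y : Tr L C) : (trMap f y).2.1 = f y.2.1 := rfl
@[simp] lemma trMap_3 (f : C →ₗ[DD] C') (y : Tr L C) : (trMap f y).2.2 = f y.2.2 := rfl

lemma trMap_comp (f : C →ₗ[DD] C') (g : C' →ₗ[DD] C'') (y : Tr L C) :
    trMap (g.comp f) y = trMap g (trMap f y) := rfl

/-- a concrete triple is finitely generated if its components are -/
theorem tri_fg {A : Submodule L.V C} {B : Submodule L.O C} {D : Submodule DD C}
    (hA : ∀ a ∈ A, a ∈ D) (hB : ∀ b ∈ B, b ∈ D) (h1 : A.FG) (h2 : B.FG) (h3 : D.FG) :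
    (tri A B D hA hB).FG := by
  classical
  obtain ⟨s, hs⟩ := h1
  obtain ⟨t, ht⟩ := h2
  obtain ⟨u, hu⟩ := h3
  let fA : C → Tr L C := fun a => ((a, 0, 0) : C × C × C)
  let fB : C → Tr L C := fun a => ((0, a, 0) : C × C × C)
  let fC : C → Tr L C := fun a => ((0, 0, a) : C × C × C)
  let N : Submodule (Lam L) (Tr L C) := Submodule.span (Lam L)
    ((s.image fA ∪ t.image fB ∪ u.image fC : Finset (Tr L C)) : Set (Tr L C))
  have hsN : ∀ a ∈ s, fA a ∈ N := fun a ha => Submodule.subset_span (by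
    simp only [Finset.coe_union, Finset.coe_image]
    exact Or.inl (Or.inl ⟨a, ha, rfl⟩))
  have htN : ∀ a ∈ t, fB a ∈ N := fun a ha => Submodule.subset_span (by
    simp only [Finset.coe_union, Finset.coe_image]
    exact Or.inl (Or.inr ⟨a, ha, rfl⟩))
  have huN : ∀ a ∈ u, fC a ∈ N := fun a ha => Submodule.subset_span (by
    simp only [Finset.coe_union, Finset.coe_image]
    exact Or.inr ⟨a, ha, rfl⟩)
  have hAN : ∀ a ∈ A, fA a ∈ N := by
    intro a ha
    rw [← hs] at ha
    induction ha using Submodule.span_induction with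
    | mem a h => exact hsN a h
    | zero => exact N.zero_mem
    | add a b _ _ h h' =>
      have : fA (a + b) = fA a + fA b := Tr_ext L rfl (add_zero (0 : C)).symm
        (add_zero (0 : C)).symm
      rw [this]; exact N.add_mem h h'
    | smul v a _ h =>
      have : fA (v • a) = iA L v • fA a := by rw [Tr_iA]; rfl
      rw [this]; exact N.smul_mem _ h
  have hBN : ∀ a ∈ B, fB a ∈ N := by
    intro a ha
    rw [← ht] at ha
    induction ha using Submodule.span_induction with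
    | mem a h => exact htN a h
    | zero => exact N.zero_mem
    | add a b _ _ h h' =>
      have : fB (a + b) = fB a + fB b := Tr_ext L (add_zero (0 : C)).symm rfl
        (add_zero (0 : C)).symm
      rw [this]; exact N.add_mem h h'
    | smul v a _ h =>
      have : fB (v • a) = iB L v • fB a := by rw [Tr_iB]; rfl
      rw [this]; exact N.smul_mem _ h
  have hDN : ∀ a ∈ D, fC a ∈ N := by
    intro a ha
    rw [← hu] at ha
    induction ha using Submodule.span_induction with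
    | mem a h => exact huN a h
    | zero => exact N.zero_mem
    | add a b _ _ h h' =>
      have : fC (a + b) = fC a + fC b := Tr_ext L (add_zero (0 : C)).symm
        (add_zero (0 : C)).symm rfl
      rw [this]; exact N.add_mem h h'
    | smul v a _ h =>
      have : fC (v • a) = iC L v • fC a := by rw [Tr_iC]
      rw [this]; exact N.smul_mem _ h
  refine ⟨s.image fA ∪ t.image fB ∪ u.image fC, le_antisymm ?_ ?_⟩
  · rw [Submodule.span_le]
    intro y hy
    simp only [Finset.coe_union, Finset.coe_image] at hy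
    rcases hy with (⟨a, ha, rfl⟩ | ⟨a, ha, rfl⟩) | ⟨a, ha, rfl⟩
    · exact ⟨by rw [← hs]; exact Submodule.subset_span ha, B.zero_mem, D.zero_mem⟩
    · exact ⟨A.zero_mem, by rw [← ht]; exact Submodule.subset_span ha, D.zero_mem⟩
    · exact ⟨A.zero_mem, B.zero_mem, by rw [← hu]; exact Submodule.subset_span ha⟩
  · intro y hy
    have e : y = fA y.1 + fB y.2.1 + fC y.2.2 := Tr_ext L
      (show y.1 = y.1 + 0 + 0 by rw [add_zero, add_zero])
      (show y.2.1 = 0 + y.2.1 + 0 by rw [add_zero, zero_add])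
      (show y.2.2 = 0 + 0 + y.2.2 by rw [add_zero, zero_add])
    rw [e]
    exact N.add_mem (N.add_mem (hAN _ hy.1) (hBN _ hy.2.1)) (hDN _ hy.2.2)

end trMap

namespace LB

variable {DD : Type u} [Ring DD] {L : Line DD} (B : LB L) {T : Type u} [Ring T] (U : UnivT L T)

/-- `G_aff` over `V` -/
def GA : Submodule L.V B.MM where
  carrier := {f | f ∈ B.Gaff}
  add_mem' := fun ha hb => B.Gaff.add_mem ha hb
  zero_mem' := B.Gaff.zero_mem
  smul_mem' := fun d _ hf => B.Gaff_smul d.2 hf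

/-- `G_inf` over `O` -/
noncomputable def GI : Submodule L.O B.MM where
  carrier := {f | f ∈ B.Ginf}
  add_mem' := fun ha hb => B.Ginf.add_mem ha hb
  zero_mem' := B.Ginf.zero_mem
  smul_mem' := fun d _ hf => B.Ginf_smul d.2 hf


/-- the triple `G = (G_aff, G_inf, MM)` -/
noncomputable def GG : Submodule (Lam L) (Tr L B.MM) :=
  tri B.GA B.GI ⊤ (fun _ _ => trivial) (fun _ _ => trivial)

lemma mem_GG {y : Tr L B.MM} : y ∈ B.GG ↔ y.1 ∈ B.Gaff ∧ y.2.1 ∈ B.Ginf :=
  ⟨fun h => ⟨h.1, h.2.1⟩, fun h => ⟨h.1, h.2, trivial⟩⟩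

/-- the lattice of a finite set of words -/
noncomputable def LT (S : Finset B.Wd) : Submodule (Lam L) (Tr L B.MM) :=
  tri (B.LA S) (B.LBn S) (B.LC S) (fun _ h => h.2) (fun _ h => h.2)

lemma mem_LT {S : Finset B.Wd} {y : Tr L B.MM} :
    y ∈ B.LT S ↔ y.1 ∈ B.LA S ∧ y.2.1 ∈ B.LBn S ∧ y.2.2 ∈ B.LC S := Iff.rfl

lemma LT_le_GG (S : Finset B.Wd) : B.LT S ≤ B.GG := fun _ h => ⟨h.1.1, h.2.1.1, trivial⟩

/-- the lattice inside `G` -/
noncomputable def LG (S : Finset B.Wd) : Submodule (Lam L) B.GG := (B.LT S).comap B.GG.subtype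

lemma mem_LG {S : Finset B.Wd} {y : B.GG} : y ∈ B.LG S ↔ (y : Tr L B.MM) ∈ B.LT S := Iff.rfl

lemma LG_mono {S S' : Finset B.Wd} (h : S ⊆ S') : B.LG S ≤ B.LG S' :=
  fun _ hy => ⟨B.LA_mono h hy.1, B.LBn_mono h hy.2.1, B.LC_mono h hy.2.2⟩

lemma LA_fg (S : Finset B.Wd) : (B.LA S).FG := by
  classical
  refine ⟨Finset.univ.image (fun w : Option S => (Finsupp.single (w.map Subtype.val) 1 : B.MM)),
    le_antisymm ?_ ?_⟩
  · rw [Submodule.span_le]
    intro y hy
    simp only [Finset.coe_image, Finset.coe_univ, Set.image_univ, Set.mem_range] at hy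
    obtain ⟨w, rfl⟩ := hy
    exact B.single_mem_LA w
  · intro y hy
    simpa using B.LA_span S hy

lemma LC_fg (S : Finset B.Wd) : (B.LC S).FG := by
  classical
  refine ⟨Finset.univ.image (fun w : Option S => (Finsupp.single (w.map Subtype.val) 1 : B.MM)),
    le_antisymm ?_ ?_⟩
  · rw [Submodule.span_le]
    intro y hy
    simp only [Finset.coe_image, Finset.coe_univ, Set.image_univ, Set.mem_range] at hy
    obtain ⟨w, rfl⟩ := hy
    exact (B.single_mem_LA w).2
  · intro y hy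
    simpa using B.LC_span S hy

lemma LBn_fg {S : Finset B.Wd} (hS : B.Cl S) : (B.LBn S).FG := by
  classical
  refine ⟨Finset.univ.image (fun w : Option S => B.bi (w.map Subtype.val)),
    le_antisymm ?_ ?_⟩
  · rw [Submodule.span_le]
    intro y hy
    simp only [Finset.coe_image, Finset.coe_univ, Set.image_univ, Set.mem_range] at hy
    obtain ⟨w, rfl⟩ := hy
    exact B.bi_mem_LBn hS w
  · intro y hy
    simpa using B.LBn_span hS hy

lemma LT_fg {S : Finset B.Wd} (hS : B.Cl S) : (B.LT S).FG :=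
  tri_fg _ _ (B.LA_fg S) (B.LBn_fg hS) (B.LC_fg S)

theorem LG_fg {S : Finset B.Wd} (hS : B.Cl S) : (B.LG S).FG := by
  refine Submodule.fg_of_fg_map_injective B.GG.subtype (Submodule.subtype_injective _) ?_
  have : (B.LG S).map B.GG.subtype = B.LT S := by
    rw [LG, Submodule.map_comap_subtype, inf_eq_right]
    exact B.LT_le_GG S
  rw [this]
  exact B.LT_fg hS

/-- exhaustion -/
theorem exists_mem_LG (x : B.GG) : ∃ S, B.Cl S ∧ x ∈ B.LG S := by
  classical
  obtain ⟨S1, h1, k1⟩ := exists_LC_mem (B := B) (x : Tr L B.MM).1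
  obtain ⟨S2, h2, k2⟩ := exists_LC_mem (B := B) (x : Tr L B.MM).2.1
  obtain ⟨S3, h3, k3⟩ := exists_LC_mem (B := B) (x : Tr L B.MM).2.2
  refine ⟨S1 ∪ S2 ∪ S3, (h1.union h2).union h3, ⟨x.2.1, ?_⟩, ⟨x.2.2.1, ?_⟩, ?_⟩
  · exact B.LC_mono (fun _ h => Finset.mem_union_left _ (Finset.mem_union_left _ h)) k1
  · exact B.LC_mono (fun _ h => Finset.mem_union_left _ (Finset.mem_union_right _ h)) k2
  · exact B.LC_mono (fun _ h => Finset.mem_union_right _ h) k3

/-- the coordinate at a word -/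
noncomputable def coord (κ : B.Wd) : Tr L B.MM →ₗ[Lam L] Tr L DD :=
  trMap (Finsupp.lapply (some κ))

variable {B}

/-- one step -/
theorem step_mem {F : AbClass (Lam L)} (hT : F.mem (TT L)) [DecidableEq B.Wd] {S : Finset B.Wd}
    (hS : B.Cl S) {κ : B.Wd} (hκS : κ ∉ S) (hκ : ∀ κ', B.par κ = some κ' → κ' ∈ S) :
    F.mem (SQ (B.LG (insert κ S)) (B.LG S)) := by
  let f : ↥(B.LG (insert κ S)) →ₗ[Lam L] TT L :=
    ((B.coord κ).comp (B.GG.subtype.comp (B.LG (insert κ S)).subtype)).codRestrict (TT L) (by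
      intro y
      have hy := y.2
      rw [mem_LG, mem_LT] at hy
      rw [mem_TT]
      refine ⟨hy.1.1 _, ?_⟩
      obtain ⟨o, ho, h1⟩ := coord_Ginf hS hκS hκ hy.2.1
      have h2 : L.p * (((y : B.GG) : Tr L B.MM).2.1 (some κ)) = o := by
        rw [h1, ← mul_assoc, L.px, one_mul]
      exact h2 ▸ ho)
  have hf : Function.Surjective f := by
    rintro ⟨y, hy⟩
    rw [mem_TT] at hy
    obtain ⟨a, ha, ha'⟩ := exists_LA (B := B) (S := S) (κ := κ) hy.1
    obtain ⟨b, hb, hb'⟩ := exists_LBn hκ hy.2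
    obtain ⟨c, hc, hc'⟩ := exists_LC (B := B) (S := S) (κ := κ) y.2.2
    have hL : (((a, b, c) : B.MM × B.MM × B.MM) : Tr L B.MM) ∈ B.LT (insert κ S) := ⟨ha, hb, hc⟩
    refine ⟨⟨⟨(a, b, c), B.LT_le_GG _ hL⟩, hL⟩, Subtype.ext ?_⟩
    refine Tr_ext L ha' ?_ hc'
    show b (some κ) = y.2.1
    rw [hb', ← mul_assoc, L.xp, one_mul]
  obtain ⟨e, -⟩ := exists_equiv_of_ker_eq hf
    (Submodule.mkQ_surjective (Submodule.submoduleOf (B.LG S) (B.LG (insert κ S)))) (by
      intro y
      rw [SQ_mk_eq_zero, mem_LG, mem_LT]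
      have hy := y.2
      rw [mem_LG, mem_LT] at hy
      have h1 : f y = 0 ↔ ((y : B.GG) : Tr L B.MM).1 (some κ) = 0 ∧
          ((y : B.GG) : Tr L B.MM).2.1 (some κ) = 0 ∧
          ((y : B.GG) : Tr L B.MM).2.2 (some κ) = 0 := by
        constructor
        · intro h
          have h2 : (f y : Tr L DD) = 0 := by rw [h]; rfl
          exact ⟨congrArg (fun z : Tr L DD => z.1) h2, congrArg (fun z : Tr L DD => z.2.1) h2,
            congrArg (fun z : Tr L DD => z.2.2) h2⟩
        · rintro ⟨h1, h2, h3⟩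
          exact Subtype.ext (Tr_ext L h1 h2 h3)
      rw [h1, ← mem_LC_iff_coord hκS hy.1.2, ← mem_LC_iff_coord hκS hy.2.1.2,
        ← mem_LC_iff_coord hκS hy.2.2, mem_LA, mem_LBn]
      exact ⟨fun h => ⟨⟨hy.1.1, h.1⟩, ⟨hy.2.1.1, h.2.1⟩, h.2.2⟩,
        fun h => ⟨h.1.2, h.2.1.2, h.2.2⟩⟩)
  exact F.iso e hT

/-- subquotients of lattices -/
theorem SQ_mem {F : AbClass (Lam L)} (hF : ExtClosed F) (hT : F.mem (TT L)) {S S' : Finset B.Wd}
    (hS : B.Cl S) (hS' : B.Cl S') (h : S ⊆ S') : F.mem (SQ (B.LG S') (B.LG S)) := by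
  classical
  induction hn : (S' \ S).card generalizing S with
  | zero =>
    have h1 : S = S' := by
      rw [Finset.card_eq_zero, Finset.sdiff_eq_empty_iff_subset] at hn
      exact Finset.Subset.antisymm h hn
    subst h1
    refine F.zero _ ⟨fun a b => ?_⟩
    obtain ⟨a, rfl⟩ := Submodule.mkQ_surjective _ a
    obtain ⟨b, rfl⟩ := Submodule.mkQ_surjective _ b
    rw [(SQ_mk_eq_zero a).2 a.2, (SQ_mk_eq_zero b).2 b.2]
  | succ n ih =>
    have hne : S ≠ S' := by
      rintro rfl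
      simp at hn
    obtain ⟨κ, h1, h2, h3⟩ := exists_leaf hS' h hne
    have h4 : insert κ S ⊆ S' := Finset.insert_subset h1 h
    refine SQ_ext hF (B := B.LG (insert κ S)) (B.LG_mono (Finset.subset_insert κ S))
      (B.LG_mono h4) (step_mem hT hS h2 h3) (ih (hS.insert h3) h4 ?_)
    have h5 : S' \ insert κ S = (S' \ S).erase κ := by
      ext a
      simp only [Finset.mem_sdiff, Finset.mem_insert, Finset.mem_erase, not_or]
      tauto
    rw [h5, Finset.card_erase_of_mem (Finset.mem_sdiff.2 ⟨h1, h2⟩), hn]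
    rfl

/-- `LG` reflects the order -/
theorem subset_of_LG_le [Nontrivial DD] {S S' : Finset B.Wd} (h : B.LG S ≤ B.LG S') : S ⊆ S' := by
  intro κ hκ
  by_contra hn
  have h1 : (((0, 0, Finsupp.single (some κ) 1) : B.MM × B.MM × B.MM) : Tr L B.MM) ∈ B.LT S :=
    ⟨(B.LA S).zero_mem, (B.LBn S).zero_mem, (B.single_mem_LA (S := S) (some ⟨κ, hκ⟩)).2⟩
  have h2 := (h (x := ⟨_, B.LT_le_GG _ h1⟩) h1).2.2 κ hn
  simp at h2

theorem SQ_mem' {F : AbClass (Lam L)} (hF : ExtClosed F) (hT : F.mem (TT L)) {S S' : Finset B.Wd}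
    (hS : B.Cl S) (hS' : B.Cl S') (h : B.LG S ≤ B.LG S') : F.mem (SQ (B.LG S') (B.LG S)) := by
  rcases subsingleton_or_nontrivial DD with h1 | h1
  · have h2 : Subsingleton (Tr L B.MM) := inferInstanceAs (Subsingleton (B.MM × B.MM × B.MM))
    have h3 : Subsingleton ↥(B.LG S') := inferInstance
    exact F.zero _ (Submodule.mkQ_surjective _).subsingleton
  · exact SQ_mem hF hT hS hS' (subset_of_LG_le h)

/-! ### the right `T`-action -/

section action
variable (hinj : Function.Injective (B.φ U))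

/-- right multiplication by `t` on `G` -/
noncomputable def RtG (t : T) : B.GG →ₗ[Lam L] B.GG :=
  ((trMap (B.Rt U hinj t)).comp B.GG.subtype).codRestrict B.GG (fun y =>
    ⟨B.Rt_Gaff U hinj t y.2.1, B.Rt_Ginf U hinj t y.2.2.1, trivial⟩)

lemma coe_RtG (t : T) (y : B.GG) :
    ((RtG U hinj t y : B.GG) : Tr L B.MM) = trMap (B.Rt U hinj t) (y : Tr L B.MM) := rfl

lemma RtG_one (y : B.GG) : RtG U hinj 1 y = y := Subtype.ext (by
  rw [coe_RtG, Rt_one]; rfl)

lemma RtG_zero (y : B.GG) : RtG U hinj 0 y = 0 := Subtype.ext (by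
  rw [coe_RtG, Rt_zero]; rfl)

lemma RtG_mul (s t : T) (y : B.GG) : RtG U hinj (s * t) y = RtG U hinj t (RtG U hinj s y) :=
  Subtype.ext (by rw [coe_RtG, coe_RtG, coe_RtG, Rt_mul, trMap_comp])

lemma RtG_add (s t : T) (y : B.GG) : RtG U hinj (s + t) y = RtG U hinj s y + RtG U hinj t y :=
  Subtype.ext (by rw [coe_RtG, Rt_add]; rfl)

/-- `G` as a right `T`-module -/
@[reducible] noncomputable def modT : Module Tᵐᵒᵖ B.GG where
  smul t y := RtG U hinj (unop t) y
  one_smul y := RtG_one U hinj y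
  mul_smul s t y := RtG_mul U hinj (unop t) (unop s) y
  smul_zero _ := map_zero _
  smul_add _ _ _ := map_add _ _ _
  add_smul s t y := RtG_add U hinj (unop s) (unop t) y
  zero_smul y := RtG_zero U hinj y

/-- row vectors over `G` times a matrix over `T` -/
noncomputable def mT {r s : ℕ} (e : Matrix (Fin r) (Fin s) T) :
    (Fin r → B.GG) →ₗ[Lam L] (Fin s → B.GG) :=
  LinearMap.pi fun j => ∑ i, (RtG U hinj (e i j)).comp (LinearMap.proj i)

lemma mT_apply {r s : ℕ} (e : Matrix (Fin r) (Fin s) T) (y : Fin r → B.GG) (j : Fin s) :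
    mT U hinj e y j = ∑ i, RtG U hinj (e i j) (y i) := by
  simp [mT]

lemma RtG_sum {ι : Type*} (s : Finset ι) (t : ι → T) (y : B.GG) :
    RtG U hinj (∑ i ∈ s, t i) y = ∑ i ∈ s, RtG U hinj (t i) y := by
  classical
  induction s using Finset.induction_on with
  | empty => simp [RtG_zero]
  | insert a s ha ih => rw [Finset.sum_insert ha, Finset.sum_insert ha, RtG_add, ih]

lemma mT_mul {r s k : ℕ} (e : Matrix (Fin r) (Fin s) T) (f : Matrix (Fin s) (Fin k) T)
    (y : Fin r → B.GG) : mT U hinj (e * f) y = mT U hinj f (mT U hinj e y) := by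
  funext j
  simp only [mT_apply, Matrix.mul_apply, RtG_sum, RtG_mul, map_sum]
  rw [Finset.sum_comm]


end action

/-- the trivial lattice is `OO(0)` -/
theorem mem_LG_empty {y : B.GG} : y ∈ B.LG ∅ ↔ ∃ z : Tr L DD, z ∈ OO L 0 ∧
    (y : Tr L B.MM) = trMap (Finsupp.lsingle none) z := by
  rw [mem_LG, mem_LT]
  constructor
  · rintro ⟨h1, h2, h3⟩
    obtain ⟨v, hv, h4⟩ := B.mem_LA_empty.1 h1
    obtain ⟨o, ho, h5⟩ := B.mem_LBn_empty.1 h2
    refine ⟨((v, o, ((y : Tr L B.MM).2.2) none) : DD × DD × DD), ?_, Tr_ext L h4 h5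
      (B.mem_LC_empty h3)⟩
    exact (mem_OO L).2 ⟨hv, (mem_Op_zero L).2 ho⟩
  · rintro ⟨z, hz, h⟩
    rw [mem_OO, mem_Op_zero] at hz
    rw [h]
    refine ⟨B.mem_LA_empty.2 ⟨_, hz.1, rfl⟩, B.mem_LBn_empty.2 ⟨_, hz.2, rfl⟩, fun κ _ => ?_⟩
    show (Finsupp.single none z.2.2 : B.MM) (some κ) = 0
    simp

/-- the inclusion `OO(0) → G` -/
noncomputable def iOO : OO L 0 →ₗ[Lam L] B.GG :=
  ((trMap (Finsupp.lsingle none)).comp (OO L 0).subtype).codRestrict B.GG (fun z => by
    have h := z.2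
    rw [mem_OO, mem_Op_zero] at h
    exact B.LT_le_GG ∅ (show trMap (Finsupp.lsingle none) (z : Tr L DD) ∈ B.LT ∅ from
      ⟨B.mem_LA_empty.2 ⟨_, h.1, rfl⟩, B.mem_LBn_empty.2 ⟨_, h.2, rfl⟩, fun κ _ => by
        show (Finsupp.single none (z : Tr L DD).2.2 : B.MM) (some κ) = 0
        simp⟩))

lemma coe_iOO (z : OO L 0) :
    ((iOO (B := B) z : B.GG) : Tr L B.MM) = trMap (Finsupp.lsingle none) (z : Tr L DD) := rfl

lemma iOO_injective : Function.Injective (iOO (B := B)) := by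
  intro z z' h
  have h1 := congrArg (fun y : B.GG => (y : Tr L B.MM)) h
  simp only [coe_iOO] at h1
  refine Subtype.ext (Tr_ext L ?_ ?_ ?_)
  · have := congrArg (fun y : Tr L B.MM => y.1 none) h1
    simpa using this
  · have := congrArg (fun y : Tr L B.MM => y.2.1 none) h1
    simpa using this
  · have := congrArg (fun y : Tr L B.MM => y.2.2 none) h1
    simpa using this

lemma range_iOO : LinearMap.range (iOO (B := B)) = B.LG ∅ := by
  ext y
  rw [mem_LG_empty, LinearMap.mem_range]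
  constructor
  · rintro ⟨z, rfl⟩
    exact ⟨z, z.2, rfl⟩
  · rintro ⟨z, hz, h⟩
    exact ⟨⟨z, hz⟩, Subtype.ext h.symm⟩

end LB

end Crest.Agent.R181.V868
end

-- ▼ part R181/V868g
section

/-!
# R181, V-chain, V2: `exists_good` applied to `G = (G_aff, G_inf, MM)`, and the map `φ` on `G`
-/

set_option autoImplicit false
set_option linter.unusedSectionVars false

open MulOpposite

namespace Crest.Agent.R181.V868

open VA LK

universe u

namespace LB

variable {DD : Type u} [Ring DD] {L : Line DD} {B : LB L} {T : Type u} [Ring T] (U : UnivT L T)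

theorem inj_GG : Function.Injective (be L : cB L B.GG → cC L B.GG) := inj_tri

variable (B) in
/-- `OO(0) ≃ LG ∅` -/
noncomputable def eO : OO L 0 ≃ₗ[Lam L] B.LG ∅ :=
  (LinearEquiv.ofInjective (iOO (B := B)) iOO_injective).trans (LinearEquiv.ofEq _ _ range_iOO)










section
variable (hinj : Function.Injective (B.φ U))




end

/-- `TT` is in the class -/
theorem TT_mem [IsNoetherianRing (EE L)] (hF : Flat (Lam L) (EE L) (TT L))
    (hH : Full (Lam L) (EE L) (TT L)) : (thClass hF hH).filt.mem (TT L) := by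
  refine AbClass.filt_of_mem ?_
  refine memTH_of_surj (ι := Empty) (κ := Unit) (0 : Matrix Empty Unit (EE L))
    (LinearMap.proj ()) (fun y => ⟨fun _ => y, rfl⟩) (fun x => ?_)
  constructor
  · intro h
    refine ⟨0, ?_⟩
    rw [map_zero]
    funext i
    exact h.symm
  · rintro ⟨w, rfl⟩
    show mR (Lam L) (TT L) (0 : Matrix Empty Unit (EE L)) w () = 0
    simp

/-- `exists_good` for `G` -/
theorem exists_goodG [IsNoetherianRing (EE L)] (hF : Flat (Lam L) (EE L) (TT L))
    (hH : Full (Lam L) (EE L) (TT L))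
    (hE : ∀ (M : Type u) [AddCommGroup M] [Module (EE L) M], Module.Finite (EE L) M →
      FR.FFR (EE L) M)
    (hV : ∀ (Q : Type u) [AddCommGroup Q] [Module L.V Q], Module.Finite L.V Q →
      Module.Projective L.V Q → FR.StFree L.V Q)
    (hinj : Function.Injective (B.φ U)) (r : ℕ) (e : Matrix (Fin r) (Fin r) T) (he : e * e = e) :
    ∃ M : Submodule (Lam L) (Fin r → B.GG),
      Submodule.pi Set.univ (fun _ : Fin r => B.LG ∅) ≤ M ∧ (∀ y ∈ M, mT U hinj e y ∈ M) ∧
      (thClass hF hH).filt.mem (SQ M (Submodule.pi Set.univ (fun _ : Fin r => B.LG ∅))) ∧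
      Good L M ∧ Good L (M.map (mT U hinj e)) := by
  classical
  exact exists_good hF hH hE hV inj_GG
    (fun S : {S : Finset B.Wd // B.Cl S} => B.LG S.1) (B.LG ∅) B.eO
    (fun S => B.LG_fg S.2) (fun S => B.LG_mono (Finset.empty_subset _)) ⟨⟨∅, Cl.empty⟩⟩
    (fun S S' => ⟨⟨S.1 ∪ S'.1, S.2.union S'.2⟩, B.LG_mono Finset.subset_union_left,
      B.LG_mono Finset.subset_union_right⟩)
    (fun x => by
      obtain ⟨S, hS, hx⟩ := B.exists_mem_LG x
      exact ⟨⟨S, hS⟩, hx⟩)
    (fun S => SQ_mem (extClosed_filt _) (TT_mem hF hH) Cl.empty S.2 (Finset.empty_subset _))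
    (fun S S' h => SQ_mem' (extClosed_filt _) (TT_mem hF hH) S.2 S'.2 h) r (mT U hinj e)
    (fun y => by rw [← mT_mul, he])

end LB

end Crest.Agent.R181.V868
end

-- ▼ part R181/RB963a
section

/-!
# R181, V-chain: the right-handed output of V1

`RB.ofOp : (B' : LB L.op) → (⋂ pⁿO = 0) → RB U` for `U : UnivT L T`.
-/

set_option autoImplicit false

namespace Crest.Agent.R181.RB963

open Crest.Agent.R181.V868 Crest.Agent.R181.VL Crest.Agent.R181.VB MulOpposite

universe u

noncomputable section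

variable {DD : Type u} [Ring DD] {L : Line DD} {T : Type u} [Ring T]

section Unop

theorem lunop_zero : lunop T (0 : LaurentSeries Tᵐᵒᵖ) = 0 := by ext n; simp

theorem lunop_add (x y : LaurentSeries Tᵐᵒᵖ) : lunop T (x + y) = lunop T x + lunop T y := by
  ext n; simp

theorem lunop_mul (x y : LaurentSeries Tᵐᵒᵖ) : lunop T (x * y) = lunop T y * lunop T x := by
  have h := map_mul (lsOp T).symm x y
  have h2 := congrArg MulOpposite.unop h
  rw [unop_mul] at h2
  exact h2

theorem lunop_one : lunop T (1 : LaurentSeries Tᵐᵒᵖ) = 1 := by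
  have h := map_one (lsOp T).symm
  have h2 := congrArg MulOpposite.unop h
  exact h2

theorem lunop_lop (x : LaurentSeries T) : lunop T (lop T x) = x := by ext n; rfl

theorem lop_lunop (x : LaurentSeries Tᵐᵒᵖ) : lop T (lunop T x) = x := by ext n; rfl

theorem lunop_injective : Function.Injective (lunop T) := by
  intro x y h
  rw [← lop_lunop x, h, lop_lunop]

theorem lunop_Θ (U : UnivT L T) (d : DDᵐᵒᵖ) : lunop T (U.op.Θ d) = U.Θ d.unop := by
  ext n; rfl

/-- coefficientwise `op` -/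
def opf {W : Type*} (v : W →₀ DD) : W →₀ DDᵐᵒᵖ := v.mapRange MulOpposite.op rfl

/-- coefficientwise `unop` -/
def unopf {W : Type*} (v : W →₀ DDᵐᵒᵖ) : W →₀ DD := v.mapRange MulOpposite.unop rfl

@[simp] theorem opf_apply {W : Type*} (v : W →₀ DD) (w : W) : opf v w = op (v w) := rfl

@[simp] theorem unopf_apply {W : Type*} (v : W →₀ DDᵐᵒᵖ) (w : W) : unopf v w = unop (v w) := rfl

theorem opf_unopf {W : Type*} (v : W →₀ DDᵐᵒᵖ) : opf (unopf v) = v := by ext w; rfl

theorem unopf_opf {W : Type*} (v : W →₀ DD) : unopf (opf v) = v := by ext w; rfl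

theorem opf_zero {W : Type*} : opf (0 : W →₀ DD) = 0 := by ext w; simp

theorem opf_add {W : Type*} (v v' : W →₀ DD) : opf (v + v') = opf v + opf v' := by ext w; simp

theorem opf_single {W : Type*} (w : W) (d : DD) :
    opf (Finsupp.single w d) = Finsupp.single w (op d) := by simp [opf]

theorem unopf_single {W : Type*} (w : W) (d : DDᵐᵒᵖ) :
    unopf (Finsupp.single w d) = Finsupp.single w d.unop := by simp [unopf]

/-- `∑ c_w Θ(f_w)` is the `unop` of `∑ Θ(f_w) c_w` -/
theorem evm_eq_lunop (U : UnivT L T) {W : Type*} (c : W → LaurentSeries Tᵐᵒᵖ) (v : W →₀ DD) :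
    evm U.Θ (fun w => lunop T (c w)) v =
      lunop T ((opf v).sum fun w d => U.op.Θ d * c w) := by
  induction v using Finsupp.induction_linear with
  | zero => rw [map_zero, opf_zero, Finsupp.sum_zero_index, lunop_zero]
  | add f g hf hg =>
    rw [map_add, hf, hg, opf_add, Finsupp.sum_add_index', lunop_add]
    · intro w; rw [map_zero, zero_mul]
    · intro w a b; rw [map_add, add_mul]
  | single w d =>
    rw [evm_single, opf_single, Finsupp.sum_single_index (by rw [map_zero, zero_mul]), lunop_mul,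
      lunop_Θ]
    rfl

end Unop

theorem sep_op (hsep : ∀ d : DD, (∀ n : ℕ, ∃ o ∈ L.O, d = L.p ^ n * o) → d = 0) (d : DDᵐᵒᵖ)
    (h : ∀ n : ℕ, ∃ o ∈ L.op.O, d = L.op.p ^ n * o) : d = 0 := by
  apply unop_injective
  rw [unop_zero]
  apply hsep
  intro n
  obtain ⟨o, ho, h⟩ := h n
  refine ⟨o.unop, ho, ?_⟩
  rw [h, unop_mul, unop_pow, L.p_pow_comm]
  rfl

/-- the words `bi` are linearly independent over `DD` -/
theorem bi_ind {L : Line DD} (B : LB L) (o : B.W →₀ DD)
    (h : o.sum (fun w d => d • B.bi w) = 0) : o = 0 := by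
  have h1 := B.smul_bi_sum o
  rw [h, smul_zero] at h1
  have h2 : o + Finsupp.single none (L.p * o none - o none) = 0 := by
    apply VL.dP_injective (B := B)
    rw [map_zero]; exact h1.symm
  ext w
  have h3 := DFunLike.congr_fun h2 w
  rcases w with _ | κ
  · simp only [Finsupp.add_apply, Finsupp.single_eq_same, Finsupp.zero_apply] at h3
    have h4 : L.p * o none = 0 := by rw [← h3]; abel
    have h5 : L.x * (L.p * o none) = 0 := by rw [h4, mul_zero]
    rw [← mul_assoc, L.xp, one_mul] at h5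
    simpa using h5
  · simpa using h3

variable (U : UnivT L T) (B : LB L.op)

/-- the right basis of `T[x]` over `V` -/
def rb (w : B.W) : LaurentSeries T := lunop T (B.b U.op w)

/-- coordinates of the right `O`-basis of `G_inf` -/
def rP (w : B.W) : B.W →₀ DD := unopf (B.bi w)

theorem evm_rb (v : B.W →₀ DD) : evm U.Θ (rb U B) v = lunop T (B.φ U.op (opf v)) := by
  rw [B.φ_apply U.op, ← evm_eq_lunop]
  rfl

theorem evm_rP (w : B.W) : evm U.Θ (rb U B) (rP B w) = lunop T (B.φ U.op (B.bi w)) := by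
  rw [evm_rb, rP, opf_unopf]

theorem evm_evm_rP (v : B.W →₀ DD) :
    evm U.Θ (fun w => evm U.Θ (rb U B) (rP B w)) v =
      lunop T (B.φ U.op ((opf v).sum fun w d => d • B.bi w)) := by
  have e : (fun w => evm U.Θ (rb U B) (rP B w)) = fun w => lunop T (B.φ U.op (B.bi w)) :=
    funext fun w => evm_rP U B w
  rw [e, evm_eq_lunop]
  congr 1
  rw [Finsupp.sum, Finsupp.sum, map_sum]
  exact Finset.sum_congr rfl fun w _ => (B.φ_smul U.op _ _).symm

/-- **the right-handed output of V1** -/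
def ofOp (hsep : ∀ d : DD, (∀ n : ℕ, ∃ o ∈ L.O, d = L.p ^ n * o) → d = 0) : RB U where
  W := B.W
  w0 := none
  b := rb U B
  P := rP B
  b_w0 := by
    show lunop T (B.b U.op none) = 1
    rw [B.b_none U.op, lunop_one]
  P_w0 := by
    show unopf (B.bi none) = _
    rw [B.bi_none, unopf_single]; rfl
  b_aff w n hn := by
    show (lunop T (B.b U.op w)).coeff n = 0
    rw [coeff_lunop, B.b_pos U.op w n hn]; rfl
  span z hz := by
    obtain ⟨m, ⟨hm, hm'⟩, -⟩ := B.existsUnique_Gaff U.op (lop T z) (fun n hn => by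
      rw [coeff_lop, hz n hn]; rfl)
    refine ⟨unopf m, fun w => hm w, ?_⟩
    rw [evm_rb, opf_unopf, hm', lunop_lop]
  ind v hv := by
    rw [evm_rb, ← lunop_zero] at hv
    have h1 := lunop_injective hv
    have h2 : opf v = 0 := B.φ_injective U.op (sep_op hsep) (by rw [h1, map_zero])
    rw [← unopf_opf v, h2]
    ext w; rfl
  inf w n hn := by
    rw [evm_rP, coeff_lunop, B.φ_bi_neg U.op w n hn]; rfl
  span' v hv := by
    have h1 : opf v ∈ B.Ginf := by
      rw [B.mem_Ginf_iff_φ U.op B.isCompl]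
      intro n hn
      have h2 := hv n hn
      rw [evm_rb, coeff_lunop] at h2
      exact unop_injective h2
    obtain ⟨o, ⟨ho, hg⟩, -⟩ := B.existsUnique_Ginf _ h1
    refine ⟨unopf o, fun w => ho w, ?_⟩
    rw [evm_evm_rP, opf_unopf, ← hg, evm_rb]
  ind' v hv := by
    rw [evm_evm_rP, ← lunop_zero] at hv
    have h1 := lunop_injective hv
    have h2 := B.φ_injective U.op (sep_op hsep) (h1.trans (map_zero (B.φ U.op)).symm)
    have h3 := bi_ind B (opf v) h2
    rw [← unopf_opf v, h3]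
    ext w; rfl

end

end Crest.Agent.R181.RB963
end

-- ▼ part R181/VT495g
section

/-!
# R181, V-chain, block V2: assembly over 868's lattices
-/

set_option autoImplicit false
set_option linter.unusedSectionVars false

namespace Crest.Agent.R181.VT

open V868 VA VB LK MulOpposite

universe u

section core

variable {DD : Type u} [Ring DD] {L : Line DD} {T : Type u} [Ring T] {U : UnivT L T} (R : RB U)


/-- Step 5 for modules over the triangular ring -/
def Step5 : Prop := ∀ (Z : Type u) [AddCommGroup Z] [Module (Lam L) Z], Good L Z →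
  Function.Injective (dZ R Z) → FR.FFR T (Psi1 R (al L (Y := Z)) (be L (Y := Z)))

variable (B : LB L)

/-- `φ` on the third component of `G` -/
noncomputable def phG (U : UnivT L T) : cC L B.GG →+ LaurentSeries T where
  toFun y := B.φ U ((y : B.GG) : Tr L B.MM).2.2
  map_zero' := by
    show B.φ U (0 : B.MM) = 0
    rw [map_zero]
  map_add' x y := by
    show B.φ U (((x : B.GG) : Tr L B.MM).2.2 + ((y : B.GG) : Tr L B.MM).2.2) = _
    rw [map_add]

theorem phG_apply (y : cC L B.GG) : phG B U y = B.φ U ((y : B.GG) : Tr L B.MM).2.2 := rfl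

theorem phG_smul (d : DD) (y : cC L B.GG) : phG B U (d • y) = U.Θ d * phG B U y := by
  rw [phG_apply, phG_apply]
  have h : (((d • y : cC L B.GG) : B.GG) : Tr L B.MM).2.2 =
      d • ((y : B.GG) : Tr L B.MM).2.2 := by
    show (iC L d • ((y : B.GG) : Tr L B.MM)).2.2 = _
    rw [iC_3]
  rw [h, B.φ_smul]

theorem phG_al (a : cA L B.GG) : Aff (phG B U (al L a)) := by
  rw [phG_apply]
  have h : (((al L a : cC L B.GG) : B.GG) : Tr L B.MM).2.2 = ((a : B.GG) : Tr L B.MM).1 := by
    show (tA L • ((a : B.GG) : Tr L B.MM)).2.2 = _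
    rw [tA_3]
  rw [h]
  exact B.φ_Gaff U ((B.mem_GG).1 (a : B.GG).2).1

theorem phG_be (a : cB L B.GG) : Inf (phG B U (be L a)) := by
  rw [phG_apply]
  have h : (((be L a : cC L B.GG) : B.GG) : Tr L B.MM).2.2 = ((a : B.GG) : Tr L B.MM).2.1 := by
    show (tB L • ((a : B.GG) : Tr L B.MM)).2.2 = _
    rw [tB_3]
  rw [h]
  exact B.φ_Ginf U ((B.mem_GG).1 (a : B.GG).2).2

/-- `OO ≃ L_∅` -/
noncomputable def eLG : OO L 0 ≃ₗ[Lam L] B.LG ∅ :=
  (LinearEquiv.ofInjective LB.iOO LB.iOO_injective).trans (LinearEquiv.ofEq _ _ LB.range_iOO)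


theorem phG_one : phG B U (Cmap (iC L) ((B.LG ∅).subtype.comp (eLG B).toLinearMap)
    (cO.symm 1)) = 1 := by
  rw [phG_apply]
  have h : (((Cmap (iC L) ((B.LG ∅).subtype.comp (eLG B).toLinearMap) (cO.symm 1) :
      cC L B.GG) : B.GG) : Tr L B.MM).2.2 = Finsupp.single none 1 := by
    show (((LB.iOO ((cO.symm 1 : cC L (OO L 0)) : OO L 0) : B.GG) : Tr L B.MM)).2.2 = _
    rw [LB.coe_iOO]
    rfl
  rw [h, B.φ_single, map_one, B.b_none, one_mul]

variable (hinj : Function.Injective (B.φ U))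

theorem coe_sum_GG {r : ℕ} (f : Fin r → B.GG) :
    ((∑ i, f i : B.GG) : Tr L B.MM).2.2 = ∑ i, ((f i : B.GG) : Tr L B.MM).2.2 := by
  classical
  exact map_sum (⟨⟨fun y : B.GG => (y : Tr L B.MM).2.2, rfl⟩, fun _ _ => rfl⟩ : B.GG →+ B.MM) f _

theorem phG_mT {r : ℕ} (E : Matrix (Fin r) (Fin r) T) (i : Fin r)
    (y : cC L (Fin r → B.GG)) :
    phG B U (Cmap (iC L) (LinearMap.proj i) (Cmap (iC L) (LB.mT U hinj E) y)) =
      ∑ j, phG B U (Cmap (iC L) (LinearMap.proj j) y) * HahnSeries.C (E j i) := by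
  rw [phG_apply]
  have h : (((Cmap (iC L) (LinearMap.proj i) (Cmap (iC L) (LB.mT U hinj E) y) :
      cC L B.GG) : B.GG) : Tr L B.MM).2.2 =
      ∑ j, B.Rt U hinj (E j i) (((y : Fin r → B.GG) j : B.GG) : Tr L B.MM).2.2 := by
    show ((LB.mT U hinj E (y : Fin r → B.GG) i : B.GG) : Tr L B.MM).2.2 = _
    rw [LB.mT_apply, coe_sum_GG]
    rfl
  rw [h, map_sum]
  refine Finset.sum_congr rfl fun j _ => ?_
  rw [B.φ_Rt]
  rfl

include hinj in
/-- V2, the core -/
theorem core (h5 : Step5 R) [IsNoetherianRing (EE L)]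
    (hF : Flat (Lam L) (EE L) (TT L)) (hH : Full (Lam L) (EE L) (TT L))
    (hE : ∀ (M : Type u) [AddCommGroup M] [Module (EE L) M], Module.Finite (EE L) M →
      FR.FFR (EE L) M)
    (hV : ∀ (Q : Type u) [AddCommGroup Q] [Module L.V Q], Module.Finite L.V Q →
      Module.Projective L.V Q → FR.StFree L.V Q) (r : ℕ) (E : Matrix (Fin r) (Fin r) T)
    (hEE : E * E = E) : FR.FFR T (LinearMap.range (Matrix.vecMulLinear E)) := by
  classical
  have he : ∀ y, LB.mT U hinj E (LB.mT U hinj E y) = LB.mT U hinj E y := fun y => by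
    rw [← LB.mT_mul, hEE]
  obtain ⟨M, h1, h2, h3, _, h4⟩ := LB.exists_goodG U hF hH hE hV hinj r E hEE
  have hPZ := PZ_filt R hF hH h3
  obtain ⟨eq⟩ := psi1_summand_Z R (eLG B) h1 (phG B U) (phG_smul B) (phG_al B) (phG_be B)
    (phG_one B) (e := LB.mT U hinj E) h2 hPZ he E (phG_mT B hinj E)
  refine FR.FFR.of_equiv eq (h5 _ h4 ?_)
  exact delta_injective_of_sub R (Cmap (iA L) (iM h2)) (Cmap (iB L) (iM h2)) (Cmap (iC L) (iM h2))
    (Cmap_injective _ (Submodule.inclusion_injective _))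
    (Cmap_injective _ (Submodule.inclusion_injective _)) (fun a => al_map L _ a)
    (fun a => be_map L _ a) (dZ_injective R (eLG B) h1 hPZ)

end core

end Crest.Agent.R181.VT
end

-- ▼ part R181/S5836b
section

/-!
R181, V-chain, V2 (helper836): Step 5 for `Lam`-modules.
-/

set_option autoImplicit false
set_option linter.unusedSectionVars false

namespace Crest.Agent.R181.S5

open V868 VA VB VC VT LK

universe u

/-- **Step 5 for `Lam`-modules** -/
theorem step5Z {DD : Type u} [Ring DD] {L : Line DD} {T : Type u} [Ring T] {U : UnivT L T}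
    (R : RB U) (hn : IsNoetherianRing L.O)
    (hT : ∀ (B : Type u) [AddCommGroup B] [Module L.O B], Module.Finite L.O B →
      (∃ s : ℕ, ∀ b : B, VB.pO L ^ s • b = 0) → FR.FFR T (Fr R.ρO B)) : VT.Step5 R := by
  intro Z _ _ hZ hinj
  obtain ⟨n, hr⟩ := rr_of_ffr hZ.ffr
  exact VC.step5 R hT n (al L) (be L) hr hZ.fin hZ.inj hZ.tor hinj

end Crest.Agent.R181.S5
end

-- ▼ part R181/VT495c
section

/-!
# R181, V-chain, block V2: reduction to ranges of idempotent endomorphisms of `T^r`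
-/

set_option autoImplicit false

namespace Crest.Agent.R181.VT

open Crest.Agent.R181

/-- it is enough that the ranges of idempotent endomorphisms of `T^r` have finite free
resolutions -/
theorem allSF_of_idem {T : Type} [Ring T]
    (h : ∀ (r : ℕ) (e : (Fin r → T) →ₗ[T] (Fin r → T)), (∀ y, e (e y) = e y) →
      FR.FFR T (LinearMap.range e)) : TW.AllSF T := by
  intro P _ _ hfin hproj
  obtain ⟨r, f, hf⟩ := Module.Finite.exists_fin' T P
  obtain ⟨s, hs⟩ := Module.projective_lifting_property f LinearMap.id hf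
  have hs' : ∀ x, f (s x) = x := fun x => LinearMap.congr_fun hs x
  have h1 := h r (s.comp f) (fun y => by simp [hs'])
  have e : P ≃ₗ[T] LinearMap.range (s.comp f) :=
    LinearEquiv.ofBijective (s.codRestrict _ (fun x => by
      obtain ⟨y, rfl⟩ := hf x
      exact ⟨y, rfl⟩)) (by
      constructor
      · intro x y hxy
        have h2 : s x = s y := congrArg Subtype.val hxy
        have h3 := congrArg f h2
        rwa [hs', hs'] at h3
      · rintro ⟨_, y, rfl⟩
        exact ⟨f y, rfl⟩)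
  exact FR.FFR.stFree (h1.of_equiv e.symm)

end Crest.Agent.R181.VT
end

-- ▼ part R181/VT495z

/-!
# R181, V-chain, block V2: `V2abs`
-/

set_option autoImplicit false
set_option linter.unusedSectionVars false

namespace Crest.Agent.R181.VT

open V868 VA VB LK MulOpposite

universe u

section rg

variable {DD : Type u} [Ring DD] {L : Line DD}

theorem unop_sum_left {J : Type u} (c : J →₀ DDᵐᵒᵖ) (g : J → DDᵐᵒᵖ) :
    (c.sum fun i e => e * g i).unop = (RB963.unopf c).sum fun i e => (g i).unop * e := by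
  rw [RB963.unopf, Finsupp.sum_mapRange_index (fun _ => mul_zero _), Finsupp.sum, Finsupp.sum,
    Finset.unop_sum]
  rfl

/-- the right basis of `DD/(V+O)` from a left basis for the opposite line -/
def rgOf (B : LB L.op) : RG L.V L.O where
  I0 := B.I0
  g0 i := (B.g0 i).unop
  span0 d := by
    obtain ⟨c, hc, v, hv, o, ho, h⟩ := B.span0 (op d)
    refine ⟨RB963.unopf c, fun i => hc i, v.unop, hv, o.unop, ho, ?_⟩
    rw [← unop_sum_left, ← unop_add, ← unop_add, ← h, unop_op]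
  ind0 c hc v hv o ho h := by
    have h1 := B.ind0 (RB963.opf c) (fun i => hc i) (op v) hv (op o) ho (by
      apply unop_injective
      rw [unop_sum_left, RB963.unopf_opf]
      exact h)
    rw [← RB963.unopf_opf c, h1]
    ext i; rfl

end rg

section noeth

variable {DD : Type u} [Ring DD] {L : Line DD}

theorem coe_pO_pow (n : ℕ) : ((VB.pO L ^ n : L.O) : DD) = L.p ^ n := by
  rw [Subring.coe_pow]; rfl

theorem noeth_O (hsep : ∀ d : DD, (∀ n : ℕ, ∃ o ∈ L.O, d = L.p ^ n * o) → d = 0)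
    (hsum : ∀ a : ℕ → DD, (∀ n, a n ∈ L.O) → ∃ s ∈ L.O, ∀ N : ℕ, ∃ r ∈ L.O,
      s = ∑ n ∈ Finset.range N, L.p ^ n * a n + L.p ^ N * r)
    {Δ : Type u} [Ring Δ] [IsNoetherianRing Δ] (q : L.O →+* Δ) (hq : Function.Surjective q)
    (hqk : ∀ o, q o = 0 → ∃ o' ∈ L.O, (o : DD) = L.p * o') : IsNoetherianRing L.O := by
  refine RO.noeth_of_complete (VB.pO L) (fun r => Subtype.ext (L.pc _).symm) q hq ?_ ?_ ?_
  · intro r hr
    obtain ⟨o', ho', h⟩ := hqk r hr
    exact ⟨⟨o', ho'⟩, Subtype.ext h⟩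
  · intro a
    obtain ⟨s, hs, h⟩ := hsum (fun n => a n) (fun n => (a n).2)
    refine ⟨⟨s, hs⟩, fun N => ?_⟩
    obtain ⟨r, hr, h1⟩ := h N
    refine ⟨⟨r, hr⟩, Subtype.ext ?_⟩
    rw [Subring.coe_add, Subring.coe_mul, coe_pO_pow, AddSubmonoidClass.coe_finsetSum]
    simp only [Subring.coe_mul, coe_pO_pow]
    exact h1
  · intro f hf
    apply Subtype.ext
    apply hsep
    intro n
    obtain ⟨r, hr⟩ := hf n
    refine ⟨r, r.2, ?_⟩
    have := congrArg Subtype.val hr
    rw [Subring.coe_mul, coe_pO_pow] at this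
    exact this

end noeth

section abs

/-- **V2, abstract form**, from Step 5 -/
theorem V2abs_of (hS : ∀ {DD : Type} [Ring DD] (L : Line DD) {T : Type} [Ring T] (U : UnivT L T)
      (R : RB U), IsNoetherianRing L.O → (∀ (B : Type) [AddCommGroup B] [Module L.O B],
        Module.Finite L.O B → (∃ s : ℕ, ∀ b : B, VB.pO L ^ s • b = 0) → FR.FFR T (Fr R.ρO B)) →
      Step5 R)
    {DD : Type} [Ring DD] (L : Line DD) {T : Type} [Ring T] (U : UnivT L T)
    (B : LB L) (B' : LB L.op)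
    (hsep : ∀ d : DD, (∀ n : ℕ, ∃ o ∈ L.O, d = L.p ^ n * o) → d = 0)
    (hsum : ∀ a : ℕ → DD, (∀ n, a n ∈ L.O) → ∃ s ∈ L.O, ∀ N : ℕ, ∃ r ∈ L.O,
      s = ∑ n ∈ Finset.range N, L.p ^ n * a n + L.p ^ N * r)
    {Δ : Type} [Ring Δ] (q : L.O →+* Δ) (hq : Function.Surjective q)
    (hqk : ∀ o, q o = 0 → ∃ o' ∈ L.O, (o : DD) = L.p * o')
    (hqp : q ⟨L.p, L.pO⟩ = 0)
    (hE : FFR.AllFFR ↥(L.V ⊓ L.O)) (hΔ : FFR.AllFFR Δ)
    (hVb : ∃ (J : Type) (j0 : J) (c : J → DD), c j0 = 1 ∧ (∀ j, c j ∈ L.V) ∧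
      (∀ v ∈ L.V, ∃ e : J →₀ DD, (∀ j, e j ∈ L.V ⊓ L.O) ∧ v = e.sum fun j r => c j * r) ∧
      ∀ e : J →₀ DD, (∀ j, e j ∈ L.V ⊓ L.O) → (e.sum fun j r => c j * r) = 0 → e = 0)
    (hOb : ∃ (J : Type) (j0 : J) (c : J → DD), c j0 = 1 ∧ (∀ j, c j ∈ L.O) ∧
      (∀ o ∈ L.O, ∃ e : J →₀ DD, (∀ j, e j ∈ L.V ⊓ L.O) ∧
        ∃ o' ∈ L.O, o = (e.sum fun j r => c j * r) + L.p * o') ∧
      ∀ e : J →₀ DD, (∀ j, e j ∈ L.V ⊓ L.O) → ∀ o' ∈ L.O,
        (e.sum fun j r => c j * r) = L.p * o' → e = 0)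
    (hV : TW.AllSF L.V) : TW.AllSF T := by
  classical
  have : IsNoetherianRing (EE L) := hE.noeth
  have : IsNoetherianRing Δ := hΔ.noeth
  have hO : IsNoetherianRing L.O := noeth_O hsep hsum q hq hqk
  let R : RB U := RB963.ofOp U B' hsep
  have hinj : Function.Injective (B.φ U) := B.φ_injective U hsep
  -- flatness
  obtain ⟨J, -, c, -, hcV, hsV, hiV⟩ := hVb
  obtain ⟨J', -, c', -, hcO, hsO, hiO⟩ := hOb
  have fV : FlatIn (EE L) L.V.toAddSubgroup :=
    FlatIn.of_basis c (fun j e he => L.V.mul_mem (hcV j) he.1) hsV hiV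
  have preg : ∀ d : DD, L.p * d = 0 → d = 0 := fun d hd => by
    rw [← one_mul d, ← L.xp, mul_assoc, hd, mul_zero]
  have fO : FlatIn (EE L) L.O.toAddSubgroup :=
    FlatIn.of_complete (p := L.p) inf_le_right L.pO L.pc preg c' hcO hsO hiO hsum
      (fun f _ hf => hsep f (fun n => by
        obtain ⟨r, hr, h⟩ := hf n
        exact ⟨r, hr, h⟩))
  have fD : FlatIn (EE L) (⊤ : AddSubgroup DD) := FlatIn.of_exhaust L.pc L.xp L.pO L.exh fO
  have hF : Flat (Lam L) (EE L) (TT L) := flat_TT fV fO fD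
  have hH : Full (Lam L) (EE L) (TT L) := full_TT (rgOf B')
  -- torsion modules
  have hker : ∀ o : L.O, q o = 0 ↔ ∃ o', o = VB.pO L * o' := by
    intro o
    constructor
    · intro h
      obtain ⟨o', ho', h'⟩ := hqk o h
      exact ⟨⟨o', ho'⟩, Subtype.ext h'⟩
    · rintro ⟨o', rfl⟩
      rw [map_mul]
      have : q (VB.pO L) = 0 := hqp
      rw [this, zero_mul]
  have hΔ' : ∀ (Y : Type) [AddCommGroup Y] [Module Δ Y], Module.Finite Δ Y → FR.FFR Δ Y :=
    fun Y _ _ hY => FR.ffr_iff.2 (hΔ.ffr Y hY)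
  have h5 : Step5 R := hS L U R hO (fun B _ _ hfin ⟨s, hs⟩ => ffr_tors R hq hker hΔ' s B hfin hs)
  refine allSF_of_idem fun r e he => ?_
  let E : Matrix (Fin r) (Fin r) T := fun i j => e (Pi.single i 1) j
  have hEe : e = Matrix.vecMulLinear E := by
    refine LinearMap.pi_ext' fun i => ?_
    refine LinearMap.ext_ring ?_
    show e (Pi.single i 1) = Matrix.vecMul (Pi.single i 1) E
    rw [Matrix.single_one_vecMul]
    rfl
  have hEE : E * E = E := by
    have h1 : ∀ y, Matrix.vecMul (Matrix.vecMul y E) E = Matrix.vecMul y E := by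
      intro y
      have := he y
      rw [hEe] at this
      exact this
    ext i j
    have h2 := congrFun (h1 (Pi.single i 1)) j
    rw [Matrix.vecMul_vecMul] at h2
    simpa [Matrix.single_one_vecMul] using h2
  rw [hEe]
  exact core R B hinj h5 hF hH (fun M _ _ hM => FR.ffr_iff.2 (hE.ffr M hM)) hV r E hEE

end abs

end Crest.Agent.R181.VT
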