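import Crest.Agent.R181.VP836g
import Crest.Agent.R181.TW825h
import Crest.Agent.R181.VT495z_Mg
import Crest.Agent.R181.WF553a
import Crest.Agent.R181.HT279a
import Crest.Agent.R181.IN776b
import Crest.Agent.R181.LC598a
import Crest.Agent.R181.LC598d
import Crest.Agent.R181.UR396c
import Mathlib
import Crest.Agent.R181.LOC773
import Crest.Agent.R181.RF681a
import Crest.Agent.R181.AS4
import Crest.Agent.R181.AS6
import Crest.Agent.R181.TW825a
import Crest.Agent.R181.TW825b

-- ▼ part R181/VP836h
section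

/-!
R181 (helper836): **S0271 from the abstract V2 (495) and the lift theorem (598, 553)**.
-/

set_option autoImplicit false

namespace Crest.Agent.R181.VP

open Crest.Agent.R181.TW

/-- **V2 for `AS.dat` from the abstract V2 and BM1** -/
theorem v2_bm1 (habs : V2Abs) {r : ℕ} (a : Fin (r + 1) → ℕ)
    (f : Fin (r + 1) → MvPolynomial (Fin (r + 1)) ℂ)
    (ha : Monotone a) (ha2 : ∀ i, 2 ≤ a i) (hf : ∀ i, (f i).IsHomogeneous (a i))
    (h : BM1Stmt (AS.dat a f ha ha2 hf)) : V2Stmt (AS.dat a f ha ha2 hf) :=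
  v2_dat a f ha ha2 hf habs h

/-- **S0271 from the abstract V2 and the lift theorem.** -/
theorem main_of (habs : V2Abs)
    (hPO : ∀ {r : ℕ} (a : Fin (r + 1) → ℕ) (f : Fin (r + 1) → MvPolynomial (Fin (r + 1)) ℂ)
      (ha : Monotone a) (ha2 : ∀ i, 2 ≤ a i) (hf : ∀ i, (f i).IsHomogeneous (a i)),
      LiftStmt (AS.dat a f ha ha2 hf))
    (n : ℕ) (hn : 1 ≤ n) (a : Fin n → ℕ)
    (ha : Monotone a) (ha2 : ∀ i, 2 ≤ a i) (I : Ideal (MvPolynomial (Fin n) ℂ))
    (hI : ∀ g ∈ I, ∀ d : ℕ, MvPolynomial.homogeneousComponent d g ∈ I)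
    (f : Fin n → MvPolynomial (Fin n) ℂ) (hf : ∀ i, (f i).IsHomogeneous (a i)) (hfI : ∀ i, f i ∈ I)
    (hreg : RingTheory.Sequence.IsRegular (MvPolynomial (Fin n) ℂ) (List.ofFn f)) :
    KL.Concl n a I :=
  main' (fun a f ha ha2 hf => v2_bm1 habs a f ha ha2 hf) hPO n hn a ha ha2 I hI f hf hfI hreg

end Crest.Agent.R181.VP
end

-- ▼ part R181/S5836c
section

/-!
R181 (helper836): the abstract V2, and S0271 from the lift theorem.
-/

set_option autoImplicit false

namespace Crest.Agent.R181.S5

open Crest.Agent.R181.TW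

/-- **V2, abstract form** -/
theorem v2abs : VP.V2Abs := by
  intro DD _ L T _ U B B' hsep hsum Δ _ q hq hqk hqp hE hΔ hVb hOb hV
  refine VT.V2abs_of ?_ L U B B' hsep hsum q hq hqk hqp hE hΔ hVb hOb hV
  intro DD _ L T _ U R hn hT
  exact step5Z R hn hT

/-- **S0271 from the lift theorem.** -/
theorem main_of_lift
    (hPO : ∀ {r : ℕ} (a : Fin (r + 1) → ℕ) (f : Fin (r + 1) → MvPolynomial (Fin (r + 1)) ℂ)
      (ha : Monotone a) (ha2 : ∀ i, 2 ≤ a i) (hf : ∀ i, (f i).IsHomogeneous (a i)),
      LiftStmt (AS.dat a f ha ha2 hf))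
    (n : ℕ) (hn : 1 ≤ n) (a : Fin n → ℕ)
    (ha : Monotone a) (ha2 : ∀ i, 2 ≤ a i) (I : Ideal (MvPolynomial (Fin n) ℂ))
    (hI : ∀ g ∈ I, ∀ d : ℕ, MvPolynomial.homogeneousComponent d g ∈ I)
    (f : Fin n → MvPolynomial (Fin n) ℂ) (hf : ∀ i, (f i).IsHomogeneous (a i)) (hfI : ∀ i, f i ∈ I)
    (hreg : RingTheory.Sequence.IsRegular (MvPolynomial (Fin n) ℂ) (List.ofFn f)) :
    KL.Concl n a I :=
  VP.main_of v2abs hPO n hn a ha ha2 I hI f hf hfI hreg

end Crest.Agent.R181.S5
end

-- ▼ part R181/IN776c
section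

/-!
R181 (helper776), block B9 (TOP-A): the ring `C0` over the rational functions, with its hom to
Laurent series.
-/

set_option autoImplicit false
set_option linter.unusedSectionVars false

namespace Crest.Agent.R181.IN

open UR

noncomputable section

section

variable {F Z I σ A : Type} [CommRing F] [CommRing Z] [Fintype I] [Fintype σ] [Ring A]

/-- change of the base of a tuple -/
theorem isTuple_base {a : I → ℕ} {th : I → I → F} {q : I → MvPolynomial σ F} (cF : F →+* Z)
    (ι : Z →+* A) (W : I → σ → A) :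
    IsTuple a (fun i l => cF (th i l)) (fun i => mp σ cF (q i) : I → MvPolynomial σ Z) ι W ↔
      IsTuple a th q (ι.comp cF) W := by
  constructor
  · intro h
    refine ⟨h.comm, fun i => ?_⟩
    have h1 := h.rel i
    rw [mp_comp] at h1
    exact h1
  · intro h
    refine ⟨h.comm, fun i => ?_⟩
    have h1 := h.rel i
    rw [mp_comp]
    exact h1

/-- `rename some` over a ring -/
theorem rename_eq_em (q : MvPolynomial σ F) :
    (MvPolynomial.rename some q : MvPolynomial (Option σ) F) = HT.em (A := F) (σ := σ) q := by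
  have h : (MvPolynomial.rename (some : σ → Option σ) :
      MvPolynomial σ F →ₐ[F] MvPolynomial (Option σ) F).toRingHom =
      (HT.em : PA F σ →+* PA F (Option σ)) := by
    apply MvPolynomial.ringHom_ext
    · intro c
      change MvPolynomial.rename some (MvPolynomial.C c) = HT.em (cst σ c)
      rw [MvPolynomial.rename_C, HT.em_cst]
      rfl
    · intro v
      change MvPolynomial.rename some (MvPolynomial.X v) = HT.em (var F v)
      rw [MvPolynomial.rename_X, var, HT.em_single]
      unfold HT.inc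
      rw [Finsupp.mapDomain_single]
      rfl
  exact RingHom.congr_fun h q

theorem mp_em {B C : Type*} [Ring B] [Ring C] (f : B →+* C) (x : PA B σ) :
    mp (Option σ) f (HT.em x) = HT.em (mp σ f x) := by
  induction x using AddMonoidAlgebra.induction_linear with
  | zero => simp
  | add x y hx hy => rw [map_add, map_add, map_add, map_add, hx, hy]
  | single m b => rw [HT.em_single, mp_single, mp_single, HT.em_single]

theorem rename_mp (cF : F →+* Z) (q : MvPolynomial σ F) :
    (MvPolynomial.rename some (mp σ cF q : MvPolynomial σ Z) : MvPolynomial (Option σ) Z) =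
      mp (Option σ) cF (MvPolynomial.rename some q : MvPolynomial (Option σ) F) := by
  rw [rename_eq_em, rename_eq_em, mp_em]

end

theorem C_comm {E : Type*} [Ring E] {z : E} (hz : ∀ x, Commute z x) (x : LaurentSeries E) :
    Commute (HahnSeries.C z : LaurentSeries E) x := by
  have key : ∀ (z : E) (x : LaurentSeries E) (n : ℤ),
      ((HahnSeries.C z : LaurentSeries E) * x).coeff n = z * x.coeff n := by
    intro z x n
    rw [HahnSeries.C_apply]
    have := HahnSeries.coeff_single_mul_add (r := z) (x := x) (a := n) (b := 0)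
    rwa [add_zero] at this
  have key' : ∀ (z : E) (x : LaurentSeries E) (n : ℤ),
      (x * (HahnSeries.C z : LaurentSeries E)).coeff n = x.coeff n * z := by
    intro z x n
    rw [HahnSeries.C_apply]
    have := HahnSeries.coeff_mul_single_add (r := z) (x := x) (a := n) (b := 0)
    rwa [add_zero] at this
  apply HahnSeries.ext
  funext n
  rw [key, key', (hz _).eq]

theorem single_comm {E : Type*} [Ring E] (x : LaurentSeries E) :
    Commute (HahnSeries.single (1 : ℤ) (1 : E) : LaurentSeries E) x := by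
  apply HahnSeries.ext
  funext n
  have h1 := HahnSeries.coeff_single_mul_add (r := (1 : E)) (x := x) (a := n - 1) (b := 1)
  have h2 := HahnSeries.coeff_mul_single_add (r := (1 : E)) (x := x) (a := n - 1) (b := 1)
  rw [sub_add_cancel] at h1 h2
  rw [h1, h2, one_mul, mul_one]

/-- **(TOP-A)** -/
theorem exists_C0 {F I σ E 𝓛 : Type} [Field F] [Fintype I] [Fintype σ] [DivisionRing E] [Ring 𝓛]
    (a : I → ℕ) (th : I → I → F) (q : I → MvPolynomial σ F) (lam : F →+* E) (w : I → σ → E)
    (hw : IsTuple a th q lam w) (h : E →+* 𝓛) (η : I → 𝓛)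
    (hη : IsTuple a th (fun i => MvPolynomial.rename some (q i)) (h.comp lam)
      (ext' (fun i v => h (w i v)) η)) (Z0 : Set E)
    (hZ : ∀ z ∈ Z0, (∀ x, Commute z x) ∧ ∀ i, Commute (h z) (η i)) (hlam : ∀ c, lam c ∈ Z0) :
    ∃ (C0 : Type) (_ : Ring C0) (g : E →+* C0) (η0 : I → C0) (y : C0)
      (Ψ : C0 →+* LaurentSeries 𝓛), WF.Aug C0 ∧ IsUnit y ∧ (∀ x, Commute y x) ∧
      (∀ z ∈ Z0, ∀ x, Commute (g z) x) ∧
      IsTuple a th (fun i => MvPolynomial.rename some (q i)) (g.comp lam)
        (ext' (fun i v => g (w i v)) η0) ∧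
      (∀ e, Ψ (g e) = HahnSeries.C (h e)) ∧ Ψ y = HahnSeries.single 1 1 ∧
      ∀ i, Ψ (η0 i) = HahnSeries.C (η i) := by
  obtain ⟨E2, _, j1, t, ht, hL⟩ := RF.exists_ratfun E
  obtain ⟨L, hLj, hLt⟩ := hL 0 Commute.zero_left
  rw [map_zero, zero_add] at hLt
  have hLinj : Function.Injective L := L.injective
  let ρ : E2 →+* LaurentSeries 𝓛 := (WF.lmap h).comp L
  have hρj : ∀ e, ρ (j1 e) = HahnSeries.C (h e) := fun e => by
    change WF.lmap h (L (j1 e)) = _
    rw [hLj, WF.lmap_C]
  have hρt : ρ t = HahnSeries.single 1 1 := by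
    change WF.lmap h (L t) = _
    rw [hLt, WF.lmap_single, map_one]
  -- the central ring
  obtain ⟨Z, _, ι, hιinj, hιc, hιη, hιs⟩ : ∃ (Z : Type) (_ : CommRing Z) (ι : Z →+* E2),
      Function.Injective ι ∧ (∀ z x, Commute (ι z) x) ∧
      (∀ z i, Commute (ρ (ι z)) (HahnSeries.C (η i))) ∧
      ∀ x : E2, (∀ y, Commute x y) → (∀ i, Commute (ρ x) (HahnSeries.C (η i))) → ∃ z, ι z = x := by
    let Z' : Subring (Subring.center E2) :=
      (Subring.centralizer (Set.range fun i => (HahnSeries.C (η i) : LaurentSeries 𝓛))).comap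
        (ρ.comp (Subring.center E2).subtype)
    refine ⟨Z', inferInstance, (Subring.center E2).subtype.comp Z'.subtype, ?_, ?_, ?_, ?_⟩
    · exact fun x y h => Subtype.ext (Subtype.ext h)
    · intro z x
      exact ((Subring.mem_center_iff.1 z.1.2 x).symm : _)
    · intro z i
      have h1 := z.2
      rw [Subring.mem_comap, Subring.mem_centralizer_iff] at h1
      exact (h1 _ ⟨i, rfl⟩).symm
    · intro x hx hi
      refine ⟨⟨⟨x, Subring.mem_center_iff.2 fun y => (hx y).symm.eq⟩, ?_⟩, rfl⟩
      rw [Subring.mem_comap, Subring.mem_centralizer_iff]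
      rintro _ ⟨i, rfl⟩
      exact (hi i).symm.eq
  let _ : Algebra Z E2 := ι.toAlgebra' fun c x => (hιc c x).eq
  have hal : algebraMap Z E2 = ι := rfl
  have hj1c : ∀ z ∈ Z0, ∀ x, Commute (j1 z) x := by
    intro z hz x
    apply hLinj
    rw [map_mul, map_mul, hLj]
    exact (C_comm (hZ z hz).1 (L x)).eq
  have hj1z : ∀ z ∈ Z0, ∃ z', ι z' = j1 z := by
    intro z hz
    refine hιs _ (hj1c z hz) fun i => ?_
    rw [hρj]
    exact ((hZ z hz).2 i).map (HahnSeries.C : 𝓛 →+* LaurentSeries 𝓛)
  obtain ⟨tz, htz⟩ := hιs t ht fun i => by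
    rw [hρt]
    exact single_comm _
  -- the hom `F → Z`
  choose cf hcf using fun c => hj1z (lam c) (hlam c)
  let cF : F →+* Z :=
    { toFun := cf
      map_one' := hιinj (by rw [hcf, map_one, map_one, map_one])
      map_mul' := fun x y => hιinj (by rw [map_mul, hcf, hcf, hcf, map_mul, map_mul])
      map_zero' := hιinj (by rw [hcf, map_zero, map_zero, map_zero])
      map_add' := fun x y => hιinj (by rw [map_add, hcf, hcf, hcf, map_add, map_add]) }
  have hcF : ι.comp cF = j1.comp lam := RingHom.ext hcf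
  let thZ : I → I → Z := fun i l => cF (th i l)
  let qZ : I → MvPolynomial σ Z := fun i => mp σ cF (q i)
  let w2 : I → σ → E2 := fun i v => j1 (w i v)
  have hw2 : IsTuple a thZ qZ (algebraMap Z E2) w2 := by
    rw [hal]
    refine (isTuple_base cF ι w2).2 ?_
    rw [hcF]
    exact hw.map j1
  have hren : (fun i => MvPolynomial.rename some (qZ i) : I → MvPolynomial (Option σ) Z) =
      fun i => mp (Option σ) cF (MvPolynomial.rename some (q i) : MvPolynomial (Option σ) F) :=
    funext fun i => rename_mp cF (q i)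
  let QZ : I → MvPolynomial (Option σ) Z := fun i => MvPolynomial.rename some (qZ i)
  have hD : ∀ c, iD a thZ QZ w2 (ι c) = iL a thZ QZ w2 c := fun c => by
    rw [← hal, iD_base]
    rfl
  have hcen : ∀ c x, Commute (iD a thZ QZ w2 (ι c)) x := fun c x => by
    rw [hD]
    exact iL_comm a thZ QZ w2 c x
  have ht0 : t ≠ 0 := by
    intro h0
    rw [h0, map_zero] at hLt
    have := congrArg (fun x : LaurentSeries E => x.coeff 1) hLt
    simp at this
  obtain ⟨Ψ, hΨD, hΨL, hΨη⟩ := exists_lift (a := a) (th := thZ) (Q := QZ) (w := w2) ρ (ρ.comp ι)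
    (fun i => (HahnSeries.C (η i) : LaurentSeries 𝓛)) (fun c => rfl)
    (fun x d => (hιc x d).map ρ) (fun x i => hιη x i) (by
      have h1 : IsTuple a th (fun i => MvPolynomial.rename some (q i)) ((ρ.comp ι).comp cF)
          (ext' (fun i v => ρ (w2 i v)) (fun i => (HahnSeries.C (η i) : LaurentSeries 𝓛))) := by
        have h2 := hη.map (HahnSeries.C : 𝓛 →+* LaurentSeries 𝓛)
        have e1 : (HahnSeries.C : 𝓛 →+* LaurentSeries 𝓛).comp (h.comp lam) =
            (ρ.comp ι).comp cF := by
          rw [RingHom.comp_assoc, hcF]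
          ext c : 1
          exact (hρj (lam c)).symm
        have e2 : (fun i v => (HahnSeries.C : 𝓛 →+* LaurentSeries 𝓛)
            (ext' (fun i v => h (w i v)) η i v)) =
            ext' (fun i v => ρ (w2 i v)) (fun i => (HahnSeries.C (η i) : LaurentSeries 𝓛)) := by
          funext i v
          rcases v with _ | v
          · rfl
          · exact (hρj (w i v)).symm
        rw [e1, e2] at h2
        exact h2
      have h3 := (isTuple_base (q := fun i => (MvPolynomial.rename some (q i) :
        MvPolynomial (Option σ) F)) cF (ρ.comp ι) _).2 h1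
      rw [← hren] at h3
      exact h3)
  refine ⟨UR.U a thZ QZ w2, inferInstance, (iD a thZ QZ w2).comp j1, eta a thZ QZ w2,
    iD a thZ QZ w2 t, Ψ, WF.Aug.U a thZ hw2, ?_, ?_, ?_, ?_, ?_, ?_, ?_⟩
  · exact (IsUnit.mk0 t ht0).map _
  · intro x
    rw [← htz]
    exact hcen _ _
  · intro z hz x
    obtain ⟨z', hz'⟩ := hj1z z hz
    change Commute (iD a thZ QZ w2 (j1 z)) x
    rw [← hz']
    exact hcen _ _
  · have h1 := isTuple_wU a thZ QZ w2
    have h2 : IsTuple a th (fun i => MvPolynomial.rename some (q i))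
        ((iL a thZ QZ w2).comp cF) (wU a thZ QZ w2) := by
      refine (isTuple_base (q := fun i => (MvPolynomial.rename some (q i) :
        MvPolynomial (Option σ) F)) cF (iL a thZ QZ w2) _).1 ?_
      rw [← hren]
      exact h1
    have e1 : (iL a thZ QZ w2).comp cF = ((iD a thZ QZ w2).comp j1).comp lam := by
      ext c : 1
      change iL a thZ QZ w2 (cF c) = iD a thZ QZ w2 (j1 (lam c))
      rw [← hD]
      exact congrArg _ (hcf c)
    rw [e1] at h2
    exact h2
  · intro e
    exact (hΨD _).trans (hρj e)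
  · exact (hΨD _).trans hρt
  · exact hΨη

end

end Crest.Agent.R181.IN
end

-- ▼ part R181/IN553a
section

/-!
R181 (helper553), block B9: the top of the block PO.  From the package `P : Pkg T Q0 w v1 Ls` to
`U a th Q w` nontrivial and stably finite.
-/

set_option autoImplicit false
set_option linter.unusedSectionVars false

namespace Crest.Agent.R181.IN

open UR PO
open scoped Polynomial

noncomputable section

section state

variable {F I σ R R' : Type} [Field F] [DecidableEq σ] [Ring R] [Ring R'] (ω : I → F)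
  (th : I → I → F) (lam lam1 : F →+* R) (tl : I → R) (y : R) (W0 : I → Option σ → R)

theorem vecY_map (f : R →+* R') (k : Option σ ⊕ F) (u : Option σ) :
    f (vecY lam1 y k u) = vecY (f.comp lam1) (f y) k u := by
  rcases k with (_ | v) | c
  · simp only [vecY]; split_ifs <;> simp
  · simp only [vecY]; split_ifs <;> simp
  · simp only [vecY]; split_ifs <;> simp

theorem stY_map (f : R →+* R') : (stY ω th lam lam1 tl y W0).map f =
    stY ω th (f.comp lam) (f.comp lam1) (fun l => f (tl l)) (f y) (fun i v => f (W0 i v)) := by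
  refine St.ext rfl rfl rfl ?_ rfl rfl
  funext k u
  exact vecY_map lam1 y f k u

end state

section theta

variable {F D I σ : Type} [Field F] [DivisionRing D] [Algebra F D] [Fintype I] [DecidableEq I]
  [Fintype σ] [DecidableEq σ] {a : I → ℕ} {th : I → I → F} {ω : I → F}
  {Q : I → MvPolynomial (Option σ) F} {w : I → σ → D} {Ls : List (Stp I (Option σ ⊕ F))}

theorem LX_comm {R : Type} [Ring R] (lam1 : F →+* R) (y : R) (hy : ∀ x, Commute y x)
    (hl : ∀ c x, Commute (lam1 c) x) (p : F[X]) (x : R) : Commute (LX lam1 y hy p) x := by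
  induction p using Polynomial.induction_on with
  | C c => rw [LX_C]; exact hl c x
  | add p q hp hq => rw [map_add]; exact hp.add_left hq
  | monomial n c _ =>
    rw [map_mul, map_pow, LX_C, LX_X]
    exact (hl c x).mul_left ((hy x).pow_left _)

/-- the value theorem for the state `stY`: the final `W` is a tuple (776's `tup`) -/
def TupStmt (a : I → ℕ) (th : I → I → F) (ω : I → F) (Q : I → MvPolynomial (Option σ) F)
    (Ls : List (Stp I (Option σ ⊕ F))) {R : Type} [Ring R] (lam lam1 : F →+* R) (tl : I → R)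
    (y : R) (hy : ∀ x, Commute y x) (W0 : I → Option σ → R) : Prop :=
  IsTuple a th (QK (fun i => BM.res0 (Q i))) lam W0 →
    IsTuple a th (RE.QX Q) ((sc a Ls).comp (LX lam1 y hy)) (fin a Ls (stY ω th lam lam1 tl y W0)).W

variable {T : TwD a th ω}

/-- the state over `E` -/
abbrev SE (w : I → σ → D) (ω : I → F) (th : I → I → F) {E : Type} [Ring E] (j : D →+* E) (τ : I → E) : St I (Option σ ⊕ F) σ E :=
  bst ω th (algebraMap F D) (fun k u => v1 k (some u)) w j τ (fun i u => j (w i u))

theorem v1_some {R : Type} [Ring R] (lam lam1 : F →+* R) (y : R) (k : Option σ ⊕ F) (u : σ) :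
    lam (v1 k (some u)) = vecY lam1 y k (some u) := by
  rcases k with (_ | v) | c
  · simp [vecY, v1]
  · simp only [vecY, v1]
    split_ifs <;> simp
  · simp [vecY, v1]

theorem SE_map {E R : Type} [Ring E] [Ring R] (j : D →+* E) (τ : I → E) (e : E →+* R)
    (lam1 : F →+* R) (y : R) (W0 : I → Option σ → R) (hW0 : ∀ i v, W0 i (some v) = e (j (w i v))) :
    (SE w ω th j τ).map e =
      (stY ω th (e.comp (j.comp (algebraMap F D))) lam1 (fun l => e (τ l)) y W0).pull some := by
  refine St.ext rfl rfl rfl ?_ ?_ ?_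
  · funext k u
    exact v1_some (e.comp (j.comp (algebraMap F D))) lam1 y k u
  · funext i v
    exact (hW0 i v).symm
  · funext i v
    exact (hW0 i v).symm

/-- The hom `TX → Rg a Ls R`. -/
theorem exists_theta {E R : Type} [Ring E] [Ring R] (j : D →+* E) (τ : I → E) (lam' : F →+* E)
    (fE : D →+* Rg a Ls E) (hfF : ∀ c, fE (algebraMap F D c) = sc a Ls (lam' c))
    (hfw : ∀ i v, fE (w i v) = (fin a Ls (SE w ω th j τ)).W i v)
    (e : E →+* R) (y : R) (hy : ∀ x, Commute y x) (hlam' : ∀ c x, Commute (e (lam' c)) x)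
    (W0 : I → Option σ → R) (hW0 : ∀ i v, W0 i (some v) = e (j (w i v)))
    (htup : IsTuple a th (RE.QX Q) ((sc a Ls).comp (LX (e.comp lam') y hy))
      (fin a Ls (stY ω th (e.comp (j.comp (algebraMap F D))) (e.comp lam') (fun l => e (τ l)) y
        W0)).W) :
    ∃ θ : RE.TX a th Q w →+* Rg a Ls R,
      (∀ d, θ (iD a th (RE.QX Q) w d) = Rg.map a Ls e (fE d)) ∧
      (∀ x, θ (iL a th (RE.QX Q) w x) = sc a Ls (LX (e.comp lam') y hy x)) ∧
      ∀ i, θ (eta a th (RE.QX Q) w i) =
        (fin a Ls (stY ω th (e.comp (j.comp (algebraMap F D))) (e.comp lam') (fun l => e (τ l)) y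
          W0)).W i none := by
  have hc : ∀ (x : F[X]) (z : Rg a Ls R), Commute (sc a Ls (LX (e.comp lam') y hy x)) z :=
    fun x z => sc_comm a Ls _ (LX_comm (e.comp lam') y hy hlam' x) z
  have hW : ∀ i v, Rg.map a Ls e (fE (w i v)) =
      (fin a Ls (stY ω th (e.comp (j.comp (algebraMap F D))) (e.comp lam') (fun l => e (τ l)) y
        W0)).W i (some v) := by
    intro i v
    rw [hfw]
    have h1 := fin_map a Ls e (SE w ω th j τ)
    rw [SE_map j τ e (e.comp lam') y W0 hW0, fin_pull] at h1
    exact (congrArg (fun S : St I (Option σ ⊕ F) σ (Rg a Ls R) => S.W i v) h1).symm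
  refine exists_lift (a := a) (th := th) (Q := RE.QX Q) (w := w)
    ((Rg.map a Ls e).comp fE) ((sc a Ls).comp (LX (e.comp lam') y hy))
    (fun i => (fin a Ls (stY ω th (e.comp (j.comp (algebraMap F D))) (e.comp lam')
      (fun l => e (τ l)) y W0)).W i none) ?_ (fun x d => hc x _) (fun x i => hc x _) ?_
  · intro c
    rw [RingHom.comp_apply, hfF, Rg.map_sc, RingHom.comp_apply]
    show _ = sc a Ls (LX (e.comp lam') y hy (Polynomial.C c))
    rw [LX_C]
    rfl
  · have e1 : (ext' (fun i v => ((Rg.map a Ls e).comp fE) (w i v))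
        (fun i => (fin a Ls (stY ω th (e.comp (j.comp (algebraMap F D))) (e.comp lam')
          (fun l => e (τ l)) y W0)).W i none)) = (fin a Ls (stY ω th
            (e.comp (j.comp (algebraMap F D))) (e.comp lam') (fun l => e (τ l)) y W0)).W := by
      funext i v
      rcases v with _ | v
      · rfl
      · exact hW i v
    rw [e1]
    exact htup

end theta

section top

variable {F D I σ : Type} [Field F] [DivisionRing D] [Algebra F D] [Fintype I] [DecidableEq I]
  [Fintype σ] [DecidableEq σ] {a : I → ℕ} {th : I → I → F} {ω : I → F}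
  {Q : I → MvPolynomial (Option σ) F} {w : I → σ → D} {Ls : List (Stp I (Option σ ⊕ F))}
  {T : TwD a th ω} 

/-- the forms at `s = 0` -/
abbrev q0 (Q : I → MvPolynomial (Option σ) F) : I → MvPolynomial σ F := fun i => BM.res0 (Q i)

theorem PowerSeries_X_regular {R : Type} [Ring R] (z : PowerSeries R)
    (h : PowerSeries.X * z = 0) : z = 0 := by
  ext n
  have := congrArg (PowerSeries.coeff (n + 1)) h
  simpa using this

theorem PowerSeries_X_comm {R : Type} [Ring R] (z : PowerSeries R) :
    Commute (PowerSeries.X : PowerSeries R) z := PowerSeries.X_mul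

theorem PowerSeries_C_comm {R : Type} [Ring R] (c : R) (hc : ∀ x, Commute c x)
    (z : PowerSeries R) : Commute (PowerSeries.C c) z := by
  ext n
  rw [PowerSeries.coeff_C_mul, PowerSeries.coeff_mul_C]
  exact (hc _).eq

theorem ofPS_injective {R : Type} [Ring R] :
    Function.Injective (HahnSeries.ofPowerSeries ℤ R) := HahnSeries.ofPowerSeries_injective

/-- **the top** -/
theorem top (P : Pkg T (q0 Q) w v1 Ls) (hLoc : LocHyp T (q0 Q) w)
    (hE : IsTuple a th (q0 Q) ((sc a Ls).comp P.lam')
      (fin a Ls (bst ω th (algebraMap F D) (fun k u => v1 k (some u)) w P.j P.τ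
        (fun i u => P.j (w i u)))).W)
    (hK : IsTuple a th (QK (q0 Q)) ((sc a Ls).comp (P.h.comp P.lam'))
      (fin a Ls (bst ω th (iL a th (QK (q0 Q)) w) v1 (wU a th (QK (q0 Q)) w) P.jK
        (fun i => P.h (P.τ i)) (fun i u => P.jK (wU a th (QK (q0 Q)) w i u)))).W)
    (hT : ∀ {R : Type} [Ring R] (lam lam1 : F →+* R) (tl : I → R) (y : R)
      (hy : ∀ x, Commute y x) (W0 : I → Option σ → R), (∀ c x, Commute (lam c) x) →
      (∀ c x, Commute (lam1 c) x) → (∀ l x, Commute (tl l) x) → HasTw T lam tl lam1 →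
      TupStmt a th ω Q Ls lam lam1 tl y hy W0)
    {C0 : Type} [Ring C0] (hAug : WF.Aug C0) (g : P.E →+* C0) (η0 : I → C0) (y : C0)
    (Ψ : C0 →+* LaurentSeries P.𝓛) (hyu : IsUnit y) (hy : ∀ x, Commute y x)
    (hg : ∀ z : P.E, (∀ x, Commute z x) →
      (∀ i, Commute (P.h z) (P.jK (eta a th (QK (q0 Q)) w i))) → ∀ x, Commute (g z) x)
    (htup : IsTuple a th (QK (q0 Q)) (g.comp (P.j.comp (algebraMap F D)))
      (ext' (fun i v => g (P.j (w i v))) η0))
    (hΨg : ∀ e, Ψ (g e) = HahnSeries.C (P.h e)) (hΨy : Ψ y = HahnSeries.single 1 1)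
    (hΨη : ∀ i, Ψ (η0 i) = HahnSeries.C (P.jK (eta a th (QK (q0 Q)) w i))) :
    Nontrivial (U a th Q w) ∧ IsStablyFiniteRing (U a th Q w) := by
  obtain ⟨fE, hfF, hfw⟩ := P.loc hE
  obtain ⟨fK, hfK, hKF, hKw⟩ := P.inj hK
  have hlamc : ∀ c, P.h (P.j (algebraMap F D c)) = P.jK (iL a th (QK (q0 Q)) w c) := by
    intro c
    rw [P.hh, iD_base]
    rfl
  -- centrality in `C0`
  have hgF : ∀ c x, Commute (g (P.j (algebraMap F D c))) x := fun c =>
    hg _ (P.hF c) (fun i => by rw [hlamc]; exact P.hF' c _)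
  have hglam : ∀ c x, Commute (g (P.lam' c)) x := fun c =>
    hg _ (P.hlam c) (fun i => P.hlam' c _)
  have hgτ : ∀ l x, Commute (g (P.τ l)) x := fun l => hg _ (P.hτ l) (fun i => P.hτ' l _)
  -- `θ`
  have htw0 : HasTw T (g.comp (P.j.comp (algebraMap F D))) (fun l => g (P.τ l))
      (g.comp P.lam') := by
    obtain ⟨c, h1, h2, h3⟩ := P.htw
    exact ⟨g.comp c, fun x => congrArg g (h1 x), fun l => congrArg g (h2 l),
      fun x => congrArg g (h3 x)⟩
  obtain ⟨θ, hθD, hθL, hθη⟩ := exists_theta (a := a) (Q := Q) (w := w) P.j P.τ P.lam'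
    fE hfF hfw g y hy hglam (ext' (fun i v => g (P.j (w i v))) η0) (fun i v => rfl)
    (hT _ _ _ y hy _ hgF hglam hgτ htw0 htup)
  -- `θ1`
  let e1 : P.E →+* PowerSeries P.𝓛 := PowerSeries.C.comp P.h
  have he1F : ∀ c x, Commute (e1 (P.j (algebraMap F D c))) x := fun c x => by
    refine PowerSeries_C_comm _ (fun z => ?_) x
    rw [hlamc]
    exact P.hF' c z
  have he1lam : ∀ c x, Commute (e1 (P.lam' c)) x := fun c x =>
    PowerSeries_C_comm _ (fun z => P.hlam' c z) x
  have he1τ : ∀ l x, Commute (e1 (P.τ l)) x := fun l x =>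
    PowerSeries_C_comm _ (fun z => P.hτ' l z) x
  have htw1 : HasTw T (e1.comp (P.j.comp (algebraMap F D))) (fun l => e1 (P.τ l))
      (e1.comp P.lam') := by
    obtain ⟨c, h1, h2, h3⟩ := P.htw
    exact ⟨e1.comp c, fun x => congrArg e1 (h1 x), fun l => congrArg e1 (h2 l),
      fun x => congrArg e1 (h3 x)⟩
  let W1 : I → Option σ → PowerSeries P.𝓛 := fun i u =>
    PowerSeries.C (P.jK (wU a th (QK (q0 Q)) w i u))
  have hW1 : ∀ i v, W1 i (some v) = e1 (P.j (w i v)) := by
    intro i v
    show PowerSeries.C (P.jK (iD a th (QK (q0 Q)) w (w i v))) =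
      PowerSeries.C (P.h (P.j (w i v)))
    rw [P.hh]
  have htup1 : IsTuple a th (QK (q0 Q)) (e1.comp (P.j.comp (algebraMap F D))) W1 := by
    have h1 := (isTuple_wU a th (QK (q0 Q)) w).map
      ((PowerSeries.C : P.𝓛 →+* PowerSeries P.𝓛).comp P.jK)
    have h2 : ((PowerSeries.C : P.𝓛 →+* PowerSeries P.𝓛).comp P.jK).comp
        (iL a th (QK (q0 Q)) w) = e1.comp (P.j.comp (algebraMap F D)) := by
      refine RingHom.ext fun c => ?_
      show PowerSeries.C (P.jK (iL a th (QK (q0 Q)) w c)) =
        PowerSeries.C (P.h (P.j (algebraMap F D c)))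
      rw [hlamc]
    rw [h2] at h1
    exact h1
  obtain ⟨θ1, hθ1D, hθ1L, hθ1η⟩ := exists_theta (a := a) (Q := Q) (w := w) P.j P.τ
    P.lam' fE hfF hfw e1 PowerSeries.X PowerSeries_X_comm he1lam W1 hW1
    (hT _ _ _ PowerSeries.X PowerSeries_X_comm _ he1F he1lam he1τ htw1 htup1)
  -- `θ r = 0 → θ1 r = 0`
  let oP : PowerSeries P.𝓛 →+* LaurentSeries P.𝓛 := HahnSeries.ofPowerSeries ℤ P.𝓛
  have hΨe : Ψ.comp g = oP.comp e1 := RingHom.ext fun e => by
    show Ψ (g e) = HahnSeries.ofPowerSeries ℤ P.𝓛 (PowerSeries.C (P.h e))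
    rw [hΨg, HahnSeries.ofPowerSeries_C]
  have hsq : (Rg.map a Ls Ψ).comp θ = (Rg.map a Ls oP).comp θ1 := by
    apply hom_ext' a th (RE.QX Q) w
    · intro d
      rw [RingHom.comp_apply, RingHom.comp_apply, hθD, hθ1D, ← RingHom.comp_apply,
        ← RingHom.comp_apply (Rg.map a Ls oP), Rg.map_comp, Rg.map_comp, hΨe]
    · intro x
      rw [RingHom.comp_apply, RingHom.comp_apply, hθL, hθ1L, Rg.map_sc, Rg.map_sc]
      congr 1
      have h3 : Ψ.comp (LX (g.comp P.lam') y hy) =
          oP.comp (LX (e1.comp P.lam') PowerSeries.X PowerSeries_X_comm) := by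
        apply Polynomial.ringHom_ext
        · intro c
          rw [RingHom.comp_apply, RingHom.comp_apply, LX_C, LX_C]
          exact RingHom.congr_fun hΨe (P.lam' c)
        · rw [RingHom.comp_apply, RingHom.comp_apply, LX_X, LX_X, hΨy]
          exact (HahnSeries.ofPowerSeries_X).symm
      exact RingHom.congr_fun h3 x
    · intro i
      rw [RingHom.comp_apply, RingHom.comp_apply, hθη, hθ1η]
      have h4 := fin_map a Ls Ψ (stY ω th (g.comp (P.j.comp (algebraMap F D))) (g.comp P.lam')
        (fun l => g (P.τ l)) y (ext' (fun i v => g (P.j (w i v))) η0))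
      have h5 := fin_map a Ls oP (stY ω th (e1.comp (P.j.comp (algebraMap F D)))
        (e1.comp P.lam') (fun l => e1 (P.τ l)) PowerSeries.X W1)
      have h6 : (stY ω th (g.comp (P.j.comp (algebraMap F D))) (g.comp P.lam')
          (fun l => g (P.τ l)) y (ext' (fun i v => g (P.j (w i v))) η0)).map Ψ =
          (stY ω th (e1.comp (P.j.comp (algebraMap F D)))
          (e1.comp P.lam') (fun l => e1 (P.τ l)) PowerSeries.X W1).map oP := by
        rw [stY_map, stY_map, ← RingHom.comp_assoc, ← RingHom.comp_assoc, ← RingHom.comp_assoc,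
          ← RingHom.comp_assoc, hΨe, RingHom.comp_assoc, RingHom.comp_assoc]
        congr 1
        · funext l
          exact RingHom.congr_fun hΨe (P.τ l)
        · rw [hΨy]
          exact (HahnSeries.ofPowerSeries_X).symm
        · funext i v
          rcases v with _ | v
          · show Ψ (η0 i) = HahnSeries.ofPowerSeries ℤ P.𝓛 (PowerSeries.C
              (P.jK (eta a th (QK (q0 Q)) w i)))
            rw [hΨη, HahnSeries.ofPowerSeries_C]
          · rw [hW1]
            exact RingHom.congr_fun hΨe (P.j (w i v))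
      rw [h6, h5] at h4
      exact (congrArg (fun S : St I (Option σ ⊕ F) (Option σ) (Rg a Ls (LaurentSeries P.𝓛)) =>
        S.W i none) h4).symm
  have h01 : ∀ r, θ r = 0 → θ1 r = 0 := by
    intro r hr
    apply Rg.map_injective a Ls oP ofPS_injective
    rw [map_zero, ← RingHom.comp_apply, ← hsq, RingHom.comp_apply, hr, map_zero]
  -- reduction
  let cc : PowerSeries P.𝓛 →+* P.𝓛 := PowerSeries.constantCoeff
  let SI : St I (Option σ ⊕ F) (Option σ) P.𝓛 := bst ω th (iL a th (QK (q0 Q)) w) v1
    (wU a th (QK (q0 Q)) w) P.jK (fun i => P.h (P.τ i))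
    (fun i u => P.jK (wU a th (QK (q0 Q)) w i u))
  have hSE : (SE w ω th P.j P.τ).map P.h = SI.pull some := by
    refine St.ext ?_ ?_ rfl ?_ ?_ ?_
    · funext i; exact hlamc _
    · funext i l; exact hlamc _
    · funext k u; exact hlamc _
    · funext i u; exact P.hh _
    · funext i u; exact P.hh _
  have hSI : (stY ω th (e1.comp (P.j.comp (algebraMap F D))) (e1.comp P.lam')
      (fun l => e1 (P.τ l)) PowerSeries.X W1).map cc = SI := by
    have hcce : ∀ e, cc (e1 e) = P.h e := fun e => PowerSeries.constantCoeff_C (P.h e)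
    rw [stY_map]
    refine St.ext ?_ ?_ ?_ ?_ ?_ ?_
    · funext i; exact (hcce _).trans (hlamc _)
    · funext i l; exact (hcce _).trans (hlamc _)
    · funext l; exact hcce _
    · funext k u
      have h7 := vecY_zero (cc.comp (e1.comp P.lam')) (P.jK.comp (iL a th (QK (q0 Q)) w)) k u
      refine Eq.trans ?_ h7
      show vecY (cc.comp (e1.comp P.lam')) (cc PowerSeries.X) k u = _
      rw [show cc PowerSeries.X = 0 from PowerSeries.constantCoeff_X]
    · funext i u
      exact PowerSeries.constantCoeff_C _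
    · funext i u
      exact PowerSeries.constantCoeff_C _
  have hfin : (fin a Ls (stY ω th (e1.comp (P.j.comp (algebraMap F D))) (e1.comp P.lam')
      (fun l => e1 (P.τ l)) PowerSeries.X W1)).map (Rg.map a Ls cc) = fin a Ls SI := by
    rw [← fin_map, hSI]
  have hred : (Rg.map a Ls cc).comp θ1 = fK.comp (RE.pi a th Q w) := by
    have hD1 : (Rg.map a Ls P.h).comp fE = fK.comp (iD a th (QK (q0 Q)) w) := by
      apply hLoc.uniq
      · intro c
        rw [RingHom.comp_apply, RingHom.comp_apply, hfF, RingHom.comp_apply, Rg.map_sc, iD_base]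
        exact (hKF c).symm
      · intro i v
        rw [RingHom.comp_apply, RingHom.comp_apply, hfw]
        have h8 := fin_map a Ls P.h (SE w ω th P.j P.τ)
        rw [hSE, fin_pull] at h8
        have h9 := congrArg (fun S : St I (Option σ ⊕ F) σ (Rg a Ls P.𝓛) => S.W i v) h8
        exact h9.symm.trans (hKw i (some v)).symm
    apply hom_ext' a th (RE.QX Q) w
    · intro d
      show Rg.map a Ls cc (θ1 (iD a th (RE.QX Q) w d)) =
        fK (RE.pi a th Q w (iD a th (RE.QX Q) w d))
      refine Eq.trans ?_ (congrArg fK (RE.pi_iD a th Q w d)).symm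
      rw [hθ1D, ← RingHom.comp_apply, Rg.map_comp]
      have h10 : cc.comp e1 = P.h := RingHom.ext fun e => PowerSeries.constantCoeff_C (P.h e)
      rw [h10]
      exact RingHom.congr_fun hD1 d
    · intro x
      show Rg.map a Ls cc (θ1 (iL a th (RE.QX Q) w x)) =
        fK (RE.pi a th Q w (iL a th (RE.QX Q) w x))
      refine Eq.trans ?_ (congrArg fK (RE.pi_iL a th Q w x)).symm
      rw [hθ1L, Rg.map_sc]
      refine Eq.trans ?_ (hKF _).symm
      show sc a Ls _ = sc a Ls _
      congr 1
      have h11 : cc.comp (LX (e1.comp P.lam') PowerSeries.X PowerSeries_X_comm) =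
          (P.h.comp P.lam').comp (Polynomial.evalRingHom 0) := by
        apply Polynomial.ringHom_ext
        · intro c
          rw [RingHom.comp_apply, RingHom.comp_apply, LX_C, Polynomial.coe_evalRingHom,
            Polynomial.eval_C]
          exact PowerSeries.constantCoeff_C _
        · rw [RingHom.comp_apply, RingHom.comp_apply, LX_X, Polynomial.coe_evalRingHom,
            Polynomial.eval_X, map_zero]
          exact PowerSeries.constantCoeff_X
      exact RingHom.congr_fun h11 x
    · intro i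
      show Rg.map a Ls cc (θ1 (eta a th (RE.QX Q) w i)) =
        fK (RE.pi a th Q w (eta a th (RE.QX Q) w i))
      refine Eq.trans ?_ (congrArg fK (RE.pi_eta a th Q w i)).symm
      rw [hθ1η]
      refine Eq.trans ?_ (hKw i none).symm
      exact congrArg (fun S : St I (Option σ ⊕ F) (Option σ) (Rg a Ls P.𝓛) => S.W i none) hfin
  have : Nontrivial C0 := hAug.nontrivial
  have : IsStablyFiniteRing C0 := hAug.stablyFinite
  have : Nontrivial (Rg a Ls C0) := WF.Rg.nontrivial a Ls C0
  refine RE.rees_stablyFinite a th Q w (C := Rg a Ls C0) (WF.Rg.stablyFinite a Ls C0) θ ?_ θ1 h01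
    ?_ (Rg.map a Ls (PowerSeries.constantCoeff (R := P.𝓛))) fK hfK hred
  · rw [RE.xX, hθL, LX_X]
    exact hyu.map (sc a Ls)
  · intro c hc
    rw [RE.xX, hθ1L, LX_X] at hc
    exact sc_regular a Ls _ (fun z hz => PowerSeries_X_regular z hz) c hc

end top

end

end Crest.Agent.R181.IN
end

-- ▼ part R181/IN553b
section

/-!
R181 (helper553), block B9: from the package of the locality / injectivity induction to
"`U a th Q w` is nontrivial and stably finite".
-/

set_option autoImplicit false
set_option linter.unusedSectionVars false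

namespace Crest.Agent.R181.IN

open UR PO
open scoped Polynomial

noncomputable section

variable {F D I σ : Type} [Field F] [DivisionRing D] [Algebra F D] [DecidableEq σ] [Fintype σ]
  [Fintype I] [LinearOrder I] {a : I → ℕ} {th : I → I → F} {ω : I → F} {T : TwD a th ω}
  {Q : I → MvPolynomial (Option σ) F} {w : I → σ → D}
  (ha : ∀ i, 1 ≤ a i) (hω : ∀ i, IsPrimitiveRoot (ω i) (a i))
  (hth : ∀ i l, ¬ i < l → th i l = 0)
  (ml : I → List (F × (ℕ → Option σ)))
  (hml : ∀ i, Q i = MvPolynomial.rename some (BM.res0 (Q i)) + BM.lsum (a i) (ml i))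
  (pl : I → List I) (hpl : ∀ i, (pl i).Nodup) (hpl' : ∀ i l, l ∈ pl i ↔ i < l)
  (ops : List I) (hops : ops.Pairwise (fun x y => y < x)) (hops' : ∀ i, i ∈ ops)
  (hfix : ∀ i m, (BM.res0 (Q i)).coeff m ∈ T.fixed)
  (P : Pkg T (fun i => BM.res0 (Q i)) w v1 (steps a ml pl ops))

include ha hω hth hml hpl hpl' hops hops' hfix P in
/-- **the lift theorem from the package** -/
theorem lift_of_pkg (hLoc : LocHyp T (fun i => BM.res0 (Q i)) w)
    (hw : IsTuple a th (fun i => BM.res0 (Q i)) (algebraMap F D) w) :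
    Nontrivial (U a th Q w) ∧ IsStablyFiniteRing (U a th Q w) := by
  have hlamc : ∀ c, P.h (P.j (algebraMap F D c)) =
      P.jK (iL a th (QK fun i => BM.res0 (Q i)) w c) := by
    intro c
    rw [P.hh, iD_base]
    rfl
  have e : P.h.comp (P.j.comp (algebraMap F D)) =
      P.jK.comp (iL a th (QK fun i => BM.res0 (Q i)) w) := RingHom.ext hlamc
  have htw : HasTw T (P.jK.comp (iL a th (QK fun i => BM.res0 (Q i)) w)) (fun i => P.h (P.τ i))
      (P.h.comp P.lam') := by
    rw [← e]
    exact P.htw.map P.h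
  have hη : IsTuple a th (fun i => MvPolynomial.rename some (BM.res0 (Q i)))
      (P.h.comp (P.j.comp (algebraMap F D)))
      (ext' (fun i v => P.h (P.j (w i v)))
        (fun i => P.jK (eta a th (QK fun i => BM.res0 (Q i)) w i))) := by
    have h1 := (isTuple_wU a th (QK fun i => BM.res0 (Q i)) w).map P.jK
    rw [← e] at h1
    have h2 : (fun i v => P.jK (wU a th (QK fun i => BM.res0 (Q i)) w i v)) =
        (ext' (fun i v => P.h (P.j (w i v)))
        (fun i => P.jK (eta a th (QK fun i => BM.res0 (Q i)) w i))) := by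
      funext i v
      rcases v with _ | v
      · rfl
      · show P.jK (iD a th (QK fun i => BM.res0 (Q i)) w (w i v)) = P.h (P.j (w i v))
        rw [P.hh]
    rw [h2] at h1
    exact h1
  obtain ⟨C0, _, g, η0, y, Ψ, hAug, hyu, hy, hg, htup, hΨg, hΨy, hΨη⟩ :=
    exists_C0 a th (fun i => BM.res0 (Q i)) (P.j.comp (algebraMap F D))
      (fun i v => P.j (w i v)) (hw.map P.j) P.h
      (fun i => P.jK (eta a th (QK fun i => BM.res0 (Q i)) w i)) hη
      {z | (∀ x, Commute z x) ∧
        ∀ i, Commute (P.h z) (P.jK (eta a th (QK fun i => BM.res0 (Q i)) w i))}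
      (fun z hz => hz)
      (fun c => ⟨P.hF c, fun i => by
        show Commute (P.h (P.j (algebraMap F D c))) _
        rw [hlamc]; exact P.hF' c _⟩)
  refine top (Q := Q) P hLoc
    (pkg_isLoc ha hω hth ml hml pl hpl hpl' ops hops hops' hfix P hw).1
    (tuple_inj ha hω hth ml hml pl hpl hpl' ops hops hops' P.jK (P.h.comp P.lam') _
      P.hF' P.hlam' P.hτ' htw.th_eq (fun i => htw.mp_eq _ (hfix i))) ?_ hAug g η0 y Ψ hyu hy
    (fun z h1 h2 => hg z ⟨h1, h2⟩) htup hΨg hΨy hΨη
  intro R _ lam lam1 tl y hy W0 hlam hlam1 htl htw' hW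
  exact tup_LX hlam hlam1 htl hy ha hω hth htw'.th_eq (fun i => htw'.mp_eq _ (hfix i)) ml hml pl
    hpl hpl' ops hops hops' hW

end

end Crest.Agent.R181.IN
end

-- ▼ part R181/LC598e
section

/-!
R181 (helper598), block B9: injectivity of the hom from the cone ring `KK`: it can be checked on
the first diagonal piece of a triangular step, given locality.
-/

set_option autoImplicit false
set_option linter.unusedSectionVars false

namespace Crest.Agent.R181.PO

open UR LOC

noncomputable section

section Kpart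

variable {F D I σ ι : Type} [Field F] [DivisionRing D] [Algebra F D] [Fintype I] [Fintype σ]
  [DecidableEq I] {a : I → ℕ} {th : I → I → F} {ω : I → F} {T : TwD a th ω}
  {Q0 : I → MvPolynomial σ F} {w : I → σ → D}

theorem tuple_pull {R : Type} [Ring R] {τ : F →+* R} (hτ : ∀ c x, Commute (τ c) x)
    {W : I → Option σ → R} (h : IsTuple a th (QK Q0) τ W) :
    IsTuple a th Q0 τ (fun i v => W i (some v)) := by
  classical
  have h1 := h.subst (RingHom.id R) (RingHom.id F) τ τ hτ
    (fun v v' => if v = some v' then 1 else 0) (by ext x; rfl) (fun c => rfl)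
  have hQ : (fun i => subL (RingHom.id F) (fun (v : Option σ) (v' : σ) =>
      if v = some v' then (1 : F) else 0) (QK Q0 i)) = Q0 := by
    funext i
    have h3 : (subL (RingHom.id F) (fun (v : Option σ) (v' : σ) =>
        if v = some v' then (1 : F) else 0)).comp (MvPolynomial.rename (some : σ → Option σ) :
          MvPolynomial σ F →ₐ[F] MvPolynomial (Option σ) F).toRingHom = RingHom.id _ := by
      apply MvPolynomial.ringHom_ext
      · intro c
        simp
      · intro v
        simp [subL_X]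
    exact RingHom.congr_fun h3 (Q0 i)
  rw [hQ] at h1
  have hw : (fun (i : I) (v' : σ) => ∑ v : Option σ, (RingHom.id R) (W i v) *
      τ (if v = some v' then 1 else 0)) = fun i v => W i (some v) := by
    funext i v'
    rw [Finset.sum_eq_single (some v')]
    · simp
    · intro b _ hb
      simp [hb]
    · intro h; exact absurd (Finset.mem_univ _) h
  rw [hw] at h1
  exact h1

theorem exists_K {R : Type} [Ring R] {lam : F →+* R} (hlam : ∀ c x, Commute (lam c) x)
    {W : I → Option σ → R} (ht : IsTuple a th (QK Q0) lam W)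
    (hloc : IsLoc w lam (fun i v => W i (some v))) :
    ∃ f : KK a th Q0 w →+* R, (∀ c, f (iL a th (QK Q0) w c) = lam c) ∧
      ∀ i u, f (wU a th (QK Q0) w i u) = W i u := by
  obtain ⟨g, h1, h2⟩ := hloc
  have hW : ∀ i, ext' (fun i v => g (w i v)) (fun i => W i none) i = W i := by
    intro i
    funext u
    cases u with
    | none => rfl
    | some v => exact h2 i v
  obtain ⟨f, hf1, hf2, hf3⟩ := exists_lift (a := a) (th := th) (Q := QK Q0) (w := w) g lam
    (fun i => W i none) (fun c => h1 c) (fun x d => hlam x _) (fun x i => hlam x _) (by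
      have e : (ext' (fun i v => g (w i v)) (fun i => W i none)) = W := funext hW
      rw [e]; exact ht)
  refine ⟨f, hf2, fun i u => ?_⟩
  cases u with
  | none => exact hf3 i
  | some v => exact (hf1 _).trans (h2 i v)

theorem K_ext (hL : LocHyp T Q0 w) {R : Type} [Ring R] {f g : KK a th Q0 w →+* R}
    (h1 : ∀ c, f (iL a th (QK Q0) w c) = g (iL a th (QK Q0) w c))
    (h2 : ∀ i u, f (wU a th (QK Q0) w i u) = g (wU a th (QK Q0) w i u)) : f = g := by
  have h3 : f.comp (iD a th (QK Q0) w) = g.comp (iD a th (QK Q0) w) := by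
    apply hL.uniq
    · intro c
      rw [RingHom.comp_apply, RingHom.comp_apply, iD_base]
      exact h1 _
    · intro i v
      exact h2 i (some v)
  refine hom_ext' _ _ _ _ (fun d => RingHom.congr_fun h3 d) h1 (fun i => h2 i none)

theorem IsInj.of_map (hL : LocHyp T Q0 w) {R R' : Type} [Ring R] [Ring R'] (g : R →+* R')
    {lam : F →+* R} {W : I → Option σ → R}
    (hf : ∃ f : KK a th Q0 w →+* R, (∀ c, f (iL a th (QK Q0) w c) = lam c) ∧
      ∀ i u, f (wU a th (QK Q0) w i u) = W i u)
    (h : IsInj (iL a th (QK Q0) w) (wU a th (QK Q0) w) (g.comp lam) (fun i u => g (W i u))) :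
    IsInj (iL a th (QK Q0) w) (wU a th (QK Q0) w) lam W := by
  obtain ⟨f, h1, h2⟩ := hf
  obtain ⟨f', h0, h1', h2'⟩ := h
  have e : g.comp f = f' := by
    apply K_ext hL
    · intro c; rw [RingHom.comp_apply, h1, h1']; rfl
    · intro i u; rw [RingHom.comp_apply, h2, h2']
  refine ⟨f, ?_, h1, h2⟩
  intro x y hxy
  apply h0
  rw [← e]
  exact congrArg g hxy

/-- the final tuple gives an injective hom from the cone ring as soon as it is a tuple -/
def InjFin (a : I → ℕ) (th : I → I → F) (Q0 : I → MvPolynomial σ F) (w : I → σ → D)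
    (Ls : List (Stp I ι)) {B : Type} [Ring B] (lam : F →+* B)
    (S : St I ι (Option σ) B) : Prop :=
  IsTuple a th (QK Q0) ((sc a Ls).comp lam) (fin a Ls S).W →
    IsInj (iL a th (QK Q0) w) (wU a th (QK Q0) w) ((sc a Ls).comp lam) (fin a Ls S).W

variable {B B0 C : Type} [Ring B] [Ring B0] [Ring C]

theorem InjFin.of_inj (Ls : List (Stp I ι)) (k : B →+* C) (hk : Function.Injective k)
    (lam : F →+* B) (S : St I ι (Option σ) B) (h : InjFin a th Q0 w Ls lam S) :
    InjFin a th Q0 w Ls (k.comp lam) (S.map k) := by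
  intro ht
  obtain ⟨f, h0, h1, h2⟩ := h (fin_tuple_of_injective Ls k hk lam S ht)
  refine ⟨(Rg.map a Ls k).comp f, (Rg.map_injective a Ls k hk).comp h0, ?_, ?_⟩
  · intro c
    rw [RingHom.comp_apply, h1]
    exact Rg.map_sc a Ls k (lam c)
  · intro i u
    rw [RingHom.comp_apply, h2, fin_map]
    rfl

theorem InjFin.of_map (hL : LocHyp T Q0 w) (Ls : List (Stp I ι)) (g : B →+* C)
    (lam : F →+* B) (hlam : ∀ c x, Commute (lam c) x) (S : St I ι (Option σ) B)
    (hloc : IsTuple a th (QK Q0) ((sc a Ls).comp lam) (fin a Ls S).W →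
      IsLoc w ((sc a Ls).comp lam) (fin a Ls (S.pull some)).W)
    (h : InjFin a th Q0 w Ls (g.comp lam) (S.map g)) : InjFin a th Q0 w Ls lam S := by
  intro ht
  have h1 := h (fin_tuple_map Ls g lam S ht)
  have h2 := hloc ht
  rw [fin_pull] at h2
  have h3 := exists_K (w := w) (fun c x => sc_comm a Ls _ (hlam c) x) ht h2
  refine IsInj.of_map hL (Rg.map a Ls g) h3 ?_
  rw [fin_map] at h1
  have e : (Rg.map a Ls g).comp ((sc a Ls).comp lam) = (sc a Ls).comp (g.comp lam) := by
    ext c; exact Rg.map_sc a Ls g (lam c)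
  rw [e]
  exact h1

theorem Last0.of_map {s : Stp I ι} {ν : Type} {S : St I ι ν B0} (k : B0 →+* B)
    (hk : Function.Injective k)
    (h : Last0 a s (S.map k)) : Last0 a s S := by
  intro u
  apply hk
  rw [← ent_map, h u, map_zero]

theorem runU_congr {s : Stp I ι} {ν : Type} {S S' : St I ι ν B} (e : S = S') (h : Last0 a s S)
    (h' : Last0 a s S') : runU a s S h = runU a s S' h' := by
  subst e; rfl

/-- one triangular step -/
theorem InjFin.cons (hL : LocHyp T Q0 w) (k : B0 →+* B) (hk : Function.Injective k)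
    (lam0 : F →+* B0) (hlam0 : ∀ c x, Commute (lam0 c) x)
    (hlam : ∀ c x, Commute (k (lam0 c)) x) (s : Stp I ι) (Ls : List (Stp I ι))
    (S0 : St I ι σ B0) (S : St I ι (Option σ) B) (hS : S.pull some = S0.map k)
    (hs : Last0 a s S) (H0 : ∀ p : ℕ, LocFin a th Q0 w Ls lam0 (tws s.op p S0))
    (HK : InjFin a th Q0 w Ls (k.comp lam0) S) :
    InjFin a th Q0 w (s :: Ls) (k.comp lam0) S := by
  have hs1 : Last0 a s (S0.map k) := by rw [← hS]; exact hs.pull a some
  have hs0 : Last0 a s S0 := Last0.of_map k hk hs1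
  have hS' : (runU a s S hs).pull some = (runU a s S0 hs0).map (UT.map k) := by
    rw [← runU_map a k s S0 hs0, ← runU_pull a some s S hs]
    exact runU_congr hS _ _
  have key : InjFin a th Q0 w Ls ((scU (a s.op - 1 + 1) B).comp (k.comp lam0)) (runU a s S hs) := by
    refine InjFin.of_map hL Ls (dg (0 : Fin (a s.op - 1 + 1))) _
      (fun c x => scU_comm _ (hlam c) x) _ ?_ ?_
    · intro ht
      have h1 := LocFin.runU hL s Ls lam0 hlam0 S0 hs0 H0
      have ecomp : (UT.map (n := a s.op - 1 + 1) k).comp ((scU (a s.op - 1 + 1) B0).comp lam0) =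
          (scU (a s.op - 1 + 1) B).comp (k.comp lam0) := by
        refine RingHom.ext fun c => Subtype.ext ?_
        exact scalar_map k (lam0 c)
      have h2 := tuple_pull (fun c x => sc_comm a Ls _
        (fun y => scU_comm _ (hlam c) y) x) ht
      have h3 : IsTuple a th Q0 ((sc a Ls).comp ((scU (a s.op - 1 + 1) B0).comp lam0))
          (fin a Ls (runU a s S0 hs0)).W := by
        refine fin_tuple_of_injective Ls (UT.map k) (UT.map_injective k hk) _ _ ?_
        rw [ecomp, ← hS', fin_pull]
        exact h2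
      have h4 := fin_loc_map Ls (UT.map (n := a s.op - 1 + 1) k) _ _ (h1 h3)
      rw [ecomp, ← hS'] at h4
      exact h4
    · rw [runU_dg]
      have e : (dg (0 : Fin (a s.op - 1 + 1))).comp
          ((scU (a s.op - 1 + 1) B).comp (k.comp lam0)) = k.comp lam0 := by
        ext c
        show (Matrix.scalar (Fin (a s.op - 1 + 1)) (k (lam0 c))) 0 0 = _
        simp
      rw [e]
      have e2 : tws s.op ((0 : Fin (a s.op - 1 + 1)) : ℕ) S = S := tws_zero _ _
      rw [e2]
      exact HK
  exact InjFin.of_inj Ls (UT (a s.op - 1 + 1) B).subtype Subtype.val_injective _ _ key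

/-- all steps of one operator -/
theorem InjFin.tri (hL : LocHyp T Q0 w) (k : B0 →+* B) (hk : Function.Injective k)
    (lam0 : F →+* B0) (hlam0 : ∀ c x, Commute (lam0 c) x)
    (hlam : ∀ c x, Commute (k (lam0 c)) x) (l : I) (Ls2 : List (Stp I ι))
    (S0 : St I ι σ B0) (S : St I ι (Option σ) B) (hS : S.pull some = S0.map k)
    (H0 : ∀ p : ℕ, LocFin a th Q0 w Ls2 lam0 (tws l p S0))
    (HK : InjFin a th Q0 w Ls2 (k.comp lam0) S) :
    ∀ (Ls1 : List (Stp I ι)) (_ : ∀ s ∈ Ls1, s.op = l ∧ s.good) (_ : ∀ s ∈ Ls1, Last0 a s S),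
    InjFin a th Q0 w (Ls1 ++ Ls2) (k.comp lam0) S := by
  intro Ls1
  induction Ls1 with
  | nil => intro _ _; exact HK
  | cons s Ls1 ih =>
    intro hop hlast
    have ih' := ih (fun s' h' => hop s' (List.mem_cons_of_mem _ h'))
      (fun s' h' => hlast s' (List.mem_cons_of_mem _ h'))
    refine InjFin.cons hL k hk lam0 hlam0 hlam s (Ls1 ++ Ls2) S0 S hS
      (hlast s List.mem_cons_self) (fun p => ?_) ih'
    rw [(hop s List.mem_cons_self).1]
    refine LocFin.tri hL l Ls2 lam0 hlam0 Ls1
      (fun s' h' => hop s' (List.mem_cons_of_mem _ h')) (tws l p S0) ?_ ?_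
    · intro s' h'
      have h1 := hop s' (List.mem_cons_of_mem _ h')
      have h2 : Last0 a s' S0 := by
        refine Last0.of_map k hk ?_
        rw [← hS]
        exact (hlast s' (List.mem_cons_of_mem _ h')).pull a some
      have := h2.tws a h1.2 p
      rwa [h1.1] at this
    · intro q
      rw [tws_tws]
      exact H0 _

end Kpart

end

end Crest.Agent.R181.PO
end

-- ▼ part R181/LS598
section

/-!
R181 (helper598): functoriality of Laurent series over noncommutative rings.
-/

set_option autoImplicit false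

namespace Crest.Agent.R181.PO

noncomputable section

variable {R S S' : Type*} [Ring R] [Ring S] [Ring S']

/-- change of coefficients for Laurent series -/
def lsMap (f : R →+* S) : LaurentSeries R →+* LaurentSeries S where
  toFun x := HahnSeries.map x f
  map_one' := by
    ext n
    rw [HahnSeries.map_coeff, HahnSeries.coeff_one, HahnSeries.coeff_one]
    split_ifs <;> simp
  map_zero' := by
    ext n
    simp
  map_add' x y := by
    ext n
    simp
  map_mul' x y := HahnSeries.map_mul (f : R →ₙ+* S)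

@[simp] theorem lsMap_coeff (f : R →+* S) (x : LaurentSeries R) (n : ℤ) :
    (lsMap f x).coeff n = f (x.coeff n) := rfl

@[simp] theorem lsMap_C (f : R →+* S) (r : R) : lsMap f (HahnSeries.C r) = HahnSeries.C (f r) := by
  ext n
  rw [lsMap_coeff, HahnSeries.C_apply, HahnSeries.C_apply, HahnSeries.coeff_single,
    HahnSeries.coeff_single]
  split_ifs <;> simp

@[simp] theorem lsMap_single (f : R →+* S) (m : ℤ) (r : R) :
    lsMap f (HahnSeries.single m r) = HahnSeries.single m (f r) := by
  ext n
  rw [lsMap_coeff, HahnSeries.coeff_single, HahnSeries.coeff_single]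
  split_ifs <;> simp

theorem lsMap_ofPowerSeries (f : R →+* S) (p : PowerSeries R) :
    lsMap f (HahnSeries.ofPowerSeries ℤ R p) =
      HahnSeries.ofPowerSeries ℤ S (PowerSeries.map f p) := by
  ext n
  rw [lsMap_coeff]
  erw [PowerSeries.coeff_coe, PowerSeries.coeff_coe]
  split_ifs
  · simp
  · simp


theorem C_comm {c : R} (hc : ∀ x, Commute c x) (y : LaurentSeries R) :
    Commute (HahnSeries.C c : LaurentSeries R) y := by
  ext n
  rw [HahnSeries.C_apply]
  have h1 := HahnSeries.coeff_single_zero_mul (Γ := ℤ) (r := c) (x := y) (a := n)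
  have h2 := HahnSeries.coeff_mul_single_zero (Γ := ℤ) (r := c) (x := y) (a := n)
  rw [h1, h2]
  exact hc _

theorem single_comm (m : ℤ) (y : LaurentSeries R) :
    Commute (HahnSeries.single m 1 : LaurentSeries R) y := by
  ext n
  have h1 := HahnSeries.coeff_single_mul_add (Γ := ℤ) (r := (1 : R)) (x := y) (a := n - m) (b := m)
  have h2 := HahnSeries.coeff_mul_single_add (Γ := ℤ) (r := (1 : R)) (x := y) (a := n - m) (b := m)
  rw [sub_add_cancel] at h1 h2
  rw [h1, h2, one_mul, mul_one]

end

end Crest.Agent.R181.PO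
end

-- ▼ part R181/RF963a
section

/-!
# R181, block B9, (RF2): the local ring `O` inside the rational functions `E = D(t)` at `t = z`

Given `L : E → D((u))`, `t ↦ z + u`, the ring `O := L⁻¹(D[[u]])` with its evaluation `O → D`
reflecting invertibility of matrices.
-/

set_option autoImplicit false

namespace Crest.Agent.R181.RF2

open Crest.Agent.R181.LOC

theorem ofPS_injective (D : Type) [DivisionRing D] :
    Function.Injective (HahnSeries.ofPowerSeries ℤ D) := HahnSeries.ofPowerSeries_injective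

theorem exists_local (D E : Type) [DivisionRing D] [DivisionRing E] (j : D →+* E) (t : E)
    (ht : ∀ x, Commute t x) (z : D) (L : E →+* LaurentSeries D)
    (hLj : ∀ d, L (j d) = HahnSeries.C d)
    (hLt : L t = HahnSeries.C z + HahnSeries.single 1 1) :
    ∃ (O : Type) (_ : Ring O) (iO : D →+* O) (tO : O) (k : O →+* E) (ev : O →+* D)
      (kS : O →+* PowerSeries D), Function.Injective k ∧ (∀ d, k (iO d) = j d) ∧ k tO = t ∧
      (∀ x, Commute tO x) ∧ (∀ d, ev (iO d) = d) ∧ ev tO = z ∧
      (∀ x, L (k x) = HahnSeries.ofPowerSeries ℤ D (kS x)) ∧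
      (∀ x, PowerSeries.constantCoeff (kS x) = ev x) ∧ Function.Surjective ev ∧ LU ev := by
  classical
  let P : Subring (LaurentSeries D) := (HahnSeries.ofPowerSeries ℤ D).range
  let O : Subring E := P.comap L
  have hjO : ∀ d, j d ∈ O := fun d => by
    show L (j d) ∈ P
    rw [hLj]
    exact ⟨PowerSeries.C d, HahnSeries.ofPowerSeries_C d⟩
  have htO : t ∈ O := by
    show L t ∈ P
    rw [hLt]
    refine ⟨PowerSeries.C z + PowerSeries.X, ?_⟩
    rw [map_add, HahnSeries.ofPowerSeries_C, HahnSeries.ofPowerSeries_X]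
  let e : PowerSeries D ≃+* P := RingEquiv.ofBijective (HahnSeries.ofPowerSeries ℤ D).rangeRestrict
    ⟨fun x y h => ofPS_injective D (congrArg Subtype.val h),
      (HahnSeries.ofPowerSeries ℤ D).rangeRestrict_surjective⟩
  have he : ∀ s, ((e s : P) : LaurentSeries D) = HahnSeries.ofPowerSeries ℤ D s := fun s => rfl
  let LO : O →+* P := L.restrict O P (fun x hx => hx)
  have hLO : ∀ x : O, ((LO x : P) : LaurentSeries D) = L x := fun x => rfl
  let kS : O →+* PowerSeries D := (e.symm : P →+* PowerSeries D).comp LO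
  have hkS : ∀ x : O, L (x : E) = HahnSeries.ofPowerSeries ℤ D (kS x) := by
    intro x
    rw [← he, ← hLO]
    congr 1
    exact (e.apply_symm_apply (LO x)).symm
  let ev : O →+* D := (PowerSeries.constantCoeff (R := D)).comp kS
  have hkSj : ∀ d, kS ⟨j d, hjO d⟩ = PowerSeries.C d := by
    intro d
    apply ofPS_injective D
    rw [← hkS, HahnSeries.ofPowerSeries_C]
    exact hLj d
  have hkSt : kS ⟨t, htO⟩ = PowerSeries.C z + PowerSeries.X := by
    apply ofPS_injective D
    rw [← hkS, map_add, HahnSeries.ofPowerSeries_C, HahnSeries.ofPowerSeries_X]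
    exact hLt
  have hevj : ∀ d, ev ⟨j d, hjO d⟩ = d := by
    intro d
    show PowerSeries.constantCoeff (kS ⟨j d, hjO d⟩) = d
    rw [hkSj]; simp
  have hsurj : Function.Surjective ev := fun d => ⟨_, hevj d⟩
  refine ⟨O, inferInstance, j.codRestrict O hjO, ⟨t, htO⟩, O.subtype, ev, kS,
    Subtype.val_injective, fun _ => rfl, rfl, fun x => Subtype.ext (ht x), hevj, ?_, hkS,
    fun _ => rfl, hsurj, ?_⟩
  · show PowerSeries.constantCoeff (kS ⟨t, htO⟩) = z
    rw [hkSt]; simp
  · refine LU.of_rad hsurj fun x hx => ?_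
    have hx1 : PowerSeries.constantCoeff (kS x) = ((1 : Dˣ) : D) := hx
    have h2 := PowerSeries.mul_invOfUnit (kS x) (1 : Dˣ) hx1
    have h3 := PowerSeries.invOfUnit_mul (kS x) (1 : Dˣ) hx1
    have hne : (x : E) ≠ 0 := by
      intro h
      have h4 : x = 0 := Subtype.ext h
      rw [h4, map_zero] at hx
      exact zero_ne_one hx
    have hL : L ((x : E)⁻¹) = HahnSeries.ofPowerSeries ℤ D (PowerSeries.invOfUnit (kS x) 1) := by
      have h5 : L ((x : E)⁻¹) * L (x : E) = 1 := by
        rw [← map_mul, inv_mul_cancel₀ hne, map_one]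
      calc L ((x : E)⁻¹) = L ((x : E)⁻¹) * (HahnSeries.ofPowerSeries ℤ D (kS x) *
            HahnSeries.ofPowerSeries ℤ D (PowerSeries.invOfUnit (kS x) 1)) := by
            rw [← map_mul, h2, map_one, mul_one]
        _ = _ := by rw [← mul_assoc, ← hkS, h5, one_mul]
    have hinv : (x : E)⁻¹ ∈ O := ⟨_, hL.symm⟩
    exact ⟨⟨x, ⟨(x : E)⁻¹, hinv⟩, Subtype.ext (mul_inv_cancel₀ hne),
      Subtype.ext (inv_mul_cancel₀ hne)⟩, rfl⟩

end Crest.Agent.R181.RF2
end

-- ▼ part R181/LC598f
section

/-!
R181 (helper598), block B9: the tower of skew fields `E_l = E_{l-1}(τ_l)` and the induction over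
the operators.
-/

set_option autoImplicit false
set_option linter.unusedSectionVars false

namespace Crest.Agent.R181.PO

open UR LOC

noncomputable section

section Tower

variable {F D I σ ι : Type} [Field F] [DivisionRing D] [Algebra F D] [Fintype I] [Fintype σ]
  [DecidableEq I] {a : I → ℕ} {th : I → I → F} {ω : I → F} {T : TwD a th ω}
  {Q0 : I → MvPolynomial σ F} {w : I → σ → D}

theorem HasTw.central {R : Type} [Ring R] {lam : F →+* R} {tl : I → R} {lam' : F →+* R}
    (h : HasTw T lam tl lam')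
    (hlam : ∀ c x, Commute (lam c) x) (htl : ∀ l x, Commute (tl l) x) :
    ∀ c x, Commute (lam' c) x := by
  obtain ⟨c, h1, h2, h3⟩ := h
  obtain ⟨c', h1', h2', h3'⟩ := exists_central_eval lam hlam tl htl
  have e : c = c' := by
    apply MvPolynomial.ringHom_ext
    · intro x; rw [h1, h1']
    · intro l; rw [h2, h2']
  intro y x
  obtain ⟨p, q, hq, rfl⟩ := IsFractionRing.div_surjective (A := T.Lam) y
  have hq0 : algebraMap T.Lam F q ≠ 0 := by
    rw [Ne, IsFractionRing.to_map_eq_zero_iff]
    exact nonZeroDivisors.ne_zero hq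
  have hp : Commute (lam' (algebraMap T.Lam F p)) x := by rw [h3, e]; exact h3' _ _
  have hq' : Commute (lam' (algebraMap T.Lam F q)) x := by rw [h3, e]; exact h3' _ _
  rw [div_eq_mul_inv, map_mul]
  refine hp.mul_left ?_
  let u : Rˣ := Units.map (lam' : F →* R) (Units.mk0 _ hq0)
  have h4 : Commute (u : R) x := hq'
  exact h4.units_inv_left

theorem bst_map {ν S R R' : Type} [Ring S] [Ring R] [Ring R'] (cF : F →+* S)
    (v : ι → ν → F) (wS : I → ν → S) (j : S →+* R) (tl : I → R) (W : I → ν → R) (k : R →+* R') :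
    (bst ω th cF v wS j tl W).map k =
      bst ω th cF v wS (k.comp j) (fun i => k (tl i)) (fun i u => k (W i u)) := rfl

theorem bst_congr {ν S R : Type} [Ring S] [Ring R] {cF : F →+* S}
    {v : ι → ν → F} {wS : I → ν → S} {j j' : S →+* R} {tl tl' : I → R} {W W' : I → ν → R}
    (hj : ∀ x, j x = j' x) (htl : ∀ i, tl i = tl' i) (hW : ∀ i u, W i u = W' i u) :
    bst ω th cF v wS j tl W = bst ω th cF v wS j' tl' W' := by
  have e1 : j = j' := RingHom.ext hj
  have e2 : tl = tl' := funext htl
  have e3 : W = W' := funext fun i => funext fun u => hW i u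
  rw [e1, e2, e3]

/-- the state of the cone ring -/
def SK (T : TwD a th ω) (Q0 : I → MvPolynomial σ F) (w : I → σ → D) (v1 : ι → Option σ → F)
    {R : Type} [Ring R] (jK : KK a th Q0 w →+* R) (tl : I → R) : St I ι (Option σ) R :=
  bst ω th (iL a th (QK Q0) w) v1 (wU a th (QK Q0) w) jK tl
    (fun i u => jK (wU a th (QK Q0) w i u))

theorem SK_pull (v1 : ι → Option σ → F) {R : Type} [Ring R] (jK : KK a th Q0 w →+* R)
    (tl : I → R) : (SK T Q0 w v1 jK tl).pull some =
      bst ω th (algebraMap F D) (fun k u => v1 k (some u)) w (jK.comp (iD a th (QK Q0) w)) tl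
        (fun i u => jK (iD a th (QK Q0) w (w i u))) := by
  have h : ∀ c : F, jK (iL a th (QK Q0) w c) =
      jK (iD a th (QK Q0) w (algebraMap F D c)) := by
    intro c
    rw [iD_base]
    rfl
  refine St.ext ?_ ?_ ?_ ?_ ?_ ?_
  · funext i; exact h _
  · funext i l; exact h _
  · rfl
  · funext i u; exact h _
  · rfl
  · rfl

theorem SK_map (v1 : ι → Option σ → F) {R R' : Type} [Ring R] [Ring R']
    (jK : KK a th Q0 w →+* R)
    (tl : I → R) (k : R →+* R') :
    (SK T Q0 w v1 jK tl).map k = SK T Q0 w v1 (k.comp jK) (fun i => k (tl i)) := rfl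

/-- the twisting elements -/
def tlv {E : Type} [Ring E] (ω : I → F) (j : D →+* E) (τ : I → E) (ops : List I)
    (e : I → ℕ) (l : I) : E :=
  if l ∈ ops then τ l else j (algebraMap F D ((ω l ^ e l)⁻¹))

/-- the current point -/
def Wv {E : Type} [Ring E] (ω : I → F) (w : I → σ → D) (j : D →+* E) (ops : List I)
    (e : I → ℕ) (l : I) (u : σ) : E :=
  if l ∈ ops then j (w l u) else j (algebraMap F D (ω l ^ e l) * w l u)

/-- the state over `E` -/
def Sst (T : TwD a th ω) (w : I → σ → D) (v1 : ι → Option σ → F) {E : Type} [Ring E]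
    (j : D →+* E) (τ : I → E) (ops : List I) (e : I → ℕ) : St I ι σ E :=
  bst ω th (algebraMap F D) (fun k u => v1 k (some u)) w j (tlv ω j τ ops e) (Wv ω w j ops e)

/-- the induction package: `ops` = the operators which are not yet specialised -/
structure Pk (T : TwD a th ω) (Q0 : I → MvPolynomial σ F) (w : I → σ → D)
    (v1 : ι → Option σ → F) (Ls : List (Stp I ι)) (ops : List I) where
  E : Type
  [dE : DivisionRing E]
  𝓛 : Type
  [r𝓛 : Ring 𝓛]
  j : D →+* E
  jK : KK a th Q0 w →+* 𝓛
  h : E →+* 𝓛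
  τ : I → E
  hτ : ∀ l x, Commute (τ l) x
  hF : ∀ c x, Commute (j (algebraMap F D c)) x
  hτ' : ∀ l x, Commute (h (τ l)) x
  hF' : ∀ c x, Commute (jK (iL a th (QK Q0) w c)) x
  hh : ∀ d, h (j d) = jK (iD a th (QK Q0) w d)
  hinj : Function.Injective h
  ex : ∀ e : I → ℕ, ∃ lam1 : F →+* E,
    HasTw T (j.comp (algebraMap F D)) (tlv ω j τ ops e) lam1
  loc : ∀ (e : I → ℕ) (lam1 : F →+* E),
    HasTw T (j.comp (algebraMap F D)) (tlv ω j τ ops e) lam1 →
    LocFin a th Q0 w Ls lam1 (Sst T w v1 j τ ops e)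
  inj : ∀ lam1 : F →+* E,
    HasTw T (j.comp (algebraMap F D)) (tlv ω j τ ops (fun _ => 0)) lam1 →
    InjFin a th Q0 w Ls (h.comp lam1)
      (SK T Q0 w v1 jK (fun i => h (tlv ω j τ ops (fun _ => 0) i)))

attribute [instance] Pk.dE Pk.r𝓛

theorem Pk.base (hL : LocHyp T Q0 w) (v1 : ι → Option σ → F) [Nontrivial (KK a th Q0 w)] :
    Nonempty (Pk T Q0 w v1 ([] : List (Stp I ι)) []) := by
  have htl : ∀ e : I → ℕ, tlv ω (RingHom.id D) (fun _ => (1 : D)) [] e =
      fun l => algebraMap F D ((ω l ^ e l)⁻¹) := by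
    intro e
    funext l
    simp [tlv]
  refine ⟨{
    E := D
    𝓛 := KK a th Q0 w
    j := RingHom.id D
    jK := RingHom.id _
    h := iD a th (QK Q0) w
    τ := fun _ => 1
    hτ := fun _ x => Commute.one_left x
    hF := fun c x => Algebra.commutes c x
    hτ' := fun _ x => by rw [map_one]; exact Commute.one_left x
    hF' := fun c x => iL_comm _ _ _ _ c x
    hh := fun d => rfl
    hinj := RingHom.injective _
    ex := ?_
    loc := ?_
    inj := ?_ }⟩
  · intro e
    obtain ⟨α, hα⟩ := T.auto e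
    refine ⟨(algebraMap F D).comp (α : F →+* F), ?_⟩
    rw [htl e]
    exact HasTw.base e α hα
  · intro e lam1 h1 _
    obtain ⟨α, hα⟩ := T.auto e
    rw [htl e] at h1
    have e1 : lam1 = (algebraMap F D).comp (α : F →+* F) := h1.unique (HasTw.base e α hα)
    have h2 := hL.tw e α hα
    rw [← e1] at h2
    have e2 : (Sst T w v1 (RingHom.id D) (fun _ => (1 : D)) [] e : St I ι σ D).W =
        fun i v => algebraMap F D (ω i ^ e i) * w i v := by
      funext i v
      show Wv ω w (RingHom.id D) [] e i v = _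
      simp [Wv]
    show IsLoc w lam1 (Sst T w v1 (RingHom.id D) (fun _ => (1 : D)) [] e : St I ι σ D).W
    rw [e2]
    exact h2
  · intro lam1 h1 _
    rw [htl] at h1
    have h2 : HasTw T (algebraMap F D) (fun l => algebraMap F D ((ω l ^ (0 : ℕ))⁻¹))
        (algebraMap F D) := by
      refine ⟨(algebraMap F D).comp (MvPolynomial.eval (fun _ => 1)), ?_, ?_, ?_⟩
      · intro x; simp
      · intro l; simp
      · intro x
        rw [RingHom.comp_apply, MvPolynomial.eval_map]
        congr 1
        have h3 : MvPolynomial.eval₂ (algebraMap T.Lam F) (fun _ : I => (1 : F)) (T.Δ x) =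
            algebraMap T.Lam F (MvPolynomial.eval (fun _ => 1) (T.Δ x)) := by
          rw [MvPolynomial.eval, MvPolynomial.coe_eval₂Hom, MvPolynomial.hom_eval₂]
          simp
        rw [h3, T.counit]
    have e1 : lam1 = algebraMap F D := h1.unique h2
    refine ⟨RingHom.id _, Function.injective_id, ?_, ?_⟩
    · intro c
      show iL a th (QK Q0) w c = iD a th (QK Q0) w (lam1 c)
      rw [e1, iD_base]
      rfl
    · intro i u
      rfl

end Tower

end

end Crest.Agent.R181.PO
end

-- ▼ part R181/LC598g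
section

/-!
R181 (helper598), block B9: the induction step of the tower.
-/

set_option autoImplicit false
set_option linter.unusedSectionVars false
set_option linter.unusedVariables false

namespace Crest.Agent.R181.PO

open UR LOC

noncomputable section

section Step

variable {F D I σ ι : Type} [Field F] [DivisionRing D] [Algebra F D] [Fintype I] [Fintype σ]
  [DecidableEq I] {a : I → ℕ} {th : I → I → F} {ω : I → F} {T : TwD a th ω}
  {Q0 : I → MvPolynomial σ F} {w : I → σ → D} {v1 : ι → Option σ → F}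
  {Ls : List (Stp I ι)} {ops : List I}

theorem LocFin.of_inj {B C : Type} [Ring B] [Ring C] (Ls : List (Stp I ι)) (k : B →+* C)
    (hk : Function.Injective k)
    (lam : F →+* B) (S : St I ι σ B) (h : LocFin a th Q0 w Ls lam S) :
    LocFin a th Q0 w Ls (k.comp lam) (S.map k) := by
  intro ht
  exact fin_loc_map Ls k lam S (h (fin_tuple_of_injective Ls k hk lam S ht))

/-- the elements `tl` over the local ring -/
def tlO {E O : Type} [Ring E] [Ring O] (l : I) (iO : E →+* O) (tO : O) (tl : I → E) (m : I) : O :=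
  if m = l then tO else iO (tl m)

theorem Pk.key (hL : LocHyp T Q0 w) (P : Pk T Q0 w v1 Ls ops) (l : I) (hl : l ∉ ops)
    {E : Type} [DivisionRing E] (i : P.E →+* E) (t : E) (ht : ∀ x, Commute t x)
    (hic : ∀ c, (∀ x, Commute c x) → ∀ x, Commute (i c) x)
    (hLz : ∀ z : P.E, (∀ x, Commute z x) → ∃ L : E →+* LaurentSeries P.E,
      (∀ d, L (i d) = HahnSeries.C d) ∧ L t = HahnSeries.C z + HahnSeries.single 1 1)
    (e : I → ℕ) :
    ∃ (O : Type) (_ : Ring O) (iO : P.E →+* O) (tO : O) (kk : O →+* E)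
      (kS : O →+* PowerSeries P.E) (L : E →+* LaurentSeries P.E) (lamO : F →+* O),
      Function.Injective kk ∧ (∀ x, kk (iO x) = i x) ∧ kk tO = t ∧
      (∀ x, L (i x) = HahnSeries.C x) ∧
      L t = HahnSeries.C (P.j (algebraMap F D ((ω l ^ e l)⁻¹))) + HahnSeries.single 1 1 ∧
      (∀ x, L (kk x) = HahnSeries.ofPowerSeries ℤ P.E (kS x)) ∧
      (∀ c x, Commute (lamO c) x) ∧
      HasTw T ((iO.comp P.j).comp (algebraMap F D)) (tlO l iO tO (tlv ω P.j P.τ ops e)) lamO ∧
      LocFin a th Q0 w Ls lamO (bst ω th (algebraMap F D) (fun k u => v1 k (some u)) w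
        (iO.comp P.j) (tlO l iO tO (tlv ω P.j P.τ ops e))
        (fun m u => iO (Wv ω w P.j ops e m u))) := by
  have hz : ∀ x, Commute (P.j (algebraMap F D ((ω l ^ e l)⁻¹))) x := fun x => P.hF _ x
  obtain ⟨L, hL1, hL2⟩ := hLz _ hz
  obtain ⟨O, rO, iO, tO, kk, ev, kS, h1, h2, h3, h4, h5, h6, h7, h8, h9, h10⟩ :=
    RF2.exists_local P.E E i t ht _ L hL1 hL2
  have hiO : ∀ c, (∀ x, Commute c x) → ∀ x, Commute (iO c) x := by
    intro c hc x
    apply h1
    rw [map_mul, map_mul, h2]
    exact hic c hc _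
  have htl : ∀ m x, Commute (tlv ω P.j P.τ ops e m) x := by
    intro m x
    rw [tlv]
    split_ifs
    · exact P.hτ m x
    · exact P.hF _ x
  have htlO : ∀ m x, Commute (tlO l iO tO (tlv ω P.j P.τ ops e) m) x := by
    intro m x
    rw [tlO]
    split_ifs
    · exact h4 x
    · exact hiO _ (htl m) x
  have hev : ∀ m, ev (tlO l iO tO (tlv ω P.j P.τ ops e) m) = tlv ω P.j P.τ ops e m := by
    intro m
    rw [tlO]
    split_ifs with hm
    · rw [h6, hm, tlv, if_neg hl]
    · rw [h5]
  obtain ⟨lam2, hlam2⟩ := P.ex e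
  have hcomp : ev.comp ((iO.comp P.j).comp (algebraMap F D)) = P.j.comp (algebraMap F D) := by
    ext c
    exact h5 _
  obtain ⟨lamO, hO1, hO2, hO3⟩ := HasTw.lift (T := T) h10
    (lam := (iO.comp P.j).comp (algebraMap F D)) (fun c x => hiO _ (fun y => P.hF c y) x)
    (tl := tlO l iO tO (tlv ω P.j P.τ ops e)) htlO (lam2 := lam2) (by
      rw [hcomp]
      have : (fun l_1 => ev (tlO l iO tO (tlv ω P.j P.τ ops e) l_1)) = tlv ω P.j P.τ ops e :=
        funext hev
      rw [this]
      exact hlam2)
  refine ⟨O, rO, iO, tO, kk, kS, L, lamO, h1, h2, h3, hL1, hL2, h7, hO2, hO1, ?_⟩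
  refine LocFin.of_LU hL Ls ev h9 h10 lamO hO2 _ ?_
  rw [hO3, bst_map]
  have e3 := P.loc e lam2 hlam2
  have e4 : (bst ω th (algebraMap F D) (fun k u => v1 k (some u)) w (ev.comp (iO.comp P.j))
      (fun i => ev (tlO l iO tO (tlv ω P.j P.τ ops e) i))
      (fun i u => ev (iO (Wv ω w P.j ops e i u))) : St I ι σ P.E) =
      Sst T w v1 P.j P.τ ops e := by
    refine bst_congr ?_ ?_ ?_
    · intro x; exact h5 _
    · intro m; exact hev m
    · intro m u; exact h5 _
  rw [e4]
  exact e3

theorem Last0_mono {ν B : Type} [Ring B] {S : St I ι ν B} {l : I} {k : ℕ → ι}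
    (h : ∀ u, S.vec (k (a l - 1)) u = 0) : Last0 a (Stp.mono l k) S := h

theorem Last0_pair {ν B : Type} [Ring B] {S : St I ι ν B} {l m : I} (ha : 1 ≤ a l)
    (hom : S.om l ^ a l = 1) (h : ∀ u, S.tl m * S.W m u = S.W0 m u) :
    Last0 a (Stp.pair l m : Stp I ι) S := by
  intro u
  show (if a l - 1 = a l - 1 then S.th l m else 1) *
      (S.tl m * S.W m u - S.om l ^ (a l - 1 + 1) * S.W0 m u) = 0
  rw [Nat.sub_add_cancel ha, hom, h u, one_mul, sub_self, mul_zero]

/-- the state over the big field, the operator `l` finished with exponent `k` -/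
theorem key_state {E O : Type} [Ring E] [Ring O] {E' : Type} [Ring E'] (j' : D →+* E')
    (τ' : I → E') (l : I) (hl : l ∉ ops)
    (i : E' →+* E) (t : E) (iO : E' →+* O) (tO : O) (kk : O →+* E)
    (h2 : ∀ x, kk (iO x) = i x) (h3 : kk tO = t) (e : I → ℕ) (k : ℕ) :
    (bst ω th (algebraMap F D) (fun k u => v1 k (some u)) w
        (iO.comp j') (tlO l iO tO (tlv ω j' τ' ops (Function.update e l k)))
        (fun m u => iO (Wv ω w j' ops (Function.update e l k) m u)) : St I ι σ O).map kk =
      tws l k (Sst T w v1 (i.comp j') (fun m => if m = l then t else i (τ' m)) (l :: ops) e) := by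
  rw [bst_map]
  refine St.ext ?_ ?_ ?_ ?_ ?_ ?_
  · funext m; exact h2 _
  · funext m m'; exact h2 _
  · funext m
    show kk (tlO l iO tO (tlv ω j' τ' ops (Function.update e l k)) m) =
      tlv ω (i.comp j') (fun m => if m = l then t else i (τ' m)) (l :: ops) e m
    rw [tlO, tlv, tlv]
    by_cases hm : m = l
    · rw [if_pos hm, if_pos (by rw [hm]; exact List.mem_cons_self), if_pos hm, h3]
    · rw [if_neg hm, h2, Function.update_of_ne hm]
      by_cases hmo : m ∈ ops
      · rw [if_pos hmo, if_pos (List.mem_cons_of_mem _ hmo), if_neg hm]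
      · rw [if_neg hmo, if_neg (by
          intro hc; rcases List.mem_cons.1 hc with h | h
          · exact hm h
          · exact hmo h)]
        rfl
  · funext m m'; exact h2 _
  · funext m m'; exact h2 _
  · funext m u
    show kk (iO (Wv ω w j' ops (Function.update e l k) m u)) =
      if m = l then (i.comp j') (algebraMap F D (ω l)) ^ k *
        Wv ω w (i.comp j') (l :: ops) e m u else Wv ω w (i.comp j') (l :: ops) e m u
    rw [h2, Wv, Wv]
    by_cases hm : m = l
    · subst hm
      rw [if_neg hl, if_pos rfl, if_pos List.mem_cons_self, Function.update_self, map_mul,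
        map_pow, map_mul, map_pow, map_pow]
      rfl
    · rw [if_neg hm, Function.update_of_ne hm]
      by_cases hmo : m ∈ ops
      · rw [if_pos hmo, if_pos (List.mem_cons_of_mem _ hmo)]
        rfl
      · rw [if_neg hmo, if_neg (by
          intro hc; rcases List.mem_cons.1 hc with h | h
          · exact hm h
          · exact hmo h)]
        rfl

theorem key_tl {E O : Type} [Ring E] [Ring O] {E' : Type} [Ring E'] (j' : D →+* E')
    (τ' : I → E') (l : I)
    (i : E' →+* E) (t : E) (iO : E' →+* O) (tO : O) (kk : O →+* E)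
    (h2 : ∀ x, kk (iO x) = i x) (h3 : kk tO = t) (e e' : I → ℕ) (he : ∀ m, m ≠ l → e' m = e m)
    (m : I) :
    kk (tlO l iO tO (tlv ω j' τ' ops e') m) =
      tlv ω (i.comp j') (fun m => if m = l then t else i (τ' m)) (l :: ops) e m := by
  rw [tlO, tlv, tlv]
  by_cases hm : m = l
  · rw [if_pos hm, if_pos (by rw [hm]; exact List.mem_cons_self), if_pos hm, h3]
  · rw [if_neg hm, h2, he m hm]
    by_cases hmo : m ∈ ops
    · rw [if_pos hmo, if_pos (List.mem_cons_of_mem _ hmo), if_neg hm]
    · rw [if_neg hmo, if_neg (by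
        intro hc; rcases List.mem_cons.1 hc with h | h
        · exact hm h
        · exact hmo h)]
      rfl

theorem opSteps_good {ml : I → List (ℕ → ι)} {pl : I → List I} {l : I}
    (hpl : ∀ m ∈ pl l, m ≠ l) : ∀ s ∈ opSteps ml pl l, s.op = l ∧ s.good := by
  intro s hs
  rcases List.mem_append.1 hs with h | h
  · obtain ⟨k, _, rfl⟩ := List.mem_map.1 h
    exact ⟨rfl, trivial⟩
  · obtain ⟨m, hm, rfl⟩ := List.mem_map.1 h
    exact ⟨rfl, hpl m hm⟩

theorem Sst_last (hω : ∀ l, ω l ^ a l = 1) (ha : ∀ l, 1 ≤ a l) {ml : I → List (ℕ → ι)}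
    {pl : I → List I} {l : I} (hpl : ∀ m ∈ pl l, m ∉ l :: ops)
    (hml : ∀ k ∈ ml l, ∀ u, v1 (k (a l - 1)) u = 0) {E : Type} [Ring E] (j : D →+* E)
    (τ : I → E) (e : I → ℕ) :
    ∀ s ∈ opSteps ml pl l, Last0 a s (Sst T w v1 j τ (l :: ops) e : St I ι σ E) := by
  intro s hs
  have hom : ∀ m : I, (j (algebraMap F D (ω m))) ^ a m = 1 := by
    intro m
    rw [← map_pow, ← map_pow, hω, map_one, map_one]
  have hω0 : ∀ m, ω m ≠ 0 := by
    intro m h
    have := hω m
    rw [h, zero_pow (by have := ha m; omega)] at this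
    exact zero_ne_one this
  rcases List.mem_append.1 hs with h | h
  · obtain ⟨k, hk, rfl⟩ := List.mem_map.1 h
    refine Last0_mono fun u => ?_
    show j (algebraMap F D (v1 (k (a l - 1)) (some u))) = 0
    rw [hml k hk, map_zero, map_zero]
  · obtain ⟨m, hm, rfl⟩ := List.mem_map.1 h
    refine Last0_pair (ha l) (hom l) fun u => ?_
    show tlv ω j τ (l :: ops) e m * Wv ω w j (l :: ops) e m u = j (w m u)
    rw [tlv, Wv, if_neg (hpl m hm), if_neg (hpl m hm), ← map_mul, ← mul_assoc, ← map_mul,
      inv_mul_cancel₀ (pow_ne_zero _ (hω0 m)), map_one, one_mul]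

end Step

end

end Crest.Agent.R181.PO
end

-- ▼ part R181/LC598h
section

/-!
R181 (helper598), block B9: the induction step of the tower, the output `Pkg`.
-/

set_option autoImplicit false
set_option linter.unusedSectionVars false
set_option linter.unusedVariables false

namespace Crest.Agent.R181.PO

open UR LOC

noncomputable section

section Step

variable {F D I σ ι : Type} [Field F] [DivisionRing D] [Algebra F D] [Fintype I] [Fintype σ]
  [DecidableEq I] {a : I → ℕ} {th : I → I → F} {ω : I → F} {T : TwD a th ω}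
  {Q0 : I → MvPolynomial σ F} {w : I → σ → D} {v1 : ι → Option σ → F}
  {ops : List I}

theorem SK_last (hω : ∀ l, ω l ^ a l = 1) (ha : ∀ l, 1 ≤ a l) {ml : I → List (ℕ → ι)}
    {pl : I → List I} {l : I} 
    (hml : ∀ k ∈ ml l, ∀ u, v1 (k (a l - 1)) u = 0) {R : Type} [Ring R] (jK : KK a th Q0 w →+* R)
    (tl : I → R) (htl : ∀ m ∈ pl l, tl m = 1) :
    ∀ s ∈ opSteps ml pl l, Last0 a s (SK T Q0 w v1 jK tl) := by
  intro s hs
  have hom : ∀ m : I, (jK (iL a th (QK Q0) w (ω m))) ^ a m = 1 := by
    intro m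
    rw [← map_pow, ← map_pow, hω, map_one, map_one]
  rcases List.mem_append.1 hs with h | h
  · obtain ⟨k, hk, rfl⟩ := List.mem_map.1 h
    refine Last0_mono fun u => ?_
    show jK (iL a th (QK Q0) w (v1 (k (a l - 1)) u)) = 0
    rw [hml k hk, map_zero, map_zero]
  · obtain ⟨m, hm, rfl⟩ := List.mem_map.1 h
    refine Last0_pair (ha l) (hom l) fun u => ?_
    show tl m * jK (wU a th (QK Q0) w m u) = jK (wU a th (QK Q0) w m u)
    rw [htl m hm, one_mul]

theorem Pk.step (hL : LocHyp T Q0 w) (hω : ∀ l, ω l ^ a l = 1) (ha : ∀ l, 1 ≤ a l)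
    (ml : I → List (ℕ → ι)) (pl : I → List I) (l : I) (hl : l ∉ ops)
    (hpl : ∀ m ∈ pl l, m ∉ l :: ops)
    (hml : ∀ k ∈ ml l, ∀ u, v1 (k (a l - 1)) u = 0)
    (P : Pk T Q0 w v1 (allSteps ml pl ops) ops) :
    Nonempty (Pk T Q0 w v1 (allSteps ml pl (l :: ops)) (l :: ops)) := by
  obtain ⟨E, dE, i, t, ht, hLz⟩ := RF.exists_ratfun P.E
  have hic : ∀ c : P.E, (∀ x, Commute c x) → ∀ x, Commute (i c) x := by
    obtain ⟨L, h1, h2⟩ := hLz 1 (Commute.one_left)
    intro c hc x
    apply L.injective
    rw [map_mul, map_mul, h1]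
    exact C_comm hc _
  have key := fun e => P.key hL l hl i t ht hic hLz e
  obtain ⟨O, rO, iO, tO, kk, kS, L, lamO, k1, k2, k3, k4, k5, k6, k7, k8, k9⟩ :=
    key (fun _ => 0)
  have : Nontrivial P.𝓛 := P.hinj.nontrivial
  let τ : I → E := fun m => if m = l then t else i (P.τ m)
  let h : E →+* LaurentSeries P.𝓛 := (lsMap P.h).comp L
  let jK : KK a th Q0 w →+* LaurentSeries P.𝓛 := HahnSeries.C.comp P.jK
  have hi : ∀ x, h (i x) = HahnSeries.C (P.h x) := by
    intro x
    show lsMap P.h (L (i x)) = _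
    rw [k4, lsMap_C]
  have hhj : ∀ d, h (i (P.j d)) = jK (iD a th (QK Q0) w d) := by
    intro d
    rw [hi, P.hh]
    rfl
  have hFc : ∀ (c : F) x, Commute (P.h (P.j (algebraMap F D c))) x := by
    intro c x
    rw [P.hh, iD_base]
    exact P.hF' _ x
  have ht' : h t = HahnSeries.C (P.h (P.j (algebraMap F D ((ω l ^ (0 : ℕ))⁻¹)))) +
      HahnSeries.single 1 1 := by
    show lsMap P.h (L t) = _
    rw [k5, map_add, lsMap_C, lsMap_single, map_one]
  have hτ : ∀ m x, Commute (τ m) x := by
    intro m x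
    show Commute (if m = l then t else i (P.τ m)) x
    split_ifs
    · exact ht x
    · exact hic _ (P.hτ m) x
  have hF : ∀ (c : F) x, Commute ((i.comp P.j) (algebraMap F D c)) x :=
    fun c x => hic _ (fun y => P.hF c y) x
  have hτ' : ∀ m x, Commute (h (τ m)) x := by
    intro m x
    show Commute (h (if m = l then t else i (P.τ m))) x
    split_ifs
    · rw [ht']
      exact (C_comm (fun y => hFc _ y) x).add_left (single_comm 1 x)
    · rw [hi]
      exact C_comm (fun y => P.hτ' m y) x
  have hF' : ∀ (c : F) x, Commute (jK (iL a th (QK Q0) w c)) x :=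
    fun c x => C_comm (fun y => P.hF' c y) x
  have hinj : Function.Injective h := RingHom.injective _
  -- the twisting elements
  have etl : ∀ (e e' : I → ℕ) (_ : ∀ m, m ≠ l → e' m = e m) (O' : Type) [Ring O']
      (iO' : P.E →+* O') (tO' : O') (kk' : O' →+* E) (_ : ∀ x, kk' (iO' x) = i x)
      (_ : kk' tO' = t), (fun m => kk' (tlO l iO' tO' (tlv ω P.j P.τ ops e') m)) =
        tlv ω (i.comp P.j) τ (l :: ops) e := by
    intro e e' he O' _ iO' tO' kk' h2 h3
    funext m
    exact key_tl P.j P.τ l i t iO' tO' kk' h2 h3 e e' he m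
  have ecomp : ∀ (O' : Type) [Ring O']
      (iO' : P.E →+* O') (kk' : O' →+* E) (_ : ∀ x, kk' (iO' x) = i x),
      kk'.comp ((iO'.comp P.j).comp (algebraMap F D)) =
        (i.comp P.j).comp (algebraMap F D) := by
    intro O' _ iO' kk' h2
    ext c
    exact h2 _
  have tail : ∀ (e : I → ℕ) (lam1 : F →+* E),
      HasTw T ((i.comp P.j).comp (algebraMap F D)) (tlv ω (i.comp P.j) τ (l :: ops) e) lam1 →
      ∀ k : ℕ, LocFin a th Q0 w (allSteps ml pl ops) lam1
        (tws l k (Sst T w v1 (i.comp P.j) τ (l :: ops) e)) := by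
    intro e lam1 hlam1 k
    obtain ⟨O', rO', iO', tO', kk', kS', L', lamO', k1', k2', k3', k4', k5', k6', k7', k8', k9'⟩ :=
      key (Function.update e l k)
    have h1 := LocFin.of_inj (allSteps ml pl ops) kk' k1' lamO' _ k9'
    have h2 : kk'.comp lamO' = lam1 := by
      have h3 := k8'.map kk'
      rw [ecomp O' iO' kk' k2', etl e (Function.update e l k)
        (fun m hm => Function.update_of_ne hm _ _) O' iO' tO' kk' k2' k3'] at h3
      exact h3.unique hlam1
    rw [h2, key_state P.j P.τ l hl i t iO' tO' kk' k2' k3' e k] at h1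
    exact h1
  have hgood : ∀ s ∈ opSteps ml pl l, s.op = l ∧ s.good :=
    opSteps_good (fun m hm e => hpl m hm (by rw [e]; exact List.mem_cons_self))
  have hcen : ∀ (e : I → ℕ) (lam1 : F →+* E),
      HasTw T ((i.comp P.j).comp (algebraMap F D)) (tlv ω (i.comp P.j) τ (l :: ops) e) lam1 →
      ∀ c x, Commute (lam1 c) x := by
    intro e lam1 h1
    refine h1.central (fun c x => hF c x) ?_
    intro m x
    rw [tlv]
    split_ifs
    · exact hτ m x
    · exact hF _ x
  have hcen' : ∀ (e : I → ℕ) (lam1 : F →+* E),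
      HasTw T ((i.comp P.j).comp (algebraMap F D)) (tlv ω (i.comp P.j) τ (l :: ops) e) lam1 →
      ∀ c x, Commute (h (lam1 c)) x := by
    intro e lam1 h1
    refine (h1.map h).central ?_ ?_
    · intro c x
      show Commute (h (i (P.j (algebraMap F D c)))) x
      rw [hi]
      exact C_comm (fun y => hFc c y) x
    · intro m x
      show Commute (h (tlv ω (i.comp P.j) τ (l :: ops) e m)) x
      rw [tlv]
      split_ifs
      · exact hτ' m x
      · show Commute (h (i (P.j (algebraMap F D _)))) x
        rw [hi]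
        exact C_comm (fun y => hFc _ y) x
  refine ⟨{
    E := E
    𝓛 := LaurentSeries P.𝓛
    j := i.comp P.j
    jK := jK
    h := h
    τ := τ
    hτ := hτ
    hF := hF
    hτ' := hτ'
    hF' := hF'
    hh := hhj
    hinj := hinj
    ex := ?_
    loc := ?_
    inj := ?_ }⟩
  · intro e
    obtain ⟨O', rO', iO', tO', kk', kS', L', lamO', k1', k2', k3', k4', k5', k6', k7', k8', k9'⟩ :=
      key e
    refine ⟨kk'.comp lamO', ?_⟩
    have h3 := k8'.map kk'
    rw [ecomp O' iO' kk' k2', etl e e (fun m hm => rfl) O' iO' tO' kk' k2' k3'] at h3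
    exact h3
  · intro e lam1 hlam1
    refine LocFin.tri hL l (allSteps ml pl ops) lam1 (hcen e lam1 hlam1) (opSteps ml pl l) hgood _
      (Sst_last hω ha hpl hml _ _ e) (tail e lam1 hlam1)
  · intro lam1 hlam1
    refine InjFin.tri hL h hinj lam1 (hcen _ lam1 hlam1) (hcen' _ lam1 hlam1) l
      (allSteps ml pl ops) (Sst T w v1 (i.comp P.j) τ (l :: ops) (fun _ => 0)) _ ?_
      (tail _ lam1 hlam1) ?_ (opSteps ml pl l) hgood ?_
    · -- restriction to the variables `σ`
      rw [SK_pull]
      show _ = (bst ω th (algebraMap F D) (fun k u => v1 k (some u)) w (i.comp P.j) _ _).map h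
      rw [bst_map]
      refine bst_congr (fun x => (hhj x).symm) (fun m => rfl) ?_
      intro m u
      rw [Wv]
      split_ifs
      · exact (hhj _).symm
      · rw [pow_zero, map_one, one_mul]
        exact (hhj _).symm
    · -- specialisation `t ↦ z`
      have hkk : kk.comp lamO = lam1 := by
        have h3 := k8.map kk
        rw [ecomp O iO kk k2, etl (fun _ => 0) (fun _ => 0) (fun m hm => rfl) O iO tO kk k2 k3]
          at h3
        exact h3.unique hlam1
      have hkS : ∀ x, kS (iO x) = PowerSeries.C x := by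
        intro x
        apply HahnSeries.ofPowerSeries_injective (Γ := ℤ)
        rw [← k6, k2, k4, HahnSeries.ofPowerSeries_C]
      have hkSt : kS tO = PowerSeries.C (P.j (algebraMap F D ((ω l ^ (0 : ℕ))⁻¹))) +
          PowerSeries.X := by
        apply HahnSeries.ofPowerSeries_injective (Γ := ℤ)
        rw [← k6, k3, k5, map_add, HahnSeries.ofPowerSeries_C, HahnSeries.ofPowerSeries_X]
      let kSP : O →+* PowerSeries P.𝓛 := (PowerSeries.map P.h).comp kS
      have hkSP : ∀ x, kSP (iO x) = PowerSeries.C (P.h x) := by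
        intro x
        show PowerSeries.map P.h (kS (iO x)) = _
        rw [hkS, PowerSeries.map_C]
      have hof : ∀ x : O, HahnSeries.ofPowerSeries ℤ P.𝓛 (kSP x) = h (kk x) := by
        intro x
        show _ = lsMap P.h (L (kk x))
        rw [k6, lsMap_ofPowerSeries]
        rfl
      have hkSPinj : Function.Injective kSP := by
        intro x y hxy
        apply k1
        apply hinj
        rw [← hof, ← hof, hxy]
      have hofinj : Function.Injective (HahnSeries.ofPowerSeries ℤ P.𝓛) :=
        HahnSeries.ofPowerSeries_injective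
      let lamP : F →+* PowerSeries P.𝓛 := kSP.comp lamO
      have e1 : (HahnSeries.ofPowerSeries ℤ P.𝓛).comp lamP = h.comp lam1 := by
        refine RingHom.ext fun c => ?_
        show HahnSeries.ofPowerSeries ℤ P.𝓛 (kSP (lamO c)) = h (lam1 c)
        rw [hof, ← hkk]
        rfl
      have hlamP : ∀ c x, Commute (lamP c) x := by
        intro c x
        apply hofinj
        rw [map_mul, map_mul]
        have := hcen' _ lam1 hlam1 c (HahnSeries.ofPowerSeries ℤ P.𝓛 x)
        have h2 : HahnSeries.ofPowerSeries ℤ P.𝓛 (lamP c) = h (lam1 c) := RingHom.congr_fun e1 c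
        rw [h2]
        exact this
      let tlP : I → PowerSeries P.𝓛 := fun m => kSP (tlO l iO tO (tlv ω P.j P.τ ops (fun _ => 0)) m)
      let SP : St I ι (Option σ) (PowerSeries P.𝓛) :=
        SK T Q0 w v1 (PowerSeries.C.comp P.jK) tlP
      have e2 : SP.map (HahnSeries.ofPowerSeries ℤ P.𝓛) =
          SK T Q0 w v1 jK (fun m => h (tlv ω (i.comp P.j) τ (l :: ops) (fun _ => 0) m)) := by
        show (SK T Q0 w v1 (PowerSeries.C.comp P.jK) tlP).map _ = _
        rw [SK_map]
        have e3 : (HahnSeries.ofPowerSeries ℤ P.𝓛).comp (PowerSeries.C.comp P.jK) = jK := by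
          refine RingHom.ext fun x => ?_
          exact HahnSeries.ofPowerSeries_C _
        rw [e3]
        congr 1
        funext m
        show HahnSeries.ofPowerSeries ℤ P.𝓛 (kSP _) = _
        rw [hof]
        exact congrArg h (congrFun (etl (fun _ => 0) (fun _ => 0) (fun m hm => rfl) O iO tO kk k2 k3) m)
      have e4 : SP.pull some = (bst ω th (algebraMap F D) (fun k u => v1 k (some u)) w
          (iO.comp P.j) (tlO l iO tO (tlv ω P.j P.τ ops (fun _ => 0)))
          (fun m u => iO (Wv ω w P.j ops (fun _ => 0) m u))).map kSP := by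
        rw [SK_pull, bst_map]
        refine bst_congr ?_ (fun m => rfl) ?_
        · intro x
          show PowerSeries.C (P.jK (iD a th (QK Q0) w x)) = kSP (iO (P.j x))
          rw [hkSP, P.hh]
        · intro m u
          show PowerSeries.C (P.jK (iD a th (QK Q0) w (w m u))) =
            kSP (iO (Wv ω w P.j ops (fun _ => 0) m u))
          rw [hkSP, Wv]
          split_ifs
          · rw [P.hh]
          · rw [pow_zero, map_one, one_mul, P.hh]
      have key2 : InjFin a th Q0 w (allSteps ml pl ops) lamP SP := by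
        refine InjFin.of_map hL (allSteps ml pl ops) (PowerSeries.constantCoeff (R := P.𝓛)) lamP
          hlamP SP ?_ ?_
        · intro ht1
          have h2 := tuple_pull (fun c x => sc_comm a _ _ (fun y => hlamP c y) x) ht1
          have h3 : IsTuple a th Q0 ((sc a (allSteps ml pl ops)).comp lamP)
              (fin a (allSteps ml pl ops) (SP.pull some)).W := by
            rw [fin_pull]; exact h2
          rw [e4] at h3 ⊢
          have h4 := fin_tuple_of_injective (allSteps ml pl ops) kSP hkSPinj lamO _ h3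
          exact fin_loc_map (allSteps ml pl ops) kSP lamO _ (k9 h4)
        · let lam1' : F →+* P.E := ((PowerSeries.constantCoeff (R := P.E)).comp kS).comp lamO
          have h5 : HasTw T (P.j.comp (algebraMap F D)) (tlv ω P.j P.τ ops (fun _ => 0)) lam1' := by
            have h3 := k8.map ((PowerSeries.constantCoeff (R := P.E)).comp kS)
            have h6 : ((PowerSeries.constantCoeff (R := P.E)).comp kS).comp
                ((iO.comp P.j).comp (algebraMap F D)) = P.j.comp (algebraMap F D) := by
              refine RingHom.ext fun c => ?_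
              show PowerSeries.constantCoeff (kS (iO (P.j (algebraMap F D c)))) = _
              rw [hkS]
              simp
            have h7 : (fun m => ((PowerSeries.constantCoeff (R := P.E)).comp kS)
                (tlO l iO tO (tlv ω P.j P.τ ops (fun _ => 0)) m)) =
                tlv ω P.j P.τ ops (fun _ => 0) := by
              funext m
              show PowerSeries.constantCoeff (kS (tlO l iO tO _ m)) = _
              rw [tlO]
              split_ifs with hm
              · rw [hkSt, hm, tlv, if_neg hl]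
                simp
              · rw [hkS]
                simp
            rw [h6, h7] at h3
            exact h3
          have h8 := P.inj lam1' h5
          have h9 : (PowerSeries.constantCoeff (R := P.𝓛)).comp lamP = P.h.comp lam1' := by
            refine RingHom.ext fun c => ?_
            show PowerSeries.constantCoeff (PowerSeries.map P.h (kS (lamO c))) =
              P.h (PowerSeries.constantCoeff (kS (lamO c)))
            rw [← PowerSeries.coeff_zero_eq_constantCoeff_apply, PowerSeries.coeff_map,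
              PowerSeries.coeff_zero_eq_constantCoeff_apply]
          have h10 : SP.map (PowerSeries.constantCoeff (R := P.𝓛)) =
              SK T Q0 w v1 P.jK (fun m => P.h (tlv ω P.j P.τ ops (fun _ => 0) m)) := by
            show (SK T Q0 w v1 (PowerSeries.C.comp P.jK) tlP).map _ = _
            rw [SK_map]
            have e3 : (PowerSeries.constantCoeff (R := P.𝓛)).comp (PowerSeries.C.comp P.jK) =
                P.jK := by
              refine RingHom.ext fun x => ?_
              show PowerSeries.constantCoeff (PowerSeries.C (P.jK x)) = _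
              simp
            rw [e3]
            congr 1
            funext m
            show PowerSeries.constantCoeff (PowerSeries.map P.h (kS (tlO l iO tO _ m))) = _
            rw [tlO]
            split_ifs with hm
            · rw [hkSt, hm, tlv, if_neg hl]
              simp
            · rw [hkS]
              simp
          rw [h9, h10]
          exact h8
      have key3 := InjFin.of_inj (allSteps ml pl ops) (HahnSeries.ofPowerSeries ℤ P.𝓛) hofinj
        lamP SP key2
      rw [e1, e2] at key3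
      exact key3
    · refine SK_last hω ha hml jK _ ?_
      intro m hm
      rw [tlv, if_neg (hpl m hm), pow_zero, inv_one, map_one, map_one, map_one]

end Step

end

end Crest.Agent.R181.PO
end

-- ▼ part R181/LC598i
section

/-!
R181 (helper598), block B9: THE OUTPUT: `Nonempty (Pkg ..)`.
-/

set_option autoImplicit false
set_option linter.unusedSectionVars false
set_option linter.unusedVariables false

namespace Crest.Agent.R181.PO

open UR LOC

noncomputable section

variable {F D I σ ι : Type} [Field F] [DivisionRing D] [Algebra F D] [Fintype I] [Fintype σ]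
  [DecidableEq I] {a : I → ℕ} {th : I → I → F} {ω : I → F} {T : TwD a th ω}
  {Q0 : I → MvPolynomial σ F} {w : I → σ → D} {v1 : ι → Option σ → F}

theorem exists_pk (hL : LocHyp T Q0 w) (hω : ∀ l, ω l ^ a l = 1) (ha : ∀ l, 1 ≤ a l)
    [Nontrivial (KK a th Q0 w)] {r : I → I → Prop} (hirr : ∀ x, ¬ r x x)
    (hasym : ∀ x y, r x y → ¬ r y x)
    (ml : I → List (ℕ → ι)) (pl : I → List I) (hpl : ∀ i, ∀ l ∈ pl i, r i l)
    (hml : ∀ i, ∀ k ∈ ml i, ∀ u, v1 (k (a i - 1)) u = 0) :
    ∀ ops : List I, ops.Pairwise (fun x y => r y x) →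
      Nonempty (Pk T Q0 w v1 (allSteps ml pl ops) ops) := by
  intro ops
  induction ops with
  | nil => intro _; exact Pk.base hL v1
  | cons l ops ih =>
    intro h
    rw [List.pairwise_cons] at h
    obtain ⟨P⟩ := ih h.2
    refine P.step hL hω ha ml pl l (fun h1 => hirr l (h.1 l h1)) ?_ (hml l)
    intro m hm hc
    rcases List.mem_cons.1 hc with h1 | h1
    · subst h1; exact hirr _ (hpl _ _ hm)
    · exact hasym _ _ (hpl l m hm) (h.1 m h1)

theorem exists_pkg (hL : LocHyp T Q0 w) (hω : ∀ l, ω l ^ a l = 1) (ha : ∀ l, 1 ≤ a l)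
    [Nontrivial (KK a th Q0 w)] {r : I → I → Prop} (hirr : ∀ x, ¬ r x x)
    (hasym : ∀ x y, r x y → ¬ r y x)
    (ml : I → List (ℕ → ι)) (pl : I → List I) (hpl : ∀ i, ∀ l ∈ pl i, r i l)
    (hml : ∀ i, ∀ k ∈ ml i, ∀ u, v1 (k (a i - 1)) u = 0)
    (ops : List I) (hops : ops.Pairwise (fun x y => r y x)) (hall : ∀ l, l ∈ ops) :
    Nonempty (Pkg T Q0 w v1 (allSteps ml pl ops)) := by
  obtain ⟨P⟩ := exists_pk hL hω ha hirr hasym ml pl hpl hml ops hops
  have htl : tlv ω P.j P.τ ops (fun _ => 0) = P.τ := by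
    funext l
    rw [tlv, if_pos (hall l)]
  obtain ⟨lam1, hlam1⟩ := P.ex (fun _ => 0)
  have hFc : ∀ (c : F) x, Commute (P.h (P.j (algebraMap F D c))) x := by
    intro c x
    rw [P.hh, iD_base]
    exact P.hF' _ x
  have hSst : (Sst T w v1 P.j P.τ ops (fun _ => 0) : St I ι σ P.E) =
      bst ω th (algebraMap F D) (fun k u => v1 k (some u)) w P.j P.τ (fun i u => P.j (w i u)) := by
    refine bst_congr (fun x => rfl) (fun l => congrFun htl l) ?_
    intro l u
    rw [Wv, if_pos (hall l)]
  have hloc := P.loc (fun _ => 0) lam1 hlam1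
  have hinj := P.inj lam1 hlam1
  have hcen : ∀ c x, Commute (lam1 c) x := by
    refine hlam1.central (fun c x => P.hF c x) ?_
    intro l x
    rw [htl]
    exact P.hτ l x
  have hcen' : ∀ c x, Commute (P.h (lam1 c)) x := by
    refine (hlam1.map P.h).central (fun c x => hFc c x) ?_
    intro l x
    rw [htl]
    exact P.hτ' l x
  rw [htl] at hlam1 hinj
  rw [hSst] at hloc
  exact ⟨{
    E := P.E
    𝓛 := P.𝓛
    j := P.j
    jK := P.jK
    h := P.h
    τ := P.τ
    lam' := lam1
    hτ := P.hτ
    hF := P.hF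
    hlam := hcen
    hτ' := P.hτ'
    hF' := P.hF'
    hlam' := hcen'
    hh := P.hh
    htw := hlam1
    loc := hloc
    inj := hinj }⟩

end

end Crest.Agent.R181.PO
end

-- ▼ part R181/QL68
section

/-!
# The parameters of the tower over the polynomial ring `Λ = ℂ[c, θ]`

`QLam a f i` and `thL i l` are the forms `QF a f i` and the parameters `thF i l` of `AS4` with
coefficients in `Λ = MvPolynomial (Par n) ℂ`; `tw u` is the endomorphism of `Λ` which multiplies the
parameter `θ_il` by the complex number `u i l` and fixes all other parameters.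
-/

set_option autoImplicit false

namespace Crest.Agent.R181.QL

open Crest.Agent.R181.AS

variable {n : ℕ}

/-- The parameter ring `ℂ[c, θ]`. -/
abbrev Lam (n : ℕ) : Type := MvPolynomial (Par n) ℂ

/-- The parameter `c_i` in `Λ`. -/
noncomputable def cL (i : Fin n) : Lam n := MvPolynomial.X (Sum.inl i)

/-- The parameter `c_ijv` in `Λ`. -/
noncomputable def ccL (i j v : Fin n) : Lam n := MvPolynomial.X (Sum.inr (Sum.inl (i, j, v)))

/-- The parameter `θ_il` in `Λ` (`0` unless `i < l`). -/
noncomputable def thL (i l : Fin n) : Lam n :=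
  if i < l then MvPolynomial.X (Sum.inr (Sum.inr (i, l))) else 0

@[simp] theorem algebraMap_cL (i : Fin n) : algebraMap (Lam n) (Fld n) (cL i) = cF i := rfl

@[simp] theorem algebraMap_ccL (i j v : Fin n) :
    algebraMap (Lam n) (Fld n) (ccL i j v) = ccF i j v := rfl

@[simp] theorem algebraMap_thL (i l : Fin n) : algebraMap (Lam n) (Fld n) (thL i l) = thF i l := by
  unfold thL thF
  split
  · rfl
  · rw [map_zero]


/-- The form `f i` with coefficients in `Λ`. -/
noncomputable def fL (f : Fin n → MvPolynomial (Fin n) ℂ) (i : Fin n) :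
    MvPolynomial (Fin n) (Lam n) := MvPolynomial.map (algebraMap ℂ (Lam n)) (f i)

/-- The forms `q_i = c_i f_i + ∑_{j<i} ∑_v c_ijv x_v^(a_i-a_j) f_j` over `Λ`. -/
noncomputable def QLam (a : Fin n → ℕ) (f : Fin n → MvPolynomial (Fin n) ℂ) (i : Fin n) :
    MvPolynomial (Fin n) (Lam n) :=
  MvPolynomial.C (cL i) * fL f i + ∑ j ∈ Finset.univ.filter (fun j => j < i), ∑ v,
    MvPolynomial.C (ccL i j v) * (fL f j * MvPolynomial.X v ^ (a i - a j))

@[simp] theorem map_fL (f : Fin n → MvPolynomial (Fin n) ℂ) (i : Fin n) :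
    MvPolynomial.map (algebraMap (Lam n) (Fld n)) (fL f i) = fF f i := by
  unfold fL fF
  rw [MvPolynomial.map_map, ← IsScalarTower.algebraMap_eq]

@[simp] theorem map_QLam (a : Fin n → ℕ) (f : Fin n → MvPolynomial (Fin n) ℂ) (i : Fin n) :
    MvPolynomial.map (algebraMap (Lam n) (Fld n)) (QLam a f i) = QF a f i := by
  unfold QLam QF
  simp only [map_add, map_mul, map_sum, map_pow, MvPolynomial.map_C, MvPolynomial.map_X, map_fL,
    algebraMap_cL, algebraMap_ccL]



/-! ### Twists -/

/-- The endomorphism of `Λ` with `θ_il ↦ u i l • θ_il` which fixes the other parameters. -/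
noncomputable def tw (u : Fin n → Fin n → ℂ) : Lam n →ₐ[ℂ] Lam n :=
  MvPolynomial.aeval (Sum.elim (fun i => MvPolynomial.X (Sum.inl i))
    (Sum.elim (fun p => MvPolynomial.X (Sum.inr (Sum.inl p)))
      (fun q => MvPolynomial.C (u q.1 q.2) * MvPolynomial.X (Sum.inr (Sum.inr q)))))

@[simp] theorem tw_cL (u : Fin n → Fin n → ℂ) (i : Fin n) : tw u (cL i) = cL i := by
  simp [tw, cL]

@[simp] theorem tw_ccL (u : Fin n → Fin n → ℂ) (i j v : Fin n) :
    tw u (ccL i j v) = ccL i j v := by
  simp [tw, ccL]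

@[simp] theorem tw_thL (u : Fin n → Fin n → ℂ) (i l : Fin n) :
    tw u (thL i l) = MvPolynomial.C (u i l) * thL i l := by
  unfold thL
  split
  · simp [tw]
  · simp

theorem tw_comp (u u' : Fin n → Fin n → ℂ) :
    (tw u).comp (tw u') = tw (fun i l => u i l * u' i l) := by
  refine MvPolynomial.algHom_ext fun q => ?_
  rcases q with i | p | q
  · simp [tw]
  · simp [tw]
  · simp only [tw, AlgHom.comp_apply, MvPolynomial.aeval_X, Sum.elim_inr, map_mul,
      MvPolynomial.aeval_C, MvPolynomial.algebraMap_eq]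
    ring

theorem tw_one : tw (fun _ _ => (1 : ℂ)) = AlgHom.id ℂ (Lam n) := by
  refine MvPolynomial.algHom_ext fun q => ?_
  rcases q with i | p | q <;> simp [tw]

/-- The twist as an automorphism, `u i l ≠ 0`. -/
noncomputable def twE (u : Fin n → Fin n → ℂ) (hu : ∀ i l, u i l ≠ 0) : Lam n ≃ₐ[ℂ] Lam n :=
  AlgEquiv.ofAlgHom (tw u) (tw fun i l => (u i l)⁻¹)
    (by rw [tw_comp]; simp only [mul_inv_cancel₀ (hu _ _)]; exact tw_one)
    (by rw [tw_comp]; simp only [inv_mul_cancel₀ (hu _ _)]; exact tw_one)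

@[simp] theorem twE_apply (u : Fin n → Fin n → ℂ) (hu : ∀ i l, u i l ≠ 0) (x : Lam n) :
    twE u hu x = tw u x := rfl

@[simp] theorem map_tw_fL (u : Fin n → Fin n → ℂ) (f : Fin n → MvPolynomial (Fin n) ℂ)
    (i : Fin n) : MvPolynomial.map (tw u : Lam n →+* Lam n) (fL f i) = fL f i := by
  unfold fL
  rw [MvPolynomial.map_map, AlgHom.comp_algebraMap]

/-- The twist fixes the coefficients of the forms `q_i`. -/
@[simp] theorem map_tw_QLam (u : Fin n → Fin n → ℂ) (a : Fin n → ℕ)
    (f : Fin n → MvPolynomial (Fin n) ℂ) (i : Fin n) :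
    MvPolynomial.map (tw u : Lam n →+* Lam n) (QLam a f i) = QLam a f i := by
  unfold QLam
  simp only [map_add, map_mul, map_sum, map_pow, MvPolynomial.map_C, MvPolynomial.map_X,
    map_tw_fL, RingHom.coe_coe, tw_cL, tw_ccL]


/-- The twist as an automorphism of the field of fractions. -/
noncomputable def twF (u : Fin n → Fin n → ℂ) (hu : ∀ i l, u i l ≠ 0) : Fld n ≃+* Fld n :=
  IsFractionRing.ringEquivOfRingEquiv (K := Fld n) (L := Fld n)
    (twE u hu : Lam n ≃+* Lam n)

@[simp] theorem twF_algebraMap (u : Fin n → Fin n → ℂ) (hu : ∀ i l, u i l ≠ 0) (x : Lam n) :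
    twF u hu (algebraMap (Lam n) (Fld n) x) = algebraMap (Lam n) (Fld n) (tw u x) := by
  unfold twF
  rw [IsFractionRing.ringEquivOfRingEquiv_algebraMap]
  rfl

@[simp] theorem twF_thF (u : Fin n → Fin n → ℂ) (hu : ∀ i l, u i l ≠ 0) (i l : Fin n) :
    twF u hu (thF i l) = algebraMap ℂ (Fld n) (u i l) * thF i l := by
  rw [← algebraMap_thL, twF_algebraMap, tw_thL, map_mul]
  rfl

@[simp] theorem map_twF_QF (u : Fin n → Fin n → ℂ) (hu : ∀ i l, u i l ≠ 0) (a : Fin n → ℕ)
    (f : Fin n → MvPolynomial (Fin n) ℂ) (i : Fin n) :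
    MvPolynomial.map (twF u hu : Fld n →+* Fld n) (QF a f i) = QF a f i := by
  have h : (twF u hu : Fld n →+* Fld n).comp (algebraMap (Lam n) (Fld n)) =
      (algebraMap (Lam n) (Fld n)).comp (tw u : Lam n →+* Lam n) :=
    RingHom.ext fun x => twF_algebraMap u hu x
  rw [← map_QLam, MvPolynomial.map_map, h, ← MvPolynomial.map_map, map_tw_QLam]

end Crest.Agent.R181.QL
end

-- ▼ part R181/TD659a
section

/-!
# The parameters of the tower over the concrete field: coaction, twists, roots of unity

`AS.twD`: `Fld (r + 1)` is the field of fractions of `Λ = ℂ[c, cc, θ]`, with the coaction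
`θ_il ↦ θ_il X_l ^ a_i`.
-/

set_option autoImplicit false
set_option linter.unusedSectionVars false

namespace Crest.Agent.R181.AS

open Crest.Agent.R181.QL

noncomputable section

variable {r : ℕ}

/-- the primitive root of unity of order `a (l + 1)` in `ℂ` -/
def zC (a : Fin (r + 1) → ℕ) (l : Fin r) : ℂ := Complex.exp (2 * Real.pi * Complex.I / a l.succ)

theorem isPrimitiveRoot_zC (a : Fin (r + 1) → ℕ) (ha2 : ∀ i, 2 ≤ a i) (l : Fin r) :
    IsPrimitiveRoot (zC a l) (a l.succ) :=
  Complex.isPrimitiveRoot_exp _ (by have := ha2 l.succ; omega)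

/-- the roots of unity in the field -/
def om (a : Fin (r + 1) → ℕ) (l : Fin r) : Fld (r + 1) := algebraMap ℂ (Fld (r + 1)) (zC a l)

theorem isPrimitiveRoot_om (a : Fin (r + 1) → ℕ) (ha2 : ∀ i, 2 ≤ a i) (l : Fin r) :
    IsPrimitiveRoot (om a l) (a l.succ) :=
  (isPrimitiveRoot_zC a ha2 l).map_of_injective (algebraMap ℂ (Fld (r + 1))).injective

theorem om_pow (a : Fin (r + 1) → ℕ) (ha2 : ∀ i, 2 ≤ a i) (l : Fin r) :
    om a l ^ a l.succ = 1 := (isPrimitiveRoot_om a ha2 l).pow_eq_one

/-- the monomial of `θ_il` -/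
def mon (a : Fin (r + 1) → ℕ) (i l : Fin (r + 1)) : MvPolynomial (Fin r) (Lam (r + 1)) :=
  Fin.cases 1 (fun l => MvPolynomial.X l ^ a i) l

@[simp] theorem mon_succ (a : Fin (r + 1) → ℕ) (i : Fin (r + 1)) (l : Fin r) :
    mon a i l.succ = MvPolynomial.X l ^ a i := rfl

@[simp] theorem mon_zero (a : Fin (r + 1) → ℕ) (i : Fin (r + 1)) : mon a i 0 = 1 := rfl

/-- the coaction -/
def coΔ (a : Fin (r + 1) → ℕ) : Lam (r + 1) →+* MvPolynomial (Fin r) (Lam (r + 1)) :=
  MvPolynomial.eval₂Hom (MvPolynomial.C.comp MvPolynomial.C)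
    (Sum.elim (fun i => MvPolynomial.C (MvPolynomial.X (Sum.inl i)))
      (Sum.elim (fun p => MvPolynomial.C (MvPolynomial.X (Sum.inr (Sum.inl p))))
        (fun q => MvPolynomial.C (MvPolynomial.X (Sum.inr (Sum.inr q))) * mon a q.1 q.2)))

theorem coΔ_C (a : Fin (r + 1) → ℕ) (z : ℂ) :
    coΔ a (MvPolynomial.C z) = MvPolynomial.C (MvPolynomial.C z) := by
  simp [coΔ]

theorem coΔ_cL (a : Fin (r + 1) → ℕ) (i : Fin (r + 1)) : coΔ a (cL i) = MvPolynomial.C (cL i) := by
  simp [coΔ, cL]

theorem coΔ_ccL (a : Fin (r + 1) → ℕ) (i j v : Fin (r + 1)) :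
    coΔ a (ccL i j v) = MvPolynomial.C (ccL i j v) := by
  simp [coΔ, ccL]

theorem coΔ_thL (a : Fin (r + 1) → ℕ) (i l : Fin (r + 1)) :
    coΔ a (thL i l) = MvPolynomial.C (thL i l) * mon a i l := by
  unfold thL
  split
  · simp [coΔ]
  · simp

/-- the twist of `Λ` by roots of unity is the coaction evaluated -/
theorem algebraMap_tw (a : Fin (r + 1) → ℕ) (e : Fin r → ℂ) (x : Lam (r + 1)) :
    algebraMap (Lam (r + 1)) (Fld (r + 1)) (tw (fun i l => Fin.cases 1 (fun l => e l ^ a i) l) x) =
      MvPolynomial.eval (fun l => algebraMap ℂ (Fld (r + 1)) (e l))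
        (MvPolynomial.map (algebraMap (Lam (r + 1)) (Fld (r + 1))) (coΔ a x)) := by
  induction x using MvPolynomial.induction_on with
  | C z =>
    rw [coΔ_C, MvPolynomial.map_C, MvPolynomial.eval_C]
    congr 1
    exact AlgHom.commutes _ z
  | add p q hp hq => simp only [map_add, hp, hq]
  | mul_X p w hp =>
    rw [map_mul, map_mul, map_mul, map_mul, map_mul, hp]
    congr 1
    rcases w with i | p | ⟨i, l⟩
    · simp [tw, coΔ]
    · simp [tw, coΔ]
    · refine Fin.cases ?_ (fun l => ?_) l
      · simp [tw, coΔ]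
      · simp only [tw, MvPolynomial.aeval_X, Sum.elim_inr, Fin.cases_succ, map_mul, map_pow, coΔ,
          MvPolynomial.coe_eval₂Hom, MvPolynomial.eval₂_X, mon_succ, MvPolynomial.map_C,
          MvPolynomial.map_X, MvPolynomial.eval_C, MvPolynomial.eval_X]
        rw [mul_comm]
        congr 2

theorem eval_coΔ_X (a : Fin (r + 1) → ℕ) (w : Par (r + 1)) :
    MvPolynomial.eval (fun _ => (1 : Lam (r + 1))) (coΔ a (MvPolynomial.X w)) =
      MvPolynomial.X w := by
  rcases w with i | p | ⟨i, l⟩
  · rw [coΔ, MvPolynomial.coe_eval₂Hom, MvPolynomial.eval₂_X, Sum.elim_inl, MvPolynomial.eval_C]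
  · rw [coΔ, MvPolynomial.coe_eval₂Hom, MvPolynomial.eval₂_X, Sum.elim_inr, Sum.elim_inl,
      MvPolynomial.eval_C]
  · rw [coΔ, MvPolynomial.coe_eval₂Hom, MvPolynomial.eval₂_X, Sum.elim_inr, Sum.elim_inr,
      map_mul, MvPolynomial.eval_C]
    have h : MvPolynomial.eval (fun _ => (1 : Lam (r + 1))) (mon a i l) = 1 := by
      refine Fin.cases ?_ (fun l => ?_) l
      · rw [mon_zero, map_one]
      · rw [mon_succ, map_pow, MvPolynomial.eval_X, one_pow]
    rw [h, mul_one]

theorem eval_coΔ (a : Fin (r + 1) → ℕ) (x : Lam (r + 1)) :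
    MvPolynomial.eval (fun _ => (1 : Lam (r + 1))) (coΔ a x) = x := by
  have h : ((MvPolynomial.eval (fun _ => (1 : Lam (r + 1)))).comp (coΔ a)) =
      RingHom.id (Lam (r + 1)) := by
    refine MvPolynomial.ringHom_ext (fun z => ?_) (fun w => ?_)
    · rw [RingHom.comp_apply, coΔ_C, MvPolynomial.eval_C]
      rfl
    · rw [RingHom.comp_apply, eval_coΔ_X]
      rfl
  exact RingHom.congr_fun h x

variable (a : Fin (r + 1) → ℕ) (f : Fin (r + 1) → MvPolynomial (Fin (r + 1)) ℂ)
  (ha : Monotone a) (ha2 : ∀ i, 2 ≤ a i) (hf : ∀ i, (f i).IsHomogeneous (a i))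

/-- **the parameter data** -/
def twD : PO.TwD (dat a f ha ha2 hf).a (dat a f ha ha2 hf).th (om a) where
  Lam := Lam (r + 1)
  Δ := coΔ a
  hth i l := ⟨thL i.succ l.succ, algebraMap_thL _ _, coΔ_thL a _ _⟩
  counit x := eval_coΔ a x
  auto e := by
    have hne : ∀ l, (zC a l ^ e l)⁻¹ ≠ 0 := fun l =>
      inv_ne_zero (pow_ne_zero _ ((isPrimitiveRoot_zC a ha2 l).ne_zero (by
        have := ha2 l.succ; omega)))
    refine ⟨twF (fun i l => Fin.cases 1 (fun l => ((zC a l ^ e l)⁻¹) ^ a i) l) ?_, fun x => ?_⟩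
    · intro i l
      refine Fin.cases one_ne_zero (fun l => pow_ne_zero _ (hne l)) l
    · rw [twF_algebraMap, algebraMap_tw a (fun l => (zC a l ^ e l)⁻¹)]
      congr 2
      funext l
      rw [map_inv₀, map_pow]
      rfl

theorem map_coΔ_QLam (i : Fin (r + 1)) : MvPolynomial.map (coΔ a) (QLam a f i) =
    MvPolynomial.map MvPolynomial.C (QLam a f i) := by
  have hfL : ∀ j, MvPolynomial.map (coΔ a) (fL f j) = MvPolynomial.map MvPolynomial.C (fL f j) := by
    intro j
    unfold fL
    have h : (coΔ a).comp (algebraMap ℂ (Lam (r + 1))) =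
        (MvPolynomial.C : Lam (r + 1) →+* MvPolynomial (Fin r) (Lam (r + 1))).comp
          (algebraMap ℂ (Lam (r + 1))) := RingHom.ext fun z => coΔ_C a z
    rw [MvPolynomial.map_map, MvPolynomial.map_map, h]
  unfold QLam
  simp only [map_add, map_mul, map_sum, map_pow, MvPolynomial.map_C, MvPolynomial.map_X, hfL,
    coΔ_cL, coΔ_ccL]

/-- **the coefficients of the forms are fixed** -/
theorem coeff_mem_fixed (l : Fin r) (m : Fin (r + 1) →₀ ℕ) :
    ((dat a f ha ha2 hf).Q l).coeff m ∈ (twD a f ha ha2 hf).fixed := by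
  refine ⟨(QLam a f l.succ).coeff m, ?_, ?_⟩
  · show coΔ a _ = MvPolynomial.C _
    have h := congrArg (fun p => MvPolynomial.coeff m p) (map_coΔ_QLam a f l.succ)
    simp only [MvPolynomial.coeff_map] at h
    exact h
  · show algebraMap (Lam (r + 1)) (Fld (r + 1)) _ = (QF a f l.succ).coeff m
    rw [← map_QLam, MvPolynomial.coeff_map]
    rfl

end

end Crest.Agent.R181.AS
end

-- ▼ part R181/LOC773b
section

/-!
# Stably full matrices (helper773)

`StFull A`: the square matrix `A ⊕ 1_r` never factors through a smaller size.  This is intrinsic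
(preserved by ring automorphisms).  If all finitely generated projectives over `T` are stably free,
`T` is hereditary and has a positive model, then the stably full matrices are exactly the matrices
inverted by the skew field `D = T_Σ`.
-/

set_option autoImplicit false
set_option linter.unusedSectionVars false

open Matrix

namespace Crest.Agent.R181.TW

section stfull

theorem StFull.of_map {T S : Type} [Ring T] [Ring S] (f : T →+* S) {m : ℕ}
    {A : Matrix (Fin m) (Fin m) T} (h : StFull (A.map f)) : StFull A := by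
  intro k r P Q hPQ
  refine h k r (P.map f) (Q.map f) ?_
  rw [← Matrix.map_mul, hPQ, Matrix.fromBlocks_map, Matrix.map_zero _ (map_zero f),
    Matrix.map_zero _ (map_zero f), Matrix.map_one _ (map_zero f) (map_one f)]

theorem StFull.map_equiv {T S : Type} [Ring T] [Ring S] (e : T ≃+* S) {m : ℕ}
    {A : Matrix (Fin m) (Fin m) T} (h : StFull A) : StFull (A.map e) := by
  apply StFull.of_map (e.symm : S →+* T)
  have : (A.map e).map (e.symm : S →+* T) = A := by ext i j; simp
  rw [this]
  exact h

theorem stFull_of_isUnit {D : Type} [DivisionRing D] {m : ℕ} {A : Matrix (Fin m) (Fin m) D}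
    (h : IsUnit A) : StFull A := by
  intro k r P Q hPQ
  have hU : IsUnit (Matrix.fromBlocks A 0 0 (1 : Matrix (Fin r) (Fin r) D)) := by
    obtain ⟨u, hu⟩ := h
    refine ⟨⟨Matrix.fromBlocks A 0 0 1, Matrix.fromBlocks (u⁻¹).val 0 0 1, ?_, ?_⟩, rfl⟩
    · rw [Matrix.fromBlocks_multiply, ← hu]; simp
    · rw [Matrix.fromBlocks_multiply, ← hu]; simp
  obtain ⟨v, hv⟩ := hU
  have h1 : P * (Q * (v⁻¹).val) = 1 := by
    rw [← Matrix.mul_assoc, hPQ, ← hv, Units.mul_inv]
  have h2 : rkE (P * (Q * (v⁻¹).val)) ≤ k := by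
    refine (rkE_mul_right _ _).trans ?_
    have := rkE_mul_left (1 : Matrix (Fin k) (Fin k) D) (Q * (v⁻¹).val)
    rw [Matrix.one_mul, rkE_one, Fintype.card_fin] at this
    exact this
  rw [h1, rkE_one] at h2
  simpa using h2

theorem stFull_of_isUnit_map {T D : Type} [Ring T] [DivisionRing D] (φ : T →+* D) {m : ℕ}
    {A : Matrix (Fin m) (Fin m) T} (h : IsUnit (A.map φ)) : StFull A :=
  (stFull_of_isUnit h).of_map φ



end stfull

end Crest.Agent.R181.TW
end

-- ▼ part R181/LOC773c
section

/-!
# Points of the levels of the tower: uniqueness, locality, twists (helper773)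
-/

set_option autoImplicit false
set_option linter.unusedSectionVars false

open Matrix

namespace Crest.Agent.R181.LOC

open TW UR

section

variable {F I : Type} [Field F] [Fintype I] {n : ℕ} {d : Dat F I n}

/-- the point `(lam, W)` extends to the skew field of the level -/
def IsLoc {i : ℕ} (X : Lvl d i) {B : Type} [Ring B] (lam : F →+* B) (W : I → Vr i → B) : Prop :=
  ∃ f : X.D →+* B, (∀ c, f (algebraMap F X.D c) = lam c) ∧ ∀ l v, f (X.w l v) = W l v

theorem step_iD {i : ℕ} {X : Lvl d i} {Y : Lvl d (i + 1)} (s : Step X Y) (c : F) :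
    s.φ (iD _ _ _ _ (algebraMap F X.D c)) = algebraMap F Y.D c := by
  rw [iD_base, ← s.alg]; rfl

/-- **uniqueness** -/
theorem hom_ext {i : ℕ} {X : Lvl d i} (c : Chain d i X) {B : Type} [Ring B] {f g : X.D →+* B}
    (hF : ∀ c, f (algebraMap F X.D c) = g (algebraMap F X.D c))
    (hw : ∀ l v, f (X.w l v) = g (X.w l v)) : f = g := by
  induction c with
  | base => exact RingHom.ext hF
  | @step i X Y c s ih =>
    apply s.univ.ext
    apply hom_ext'
    · intro x
      refine RingHom.congr_fun (ih (f := (f.comp s.φ).comp (iD _ _ _ _))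
        (g := (g.comp s.φ).comp (iD _ _ _ _)) ?_ ?_) x
      · intro c
        simp only [RingHom.comp_apply, step_iD]
        exact hF c
      · intro l v
        have := hw l (some v)
        rw [← s.hw] at this
        exact this
    · intro c
      simp only [RingHom.comp_apply, s.alg]
      exact hF c
    · intro l
      have := hw l none
      rw [← s.hw] at this
      exact this

/-- restriction of a tuple to the lower level -/
theorem tuple_restrict {i : ℕ} {B : Type} [Ring B] {lam : F →+* B} (hlam : ∀ x b, Commute (lam x) b)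
    {W : I → Vr (i + 1) → B} (ht : IsTuple d.a d.th (d.Qr (i + 1)) lam W) :
    IsTuple d.a d.th (d.Qr i) lam (fun l v => W l (some v)) := by
  classical
  let X : Option (Vr i) → Vr i → F := fun v v' => match v with
    | none => 0
    | some v => if v = v' then 1 else 0
  have h := ht.subst (σ' := Vr i) (RingHom.id B) (RingHom.id F) lam lam hlam X rfl (fun _ => rfl)
  have e1 : (fun l => subL (RingHom.id F) X (d.Qr (i + 1) l)) = d.Qr i := by
    funext l
    have h1 : ∀ t : Fin n, subL (RingHom.id F) X (vars F (i + 1) t) = vars F i t := by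
      intro t
      rw [vars]
      split_ifs with ht
      · rw [vars_eq_zero F i t (by omega), subL_X]
        simp [X]
      · have h2 : ∀ p : MvPolynomial (Vr i) F,
            subL (RingHom.id F) X (MvPolynomial.rename some p) = p := by
          intro p
          induction p using MvPolynomial.induction_on with
          | C c => simp
          | add p q hp hq => rw [map_add, map_add, hp, hq]
          | mul_X p v hp =>
            rw [map_mul, map_mul, hp, MvPolynomial.rename_X, subL_X]
            simp [X]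
        exact h2 _
    have h3 : ∀ p : MvPolynomial (Fin n) F,
        subL (RingHom.id F) X (MvPolynomial.aeval (vars F (i + 1)) p) =
          MvPolynomial.aeval (vars F i) p := by
      intro p
      induction p using MvPolynomial.induction_on with
      | C c => simp
      | add p q hp hq => rw [map_add, map_add, map_add, hp, hq]
      | mul_X p v hp => rw [map_mul, map_mul, map_mul, hp, MvPolynomial.aeval_X,
          MvPolynomial.aeval_X, h1]
    exact h3 _
  have e2 : (fun l v' => ∑ v, (RingHom.id B) (W l v) * lam (X v v')) =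
      fun l v => W l (some v) := by
    funext l v'
    rw [Fintype.sum_option]
    simp [X]
  rw [e1, e2] at h
  exact h

/-- **locality**: a point over `B` extends if its image over `B'` does, for `g : B → B'` which
reflects invertibility of matrices. -/
theorem isLoc_of_LU {i : ℕ} {X : Lvl d i} (c : Chain d i X) {B B' : Type} [Ring B] [Ring B']
    (g : B →+* B') (hg : LU g) (lam : F →+* B) (hlam : ∀ x b, Commute (lam x) b)
    (W : I → Vr i → B) (ht : IsTuple d.a d.th (d.Qr i) lam W)
    (h : IsLoc X (g.comp lam) (fun l v => g (W l v))) : IsLoc X lam W := by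
  induction c with
  | base => exact ⟨lam, fun _ => rfl, fun _ v => v.elim⟩
  | @step i X Y c s ih =>
    obtain ⟨f', hf1, hf2⟩ := h
    replace hf2 : ∀ l v, f' (Y.w l v) = g (W l v) := hf2
    have ht' := tuple_restrict hlam ht
    have h2 : ∀ l v, (f'.comp (s.φ.comp (iD _ _ _ _))) (X.w l v) = g (W l (some v)) := by
      intro l v
      have h1 := s.hw l (some v)
      simp only [RingHom.comp_apply]
      rw [← hf2, ← h1]
      rfl
    have h1 : ∀ c : F, (f'.comp (s.φ.comp (iD _ _ _ _))) (algebraMap F X.D c) = g (lam c) := by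
      intro c
      simp only [RingHom.comp_apply, step_iD]
      exact hf1 c
    obtain ⟨f₀, h3, h4⟩ := ih (fun l v => W l (some v)) ht' ⟨_, h1, h2⟩
    obtain ⟨ψ, hψ1, hψ2, hψ3⟩ := exists_lift (a := d.a) (th := d.th) (Q := d.Ql i (dl F i))
      (w := X.w) f₀ lam (fun l => W l none) h3 (fun _ _ => hlam _ _) (fun _ _ => hlam _ _) (by
        rw [d.Ql_dl]
        have e : (ext' (fun i v => f₀ (X.w i v)) fun l => W l none) = W := by
          funext l v
          rcases v with _ | v
          · rfl
          · exact h4 l v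
        rw [e]
        exact ht)
    have hcomp : g.comp ψ = f'.comp s.φ := by
      apply hom_ext'
      · intro x
        have e : g.comp f₀ = f'.comp (s.φ.comp (iD _ _ _ _)) := by
          apply hom_ext c
          · intro c; rw [h1, RingHom.comp_apply, h3]
          · intro l v; rw [h2, RingHom.comp_apply, h4]
        rw [RingHom.comp_apply, hψ1]
        exact RingHom.congr_fun e x
      · intro x
        rw [RingHom.comp_apply, RingHom.comp_apply, hψ2, s.alg, hf1]
        rfl
      · intro l
        rw [RingHom.comp_apply, RingHom.comp_apply, hψ3, ← hf2, ← s.hw]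
        rfl
    obtain ⟨f, hf⟩ := s.univ.lift ψ fun m A hA => by
      apply hg
      have e : (A.map ψ).map g = (A.map s.φ).map f' := by
        have := congrArg (fun χ : X.T →+* B' => A.map χ) hcomp
        exact this
      rw [e]
      exact hA.map f'.mapMatrix
    refine ⟨f, fun c => ?_, fun l v => ?_⟩
    · rw [← s.alg, ← RingHom.comp_apply, hf, hψ2]
    · rw [← s.hw, ← RingHom.comp_apply, hf]
      rcases v with _ | v
      · exact hψ3 l
      · exact (hψ1 _).trans (h4 l v)

/-- twist data: `α` an automorphism of `F` fixing the forms, `α (th i l) = eps l ^ (- a i) th i l` -/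
structure Tw (d : Dat F I n) (α : F ≃+* F) (eps : I → F) : Prop where
  hQ : ∀ l, MvPolynomial.map (α : F →+* F) (d.Q l) = d.Q l
  hth : ∀ i l, α (d.th i l) * eps l ^ d.a i = d.th i l
  he : ∀ l, eps l ^ d.a l = 1

theorem Tw.ne {α : F ≃+* F} {eps : I → F} (h : Tw d α eps) (l : I) : eps l ≠ 0 := by
  intro h0
  have h1 := h.he l
  have h2 := d.ha l
  rw [h0, zero_pow (by omega)] at h1
  exact zero_ne_one h1

theorem Tw.symm {α : F ≃+* F} {eps : I → F} (h : Tw d α eps) :
    Tw d α.symm (fun l => (α.symm (eps l))⁻¹) where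
  hQ l := by
    conv_lhs => rw [← h.hQ l]
    rw [MvPolynomial.map_map]
    have : ((α.symm : F →+* F).comp (α : F →+* F)) = RingHom.id F := by
      ext x; simp
    rw [this, MvPolynomial.map_id]
  hth i l := by
    have h1 := congrArg α.symm (h.hth i l)
    have h2 : α.symm (eps l) ≠ 0 := by
      intro h0
      exact h.ne l ((map_eq_zero α.symm).1 h0)
    rw [map_mul, map_pow, RingEquiv.symm_apply_apply] at h1
    rw [← h1, inv_pow, mul_assoc, mul_inv_cancel₀ (pow_ne_zero _ h2), mul_one]
  he l := by rw [inv_pow, ← map_pow, h.he, map_one, inv_one]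

theorem Tw.map_Qr {α : F ≃+* F} {eps : I → F} (h : Tw d α eps) (i : ℕ) (l : I) :
    MvPolynomial.map (α : F →+* F) (d.Qr i l) = d.Qr i l := by
  have key : ∀ p : MvPolynomial (Fin n) F, MvPolynomial.map (α : F →+* F)
      (MvPolynomial.aeval (vars F i) p) =
      MvPolynomial.aeval (vars F i) (MvPolynomial.map (α : F →+* F) p) := by
    intro p
    induction p using MvPolynomial.induction_on with
    | C c => simp [MvPolynomial.algebraMap_eq]
    | add p q hp hq => simp only [map_add, hp, hq]
    | mul_X p v hp =>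
      simp only [map_mul, hp, MvPolynomial.aeval_X, MvPolynomial.map_X, map_vars]
  rw [Dat.Qr, key, h.hQ]

theorem mp_eq_map {σ : Type} {A B : Type} [CommRing A] [CommRing B] (f : A →+* B)
    (p : MvPolynomial σ A) : mp σ f p = MvPolynomial.map f p := by
  ext α
  rw [MvPolynomial.coeff_map]
  exact mp_coeff f p α

/-- the scaled tuple is a tuple for the twisted structure -/
theorem Tw.tuple {α : F ≃+* F} {eps : I → F} (h : Tw d α eps) {B : Type} [Ring B]
    {lam : F →+* B} (hlam : ∀ x b, Commute (lam x) b) {i : ℕ} {W : I → Vr i → B}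
    (ht : IsTuple d.a d.th (d.Qr i) lam W) :
    IsTuple d.a d.th (d.Qr i) (lam.comp (α : F →+* F)) (fun l v => lam (eps l) * W l v) := by
  have hc : ∀ (x : F) (y : PA B (Vr i)), Commute (cst (Vr i) (lam x)) y := by
    intro x y
    show _ * _ = _ * _
    ext β
    rw [cst_apply, AddMonoidAlgebra.coeff_single_zero_mul, AddMonoidAlgebra.coeff_mul_single_zero]
    exact hlam _ _
  constructor
  · intro l m
    rw [← cst_mul_lf, ← cst_mul_lf]
    calc _ = cst (Vr i) (lam (eps l)) * (lf (W l) * cst (Vr i) (lam (eps m))) * lf (W m) := by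
          simp only [mul_assoc]
      _ = cst (Vr i) (lam (eps l)) * cst (Vr i) (lam (eps m)) * (lf (W l) * lf (W m)) := by
          rw [← (hc (eps m) (lf (W l))).eq]; simp only [mul_assoc]
      _ = cst (Vr i) (lam (eps m)) * cst (Vr i) (lam (eps l)) * (lf (W m) * lf (W l)) := by
          rw [(hc (eps l) _).eq, ht.comm]
      _ = cst (Vr i) (lam (eps m)) * (cst (Vr i) (lam (eps l)) * lf (W m)) * lf (W l) := by
          simp only [mul_assoc]
      _ = _ := by rw [(hc (eps l) (lf (W m))).eq]; simp only [mul_assoc]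
  · intro l
    have hpow : ∀ (m : I) (k : ℕ), (lf fun v => lam (eps m) * W m v) ^ k =
        cst (Vr i) (lam (eps m ^ k)) * lf (W m) ^ k := by
      intro m k
      rw [← cst_mul_lf, (hc (eps m) (lf (W m))).mul_pow, ← map_pow, ← map_pow]
    rw [hpow, h.he, map_one, map_one, one_mul, ht.rel l]
    congr 1
    · rw [← mp_comp]
      rw [mp_eq_map, h.map_Qr]
    · refine Finset.sum_congr rfl fun m _ => ?_
      rw [hpow, ← mul_assoc, ← map_mul]
      congr 2
      simp only [RingHom.comp_apply, Algebra.algebraMap_self, RingHom.id_apply]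
      rw [← map_mul]
      congr 1
      exact (h.hth l m).symm

/-- the twist of `T_{i+1}` -/
theorem exists_twT {i : ℕ} (X : Lvl d i) {α : F ≃+* F} {eps : I → F} (h : Tw d α eps)
    (β : X.D →+* X.D) (hβ1 : ∀ c, β (algebraMap F X.D c) = algebraMap F X.D (α c))
    (hβ2 : ∀ l v, β (X.w l v) = algebraMap F X.D (eps l) * X.w l v) :
    ∃ A : X.T →+* X.T, (∀ x, A (iD _ _ _ _ x) = iD _ _ _ _ (β x)) ∧
      (∀ c, A (iL _ _ _ _ c) = iL _ _ _ _ (α c)) ∧
      ∀ l, A (eta _ _ _ _ l) = iL _ _ _ _ (eps l) * eta _ _ _ _ l := by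
  have h0 : ∀ Q', d.Ql i (dl F i) = Q' → IsTuple d.a d.th Q'
      (iL d.a d.th (d.Ql i (dl F i)) X.w) (wU d.a d.th (d.Ql i (dl F i)) X.w) := by
    intro Q' hQ'
    rw [← hQ']
    exact isTuple_wU _ _ _ _
  have h1 := h.tuple (i := i + 1) (iL_comm d.a d.th (d.Ql i (dl F i)) X.w) (h0 _ (d.Ql_dl i))
  refine exists_lift (a := d.a) (th := d.th) (Q := d.Ql i (dl F i)) (w := X.w)
    ((iD d.a d.th (d.Ql i (dl F i)) X.w).comp β)
    ((iL d.a d.th (d.Ql i (dl F i)) X.w).comp (α : F →+* F))
    (fun l => iL d.a d.th (d.Ql i (dl F i)) X.w (eps l) * eta d.a d.th (d.Ql i (dl F i)) X.w l)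
    ?_ (fun x y => iL_comm _ _ _ _ _ _) (fun x y => iL_comm _ _ _ _ _ _) ?_
  · intro c
    simp only [RingHom.comp_apply, hβ1, iD_base]
    rfl
  · rw [← d.Ql_dl] at h1
    convert h1 using 1
    funext l v
    rcases v with _ | v
    · rfl
    · show iD _ _ _ _ (β (X.w l v)) = _
      rw [hβ2, map_mul, iD_base]
      rfl

/-- **twists extend to the skew fields of the tower** -/
theorem exists_twist {i : ℕ} {X : Lvl d i} (c : Chain d i X) :
    ∀ {α : F ≃+* F} {eps : I → F}, Tw d α eps →
      ∃ β : X.D →+* X.D, (∀ c, β (algebraMap F X.D c) = algebraMap F X.D (α c)) ∧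
        ∀ l v, β (X.w l v) = algebraMap F X.D (eps l) * X.w l v := by
  induction c with
  | base => exact fun {α eps} _ => ⟨(α : F →+* F), fun _ => rfl, fun _ v => v.elim⟩
  | @step i X Y c s ih =>
    intro α eps h
    obtain ⟨β, hβ1, hβ2⟩ := ih h
    obtain ⟨β', hβ1', hβ2'⟩ := ih h.symm
    obtain ⟨A, hA1, hA2, hA3⟩ := exists_twT X h β hβ1 hβ2
    obtain ⟨A', hA1', hA2', hA3'⟩ := exists_twT X h.symm β' hβ1' hβ2'
    have hk1 : ∀ l, α ((α.symm (eps l))⁻¹) * eps l = 1 := fun l => by
      rw [map_inv₀, RingEquiv.apply_symm_apply, inv_mul_cancel₀ (h.ne l)]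
    have hk2 : ∀ l, α.symm (eps l) * (α.symm (eps l))⁻¹ = 1 := fun l =>
      mul_inv_cancel₀ (fun h0 => h.ne l ((map_eq_zero α.symm).1 h0))
    have hb1 : β.comp β' = RingHom.id _ := by
      apply hom_ext c
      · intro x; simp [hβ1, hβ1']
      · intro l v
        simp only [RingHom.comp_apply, hβ2', map_mul, hβ1, hβ2, RingHom.id_apply]
        rw [← mul_assoc, ← map_mul, hk1, map_one, one_mul]
    have hb2 : β'.comp β = RingHom.id _ := by
      apply hom_ext c
      · intro x; simp [hβ1, hβ1']
      · intro l v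
        simp only [RingHom.comp_apply, hβ2, map_mul, hβ1', hβ2', RingHom.id_apply]
        rw [← mul_assoc, ← map_mul, hk2, map_one, one_mul]
    have ha1 : A.comp A' = RingHom.id _ := by
      apply hom_ext'
      · intro x
        simp only [RingHom.comp_apply, hA1', hA1, RingHom.id_apply]
        congr 1
        exact RingHom.congr_fun hb1 x
      · intro x
        simp [hA2', hA2]
      · intro l
        simp only [RingHom.comp_apply, hA3', map_mul, hA2, hA3, RingHom.id_apply]
        rw [← mul_assoc, ← map_mul, hk1, map_one, one_mul]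
    have ha2 : A'.comp A = RingHom.id _ := by
      apply hom_ext'
      · intro x
        simp only [RingHom.comp_apply, hA1', hA1, RingHom.id_apply]
        congr 1
        exact RingHom.congr_fun hb2 x
      · intro x
        simp [hA2', hA2]
      · intro l
        simp only [RingHom.comp_apply, hA3', map_mul, hA2', hA3, RingHom.id_apply]
        rw [← mul_assoc, ← map_mul, hk2, map_one, one_mul]
    let e : X.T ≃+* X.T := RingEquiv.ofRingHom A A' ha1 ha2
    obtain ⟨γ, hγ⟩ := s.univ.lift (s.φ.comp A) fun m M hM => by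
      have h1 : StFull (T := X.T) M := stFull_of_isUnit_map s.φ hM
      exact s.full m (M.map e) (h1.map_equiv e)
    refine ⟨γ, fun x => ?_, fun l v => ?_⟩
    · rw [← s.alg, ← RingHom.comp_apply, hγ, RingHom.comp_apply, hA2, s.alg]
    · rw [← s.hw, ← RingHom.comp_apply, hγ, RingHom.comp_apply, ← s.alg, ← map_mul]
      congr 1
      rcases v with _ | v
      · exact hA3 l
      · show A (iD _ _ _ _ (X.w l v)) = _ * iD _ _ _ _ (X.w l v)
        rw [hA1, hβ2, map_mul, iD_base]
        rfl

/-- the twist as a point over `D` -/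
theorem isLoc_twist {i : ℕ} {X : Lvl d i} (c : Chain d i X) {α : F ≃+* F} {eps : I → F}
    (h : Tw d α eps) : IsLoc X ((algebraMap F X.D).comp (α : F →+* F))
      (fun l v => algebraMap F X.D (eps l) * X.w l v) := by
  obtain ⟨β, h1, h2⟩ := exists_twist c h
  exact ⟨β, h1, h2⟩

end

end Crest.Agent.R181.LOC
end

-- ▼ part R181/LOC773e
section

/-!
# The locality hypotheses of the matrix models for the levels of the tower (helper773)
-/

set_option autoImplicit false
set_option linter.unusedSectionVars false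

namespace Crest.Agent.R181.LOC

open TW UR

section

variable {F I : Type} [Field F] [Fintype I] {n : ℕ} {d : Dat F I n}

theorem auto_fixed {ω : I → F} (T : PO.TwD d.a d.th ω) (e : I → ℕ) (α : F ≃+* F)
    (hα : ∀ x : T.Lam, α (algebraMap T.Lam F x) =
      MvPolynomial.eval (fun l => (ω l ^ e l)⁻¹) (MvPolynomial.map (algebraMap T.Lam F) (T.Δ x)))
    {x : F} (hx : x ∈ T.fixed) : α x = x := by
  obtain ⟨y, hy, rfl⟩ := hx
  have hy' : T.Δ y = MvPolynomial.C y := hy
  rw [hα, hy', MvPolynomial.map_C, MvPolynomial.eval_C]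

theorem tw_of_auto {ω : I → F} (T : PO.TwD d.a d.th ω) (hω : ∀ l, ω l ^ d.a l = 1)
    (hfix : ∀ l m, (d.Q l).coeff m ∈ T.fixed) (e : I → ℕ) (α : F ≃+* F)
    (hα : ∀ x : T.Lam, α (algebraMap T.Lam F x) =
      MvPolynomial.eval (fun l => (ω l ^ e l)⁻¹) (MvPolynomial.map (algebraMap T.Lam F) (T.Δ x))) :
    Tw d α (fun l => ω l ^ e l) where
  hQ l := by
    ext m
    rw [MvPolynomial.coeff_map]
    exact auto_fixed T e α hα (hfix l m)
  hth i l := by
    obtain ⟨x, hx, hΔ⟩ := T.hth i l
    have h0 : ω l ^ e l ≠ 0 := by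
      apply pow_ne_zero
      intro h0
      have h1 := hω l
      have h2 := d.ha l
      rw [h0, zero_pow (by omega)] at h1
      exact zero_ne_one h1
    rw [← hx, hα, hΔ]
    simp only [map_mul, map_pow, MvPolynomial.map_C, MvPolynomial.map_X, MvPolynomial.eval_C,
      MvPolynomial.eval_X]
    rw [inv_pow, mul_assoc, inv_mul_cancel₀ (pow_ne_zero _ h0), mul_one]
  he l := by rw [← pow_mul, mul_comm, pow_mul, hω, one_pow]

/-- **the locality hypotheses hold along the tower** -/
theorem locHyp {i : ℕ} {X : Lvl d i} (c : Chain d i X) {ω : I → F} (T : PO.TwD d.a d.th ω)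
    (hω : ∀ l, ω l ^ d.a l = 1) (hfix : ∀ l m, (d.Q l).coeff m ∈ T.fixed) :
    PO.LocHyp T (d.Qr i) X.w where
  uniq := fun _ _ h1 h2 => hom_ext c h1 h2
  rad := fun g _ hg lam hlam W ht h => isLoc_of_LU c g hg lam hlam W ht h
  tw := fun e α hα => isLoc_twist c (tw_of_auto T hω hfix e α hα)

end

end Crest.Agent.R181.LOC
end

-- ▼ part R181/TD659b
section

/-!
# The locality hypotheses for the concrete data of the tower
-/

set_option autoImplicit false
set_option linter.unusedSectionVars false

namespace Crest.Agent.R181.AS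

variable {r : ℕ} (a : Fin (r + 1) → ℕ) (f : Fin (r + 1) → MvPolynomial (Fin (r + 1)) ℂ)
  (ha : Monotone a) (ha2 : ∀ i, 2 ≤ a i) (hf : ∀ i, (f i).IsHomogeneous (a i))

/-- **598's locality hypotheses along every chain of the tower** -/
theorem locHyp {i : ℕ} {X : TW.Lvl (dat a f ha ha2 hf) i} (c : TW.Chain (dat a f ha ha2 hf) i X) :
    PO.LocHyp (twD a f ha ha2 hf) ((dat a f ha ha2 hf).Qr i) X.w :=
  LOC.locHyp c (twD a f ha ha2 hf) (fun l => om_pow a ha2 l)
    (fun l m => coeff_mem_fixed a f ha ha2 hf l m)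

end Crest.Agent.R181.AS
end

-- ▼ part R181/IN776e

/-! R181 (helper776), block B9: the lift statement. -/

set_option autoImplicit false
set_option linter.unusedSectionVars false

namespace Crest.Agent.R181.INL

open UR PO TW IN

/-- coefficients of substituted polynomials -/
theorem coeff_aeval_mem {F : Type} [Field F] {n : ℕ} (S : Subring F) (p : MvPolynomial (Fin n) F)
    (hp : ∀ m, p.coeff m ∈ S) (i : ℕ) (m : Vr i →₀ ℕ) :
    (MvPolynomial.aeval (vars F i) p).coeff m ∈ S := by
  have h1 : p ∈ Set.range (MvPolynomial.map (σ := Fin n) S.subtype) := by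
    rw [MvPolynomial.mem_range_map_iff_coeffs_subset]
    intro x hx
    rw [Finset.mem_coe, MvPolynomial.mem_coeffs_iff] at hx
    obtain ⟨m, -, rfl⟩ := hx
    exact ⟨⟨_, hp m⟩, rfl⟩
  obtain ⟨p', rfl⟩ := h1
  have h2 : MvPolynomial.aeval (vars F i) (MvPolynomial.map S.subtype p') =
      MvPolynomial.map S.subtype (MvPolynomial.aeval (vars S i) p') := by
    have h3 : (MvPolynomial.aeval (vars F i) : MvPolynomial (Fin n) F →ₐ[F] _).toRingHom.comp
        (MvPolynomial.map S.subtype) = (MvPolynomial.map S.subtype).comp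
        (MvPolynomial.aeval (vars S i) : MvPolynomial (Fin n) S →ₐ[S] _).toRingHom := by
      apply MvPolynomial.ringHom_ext
      · intro c
        change MvPolynomial.aeval (vars F i) (MvPolynomial.map S.subtype (MvPolynomial.C c)) =
          MvPolynomial.map S.subtype (MvPolynomial.aeval (vars S i) (MvPolynomial.C c))
        simp
      · intro t
        change MvPolynomial.aeval (vars F i) (MvPolynomial.map S.subtype (MvPolynomial.X t)) =
          MvPolynomial.map S.subtype (MvPolynomial.aeval (vars S i) (MvPolynomial.X t))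
        rw [MvPolynomial.map_X, MvPolynomial.aeval_X, MvPolynomial.aeval_X, map_vars]
    exact RingHom.congr_fun h3 p'
  rw [h2, MvPolynomial.coeff_map]
  exact ((MvPolynomial.aeval (vars S i) p').coeff m).2

theorem liftStmt {r : ℕ} (a : Fin (r + 1) → ℕ) (f : Fin (r + 1) → MvPolynomial (Fin (r + 1)) ℂ)
    (ha : Monotone a) (ha2 : ∀ i, 2 ≤ a i) (hf : ∀ i, (f i).IsHomogeneous (a i)) :
    LiftStmt (AS.dat a f ha ha2 hf) := by
  intro i hi X c Q hQ hres
  classical
  have e : (fun l => BM.res0 (Q l)) = (AS.dat a f ha ha2 hf).Qr i := funext hres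
  have hL : LocHyp (AS.twD a f ha ha2 hf) (fun l => BM.res0 (Q l)) X.w := by
    rw [e]
    exact AS.locHyp a f ha ha2 hf c
  have hw : IsTuple (AS.dat a f ha ha2 hf).a (AS.dat a f ha ha2 hf).th (fun l => BM.res0 (Q l))
      (algebraMap (AS.Fld (r + 1)) X.D) X.w := by
    rw [e]
    exact X.tup
  have ha1 : ∀ l, 1 ≤ (AS.dat a f ha ha2 hf).a l := fun l => by
    have := (AS.dat a f ha ha2 hf).ha l
    omega
  have hω : ∀ l, IsPrimitiveRoot (AS.om a l) ((AS.dat a f ha ha2 hf).a l) := fun l =>
    AS.isPrimitiveRoot_om a ha2 l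
  have hth : ∀ l m, ¬ l < m → (AS.dat a f ha ha2 hf).th l m = 0 := fun l m h => by
    change AS.thF l.succ m.succ = 0
    exact if_neg (by rwa [Fin.succ_lt_succ_iff])
  have hfix : ∀ l m, (BM.res0 (Q l)).coeff m ∈ (AS.twD a f ha ha2 hf).fixed := fun l m => by
    rw [hres]
    exact coeff_aeval_mem _ _ (AS.coeff_mem_fixed a f ha ha2 hf l) i m
  choose ml hml using fun l => BM.exists_list _ (Q l) (hQ l)
  obtain ⟨ops, pl, hops, hops', hpl, hpl'⟩ := exists_ops (I := Fin r)
  have hnt : Nontrivial (KK (AS.dat a f ha ha2 hf).a (AS.dat a f ha ha2 hf).th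
      (fun l => BM.res0 (Q l)) X.w) := (WF.stablyFinite_KE _ _ _ _ hw).1
  obtain ⟨P⟩ := exists_pkg (v1 := v1) hL (fun l => (hω l).pow_eq_one) ha1 (r := (· < ·))
    (fun x => lt_irrefl x) (fun x y => not_lt_of_gt)
    (fun l => (ml l).map (kk ((AS.dat a f ha ha2 hf).a l))) pl (fun l m h => (hpl' l m).1 h)
    (fun l k hk u => by
      rw [List.mem_map] at hk
      obtain ⟨t, -, rfl⟩ := hk
      have : kk ((AS.dat a f ha ha2 hf).a l) t ((AS.dat a f ha ha2 hf).a l - 1) = Sum.inr t.1 := by
        rw [kk, if_neg (by omega)]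
      rw [this]
      rfl) ops hops hops'
  exact lift_of_pkg ha1 hω hth ml hml pl hpl hpl' ops hops hops' hfix P hL hw

end Crest.Agent.R181.INL
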