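import Mathlib

-- ▼ part R181/MK1
section

/-! Integer valued Sylvester matrix rank functions: calculus. -/

set_option autoImplicit false
set_option linter.unusedSectionVars false
open Matrix

namespace Crest.Agent.R181.MK

/-- An integer valued Sylvester matrix rank function on the ring `R`. -/
structure SylRank (R : Type) [Ring R] where
  rk : ∀ {m n : Type}, Matrix m n R → ℕ
  rk_one : rk (1 : Matrix (Fin 1) (Fin 1) R) = 1
  rk_mul_left : ∀ {l m n : Type} [Fintype l] [Fintype m] [Fintype n]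
    (A : Matrix l m R) (B : Matrix m n R), rk (A * B) ≤ rk A
  rk_mul_right : ∀ {l m n : Type} [Fintype l] [Fintype m] [Fintype n]
    (A : Matrix l m R) (B : Matrix m n R), rk (A * B) ≤ rk B
  rk_diag_le : ∀ {m n m' n' : Type} [Fintype m] [Fintype n] [Fintype m'] [Fintype n']
    (A : Matrix m n R) (B : Matrix m' n' R), rk (fromBlocks A 0 0 B) ≤ rk A + rk B
  rk_tri : ∀ {m n m' n' : Type} [Fintype m] [Fintype n] [Fintype m'] [Fintype n']
    (A : Matrix m n R) (C : Matrix m' n R) (B : Matrix m' n' R),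
    rk A + rk B ≤ rk (fromBlocks A 0 C B)

namespace SylRank

variable {R : Type} [Ring R] (ρ : SylRank R)

section
variable {l m n m' n' p q : Type} [Fintype l] [Fintype m] [Fintype n] [Fintype m'] [Fintype n']
  [Fintype p] [Fintype q]

theorem rk_diag (A : Matrix m n R) (B : Matrix m' n' R) :
    ρ.rk (fromBlocks A 0 0 B) = ρ.rk A + ρ.rk B :=
  le_antisymm (ρ.rk_diag_le A B) (ρ.rk_tri A 0 B)

theorem submatrix_eq_mul [DecidableEq m] [DecidableEq n] (A : Matrix m n R) (f : m' → m) (g : n' → n) :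
    A.submatrix f g = ((1 : Matrix m m R).submatrix f id) * A * ((1 : Matrix n n R).submatrix id g) := by
  rw [← Matrix.submatrix_id_id A]
  rw [← Matrix.submatrix_mul (1 : Matrix m m R) A f id id Function.bijective_id]
  rw [Matrix.submatrix_id_id, ← Matrix.submatrix_mul (1 * A) (1 : Matrix n n R) f id g Function.bijective_id]
  simp

theorem rk_submatrix_le (A : Matrix m n R) (f : m' → m) (g : n' → n) :
    ρ.rk (A.submatrix f g) ≤ ρ.rk A := by
  classical
  rw [submatrix_eq_mul]
  exact (ρ.rk_mul_left _ _).trans (ρ.rk_mul_right _ _)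

theorem rk_reindex (A : Matrix m n R) (f : m' ≃ m) (g : n' ≃ n) :
    ρ.rk (A.submatrix f g) = ρ.rk A := by
  refine le_antisymm (ρ.rk_submatrix_le A f g) ?_
  have h := ρ.rk_submatrix_le (A.submatrix f g) f.symm g.symm
  rwa [Matrix.submatrix_submatrix, Equiv.self_comp_symm, Equiv.self_comp_symm,
    Matrix.submatrix_id_id] at h

theorem rk_neg (A : Matrix m n R) : ρ.rk (-A) = ρ.rk A := by
  classical
  have h : ∀ B : Matrix m n R, ρ.rk (-B) ≤ ρ.rk B := by
    intro B
    have : -B = (-1 : Matrix m m R) * B := by simp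
    rw [this]; exact ρ.rk_mul_right _ _
  refine le_antisymm (h A) ?_
  have := h (-A)
  rwa [neg_neg] at this

theorem rk_empty [IsEmpty m] [IsEmpty n] (A : Matrix m n R) : ρ.rk A = 0 := by
  have h1 := ρ.rk_diag (1 : Matrix (Fin 1) (Fin 1) R) A
  have e : fromBlocks (1 : Matrix (Fin 1) (Fin 1) R) 0 0 A
      = (1 : Matrix (Fin 1) (Fin 1) R).submatrix (Equiv.sumEmpty (Fin 1) m) (Equiv.sumEmpty (Fin 1) n) := by
    ext (i | i) (j | j)
    · simp only [fromBlocks_apply₁₁, Matrix.submatrix_apply, Matrix.one_apply]; congr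
    · exact isEmptyElim j
    · exact isEmptyElim i
    · exact isEmptyElim i
  rw [e, ρ.rk_reindex] at h1
  omega

theorem rk_zero : ρ.rk (0 : Matrix m n R) = 0 := by
  have h : (0 : Matrix m n R) = (0 : Matrix m Empty R) * ((0 : Matrix Empty Empty R) * (0 : Matrix Empty n R)) := by
    ext i j; simp [Matrix.mul_apply]
  have h2 := (ρ.rk_mul_right (0 : Matrix m Empty R)
    ((0 : Matrix Empty Empty R) * (0 : Matrix Empty n R))).trans (ρ.rk_mul_left _ _)
  rw [← h, ρ.rk_empty (0 : Matrix Empty Empty R)] at h2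
  omega

theorem rk_eq_zero_of_isEmpty_left [IsEmpty m] (A : Matrix m n R) : ρ.rk A = 0 := by
  have : A = 0 := by ext i; exact isEmptyElim i
  rw [this, rk_zero]


theorem rk_one_fin (k : ℕ) : ρ.rk (1 : Matrix (Fin k) (Fin k) R) = k := by
  induction k with
  | zero => exact ρ.rk_empty _
  | succ k ih =>
    have h := ρ.rk_diag (1 : Matrix (Fin k) (Fin k) R) (1 : Matrix (Fin 1) (Fin 1) R)
    rw [Matrix.fromBlocks_one, ih, ρ.rk_one] at h
    have e : (1 : Matrix (Fin k ⊕ Fin 1) (Fin k ⊕ Fin 1) R)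
      = (1 : Matrix (Fin (k+1)) (Fin (k+1)) R).submatrix finSumFinEquiv finSumFinEquiv := by
      rw [Matrix.submatrix_one_equiv]
    calc ρ.rk (1 : Matrix (Fin (k+1)) (Fin (k+1)) R)
        = ρ.rk ((1 : Matrix (Fin (k+1)) (Fin (k+1)) R).submatrix finSumFinEquiv finSumFinEquiv) :=
          (ρ.rk_reindex _ _ _).symm
      _ = k + 1 := by rw [← e, h]

theorem rk_one' [DecidableEq n] : ρ.rk (1 : Matrix n n R) = Fintype.card n := by
  have e : (1 : Matrix n n R)
      = (1 : Matrix (Fin (Fintype.card n)) (Fin (Fintype.card n)) R).submatrix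
          (Fintype.equivFin n) (Fintype.equivFin n) := by
    rw [Matrix.submatrix_one_equiv]
  rw [e, ρ.rk_reindex, ρ.rk_one_fin]

theorem rk_le_card_left (A : Matrix m n R) : ρ.rk A ≤ Fintype.card m := by
  classical
  have := ρ.rk_mul_left (1 : Matrix m m R) A
  rwa [Matrix.one_mul, ρ.rk_one'] at this

theorem rk_le_card_right (A : Matrix m n R) : ρ.rk A ≤ Fintype.card n := by
  classical
  have := ρ.rk_mul_right A (1 : Matrix n n R)
  rwa [Matrix.mul_one, ρ.rk_one'] at this


theorem rk_unit_mul [DecidableEq m] {U : Matrix m m R} (hU : IsUnit U) (A : Matrix m n R) :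
    ρ.rk (U * A) = ρ.rk A := by
  refine le_antisymm (ρ.rk_mul_right _ _) ?_
  obtain ⟨u, rfl⟩ := hU
  have := ρ.rk_mul_right ((u⁻¹ : (Matrix m m R)ˣ) : Matrix m m R) ((u : Matrix m m R) * A)
  rwa [← Matrix.mul_assoc, Units.inv_mul, Matrix.one_mul] at this

theorem rk_mul_unit [DecidableEq n] {U : Matrix n n R} (hU : IsUnit U) (A : Matrix m n R) :
    ρ.rk (A * U) = ρ.rk A := by
  refine le_antisymm (ρ.rk_mul_left _ _) ?_
  obtain ⟨u, rfl⟩ := hU
  have := ρ.rk_mul_left (A * (u : Matrix n n R)) ((u⁻¹ : (Matrix n n R)ˣ) : Matrix n n R)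
  rwa [Matrix.mul_assoc, Units.mul_inv, Matrix.mul_one] at this

theorem rk_fromRows_le (A : Matrix m n R) (B : Matrix m' n R) :
    ρ.rk (fromRows A B) ≤ ρ.rk A + ρ.rk B := by
  classical
  have : fromRows A B = fromBlocks A (0 : Matrix m n R) (0 : Matrix m' n R) B *
      fromRows (1 : Matrix n n R) (1 : Matrix n n R) := by
    rw [fromBlocks_mul_fromRows]; simp
  rw [this]
  exact (ρ.rk_mul_left _ _).trans (ρ.rk_diag_le A B)

theorem rk_fromCols_le (A : Matrix m n R) (B : Matrix m n' R) :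
    ρ.rk (fromCols A B) ≤ ρ.rk A + ρ.rk B := by
  classical
  have : fromCols A B = fromCols (1 : Matrix m m R) (1 : Matrix m m R) *
      fromBlocks A (0 : Matrix m n' R) (0 : Matrix m n R) B := by
    rw [fromCols_mul_fromBlocks]; simp
  rw [this]
  exact (ρ.rk_mul_right _ _).trans (ρ.rk_diag_le A B)


theorem rk_le_fromRows_right (A : Matrix m n R) (B : Matrix m' n R) :
    ρ.rk B ≤ ρ.rk (fromRows A B) :=
  ρ.rk_submatrix_le (fromRows A B) Sum.inr id

theorem rk_le_fromCols_left (A : Matrix m n R) (B : Matrix m n' R) :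
    ρ.rk A ≤ ρ.rk (fromCols A B) :=
  ρ.rk_submatrix_le (fromCols A B) id Sum.inl

theorem rk_le_fromCols_right (A : Matrix m n R) (B : Matrix m n' R) :
    ρ.rk B ≤ ρ.rk (fromCols A B) :=
  ρ.rk_submatrix_le (fromCols A B) id Sum.inr

/-- `[[1,0],[X,1]]` is a unit. -/
theorem isUnit_lower [DecidableEq m] [DecidableEq n] (X : Matrix n m R) :
    IsUnit (fromBlocks (1 : Matrix m m R) 0 X (1 : Matrix n n R)) := by
  refine ⟨⟨fromBlocks 1 0 X 1, fromBlocks 1 0 (-X) 1, ?_, ?_⟩, rfl⟩ <;>
  simp [fromBlocks_multiply]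

theorem isUnit_upper [DecidableEq m] [DecidableEq n] (X : Matrix m n R) :
    IsUnit (fromBlocks (1 : Matrix m m R) X 0 (1 : Matrix n n R)) := by
  refine ⟨⟨fromBlocks 1 X 0 1, fromBlocks 1 (-X) 0 1, ?_, ?_⟩, rfl⟩ <;>
  simp [fromBlocks_multiply]

/-- upper triangular version of `rk_tri` -/
theorem rk_tri' (A : Matrix m n R) (C : Matrix m n' R) (B : Matrix m' n' R) :
    ρ.rk A + ρ.rk B ≤ ρ.rk (fromBlocks A C 0 B) := by
  have h := ρ.rk_tri B C A
  have e : fromBlocks A C 0 B = (fromBlocks B 0 C A).submatrix (Equiv.sumComm m m') (Equiv.sumComm n n') := by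
    ext (i | i) (j | j) <;> rfl
  rw [e, ρ.rk_reindex]
  omega

theorem rk_fromRows_comm (A : Matrix m n R) (B : Matrix m' n R) :
    ρ.rk (fromRows A B) = ρ.rk (fromRows B A) := by
  have e : fromRows A B = (fromRows B A).submatrix (Equiv.sumComm m m') (Equiv.refl n) := by
    ext (i | i) j <;> rfl
  rw [e, ρ.rk_reindex]


/-- submodularity in the rows -/
theorem rk_submod (P : Matrix p n R) (X : Matrix m n R) (Y : Matrix m' n R) :
    ρ.rk (fromRows P (fromRows X Y)) + ρ.rk P ≤ ρ.rk (fromRows P X) + ρ.rk (fromRows P Y) := by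
  classical
  have h1 := ρ.rk_diag_le (fromRows P X) (fromRows P Y)
  -- row operation
  let U : Matrix ((p ⊕ m) ⊕ (p ⊕ m')) ((p ⊕ m) ⊕ (p ⊕ m')) R :=
    fromBlocks 1 (fromBlocks (-1) 0 0 0) 0 1
  let V : Matrix (n ⊕ n) (n ⊕ n) R := fromBlocks 1 1 0 1
  have hU : IsUnit U := isUnit_upper _
  have hV : IsUnit V := isUnit_upper _
  have h2 : ρ.rk (U * fromBlocks (fromRows P X) 0 0 (fromRows P Y) * V)
      = ρ.rk (fromBlocks (fromRows P X) 0 0 (fromRows P Y)) := by
    rw [ρ.rk_mul_unit hV, ρ.rk_unit_mul hU]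
  have h3 : ρ.rk P + ρ.rk (fromRows P (fromRows X Y))
      ≤ ρ.rk (U * fromBlocks (fromRows P X) 0 0 (fromRows P Y) * V) := by
    have h4 := ρ.rk_tri P (fromRows (0 : Matrix p n R) (fromRows X 0)) (fromRows P (fromRows X Y))
    refine h4.trans ?_
    let f : (p ⊕ (p ⊕ (m ⊕ m'))) → ((p ⊕ m) ⊕ (p ⊕ m')) :=
      Sum.elim (Sum.inl ∘ Sum.inl) (Sum.elim (Sum.inr ∘ Sum.inl)
        (Sum.elim (Sum.inl ∘ Sum.inr) (Sum.inr ∘ Sum.inr)))
    have h5 := ρ.rk_submatrix_le (U * fromBlocks (fromRows P X) 0 0 (fromRows P Y) * V) f id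
    refine le_trans (le_of_eq ?_) h5
    congr 1
    have e : U * fromBlocks (fromRows P X) 0 0 (fromRows P Y) * V
        = fromBlocks (fromRows P X) (fromRows 0 X) 0 (fromRows P Y) := by
      simp only [U, V, fromBlocks_multiply, Matrix.one_mul, Matrix.mul_one, Matrix.mul_zero,
        Matrix.zero_mul, add_zero, zero_add, fromBlocks_mul_fromRows]
      congr 1
      ext (i | i) j <;> simp
    rw [e]
    ext (i | i | i | i) (j | j) <;> simp [f]
  omega

/-- Sylvester's law -/
theorem rk_mul_ge (A : Matrix m n R) (B : Matrix n p R) :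
    ρ.rk A + ρ.rk B ≤ ρ.rk (A * B) + Fintype.card n := by
  classical
  let W : Matrix (m ⊕ n) (p ⊕ n) R := fromBlocks (A * B) 0 0 1
  have h1 : ρ.rk W ≤ ρ.rk (A * B) + Fintype.card n := by
    have := ρ.rk_diag_le (A * B) (1 : Matrix n n R)
    rwa [ρ.rk_one'] at this
  let U : Matrix (m ⊕ n) (m ⊕ n) R := fromBlocks 1 (-A) 0 1
  let V : Matrix (p ⊕ n) (p ⊕ n) R := fromBlocks 1 0 B 1
  have hU : IsUnit U := isUnit_upper _
  have hV : IsUnit V := isUnit_lower _
  have h2 : ρ.rk (U * W * V) = ρ.rk W := by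
    rw [ρ.rk_mul_unit hV, ρ.rk_unit_mul hU]
  have h3 : ρ.rk A + ρ.rk B ≤ ρ.rk (U * W * V) := by
    have h4 := ρ.rk_tri (-A) (1 : Matrix n n R) B
    rw [ρ.rk_neg] at h4
    refine h4.trans ?_
    have h5 := ρ.rk_submatrix_le (U * W * V) id (Equiv.sumComm n p)
    refine le_trans (le_of_eq ?_) h5
    congr 1
    have e : U * W * V = fromBlocks 0 (-A) B 1 := by
      simp only [U, V, W, fromBlocks_multiply, Matrix.one_mul, Matrix.mul_one, Matrix.mul_zero,
        Matrix.zero_mul, add_zero, zero_add]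
      simp
    rw [e]
    ext (i | i) (j | j) <;> simp
  omega

/-- If every row of `Q` depends on `P`, then all of `Q` does. -/
theorem rk_rows_of_forall (P : Matrix p n R) (Q : Matrix q n R)
    (h : ∀ i, ρ.rk (fromRows P (Q.submatrix (fun _ : Unit => i) id)) ≤ ρ.rk P) :
    ρ.rk (fromRows P Q) ≤ ρ.rk P := by
  classical
  have key : ∀ s : Finset q, ρ.rk (fromRows P (Q.submatrix (fun i : s => (i : q)) id)) ≤ ρ.rk P := by
    intro s
    induction s using Finset.induction_on with
    | empty =>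
      have := ρ.rk_fromRows_le P (Q.submatrix (fun i : (∅ : Finset q) => (i : q)) id)
      rwa [ρ.rk_eq_zero_of_isEmpty_left (Q.submatrix (fun i : (∅ : Finset q) => (i : q)) id),
        add_zero] at this
    | insert a s ha ih =>
      have h1 := ρ.rk_submod P (Q.submatrix (fun i : s => (i : q)) id)
        (Q.submatrix (fun _ : Unit => a) id)
      have h2 := h a
      let f : (p ⊕ ((insert a s : Finset q) : Type)) → (p ⊕ ((s : Type) ⊕ Unit)) :=
        Sum.map id (fun i => if hi : (i : q) ∈ s then Sum.inl ⟨i, hi⟩ else Sum.inr ())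
      have h3 := ρ.rk_submatrix_le (fromRows P (fromRows (Q.submatrix (fun i : s => (i : q)) id)
        (Q.submatrix (fun _ : Unit => a) id))) f id
      have e : (fromRows P (fromRows (Q.submatrix (fun i : s => (i : q)) id)
        (Q.submatrix (fun _ : Unit => a) id))).submatrix f id
        = fromRows P (Q.submatrix (fun i : (insert a s : Finset q) => (i : q)) id) := by
        ext (i | i) j
        · simp [f]
        · by_cases hi : (i : q) ∈ s
          · simp [f, hi]
          · have : (i : q) = a := by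
              have := i.2
              rw [Finset.mem_insert] at this
              tauto
            simp only [f, submatrix_apply, Sum.map_inr, hi, dite_false, fromRows_apply_inr, id]
            rw [this]
      rw [e] at h3
      omega
  have h1 := key Finset.univ
  have h2 := ρ.rk_submatrix_le (fromRows P (Q.submatrix (fun i : (Finset.univ : Finset q) => (i : q)) id))
    (Sum.map id (fun i => ⟨i, Finset.mem_univ i⟩)) (id : n → n)
  have e : (fromRows P (Q.submatrix (fun i : (Finset.univ : Finset q) => (i : q)) id)).submatrix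
    (Sum.map id (fun i => ⟨i, Finset.mem_univ i⟩)) (id : n → n) = fromRows P Q := by
    ext (i | i) j <;> simp
  rw [e] at h2
  omega

theorem rk_lower_block (L : Matrix l n R) (Y : Matrix q n R) (P : Matrix p q R) [DecidableEq q] :
    ρ.rk (fromRows (fromBlocks L 0 (-Y) (1 : Matrix q q R)) (fromCols 0 P))
      = Fintype.card q + ρ.rk (fromRows L (P * Y)) := by
  classical
  let U : Matrix ((l ⊕ q) ⊕ p) ((l ⊕ q) ⊕ p) R := fromBlocks 1 0 (fromCols 0 (-P)) 1
  have hU : IsUnit U := isUnit_lower _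
  have h1 : ρ.rk (U * fromRows (fromBlocks L 0 (-Y) (1 : Matrix q q R)) (fromCols 0 P))
    = ρ.rk (fromRows (fromBlocks L 0 (-Y) (1 : Matrix q q R)) (fromCols 0 P)) := ρ.rk_unit_mul hU _
  have e : U * fromRows (fromBlocks L 0 (-Y) (1 : Matrix q q R)) (fromCols 0 P)
      = fromRows (fromBlocks L 0 (-Y) (1 : Matrix q q R)) (fromCols (P * Y) 0) := by
    simp only [U]
    rw [fromBlocks_mul_fromRows, fromCols_mul_fromBlocks]
    simp only [Matrix.one_mul, Matrix.zero_mul, add_zero, zero_add, Matrix.neg_mul, Matrix.mul_neg,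
      neg_neg, Matrix.mul_one]
    congr 1
    ext i (j | j) <;> simp
  rw [← h1, e]
  have e2 : fromRows (fromBlocks L 0 (-Y) (1 : Matrix q q R)) (fromCols (P * Y) 0)
      = (fromBlocks (fromRows L (P * Y)) 0 (-Y) (1 : Matrix q q R)).submatrix
        (((Equiv.sumAssoc l q p).trans ((Equiv.refl l).sumCongr (Equiv.sumComm q p))).trans
          (Equiv.sumAssoc l p q).symm) (Equiv.refl _) := by
    ext ((i | i) | i) (j | j) <;> simp
  rw [e2, ρ.rk_reindex]
  apply le_antisymm
  · rw [← fromRows_fromCols_eq_fromBlocks]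
    refine (ρ.rk_fromRows_le _ _).trans ?_
    have h2 := ρ.rk_le_card_left (fromCols (-Y) (1 : Matrix q q R))
    have h3 := ρ.rk_fromCols_le (fromRows L (P * Y)) (0 : Matrix (l ⊕ p) q R)
    rw [ρ.rk_zero] at h3
    omega
  · have := ρ.rk_tri (fromRows L (P * Y)) (-Y) (1 : Matrix q q R)
    rw [ρ.rk_one'] at this
    omega

/-- Frobenius type inequality: substituting `Y` in a row dependency. -/
theorem rk_frob (L : Matrix l n R) (Y : Matrix q n R) (P₁ : Matrix p q R) (P₂ : Matrix m q R) :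
    ρ.rk (fromRows L (fromRows P₁ P₂ * Y)) + ρ.rk P₁
      ≤ ρ.rk (fromRows L (P₁ * Y)) + ρ.rk (fromRows P₁ P₂) := by
  classical
  have h := ρ.rk_submod (fromCols (0 : Matrix p n R) P₁)
    (fromBlocks L 0 (-Y) (1 : Matrix q q R)) (fromCols (0 : Matrix m n R) P₂)
  have h1 := ρ.rk_lower_block L Y (fromRows P₁ P₂)
  have h2 := ρ.rk_lower_block L Y P₁
  rw [ρ.rk_fromRows_comm] at h2
  have h3 : ρ.rk (fromCols (0 : Matrix p n R) P₁) = ρ.rk P₁ := by
    apply le_antisymm
    · have := ρ.rk_fromCols_le (0 : Matrix p n R) P₁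
      rw [ρ.rk_zero] at this; omega
    · exact ρ.rk_le_fromCols_right _ _
  have h4 : ρ.rk (fromRows (fromCols (0 : Matrix p n R) P₁) (fromCols (0 : Matrix m n R) P₂))
      ≤ ρ.rk (fromRows P₁ P₂) := by
    have e : fromRows (fromCols (0 : Matrix p n R) P₁) (fromCols (0 : Matrix m n R) P₂)
      = fromCols 0 (fromRows P₁ P₂) := by
      ext (i | i) (j | j) <;> simp
    rw [e]
    have := ρ.rk_fromCols_le (0 : Matrix (p ⊕ m) n R) (fromRows P₁ P₂)
    rw [ρ.rk_zero] at this; omega
  have h5 : ρ.rk (fromRows (fromCols (0 : Matrix p n R) P₁)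
      (fromRows (fromBlocks L 0 (-Y) (1 : Matrix q q R)) (fromCols (0 : Matrix m n R) P₂)))
      = ρ.rk (fromRows (fromBlocks L 0 (-Y) (1 : Matrix q q R)) (fromCols 0 (fromRows P₁ P₂))) := by
    have e : fromRows (fromCols (0 : Matrix p n R) P₁)
      (fromRows (fromBlocks L 0 (-Y) (1 : Matrix q q R)) (fromCols (0 : Matrix m n R) P₂))
      = (fromRows (fromBlocks L 0 (-Y) (1 : Matrix q q R)) (fromCols 0 (fromRows P₁ P₂))).submatrix
        ((Equiv.sumAssoc p (l ⊕ q) m).symm.trans (((Equiv.sumComm p (l ⊕ q)).sumCongr (Equiv.refl m)).trans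
          (Equiv.sumAssoc (l ⊕ q) p m))) (Equiv.refl _) := by
      ext (i | (i | i) | i) (j | j) <;> simp
    rw [e, ρ.rk_reindex]
  omega

end

end SylRank

end Crest.Agent.R181.MK
end

-- ▼ part R181/MK2
section

/-! Rank of finite families in a free module, closure, and the universal torsion free quotient
on which all full matrices act bijectively. -/

set_option autoImplicit false
set_option linter.unusedSectionVars false
open Matrix

namespace Crest.Agent.R181.MK

namespace SylRank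

variable {R : Type} [Ring R] (ρ : SylRank R) {ι α κ κ' μ : Type}

/-- coordinate matrix on the finite set of columns `t` -/
def mat (v : κ → ι →₀ R) (t : Finset ι) : Matrix κ t R := fun k i => v k i

def Supp (v : κ → ι →₀ R) (t : Finset ι) : Prop := ∀ k, (v k).support ⊆ t

theorem Supp.mono {v : κ → ι →₀ R} {t t' : Finset ι} (h : Supp v t) (h' : t ⊆ t') : Supp v t' :=
  fun k => (h k).trans h'

theorem exists_supp [Fintype κ] (v : κ → ι →₀ R) : ∃ t, Supp v t := by
  classical
  exact ⟨Finset.univ.biUnion fun k => (v k).support,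
    fun k => Finset.subset_biUnion_of_mem (fun k => (v k).support) (Finset.mem_univ k)⟩

theorem rk_mat_le [Fintype κ] (v : κ → ι →₀ R) (t t' : Finset ι) (h : Supp v t) :
    ρ.rk (mat v t') ≤ ρ.rk (mat v t) := by
  classical
  have e : mat v t' = mat v t * (Matrix.of fun (i : t) (j : t') => if (i : ι) = j then (1 : R) else 0) := by
    ext k j
    rw [Matrix.mul_apply]
    by_cases hj : (j : ι) ∈ t
    · rw [Finset.sum_eq_single (⟨j, hj⟩ : t)]
      · simp [mat]
      · intro i _ hi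
        have : (i : ι) ≠ j := fun h => hi (Subtype.ext h)
        simp [this]
      · simp
    · have h0 : v k j = 0 := by
        by_contra hne
        exact hj (h k (Finsupp.mem_support_iff.2 hne))
      rw [Finset.sum_eq_zero]
      · exact h0
      · intro i _
        have : (i : ι) ≠ j := fun h => hj (h ▸ i.2)
        simp [this]
  rw [e]
  exact ρ.rk_mul_left _ _

/-- rank of a finite family of vectors -/
noncomputable def fr [Fintype κ] (v : κ → ι →₀ R) : ℕ := ρ.rk (mat v (exists_supp v).choose)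

theorem fr_eq [Fintype κ] (v : κ → ι →₀ R) (t : Finset ι) (h : Supp v t) : ρ.fr v = ρ.rk (mat v t) :=
  le_antisymm (ρ.rk_mat_le v _ _ h) (ρ.rk_mat_le v _ _ (exists_supp v).choose_spec)

theorem Supp.elim {v : κ → ι →₀ R} {w : κ' → ι →₀ R} {t : Finset ι} (h : Supp v t) (h' : Supp w t) :
    Supp (Sum.elim v w) t := by
  rintro (k | k)
  · exact h k
  · exact h' k

theorem mat_elim (v : κ → ι →₀ R) (w : κ' → ι →₀ R) (t : Finset ι) :
    mat (Sum.elim v w) t = fromRows (mat v t) (mat w t) := by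
  ext (k | k) i <;> rfl

theorem exists_supp₂ [Fintype κ] [Fintype κ'] (v : κ → ι →₀ R) (w : κ' → ι →₀ R) :
    ∃ t, Supp v t ∧ Supp w t := by
  classical
  obtain ⟨t, ht⟩ := exists_supp v
  obtain ⟨t', ht'⟩ := exists_supp w
  exact ⟨t ∪ t', ht.mono Finset.subset_union_left, ht'.mono Finset.subset_union_right⟩

theorem exists_supp₃ [Fintype κ] [Fintype κ'] [Fintype μ] (v : κ → ι →₀ R) (w : κ' → ι →₀ R)
    (x : μ → ι →₀ R) : ∃ t, Supp v t ∧ Supp w t ∧ Supp x t := by
  classical
  obtain ⟨t, ht, ht'⟩ := exists_supp₂ v w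
  obtain ⟨t'', ht''⟩ := exists_supp x
  exact ⟨t ∪ t'', ht.mono Finset.subset_union_left, ht'.mono Finset.subset_union_left,
    ht''.mono Finset.subset_union_right⟩

theorem fr_le_card [Fintype κ] (v : κ → ι →₀ R) : ρ.fr v ≤ Fintype.card κ := ρ.rk_le_card_left _

/-- matrix action on families -/
noncomputable def act [Fintype κ] (P : Matrix κ' κ R) (v : κ → ι →₀ R) : κ' → ι →₀ R :=
  fun k => ∑ l, P k l • v l

theorem Supp.act [Fintype κ] {v : κ → ι →₀ R} {t : Finset ι} (h : Supp v t) (P : Matrix κ' κ R) :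
    Supp (act P v) t := by
  classical
  intro k
  refine (Finsupp.support_finsetSum).trans ?_
  intro i hi
  rw [Finset.mem_biUnion] at hi
  obtain ⟨l, _, hl⟩ := hi
  exact h l (Finsupp.support_smul hl)

theorem mat_act [Fintype κ] (P : Matrix κ' κ R) (v : κ → ι →₀ R) (t : Finset ι) :
    mat (act P v) t = P * mat v t := by
  ext k i
  simp [mat, SylRank.act, Matrix.mul_apply, Finsupp.finsetSum_apply]

theorem fr_act_le [Fintype κ] [Fintype κ'] (P : Matrix κ' κ R) (v : κ → ι →₀ R) :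
    ρ.fr (act P v) ≤ ρ.fr v := by
  obtain ⟨t, ht⟩ := exists_supp v
  rw [ρ.fr_eq _ t (ht.act P), ρ.fr_eq _ t ht, mat_act]
  exact ρ.rk_mul_right _ _

theorem fr_comp_le [Fintype κ] [Fintype κ'] (v : κ → ι →₀ R) (f : κ' → κ) :
    ρ.fr (v ∘ f) ≤ ρ.fr v := by
  obtain ⟨t, ht⟩ := exists_supp v
  rw [ρ.fr_eq (v ∘ f) t (fun k => ht (f k)), ρ.fr_eq _ t ht]
  exact ρ.rk_submatrix_le (mat v t) f id

theorem fr_le_of_subfamily [Fintype κ] [Fintype κ'] (v : κ → ι →₀ R) (w : κ' → ι →₀ R)
    (h : ∀ k, ∃ l, w l = v k) : ρ.fr v ≤ ρ.fr w := by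
  choose f hf using h
  have : v = w ∘ f := by ext1 k; exact (hf k).symm
  rw [this]
  exact ρ.fr_comp_le _ _

theorem fr_eq_of_subfamily [Fintype κ] [Fintype κ'] (v : κ → ι →₀ R) (w : κ' → ι →₀ R)
    (h : ∀ k, ∃ l, w l = v k) (h' : ∀ l, ∃ k, v k = w l) : ρ.fr v = ρ.fr w :=
  le_antisymm (ρ.fr_le_of_subfamily v w h) (ρ.fr_le_of_subfamily w v h')

theorem fr_submod [Fintype κ] [Fintype κ'] [Fintype μ] (u : μ → ι →₀ R) (v : κ → ι →₀ R)
    (w : κ' → ι →₀ R) :
    ρ.fr (Sum.elim u (Sum.elim v w)) + ρ.fr u ≤ ρ.fr (Sum.elim u v) + ρ.fr (Sum.elim u w) := by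
  obtain ⟨t, h1, h2, h3⟩ := exists_supp₃ u v w
  rw [ρ.fr_eq _ t (h1.elim (h2.elim h3)), ρ.fr_eq _ t h1, ρ.fr_eq _ t (h1.elim h2),
    ρ.fr_eq _ t (h1.elim h3), mat_elim, mat_elim, mat_elim, mat_elim]
  exact ρ.rk_submod _ _ _

theorem fr_rows_of_forall [Fintype κ] [Fintype κ'] (v : κ → ι →₀ R) (w : κ' → ι →₀ R)
    (h : ∀ i, ρ.fr (Sum.elim v (fun _ : Unit => w i)) ≤ ρ.fr v) :
    ρ.fr (Sum.elim v w) ≤ ρ.fr v := by
  obtain ⟨t, h1, h2⟩ := exists_supp₂ v w
  rw [ρ.fr_eq _ t (h1.elim h2), ρ.fr_eq _ t h1, mat_elim]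
  apply ρ.rk_rows_of_forall
  intro i
  have := h i
  rw [ρ.fr_eq _ t h1, ρ.fr_eq _ t (h1.elim (fun _ => h2 i)), mat_elim] at this
  exact this

/-- triangular lower bound -/
theorem fr_tri [Fintype κ] [Fintype κ'] [Fintype μ] (v : κ → ι →₀ R) (w : κ' → ι →₀ R)
    (g : μ → ι) (h : ∀ k j, v k (g j) = 0) :
    ρ.fr v + ρ.rk (Matrix.of fun k j => w k (g j)) ≤ ρ.fr (Sum.elim v w) := by
  classical
  obtain ⟨t, h1, h2⟩ := exists_supp₂ v w
  set t' : Finset ι := t ∪ Finset.univ.image g with ht'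
  have h1' : Supp v t' := h1.mono Finset.subset_union_left
  have h2' : Supp w t' := h2.mono Finset.subset_union_left
  rw [ρ.fr_eq _ t' (h1'.elim h2'), mat_elim]
  set t'' : Finset ι := t \ Finset.univ.image g with ht''
  have h1'' : Supp v t'' := by
    intro k i hi
    rw [ht'', Finset.mem_sdiff]
    refine ⟨h1 k hi, ?_⟩
    intro hi'
    rw [Finset.mem_image] at hi'
    obtain ⟨j, _, rfl⟩ := hi'
    exact Finsupp.mem_support_iff.1 hi (h k j)
  rw [ρ.fr_eq v t'' h1'']
  have h5 := ρ.rk_tri (mat v t'') (mat w t'') (Matrix.of fun k j => w k (g j))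
  refine h5.trans ?_
  let f : (t'' : Type) ⊕ μ → (t' : Type) := Sum.elim
    (fun i => ⟨i.1, Finset.mem_union_left _ (Finset.mem_sdiff.1 i.2).1⟩)
    (fun j => ⟨g j, Finset.mem_union_right _ (Finset.mem_image_of_mem g (Finset.mem_univ j))⟩)
  have h6 := ρ.rk_submatrix_le (fromRows (mat v t') (mat w t')) id f
  refine le_trans (le_of_eq ?_) h6
  congr 1
  ext (k | k) (i | j)
  · rfl
  · exact (h k j).symm
  · rfl
  · rfl

/-- `x` depends on the finite family `v` -/
def Dep [Fintype κ] (v : κ → ι →₀ R) (x : ι →₀ R) : Prop :=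
  ρ.fr (Sum.elim v (fun _ : Unit => x)) ≤ ρ.fr v

theorem Dep.mono [Fintype κ] [Fintype κ'] {v : κ → ι →₀ R} {w : κ' → ι →₀ R} {x : ι →₀ R}
    (h : ρ.Dep v x) (hvw : ∀ k, ∃ l, w l = v k) : ρ.Dep w x := by
  unfold Dep at *
  have h1 := ρ.fr_submod v w (fun _ : Unit => x)
  have h2 : ρ.fr (Sum.elim v w) = ρ.fr w := by
    apply ρ.fr_eq_of_subfamily
    · rintro (k | l)
      · exact hvw k
      · exact ⟨l, rfl⟩
    · intro l; exact ⟨Sum.inr l, rfl⟩
  have h3 : ρ.fr (Sum.elim w (fun _ : Unit => x))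
      ≤ ρ.fr (Sum.elim v (Sum.elim w (fun _ : Unit => x))) := by
    apply ρ.fr_le_of_subfamily
    intro k; exact ⟨Sum.inr k, rfl⟩
  omega

theorem Dep.add [Fintype κ] {v : κ → ι →₀ R} {x y : ι →₀ R} (hx : ρ.Dep v x) (hy : ρ.Dep v y)
    (r s : R) : ρ.Dep v (r • x + s • y) := by
  classical
  have h1 : ρ.fr (Sum.elim v (fun b : Bool => if b then x else y)) ≤ ρ.fr v := by
    apply ρ.fr_rows_of_forall
    intro b
    cases b
    · exact hy
    · exact hx
  unfold Dep
  refine le_trans ?_ h1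
  have h2 := ρ.fr_act_le (fromBlocks (1 : Matrix κ κ R) 0 0
    (Matrix.of fun (_ : Unit) (b : Bool) => if b then r else s))
    (Sum.elim v (fun b : Bool => if b then x else y))
  refine le_trans (le_of_eq ?_) h2
  congr 1
  ext1 k
  rcases k with k | k
  · simp [SylRank.act, Matrix.one_apply, ite_smul, Finset.sum_ite_eq]
  · simp [SylRank.act]

theorem dep_zero [Fintype κ] (v : κ → ι →₀ R) : ρ.Dep v 0 := by
  classical
  unfold Dep
  have h2 := ρ.fr_act_le (fromRows (1 : Matrix κ κ R) (0 : Matrix Unit κ R)) v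
  refine le_trans (le_of_eq ?_) h2
  congr 1
  ext1 k
  rcases k with k | k
  · simp [SylRank.act, Matrix.one_apply, ite_smul, Finset.sum_ite_eq]
  · simp [SylRank.act]

theorem dep_self [Fintype κ] (v : κ → ι →₀ R) (k : κ) : ρ.Dep v (v k) := by
  unfold Dep
  apply ρ.fr_le_of_subfamily
  rintro (l | _)
  · exact ⟨l, rfl⟩
  · exact ⟨k, rfl⟩

/-- closure of a family -/
def cl (a : α → ι →₀ R) : Submodule R (ι →₀ R) where
  carrier := {x | ∃ s : Finset α, ρ.Dep (fun i : s => a i) x}
  add_mem' := by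
    classical
    rintro x y ⟨s, hs⟩ ⟨s', hs'⟩
    refine ⟨s ∪ s', ?_⟩
    have h1 := Dep.mono ρ (w := fun i : (s ∪ s' : Finset α) => a i) hs
      (fun k => ⟨⟨k.1, Finset.mem_union_left _ k.2⟩, rfl⟩)
    have h2 := Dep.mono ρ (w := fun i : (s ∪ s' : Finset α) => a i) hs'
      (fun k => ⟨⟨k.1, Finset.mem_union_right _ k.2⟩, rfl⟩)
    have := Dep.add ρ h1 h2 1 1
    simpa using this
  zero_mem' := ⟨∅, ρ.dep_zero _⟩
  smul_mem' := by
    rintro r x ⟨s, hs⟩
    refine ⟨s, ?_⟩
    have := Dep.add ρ hs hs r 0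
    simpa using this


theorem subset_cl (a : α → ι →₀ R) (i : α) : a i ∈ ρ.cl a :=
  ⟨{i}, ρ.dep_self (fun j : ({i} : Finset α) => a j) ⟨i, Finset.mem_singleton_self i⟩⟩

theorem cl_common [Fintype κ] {a : α → ι →₀ R} (x : κ → ι →₀ R) (h : ∀ k, x k ∈ ρ.cl a) :
    ∃ s : Finset α, ρ.fr (Sum.elim (fun i : s => a i) x) ≤ ρ.fr (fun i : s => a i) := by
  classical
  choose s hs using h
  refine ⟨Finset.univ.biUnion s, ?_⟩
  apply ρ.fr_rows_of_forall
  intro k
  exact Dep.mono ρ (hs k) (fun j => ⟨⟨j.1, Finset.mem_biUnion.2 ⟨k, Finset.mem_univ k, j.2⟩⟩, rfl⟩)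

theorem mem_cl_of_fr [Fintype κ] {a : α → ι →₀ R} (x : κ → ι →₀ R) {s : Finset α}
    (h : ρ.fr (Sum.elim (fun i : s => a i) x) ≤ ρ.fr (fun i : s => a i)) (k : κ) : x k ∈ ρ.cl a := by
  refine ⟨s, le_trans ?_ h⟩
  apply ρ.fr_le_of_subfamily
  rintro (i | _)
  · exact ⟨Sum.inl i, rfl⟩
  · exact ⟨Sum.inr k, rfl⟩

/-- torsion freeness of the closure -/
theorem cl_torsionfree [Fintype κ] {a : α → ι →₀ R} (B : Matrix κ κ R)
    (hB : ρ.rk B = Fintype.card κ) (d : κ → ι →₀ R) (h : ∀ l, act B d l ∈ ρ.cl a) (m : κ) :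
    d m ∈ ρ.cl a := by
  classical
  obtain ⟨s, hs⟩ := ρ.cl_common (act B d) h
  refine ρ.mem_cl_of_fr (s := s) d ?_ m
  refine le_trans ?_ hs
  obtain ⟨t, h1, h2⟩ := exists_supp₂ (fun i : s => a i) d
  rw [ρ.fr_eq _ t (h1.elim h2), ρ.fr_eq _ t (h1.elim (h2.act B)), mat_elim, mat_elim, mat_act]
  have h3 := ρ.rk_mul_ge (fromBlocks (1 : Matrix s s R) 0 0 B)
    (fromRows (mat (fun i : s => a i) t) (mat d t))
  rw [ρ.rk_diag, ρ.rk_one', hB, fromBlocks_mul_fromRows] at h3
  simp only [Matrix.one_mul, Matrix.zero_mul, add_zero, zero_add, Fintype.card_sum] at h3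
  omega

/-- substitution: if the rows of `P₂` depend on those of `P₁`, and `P₁ y` is in the closure then
so is `P₂ y`. -/
theorem cl_subst [Fintype κ] [Fintype κ'] [Fintype μ] {a : α → ι →₀ R} (P₁ : Matrix κ' κ R)
    (P₂ : Matrix μ κ R) (hP : ρ.rk (fromRows P₁ P₂) ≤ ρ.rk P₁) (y : κ → ι →₀ R)
    (h : ∀ l, act P₁ y l ∈ ρ.cl a) (m : μ) : act P₂ y m ∈ ρ.cl a := by
  classical
  obtain ⟨s, hs⟩ := ρ.cl_common (act P₁ y) h
  refine ρ.mem_cl_of_fr (s := s) (act P₂ y) ?_ m
  refine le_trans ?_ hs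
  obtain ⟨t, h1, h2⟩ := exists_supp₂ (fun i : s => a i) y
  rw [ρ.fr_eq _ t (h1.elim (h2.act P₂)), ρ.fr_eq _ t (h1.elim (h2.act P₁)), mat_elim, mat_elim,
    mat_act, mat_act]
  have h3 := ρ.rk_frob (mat (fun i : s => a i) t) (mat y t) P₁ P₂
  have h4 := ρ.rk_submatrix_le (fromRows (mat (fun i : s => a i) t) (fromRows P₁ P₂ * mat y t))
    (Sum.map id Sum.inr) id
  have e : (fromRows (mat (fun i : s => a i) t) (fromRows P₁ P₂ * mat y t)).submatrix
    (Sum.map id Sum.inr) id = fromRows (mat (fun i : s => a i) t) (P₂ * mat y t) := by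
    rw [fromRows_mul]
    ext (i | i) j <;> rfl
  rw [e] at h4
  omega

end SylRank

end Crest.Agent.R181.MK
end

-- ▼ part R181/MK3
section

/-! The universal module `G`: every full matrix acts bijectively on `G^n`. -/

set_option autoImplicit false
set_option linter.unusedSectionVars false
open Matrix

namespace Crest.Agent.R181.MK

namespace SylRank

variable {R : Type} [Ring R] (ρ : SylRank R)

/-- a denominator: a full matrix together with a column -/
structure Den where
  n : ℕ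
  A : Matrix (Fin n) (Fin n) R
  b : Fin n → R
  full : ρ.rk A = n

abbrev Blk : Type := Σ p : ρ.Den, Fin p.n

abbrev Ix : Type := Option (ρ.Blk)

noncomputable def rel (x : ρ.Blk) : ρ.Ix →₀ R :=
  (∑ j, Finsupp.single (some ⟨x.1, j⟩) (x.1.A x.2 j)) - Finsupp.single none (x.1.b x.2)

theorem rel_some_self (p : ρ.Den) (i j : Fin p.n) : ρ.rel ⟨p, i⟩ (some ⟨p, j⟩) = p.A i j := by
  classical
  simp only [rel, Finsupp.sub_apply, Finsupp.finsetSum_apply]
  rw [Finset.sum_eq_single j]
  · simp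
  · intro k _ hk
    rw [Finsupp.single_apply, if_neg]
    intro h
    simp only [Option.some.injEq, Sigma.mk.injEq, heq_eq_eq, true_and] at h
    exact hk h
  · simp

theorem rel_some_ne (p q : ρ.Den) (hpq : p ≠ q) (i : Fin p.n) (j : Fin q.n) :
    ρ.rel ⟨p, i⟩ (some ⟨q, j⟩) = 0 := by
  classical
  simp only [rel, Finsupp.sub_apply, Finsupp.finsetSum_apply]
  rw [Finset.sum_eq_zero]
  · simp
  · intro k _
    rw [Finsupp.single_apply, if_neg]
    intro h
    simp only [Option.some.injEq, Sigma.mk.injEq] at h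
    exact hpq h.1

/-- the universal module -/
abbrev Gm : Type := (ρ.Ix →₀ R) ⧸ ρ.cl ρ.rel

noncomputable def e0 : ρ.Gm := Submodule.Quotient.mk (Finsupp.single none 1)

noncomputable def eb (p : ρ.Den) (j : Fin p.n) : ρ.Gm :=
  Submodule.Quotient.mk (Finsupp.single (some ⟨p, j⟩) 1)

theorem eb_rel (p : ρ.Den) (i : Fin p.n) : ∑ j, p.A i j • ρ.eb p j = p.b i • ρ.e0 := by
  have h : (Submodule.Quotient.mk (ρ.rel ⟨p, i⟩) : ρ.Gm) = 0 :=
    (Submodule.Quotient.mk_eq_zero _).2 (ρ.subset_cl ρ.rel ⟨p, i⟩)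
  rw [rel, Submodule.Quotient.mk_sub, sub_eq_zero] at h
  have h1 : ∑ j, p.A i j • ρ.eb p j
      = Submodule.Quotient.mk (∑ j, Finsupp.single (some ⟨p, j⟩) (p.A i j)) := by
    rw [← Submodule.mkQ_apply, map_sum]
    refine Finset.sum_congr rfl fun j _ => ?_
    rw [eb, ← Submodule.Quotient.mk_smul, Submodule.mkQ_apply]
    congr 1
    rw [Finsupp.smul_single, smul_eq_mul, mul_one]
  rw [h1, h, e0, ← Submodule.Quotient.mk_smul]
  congr 1
  rw [Finsupp.smul_single, smul_eq_mul, mul_one]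

/-- lower bound for the rank of all relations of a finite set of blocks together with `e0` -/
theorem fr_blocks (S : Finset ρ.Den) :
    (∑ p ∈ S, p.n) + 1 ≤ ρ.fr (Sum.elim (fun x : (Σ p : S, Fin p.1.n) => ρ.rel ⟨x.1.1, x.2⟩)
      (fun _ : Unit => (Finsupp.single none 1 : ρ.Ix →₀ R))) := by
  classical
  induction S using Finset.induction_on with
  | empty =>
    simp only [Finset.sum_empty, zero_add]
    have h := ρ.fr_tri (fun x : (Σ p : (∅ : Finset ρ.Den), Fin p.1.n) => ρ.rel ⟨x.1.1, x.2⟩)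
      (fun _ : Unit => (Finsupp.single none 1 : ρ.Ix →₀ R)) (fun _ : Unit => (none : ρ.Ix))
      (fun x => (Finset.notMem_empty _ x.1.2).elim)
    refine le_trans ?_ h
    have e : (Matrix.of fun (_ : Unit) (_ : Unit) => (Finsupp.single none 1 : ρ.Ix →₀ R) none)
      = (1 : Matrix Unit Unit R) := by
      ext i j; simp
    rw [e, ρ.rk_one']
    simp
  | insert p S hp ih =>
    rw [Finset.sum_insert hp]
    have h := ρ.fr_tri (Sum.elim (fun x : (Σ p : S, Fin p.1.n) => ρ.rel ⟨x.1.1, x.2⟩)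
      (fun _ : Unit => (Finsupp.single none 1 : ρ.Ix →₀ R)))
      (fun i : Fin p.n => ρ.rel ⟨p, i⟩) (fun j : Fin p.n => (some ⟨p, j⟩ : ρ.Ix)) (by
        rintro (⟨⟨q, hq⟩, i⟩ | _) j
        · exact ρ.rel_some_ne q p (fun h => hp (h ▸ hq)) i j
        · simp)
    have e : (Matrix.of fun (i : Fin p.n) (j : Fin p.n) => ρ.rel ⟨p, i⟩ (some ⟨p, j⟩)) = p.A := by
      ext i j; exact ρ.rel_some_self p i j
    rw [e, p.full] at h
    have h2 : ρ.fr (Sum.elim (Sum.elim (fun x : (Σ p : S, Fin p.1.n) => ρ.rel ⟨x.1.1, x.2⟩)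
        (fun _ : Unit => (Finsupp.single none 1 : ρ.Ix →₀ R))) (fun i : Fin p.n => ρ.rel ⟨p, i⟩))
        ≤ ρ.fr (Sum.elim (fun x : (Σ p : (insert p S : Finset ρ.Den), Fin p.1.n) => ρ.rel ⟨x.1.1, x.2⟩)
          (fun _ : Unit => (Finsupp.single none 1 : ρ.Ix →₀ R))) := by
      apply ρ.fr_le_of_subfamily
      rintro ((⟨⟨q, hq⟩, i⟩ | _) | i)
      · exact ⟨Sum.inl ⟨⟨q, Finset.mem_insert_of_mem hq⟩, i⟩, rfl⟩
      · exact ⟨Sum.inr (), rfl⟩
      · exact ⟨Sum.inl ⟨⟨p, Finset.mem_insert_self p S⟩, i⟩, rfl⟩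
    omega

theorem e0_ne_zero : ρ.e0 ≠ 0 := by
  classical
  intro h
  rw [e0, Submodule.Quotient.mk_eq_zero] at h
  obtain ⟨s, hs⟩ := h
  set S : Finset ρ.Den := s.image Sigma.fst with hS
  have h1 := Dep.mono ρ (w := fun x : (Σ p : S, Fin p.1.n) => ρ.rel ⟨x.1.1, x.2⟩) hs (by
    rintro ⟨⟨p, i⟩, hx⟩
    exact ⟨⟨⟨p, Finset.mem_image.2 ⟨⟨p, i⟩, hx, rfl⟩⟩, i⟩, rfl⟩)
  have h2 := ρ.fr_blocks S
  have h3 := ρ.fr_le_card (fun x : (Σ p : S, Fin p.1.n) => ρ.rel ⟨x.1.1, x.2⟩)
  have h4 : Fintype.card (Σ p : S, Fin p.1.n) = ∑ p ∈ S, p.n := by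
    rw [Fintype.card_sigma]
    simp only [Fintype.card_fin]
    exact Finset.sum_coe_sort S (fun p => p.n)
  unfold Dep at h1
  omega

instance : Nontrivial ρ.Gm := ⟨⟨ρ.e0, 0, ρ.e0_ne_zero⟩⟩

section
variable {κ κ' μ : Type} [Fintype κ] [Fintype κ'] [Fintype μ]

/-- injectivity of full matrices -/
theorem full_inj (B : Matrix κ κ R) (hB : ρ.rk B = Fintype.card κ) (g : κ → ρ.Gm)
    (h : ∀ l, ∑ m, B l m • g m = 0) (m : κ) : g m = 0 := by
  have hd : ∀ m, ∃ d : ρ.Ix →₀ R, (Submodule.Quotient.mk d : ρ.Gm) = g m :=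
    fun m => Submodule.Quotient.mk_surjective _ (g m)
  choose d hd using hd
  rw [← hd m, Submodule.Quotient.mk_eq_zero]
  apply ρ.cl_torsionfree B hB d
  intro l
  rw [← Submodule.Quotient.mk_eq_zero, ← h l, act, ← Submodule.mkQ_apply, map_sum]
  refine Finset.sum_congr rfl fun m _ => ?_
  rw [map_smul, Submodule.mkQ_apply, hd]

theorem full_inj' (B : Matrix κ κ R) (hB : ρ.rk B = Fintype.card κ) (g g' : κ → ρ.Gm)
    (h : ∀ l, ∑ m, B l m • g m = ∑ m, B l m • g' m) : g = g' := by
  funext m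
  rw [← sub_eq_zero]
  refine ρ.full_inj B hB (fun m => g m - g' m) (fun l => ?_) m
  simp only [smul_sub, Finset.sum_sub_distrib, h l, sub_self]

/-- substitution in `G` -/
theorem subst (P₁ : Matrix κ' κ R) (P₂ : Matrix μ κ R) (hP : ρ.rk (fromRows P₁ P₂) ≤ ρ.rk P₁)
    (g : κ → ρ.Gm) (h : ∀ l, ∑ m, P₁ l m • g m = 0) (l : μ) : ∑ m, P₂ l m • g m = 0 := by
  have hd : ∀ m, ∃ d : ρ.Ix →₀ R, (Submodule.Quotient.mk d : ρ.Gm) = g m :=
    fun m => Submodule.Quotient.mk_surjective _ (g m)
  choose d hd using hd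
  have key : ∀ r : κ → R, ∑ m, r m • g m = Submodule.Quotient.mk (∑ m, r m • d m) := by
    intro r
    rw [← Submodule.mkQ_apply, map_sum]
    refine Finset.sum_congr rfl fun m _ => ?_
    rw [map_smul, Submodule.mkQ_apply, hd]
  rw [key, Submodule.Quotient.mk_eq_zero]
  apply ρ.cl_subst P₁ P₂ hP d
  intro l
  rw [act, ← Submodule.Quotient.mk_eq_zero, ← key, h]

theorem exists_den [DecidableEq κ] (B : Matrix κ κ R) (hB : ρ.rk B = Fintype.card κ) (b : κ → R) :
    ∃ u : κ → ρ.Gm, ∀ l, ∑ m, B l m • u m = b l • ρ.e0 := by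
  let e := Fintype.equivFin κ
  let p : ρ.Den := ⟨Fintype.card κ, B.submatrix e.symm e.symm, b ∘ e.symm, by
    rw [ρ.rk_reindex]; exact hB⟩
  refine ⟨fun m => ρ.eb p (e m), fun l => ?_⟩
  have h := ρ.eb_rel p (e l)
  have h1 : p.b (e l) = b l := by simp [p]
  rw [h1] at h
  rw [← h]
  refine Fintype.sum_equiv e _ _ fun m => ?_
  simp [p]

theorem full_surj_single [DecidableEq κ] (B : Matrix κ κ R) (hB : ρ.rk B = Fintype.card κ) (i : κ)
    (g : ρ.Gm) : ∃ u : κ → ρ.Gm, ∀ l, ∑ m, B l m • u m = if l = i then g else 0 := by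
  classical
  obtain ⟨v, rfl⟩ := Submodule.Quotient.mk_surjective _ g
  induction v using Finsupp.induction_linear with
  | zero => exact ⟨0, fun l => by simp⟩
  | add f g hf hg =>
    obtain ⟨u, hu⟩ := hf
    obtain ⟨u', hu'⟩ := hg
    refine ⟨u + u', fun l => ?_⟩
    simp only [Pi.add_apply, smul_add, Finset.sum_add_distrib, hu, hu']
    split_ifs <;> simp
  | single x c =>
    rcases x with _ | ⟨q, j⟩
    · obtain ⟨u, hu⟩ := ρ.exists_den B hB (fun l => if l = i then c else 0)
      refine ⟨u, fun l => ?_⟩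
      rw [hu]
      split_ifs
      · rw [e0, ← Submodule.Quotient.mk_smul, Finsupp.smul_single, smul_eq_mul, mul_one]
      · simp
    · let C : Matrix κ (Fin q.n) R := fun l m => if l = i ∧ m = j then -c else 0
      have hF : ρ.rk (fromBlocks q.A 0 C B) = Fintype.card (Fin q.n ⊕ κ) := by
        apply le_antisymm (ρ.rk_le_card_left _)
        have := ρ.rk_tri q.A C B
        rw [q.full, hB] at this
        simpa using this
      obtain ⟨u, hu⟩ := ρ.exists_den (fromBlocks q.A 0 C B) hF (Sum.elim q.b 0)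
      have h1 : (fun m => u (Sum.inl m)) = ρ.eb q := by
        apply ρ.full_inj' q.A (by rw [q.full]; simp)
        intro l
        rw [ρ.eb_rel]
        have := hu (Sum.inl l)
        simpa [Fintype.sum_sum_type] using this
      refine ⟨fun m => u (Sum.inr m), fun l => ?_⟩
      have h2 := hu (Sum.inr l)
      simp only [Fintype.sum_sum_type, fromBlocks_apply₂₁, fromBlocks_apply₂₂, Sum.elim_inr,
        Pi.zero_apply, zero_smul] at h2
      have h3 : ∑ m, C l m • u (Sum.inl m) = if l = i then -(c • ρ.eb q j) else 0 := by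
        by_cases hl : l = i
        · rw [if_pos hl, Finset.sum_eq_single j]
          · simp only [C, hl, and_self, if_true, neg_smul]
            rw [← h1]
          · intro m _ hm
            simp [C, hm]
          · simp
        · rw [if_neg hl, Finset.sum_eq_zero]
          intro m _
          simp [C, hl]
      rw [h3] at h2
      rw [eq_neg_of_add_eq_zero_right h2]
      split_ifs
      · rw [neg_neg, eb, ← Submodule.Quotient.mk_smul, Finsupp.smul_single, smul_eq_mul, mul_one]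
      · simp

/-- surjectivity of full matrices -/
theorem full_surj (B : Matrix κ κ R) (hB : ρ.rk B = Fintype.card κ) (x : κ → ρ.Gm) :
    ∃ u : κ → ρ.Gm, ∀ l, ∑ m, B l m • u m = x l := by
  classical
  have h := fun i => ρ.full_surj_single B hB i (x i)
  choose u hu using h
  refine ⟨fun m => ∑ i, u i m, fun l => ?_⟩
  simp only [Finset.smul_sum]
  rw [Finset.sum_comm]
  simp only [hu]
  simp

end

end SylRank

end Crest.Agent.R181.MK
end

-- ▼ part R181/MK4
section

/-! Rational closure of a ring homomorphism inverting all full matrices. -/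

set_option autoImplicit false
set_option linter.unusedSectionVars false
open Matrix

namespace Crest.Agent.R181.MK

namespace SylRank

universe u

variable {R : Type} [Ring R] (ρ : SylRank R)

section
variable {E : Type u} [Ring E] (χ : R →+* E)

/-- `X = C * A⁻¹ * B` with a full matrix `A`; the matrix `A⁻¹ * B` is called `U`. -/
def Rat {p q : Type} (X : Matrix p q E) : Prop :=
  ∃ (n : ℕ) (A : Matrix (Fin n) (Fin n) R) (C : Matrix p (Fin n) R) (B : Matrix (Fin n) q R)
    (U : Matrix (Fin n) q E), ρ.rk A = n ∧ A.map χ * U = B.map χ ∧ X = C.map χ * U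

variable {χ}
variable {p q r κ κ' : Type} [Fintype p] [Fintype q] [Fintype r] [Fintype κ] [Fintype κ']

theorem Rat.mk' (A : Matrix κ κ R) (C : Matrix p κ R) (B : Matrix κ q R) (U : Matrix κ q E)
    (hA : ρ.rk A = Fintype.card κ) (h : A.map χ * U = B.map χ) : ρ.Rat χ (C.map χ * U) := by
  classical
  let e := Fintype.equivFin κ
  refine ⟨Fintype.card κ, A.submatrix e.symm e.symm, C.submatrix id e.symm, B.submatrix e.symm id,
    U.submatrix e.symm id, ?_, ?_, ?_⟩
  · rw [ρ.rk_reindex]; exact hA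
  · have : (A.submatrix e.symm e.symm).map χ = (A.map χ).submatrix e.symm e.symm := rfl
    rw [this, Matrix.submatrix_mul_equiv, h]; rfl
  · have : (C.submatrix id e.symm).map χ = (C.map χ).submatrix id e.symm := rfl
    rw [this, Matrix.submatrix_mul_equiv, Matrix.submatrix_id_id]

theorem Rat.solve (A : Matrix κ κ R) (B : Matrix κ q R) (U : Matrix κ q E)
    (hA : ρ.rk A = Fintype.card κ) (h : A.map χ * U = B.map χ) : ρ.Rat χ U := by
  classical
  have := Rat.mk' ρ A (1 : Matrix κ κ R) B U hA h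
  rwa [Matrix.map_one _ (map_zero χ) (map_one χ), Matrix.one_mul] at this

theorem Rat.of_map (M : Matrix p q R) : ρ.Rat χ (M.map χ) := by
  classical
  have := Rat.mk' ρ (χ := χ) (1 : Matrix q q R) M (1 : Matrix q q R) (1 : Matrix q q E)
    (ρ.rk_one') (by rw [Matrix.map_one _ (map_zero χ) (map_one χ), Matrix.one_mul])
  rwa [Matrix.mul_one] at this

variable {ρ}

theorem Rat.add {X Y : Matrix p q E} (hX : ρ.Rat χ X) (hY : ρ.Rat χ Y) : ρ.Rat χ (X + Y) := by
  obtain ⟨n, A, C, B, U, hA, hU, rfl⟩ := hX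
  obtain ⟨n', A', C', B', U', hA', hU', rfl⟩ := hY
  have h := Rat.mk' ρ (χ := χ) (fromBlocks A 0 0 A') (fromCols C C') (fromRows B B') (fromRows U U')
    (by rw [ρ.rk_diag, hA, hA']; simp) (by
      rw [fromBlocks_map, fromBlocks_mul_fromRows, fromRows_map, hU, hU',
        Matrix.map_zero _ (map_zero χ), Matrix.map_zero _ (map_zero χ)]
      simp)
  rwa [fromCols_map, fromCols_mul_fromRows] at h

theorem Rat.mul_map {X : Matrix p q E} (hX : ρ.Rat χ X) (M : Matrix q r R) :
    ρ.Rat χ (X * M.map χ) := by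
  obtain ⟨n, A, C, B, U, hA, hU, rfl⟩ := hX
  have h := Rat.mk' ρ (χ := χ) A C (B * M) (U * M.map χ) (by simpa using hA) (by
    rw [← Matrix.mul_assoc, hU, Matrix.map_mul])
  rwa [← Matrix.mul_assoc] at h

theorem Rat.map_mul {X : Matrix p q E} (hX : ρ.Rat χ X) (M : Matrix r p R) :
    ρ.Rat χ (M.map χ * X) := by
  obtain ⟨n, A, C, B, U, hA, hU, rfl⟩ := hX
  have h := Rat.mk' ρ (χ := χ) A (M * C) B U (by simpa using hA) hU
  rwa [Matrix.map_mul, Matrix.mul_assoc] at h

theorem Rat.mul {X : Matrix p q E} {Y : Matrix q r E} (hX : ρ.Rat χ X) (hY : ρ.Rat χ Y) :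
    ρ.Rat χ (X * Y) := by
  obtain ⟨n, A, C, B, U, hA, hU, rfl⟩ := hX
  obtain ⟨n', A', C', B', U', hA', hU', rfl⟩ := hY
  have h := Rat.mk' ρ (χ := χ) (fromBlocks A (-(B * C')) 0 A') (fromCols C 0) (fromRows 0 B')
    (fromRows (U * (C'.map χ * U')) U') (by
      apply le_antisymm (ρ.rk_le_card_left _)
      have := ρ.rk_tri' A (-(B * C')) A'
      rw [hA, hA'] at this
      simpa using this) (by
      rw [fromBlocks_map, fromBlocks_mul_fromRows, fromRows_map, hU', ← Matrix.mul_assoc, hU,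
        Matrix.map_zero _ (map_zero χ), Matrix.map_zero _ (map_zero χ)]
      have : (-(B * C')).map χ = - (B.map χ * C'.map χ) := by
        rw [← Matrix.map_mul]; ext i j; rw [Matrix.map_apply, Matrix.neg_apply, map_neg]; rfl
      rw [this]
      simp [Matrix.mul_assoc])
  rw [fromCols_map, fromCols_mul_fromRows, Matrix.map_zero _ (map_zero χ), Matrix.zero_mul,
    add_zero] at h
  rwa [Matrix.mul_assoc]

theorem Rat.neg {X : Matrix p q E} (hX : ρ.Rat χ X) : ρ.Rat χ (-X) := by
  classical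
  have := hX.map_mul (-1 : Matrix p p R)
  have e : (-1 : Matrix p p R).map χ = (-1 : Matrix p p E) := by
    ext i j; simp [Matrix.one_apply, apply_ite χ]
  rwa [e, Matrix.neg_mul, Matrix.one_mul] at this

theorem Rat.zero : ρ.Rat χ (0 : Matrix p q E) := by
  have := Rat.of_map ρ (χ := χ) (0 : Matrix p q R)
  rwa [Matrix.map_zero _ (map_zero χ)] at this

theorem Rat.one [DecidableEq p] : ρ.Rat χ (1 : Matrix p p E) := by
  have := Rat.of_map ρ (χ := χ) (1 : Matrix p p R)
  rwa [Matrix.map_one _ (map_zero χ) (map_one χ)] at this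

theorem Rat.sum {α : Type} (s : Finset α) (f : α → Matrix p q E) (h : ∀ a ∈ s, ρ.Rat χ (f a)) :
    ρ.Rat χ (∑ a ∈ s, f a) := by
  classical
  induction s using Finset.induction_on with
  | empty => simpa using Rat.zero
  | insert a s ha ih =>
    rw [Finset.sum_insert ha]
    exact (h a (Finset.mem_insert_self a s)).add
      (ih fun b hb => h b (Finset.mem_insert_of_mem hb))

theorem Rat.submatrix {p' q' : Type} [Fintype p'] [Fintype q'] {X : Matrix p q E} (hX : ρ.Rat χ X)
    (f : p' → p) (g : q' → q) : ρ.Rat χ (X.submatrix f g) := by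
  obtain ⟨n, A, C, B, U, hA, hU, rfl⟩ := hX
  refine ⟨n, A, C.submatrix f id, B.submatrix id g, U.submatrix id g, hA, ?_, ?_⟩
  · ext i j
    have := congrFun (congrFun hU i) (g j)
    simpa [Matrix.mul_apply] using this
  · ext i j
    simp [Matrix.mul_apply]


variable (ρ χ)

/-- the rational closure -/
def RC : Subring E where
  carrier := {x | ρ.Rat χ (Matrix.of fun (_ : Unit) (_ : Unit) => x)}
  zero_mem' := Rat.zero
  one_mem' := by
    have := Rat.one (ρ := ρ) (χ := χ) (p := Unit)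
    have e : (1 : Matrix Unit Unit E) = Matrix.of fun (_ : Unit) (_ : Unit) => (1 : E) := by
      ext i j; simp
    rwa [e] at this
  add_mem' := fun {x y} hx hy => Rat.add hx hy
  neg_mem' := fun {x} hx => Rat.neg hx
  mul_mem' := fun {x y} hx hy => by
    have := Rat.mul hx hy
    have e : (Matrix.of fun (_ : Unit) (_ : Unit) => x) * (Matrix.of fun (_ : Unit) (_ : Unit) => y)
      = Matrix.of fun (_ : Unit) (_ : Unit) => x * y := by
      ext i j; simp [Matrix.mul_apply]
    rwa [e] at this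

theorem mem_RC {x : E} : x ∈ ρ.RC χ ↔ ρ.Rat χ (Matrix.of fun (_ : Unit) (_ : Unit) => x) := Iff.rfl

variable {ρ χ}

theorem Rat.mem {X : Matrix p q E} (hX : ρ.Rat χ X) (i : p) (j : q) : X i j ∈ ρ.RC χ := by
  rw [mem_RC]
  exact hX.submatrix (fun _ : Unit => i) (fun _ : Unit => j)


theorem map_mem_RC (r : R) : χ r ∈ ρ.RC χ := by
  rw [mem_RC]
  exact Rat.of_map ρ (Matrix.of fun (_ : Unit) (_ : Unit) => r)

/-- every full matrix becomes invertible over `E` -/
def Inv (ρ : SylRank R) (χ : R →+* E) : Prop :=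
  ∀ (n : ℕ) (A : Matrix (Fin n) (Fin n) R), ρ.rk A = n → IsUnit (A.map χ)

theorem Inv.unit (h : Inv ρ χ) [DecidableEq κ] (A : Matrix κ κ R) (hA : ρ.rk A = Fintype.card κ) :
    IsUnit (A.map χ) := by
  let e := Fintype.equivFin κ
  have h1 := h (Fintype.card κ) (A.submatrix e.symm e.symm) (by rw [ρ.rk_reindex]; exact hA)
  obtain ⟨u, hu⟩ := h1
  have e1 : (A.submatrix e.symm e.symm).map χ = (A.map χ).submatrix e.symm e.symm := rfl
  rw [e1] at hu
  refine ⟨⟨A.map χ, (u⁻¹ : (Matrix (Fin (Fintype.card κ)) (Fin (Fintype.card κ)) E)ˣ).1.submatrix e e,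
    ?_, ?_⟩, rfl⟩
  · have h2 := u.mul_inv
    rw [hu] at h2
    have h3 := congrArg (fun M => Matrix.submatrix M e e) h2
    beta_reduce at h3
    rw [← Matrix.submatrix_mul_equiv _ _ e e e] at h3
    simpa using h3
  · have h2 := u.inv_mul
    rw [hu] at h2
    have h3 := congrArg (fun M => Matrix.submatrix M e e) h2
    beta_reduce at h3
    rw [← Matrix.submatrix_mul_equiv _ _ e e e] at h3
    simpa using h3

/-- the inverse of a full matrix is rational -/
theorem Inv.exists_inv (h : Inv ρ χ) [DecidableEq κ] (A : Matrix κ κ R)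
    (hA : ρ.rk A = Fintype.card κ) :
    ∃ V : Matrix κ κ E, ρ.Rat χ V ∧ A.map χ * V = 1 ∧ V * A.map χ = 1 := by
  obtain ⟨u, hu⟩ := h.unit A hA
  refine ⟨(u⁻¹ : (Matrix κ κ E)ˣ).1, ?_, ?_, ?_⟩
  · apply Rat.solve ρ A (1 : Matrix κ κ R) _ hA
    rw [← hu, Units.mul_inv, Matrix.map_one _ (map_zero χ) (map_one χ)]
  · rw [← hu, Units.mul_inv]
  · rw [← hu, Units.inv_mul]

/-- Cramer's rule: if the display of a square rational matrix is full, then the matrix is
invertible with rational inverse. -/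
theorem Inv.cramer (h : Inv ρ χ) [DecidableEq κ] [DecidableEq p] (A : Matrix κ κ R) (C : Matrix p κ R)
    (B : Matrix κ p R) (U : Matrix κ p E) (hA : ρ.rk A = Fintype.card κ) (hU : A.map χ * U = B.map χ)
    (hF : ρ.rk (fromBlocks A B C 0) = Fintype.card κ + Fintype.card p) :
    ∃ Y : Matrix p p E, ρ.Rat χ Y ∧ (C.map χ * U) * Y = 1 ∧ Y * (C.map χ * U) = 1 := by
  obtain ⟨V, hV, hV1, hV2⟩ := h.exists_inv A hA
  obtain ⟨N, hN, hN1, hN2⟩ := h.exists_inv (fromBlocks A B C 0) (by simpa using hF)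
  have eN : N = fromBlocks N.toBlocks₁₁ N.toBlocks₁₂ N.toBlocks₂₁ N.toBlocks₂₂ :=
    (fromBlocks_toBlocks N).symm
  set N11 := N.toBlocks₁₁
  set N12 := N.toBlocks₁₂
  set N21 := N.toBlocks₂₁
  set N22 := N.toBlocks₂₂ with hN22
  have hN22r : ρ.Rat χ N22 := hN.submatrix Sum.inr Sum.inr
  rw [eN, fromBlocks_map, fromBlocks_multiply, ← fromBlocks_one, fromBlocks_inj,
    Matrix.map_zero _ (map_zero χ)] at hN1 hN2
  obtain ⟨-, a12, -, a22⟩ := hN1
  obtain ⟨-, -, b21, b22⟩ := hN2
  rw [Matrix.zero_mul, add_zero] at a22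
  rw [Matrix.mul_zero, add_zero] at b22
  have c1 : N12 = -(U * N22) := by
    have : A.map χ * (N12 + U * N22) = 0 := by
      rw [Matrix.mul_add, ← Matrix.mul_assoc, hU, a12]
    have h2 := congrArg (fun M => V * M) this
    beta_reduce at h2
    rw [← Matrix.mul_assoc, hV2, Matrix.one_mul, Matrix.mul_zero] at h2
    exact eq_neg_of_add_eq_zero_left h2
  refine ⟨-N22, hN22r.neg, ?_, ?_⟩
  · rw [Matrix.mul_neg, Matrix.mul_assoc, ← Matrix.mul_neg, ← c1, a22]
  · have c2 : N21 * A.map χ = -(N22 * C.map χ) := eq_neg_of_add_eq_zero_left b21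
    rw [Matrix.neg_mul, ← Matrix.mul_assoc, ← Matrix.neg_mul, ← c2, Matrix.mul_assoc, hU, b22]

end

end SylRank

end Crest.Agent.R181.MK
end

-- ▼ part R181/MK5
section

/-! The skew field of an integer valued Sylvester rank function. -/

set_option autoImplicit false
set_option linter.unusedSectionVars false
open Matrix

namespace Crest.Agent.R181.MK

namespace SylRank

variable {R : Type} [Ring R] (ρ : SylRank R)

/-- the action of `R` on the universal module -/
noncomputable abbrev tau : R →+* AddMonoid.End ρ.Gm := Module.toAddMonoidEnd R ρ.Gm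

section
variable {κ : Type} [Fintype κ]

/-- matrices acting on columns of `G` -/
noncomputable def actG {p : Type} (A : Matrix p κ R) : (κ → ρ.Gm) →+ (p → ρ.Gm) where
  toFun u l := ∑ m, A l m • u m
  map_zero' := by ext l; simp
  map_add' u v := by ext l; simp [smul_add, Finset.sum_add_distrib]

theorem actG_apply {p : Type} (A : Matrix p κ R) (u : κ → ρ.Gm) (l : p) :
    ρ.actG A u l = ∑ m, A l m • u m := rfl

noncomputable def equivG (A : Matrix κ κ R) (hA : ρ.rk A = Fintype.card κ) :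
    (κ → ρ.Gm) ≃+ (κ → ρ.Gm) :=
  AddEquiv.ofBijective (ρ.actG A) ⟨fun u v h => ρ.full_inj' A hA u v (fun l => congrFun h l),
    fun x => (ρ.full_surj A hA x).imp fun _ hu => funext hu⟩

theorem equivG_apply (A : Matrix κ κ R) (hA : ρ.rk A = Fintype.card κ) (u : κ → ρ.Gm) :
    ρ.equivG A hA u = ρ.actG A u := rfl

noncomputable def invG [DecidableEq κ] (A : Matrix κ κ R) (hA : ρ.rk A = Fintype.card κ) :
    Matrix κ κ (AddMonoid.End ρ.Gm) :=
  fun i j => ((Pi.evalAddMonoidHom (fun _ => ρ.Gm) i).comp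
    ((ρ.equivG A hA).symm.toAddMonoidHom.comp (AddMonoidHom.single (fun _ => ρ.Gm) j)) : ρ.Gm →+ ρ.Gm)


theorem end_sum_apply {α : Type} (s : Finset α) (f : α → AddMonoid.End ρ.Gm) (g : ρ.Gm) :
    (∑ a ∈ s, f a) g = ∑ a ∈ s, f a g := by
  exact AddMonoidHom.finsetSum_apply f s g

theorem tau_inv : ρ.Inv ρ.tau := by
  classical
  intro n A hA
  have hA' : ρ.rk A = Fintype.card (Fin n) := by simpa using hA
  refine ⟨⟨A.map ρ.tau, ρ.invG A hA', ?_, ?_⟩, rfl⟩
  · ext i j g
    rw [Matrix.mul_apply, end_sum_apply]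
    have h1 : ∀ k, ((A.map ρ.tau) i k * ρ.invG A hA' k j) g
        = A i k • ((ρ.equivG A hA').symm (Pi.single j g) k) := fun k => rfl
    rw [Finset.sum_congr rfl fun k _ => h1 k, ← actG_apply ρ A ((ρ.equivG A hA').symm (Pi.single j g)) i,
      ← equivG_apply ρ A hA', AddEquiv.apply_symm_apply]
    by_cases h : i = j
    · subst h; simp
    · rw [Pi.single_eq_of_ne h, Matrix.one_apply_ne h]; rfl
  · ext i j g
    rw [Matrix.mul_apply, end_sum_apply]
    have h1 : ∀ k, (ρ.invG A hA' i k * (A.map ρ.tau) k j) g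
        = (ρ.equivG A hA').symm (Pi.single k (A k j • g)) i := fun k => rfl
    have h2 : ∑ k, (ρ.equivG A hA').symm (Pi.single k (A k j • g)) i
        = (ρ.equivG A hA').symm (∑ k, Pi.single k (A k j • g)) i := by
      rw [map_sum, Finset.sum_apply]
    have h3 : ∑ k, Pi.single k (A k j • g) = ρ.equivG A hA' (Pi.single j g) := by
      rw [equivG_apply]
      ext l
      rw [actG_apply, Finset.sum_apply, Finset.sum_eq_single l, Finset.sum_eq_single j]
      · simp
      · intro k _ hk; rw [Pi.single_eq_of_ne hk, smul_zero]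
      · simp
      · intro k _ hk; rw [Pi.single_eq_of_ne (Ne.symm hk)]
      · simp
    rw [Finset.sum_congr rfl fun k _ => h1 k, h2, h3, AddEquiv.symm_apply_apply]
    by_cases h : i = j
    · subst h; simp
    · rw [Pi.single_eq_of_ne h, Matrix.one_apply_ne h]; rfl

variable {p q : Type} [Fintype p] [Fintype q]

/-- a matrix equation over `End G`, evaluated -/
theorem mul_map_apply (X : Matrix κ q (AddMonoid.End ρ.Gm)) (A : Matrix p κ R) (i : p) (j : q) (g : ρ.Gm) :
    ((A.map ρ.tau) * X) i j g = ∑ m, A i m • X m j g := by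
  rw [Matrix.mul_apply, end_sum_apply]; rfl

/-- displays of small rank: the Schur complement vanishes -/
theorem schur_eq_zero (A : Matrix κ κ R) (B : Matrix κ q R) (C : Matrix p κ R) (c : Matrix p q R)
    (hA : ρ.rk A = Fintype.card κ) (h : ρ.rk (fromBlocks A B C c) ≤ Fintype.card κ)
    (U : Matrix κ q (AddMonoid.End ρ.Gm)) (hU : A.map ρ.tau * U = B.map ρ.tau) :
    C.map ρ.tau * U = c.map ρ.tau := by
  classical
  ext i j g
  let v : κ ⊕ q → ρ.Gm := Sum.elim (fun m => U m j g) (fun b => -(if b = j then g else 0))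
  have h1 : ρ.rk (fromRows (fromCols A B) (fromCols C c)) ≤ ρ.rk (fromCols A B) := by
    rw [fromRows_fromCols_eq_fromBlocks]
    refine h.trans ?_
    rw [← hA]
    exact ρ.rk_le_fromCols_left A B
  have h2 : ∀ l, ∑ m, (fromCols A B) l m • v m = 0 := by
    intro l
    have h3 : ((A.map ρ.tau) * U) l j g = (B.map ρ.tau) l j g := by rw [hU]
    rw [mul_map_apply] at h3
    rw [Fintype.sum_sum_type]
    simp only [fromCols_apply_inl, fromCols_apply_inr, v, Sum.elim_inl, Sum.elim_inr, h3]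
    rw [Finset.sum_eq_single j]
    · rw [if_pos rfl, smul_neg]; exact add_neg_cancel _
    · intro b _ hb; rw [if_neg hb]; simp
    · simp
  have h4 := ρ.subst (fromCols A B) (fromCols C c) h1 v h2 i
  rw [mul_map_apply]
  rw [Fintype.sum_sum_type] at h4
  simp only [fromCols_apply_inl, fromCols_apply_inr, v, Sum.elim_inl, Sum.elim_inr] at h4
  rw [Finset.sum_eq_single (f := fun x => c i x • -(if x = j then g else (0 : ρ.Gm))) j] at h4
  · simp only [if_true, smul_neg] at h4
    rw [← sub_eq_add_neg, sub_eq_zero] at h4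
    rw [h4]; rfl
  · intro b _ hb; rw [if_neg hb]; simp
  · simp

end

/-- The skew field. -/
noncomputable abbrev DS : Subring (AddMonoid.End ρ.Gm) := ρ.RC ρ.tau

theorem unit_or_zero (x : ρ.DS) : IsUnit x ∨ x = 0 := by
  classical
  obtain ⟨x, hx⟩ := x
  obtain ⟨n, A, C, B, U, hA, hU, hX⟩ := (ρ.mem_RC ρ.tau).1 hx
  have hA' : ρ.rk A = Fintype.card (Fin n) := by simpa using hA
  by_cases hF : ρ.rk (fromBlocks A B C 0) = Fintype.card (Fin n) + Fintype.card Unit
  · left
    obtain ⟨Y, hY, h1, h2⟩ := ρ.tau_inv.cramer A C B U hA' hU hF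
    rw [← hX] at h1 h2
    have e1 := congrFun (congrFun h1 ()) ()
    have e2 := congrFun (congrFun h2 ()) ()
    simp only [Matrix.mul_apply, Finset.univ_unique, Finset.sum_singleton, Matrix.of_apply,
      Matrix.one_apply_eq] at e1 e2
    exact ⟨⟨⟨x, hx⟩, ⟨Y () (), hY.mem () ()⟩, Subtype.ext e1, Subtype.ext e2⟩, rfl⟩
  · right
    have h1 := ρ.rk_le_card_left (fromBlocks A B C 0)
    rw [Fintype.card_sum] at h1
    have h2 : ρ.rk (fromBlocks A B C 0) ≤ Fintype.card (Fin n) := by
      rw [Fintype.card_unit] at h1 hF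
      omega
    have h3 := ρ.schur_eq_zero A B C 0 hA' h2 U hU
    rw [← hX] at h3
    have := congrFun (congrFun h3 ()) ()
    apply Subtype.ext
    simpa using this

instance : Nontrivial (AddMonoid.End ρ.Gm) := by
  obtain ⟨g, hg⟩ := exists_ne (0 : ρ.Gm)
  exact ⟨⟨1, 0, fun h => hg (by simpa using congrArg (fun f : AddMonoid.End ρ.Gm => f g) h)⟩⟩

noncomputable instance : DivisionRing ρ.DS :=
  DivisionRing.ofIsUnitOrEqZero ρ.unit_or_zero

/-- the map to the skew field -/
noncomputable def phi : R →+* ρ.DS := ρ.tau.codRestrict ρ.DS (fun r => map_mem_RC r)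

end SylRank

end Crest.Agent.R181.MK
end

-- ▼ part R181/MK6
section

/-! Ranks over the skew field. -/

set_option autoImplicit false
set_option linter.unusedSectionVars false
open Matrix

namespace Crest.Agent.R181.MK

namespace SylRank

variable {R : Type} [Ring R] (ρ : SylRank R)

section
variable {l m n m' n' p q : Type} [Fintype l] [Fintype m] [Fintype n] [Fintype m'] [Fintype n']
  [Fintype p] [Fintype q]

theorem op_mul_aux (A : Matrix l m Rᵐᵒᵖ) (B : Matrix m n Rᵐᵒᵖ) :
    (A * B)ᵀ.map MulOpposite.unop = (Bᵀ.map MulOpposite.unop) * (Aᵀ.map MulOpposite.unop) := by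
  ext i j
  simp [Matrix.mul_apply, Finset.unop_sum]

/-- the opposite rank function -/
def op : SylRank Rᵐᵒᵖ where
  rk A := ρ.rk (Aᵀ.map MulOpposite.unop)
  rk_one := by
    have e : ((1 : Matrix (Fin 1) (Fin 1) Rᵐᵒᵖ)ᵀ.map MulOpposite.unop) = (1 : Matrix (Fin 1) (Fin 1) R) := by
      ext i j
      have : i = j := Subsingleton.elim _ _
      subst this
      simp
    rw [e, ρ.rk_one]
  rk_mul_left A B := by
    rw [op_mul_aux]; exact ρ.rk_mul_right _ _
  rk_mul_right A B := by
    rw [op_mul_aux]; exact ρ.rk_mul_left _ _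
  rk_diag_le A B := by
    have e : (fromBlocks A 0 0 B)ᵀ.map MulOpposite.unop
      = fromBlocks (Aᵀ.map MulOpposite.unop) 0 0 (Bᵀ.map MulOpposite.unop) := by
      ext (i | i) (j | j) <;> simp
    rw [e]; exact ρ.rk_diag_le _ _
  rk_tri A C B := by
    have e : (fromBlocks A 0 C B)ᵀ.map MulOpposite.unop
      = fromBlocks (Aᵀ.map MulOpposite.unop) (Cᵀ.map MulOpposite.unop) 0 (Bᵀ.map MulOpposite.unop) := by
      ext (i | i) (j | j) <;> simp
    rw [e]; exact ρ.rk_tri' _ _ _



theorem exists_rows (A : Matrix m n R) :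
    ∃ f : Fin (ρ.rk A) → m, ρ.rk (A.submatrix f id) = ρ.rk A := by
  classical
  let P : Finset m → Prop := fun s => ρ.rk (A.submatrix (fun i : s => (i : m)) id) = s.card
  have hne : (Finset.univ.filter P).Nonempty := by
    refine ⟨∅, ?_⟩
    rw [Finset.mem_filter]
    refine ⟨Finset.mem_univ _, ?_⟩
    simp only [P, Finset.card_empty]
    exact ρ.rk_eq_zero_of_isEmpty_left _
  obtain ⟨s, hs, hmax⟩ := Finset.exists_max_image (Finset.univ.filter P) Finset.card hne
  rw [Finset.mem_filter] at hs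
  have hs' : ρ.rk (A.submatrix (fun i : s => (i : m)) id) = s.card := hs.2
  have h1 : ρ.rk (fromRows (A.submatrix (fun i : s => (i : m)) id) A)
      ≤ ρ.rk (A.submatrix (fun i : s => (i : m)) id) := by
    apply ρ.rk_rows_of_forall
    intro i
    by_cases hi : i ∈ s
    · have e : fromRows (A.submatrix (fun i : s => (i : m)) id) (A.submatrix (fun _ : Unit => i) id)
        = (A.submatrix (fun i : s => (i : m)) id).submatrix (Sum.elim id (fun _ => ⟨i, hi⟩)) id := by
        ext (a | a) b <;> simp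
      rw [e]
      exact ρ.rk_submatrix_le _ _ _
    · by_contra hcon
      push Not at hcon
      have hP : P (insert i s) := by
        simp only [P]
        apply le_antisymm
        · refine (ρ.rk_le_card_left _).trans ?_
          rw [Fintype.card_coe]
        · rw [Finset.card_insert_of_notMem hi, ← hs']
          refine hcon.trans_le ?_
          have e : fromRows (A.submatrix (fun i : s => (i : m)) id) (A.submatrix (fun _ : Unit => i) id)
            = (A.submatrix (fun j : (insert i s : Finset m) => (j : m)) id).submatrix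
              (Sum.elim (fun j : s => ⟨j.1, Finset.mem_insert_of_mem j.2⟩)
                (fun _ => ⟨i, Finset.mem_insert_self i s⟩)) id := by
            ext (a | a) b <;> simp
          rw [e]
          exact ρ.rk_submatrix_le _ _ _
      have := hmax (insert i s) (Finset.mem_filter.2 ⟨Finset.mem_univ _, hP⟩)
      rw [Finset.card_insert_of_notMem hi] at this
      omega
  have h2 : ρ.rk A = s.card := by
    apply le_antisymm
    · rw [← hs']
      exact (ρ.rk_le_fromRows_right _ _).trans h1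
    · rw [← hs']
      exact ρ.rk_submatrix_le _ _ _
  have e : Fin (ρ.rk A) ≃ s := (finCongr h2).trans s.equivFin.symm
  refine ⟨fun i => (e i : m), ?_⟩
  have e2 : A.submatrix (fun i => (e i : m)) id
    = (A.submatrix (fun i : s => (i : m)) id).submatrix e (Equiv.refl n) := by
    ext; simp
  rw [e2, ρ.rk_reindex, hs', h2]

theorem exists_cols (A : Matrix m n R) :
    ∃ g : Fin (ρ.rk A) → n, ρ.rk (A.submatrix id g) = ρ.rk A := by
  obtain ⟨g, hg⟩ := ρ.op.exists_rows (Aᵀ.map MulOpposite.op)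
  exact ⟨g, hg⟩

theorem exists_full_minor (A : Matrix m n R) :
    ∃ (f : Fin (ρ.rk A) → m) (g : Fin (ρ.rk A) → n), ρ.rk (A.submatrix f g) = ρ.rk A := by
  obtain ⟨f, hf⟩ := ρ.exists_rows A
  obtain ⟨g, hg⟩ := ρ.exists_cols (A.submatrix f id)
  refine ⟨f, fun i => g (finCongr hf.symm i), ?_⟩
  have e : A.submatrix f (fun i => g (finCongr hf.symm i))
    = ((A.submatrix f id).submatrix id g).submatrix (Equiv.refl _) (finCongr hf.symm) := by
    ext; simp
  rw [e, ρ.rk_reindex, hg, hf]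

end

section
variable {E : Type*} [Ring E] {χ : R →+* E} {ρ}
variable {p q κ : Type} [Fintype p] [Fintype q] [Fintype κ]

/-- a rational matrix as a matrix over the rational closure -/
noncomputable def Rat.lift {X : Matrix p q E} (hX : ρ.Rat χ X) : Matrix p q (ρ.RC χ) :=
  fun i j => ⟨X i j, hX.mem i j⟩

theorem Rat.lift_map {X : Matrix p q E} (hX : ρ.Rat χ X) : hX.lift.map (ρ.RC χ).subtype = X := rfl

theorem map_subtype_inj {X Y : Matrix p q (ρ.RC χ)} (h : X.map (ρ.RC χ).subtype = Y.map (ρ.RC χ).subtype) :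
    X = Y := by
  ext i j
  exact congrFun (congrFun h i) j

end

section
variable {m n κ : Type} [Fintype m] [Fintype n] [Fintype κ]

theorem phi_map (A : Matrix m n R) : (A.map ρ.phi).map ρ.DS.subtype = A.map ρ.tau := rfl

theorem isUnit_phi [DecidableEq n] (A : Matrix n n R) (hA : ρ.rk A = Fintype.card n) :
    IsUnit (A.map ρ.phi) := by
  obtain ⟨V, hV, h1, h2⟩ := ρ.tau_inv.exists_inv A hA
  refine ⟨⟨A.map ρ.phi, hV.lift, ?_, ?_⟩, rfl⟩
  · apply map_subtype_inj
    rw [Matrix.map_mul, hV.lift_map, phi_map, h1, Matrix.map_one _ (map_zero _) (map_one _)]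
  · apply map_subtype_inj
    rw [Matrix.map_mul, hV.lift_map, phi_map, h2, Matrix.map_one _ (map_zero _) (map_one _)]

/-- The rank over the skew field (dimension of the left row space) is the given rank. -/
theorem finrank_rows (A : Matrix m n R) :
    Module.finrank ρ.DS (Submodule.span ρ.DS (Set.range fun i j => ρ.phi (A i j))) = ρ.rk A := by
  classical
  obtain ⟨f, g, hfg⟩ := ρ.exists_full_minor A
  have hfg' : ρ.rk (A.submatrix f g) = Fintype.card (Fin (ρ.rk A)) := by rw [hfg]; simp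
  obtain ⟨V, hV, h1, h2⟩ := ρ.tau_inv.exists_inv (A.submatrix f g) hfg'
  have hb : ρ.rk (fromBlocks (A.submatrix f g) (A.submatrix f id) (A.submatrix id g) A)
      ≤ Fintype.card (Fin (ρ.rk A)) := by
    have e : fromBlocks (A.submatrix f g) (A.submatrix f id) (A.submatrix id g) A
      = A.submatrix (Sum.elim f id) (Sum.elim g id) := by
      ext (i | i) (j | j) <;> simp
    rw [e]
    refine (ρ.rk_submatrix_le _ _ _).trans ?_
    simp
  have h3 := ρ.schur_eq_zero (A.submatrix f g) (A.submatrix f id) (A.submatrix id g) A hfg' hb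
    (V * (A.submatrix f id).map ρ.tau) (by rw [← Matrix.mul_assoc, h1, Matrix.one_mul])
  -- over `D`
  have hW := hV.map_mul (A.submatrix id g)
  have h4 : A.map ρ.phi = hW.lift * (A.submatrix f id).map ρ.phi := by
    apply map_subtype_inj
    rw [Matrix.map_mul, hW.lift_map, phi_map, phi_map, Matrix.mul_assoc, h3]
  have hspan : Submodule.span ρ.DS (Set.range fun i j => ρ.phi (A i j))
      = Submodule.span ρ.DS (Set.range fun i j => ρ.phi (A (f i) j)) := by
    apply le_antisymm
    · rw [Submodule.span_le]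
      rintro _ ⟨i, rfl⟩
      have : (fun j => ρ.phi (A i j)) = ∑ k, hW.lift i k • (fun j => ρ.phi (A (f k) j)) := by
        funext j
        have := congrFun (congrFun h4 i) j
        rw [Matrix.map_apply] at this
        rw [this, Matrix.mul_apply, Finset.sum_apply]
        rfl
      beta_reduce
      rw [this]
      exact Submodule.sum_mem _ fun k _ => Submodule.smul_mem _ _ (Submodule.subset_span ⟨k, rfl⟩)
    · apply Submodule.span_mono
      rintro _ ⟨i, rfl⟩
      exact ⟨f i, rfl⟩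
  have hli : LinearIndependent ρ.DS (fun i j => ρ.phi (A (f i) j)) := by
    rw [Fintype.linearIndependent_iff]
    intro c hc i
    obtain ⟨u, hu⟩ := ρ.isUnit_phi (A.submatrix f g) hfg'
    have h5 : c ᵥ* u.val = 0 := by
      funext j
      have := congrFun hc (g j)
      rw [Finset.sum_apply] at this
      rw [hu]
      simpa [Matrix.vecMul, dotProduct] using this
    have h6 : c = (c ᵥ* u.val) ᵥ* (u⁻¹).val := by
      rw [Matrix.vecMul_vecMul, Units.mul_inv, Matrix.vecMul_one]
    rw [h5, Matrix.zero_vecMul] at h6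
    rw [h6]; rfl
  rw [hspan, finrank_span_eq_card hli]
  simp


/-- every element of the skew field has the form `c A⁻¹ b` with `A` full -/
theorem exists_repr (x : ρ.DS) : ∃ (n : ℕ) (A : Matrix (Fin n) (Fin n) R) (c : Matrix Unit (Fin n) R)
    (b : Matrix (Fin n) Unit R) (u : Matrix (Fin n) Unit ρ.DS), ρ.rk A = n ∧
    A.map ρ.phi * u = b.map ρ.phi ∧ (Matrix.of fun (_ _ : Unit) => x) = c.map ρ.phi * u := by
  obtain ⟨n, A, C, B, U, hA, hU, hX⟩ := (ρ.mem_RC ρ.tau).1 x.2
  have hU' : ρ.Rat ρ.tau U := Rat.solve ρ A B U (by simpa using hA) hU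
  refine ⟨n, A, C, B, hU'.lift, hA, ?_, ?_⟩
  · apply map_subtype_inj
    rw [Matrix.map_mul, hU'.lift_map, phi_map, phi_map, hU]
  · apply map_subtype_inj
    rw [Matrix.map_mul, hU'.lift_map, phi_map, ← hX]
    rfl

end


end SylRank

end Crest.Agent.R181.MK
end

-- ▼ part R181/MK7

/-! The inner rank of a semihereditary ring with an additive rank function on idempotents. -/

set_option autoImplicit false
set_option linter.unusedSectionVars false
open Matrix

namespace Crest.Agent.R181.MK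

/-- (left) semihereditary, in matrix form: kernels of row maps are generated by idempotents -/
def SH (T : Type) [Ring T] : Prop :=
  ∀ (n k : ℕ) (B : Matrix (Fin n) (Fin k) T), ∃ f : Matrix (Fin n) (Fin n) T,
    f * f = f ∧ f * B = 0 ∧ ∀ v : Fin n → T, v ᵥ* B = 0 → v ᵥ* f = v

theorem SH.of_projective {T : Type} [Ring T]
    (h : ∀ (k : ℕ) (N : Submodule T (Fin k → T)), N.FG → Module.Projective T N) : SH T := by
  classical
  intro n k B
  let L : (Fin n → T) →ₗ[T] (Fin k → T) := Matrix.vecMulLinear B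
  have hL : ∀ v, L v = v ᵥ* B := fun v => rfl
  have hfg : (LinearMap.range L).FG := by
    rw [LinearMap.range_eq_map]
    exact Submodule.FG.map _ Module.Finite.fg_top
  have := h k (LinearMap.range L) hfg
  obtain ⟨s, hs⟩ := Module.projective_lifting_property L.rangeRestrict LinearMap.id
    L.surjective_rangeRestrict
  let g : (Fin n → T) →ₗ[T] (Fin n → T) := LinearMap.id - s.comp L.rangeRestrict
  have hLg : ∀ v, L (g v) = 0 := by
    intro v
    have h1 : L.rangeRestrict (s (L.rangeRestrict v)) = L.rangeRestrict v := by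
      exact LinearMap.congr_fun hs (L.rangeRestrict v)
    have h2 := congrArg Subtype.val h1
    simp only [g, LinearMap.sub_apply, LinearMap.id_apply, LinearMap.comp_apply, map_sub]
    rw [sub_eq_zero]
    simpa using h2.symm
  have hg : ∀ v, L v = 0 → g v = v := by
    intro v hv
    have : L.rangeRestrict v = 0 := Subtype.ext (by simpa using hv)
    simp only [g, LinearMap.sub_apply, LinearMap.id_apply, LinearMap.comp_apply, this, map_zero,
      sub_zero]
  let f : Matrix (Fin n) (Fin n) T := Matrix.of fun i => g (Pi.single i 1)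
  have hf : ∀ v : Fin n → T, v ᵥ* f = g v := by
    intro v
    have hv : v = ∑ i, v i • (Pi.single i (1 : T) : Fin n → T) := by
      funext j
      rw [Finset.sum_apply, Finset.sum_eq_single j]
      · simp
      · intro b _ hb; simp [Pi.single_eq_of_ne (Ne.symm hb)]
      · simp
    conv_rhs => rw [hv, map_sum]
    funext j
    rw [Finset.sum_apply]
    simp only [map_smul, Pi.smul_apply, smul_eq_mul]
    rfl
  have hrow : ∀ {l : ℕ} (X Y : Matrix (Fin n) (Fin l) T), (∀ v : Fin n → T, v ᵥ* X = v ᵥ* Y) → X = Y := by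
    intro l X Y hXY
    funext i
    have := hXY (Pi.single i 1)
    rw [Matrix.single_one_vecMul, Matrix.single_one_vecMul] at this
    exact this
  refine ⟨f, ?_, ?_, ?_⟩
  · apply hrow
    intro v
    rw [← Matrix.vecMul_vecMul, hf, hf, hg _ (hLg v)]
  · apply hrow
    intro v
    rw [← Matrix.vecMul_vecMul, hf, ← hL, hLg, Matrix.vecMul_zero]
  · intro v hv
    rw [hf, hg v hv]

/-- an additive `ℕ`-valued rank on idempotent matrices -/
structure ProjRank (T : Type) [Ring T] where
  rk : ∀ {n : Type}, Matrix n n T → ℕ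
  rk_one : rk (1 : Matrix (Fin 1) (Fin 1) T) = 1
  rk_comm : ∀ {m n : Type} [Fintype m] [Fintype n] (X : Matrix m n T) (Y : Matrix n m T),
    (X * Y) * (X * Y) = X * Y → (Y * X) * (Y * X) = Y * X → rk (X * Y) = rk (Y * X)
  rk_diag : ∀ {m n : Type} [Fintype m] [Fintype n] (e : Matrix m m T) (f : Matrix n n T),
    e * e = e → f * f = f → rk (fromBlocks e 0 0 f) = rk e + rk f

namespace ProjRank

variable {T : Type} [Ring T] (σ : ProjRank T)

section
variable {l m n m' n' p q k : Type} [Fintype l] [Fintype m] [Fintype n] [Fintype m'] [Fintype n']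
  [Fintype p] [Fintype q] [Fintype k]

theorem rk_add (e f : Matrix n n T) (he : e * e = e) (hf : f * f = f) (hef : e * f = 0)
    (hfe : f * e = 0) : σ.rk (e + f) = σ.rk e + σ.rk f := by
  rw [← σ.rk_diag e f he hf]
  have h1 : fromCols e f * fromRows e f = e + f := by
    rw [fromCols_mul_fromRows, he, hf]
  have h2 : fromRows e f * fromCols e f = fromBlocks e 0 0 f := by
    rw [fromRows_mul_fromCols, he, hf, hef, hfe]
  have h3 := σ.rk_comm (fromCols e f) (fromRows e f) (by
    rw [h1, Matrix.add_mul, Matrix.mul_add, Matrix.mul_add, he, hf, hef, hfe]; simp) (by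
    rw [h2, fromBlocks_multiply]; simp [he, hf])
  rw [h1, h2] at h3
  exact h3

/-- ranks of subidempotents -/
theorem rk_le_of_le (e g : Matrix n n T) (he : e * e = e) (hg : g * g = g) (h1 : e * g = g)
    (h2 : g * e = g) : σ.rk e = σ.rk g + σ.rk (e - g) := by
  have h := σ.rk_add g (e - g) hg (by
    rw [Matrix.sub_mul, Matrix.mul_sub, Matrix.mul_sub, he, hg, h1, h2]; simp) (by
    rw [Matrix.mul_sub, h2, hg, sub_self]) (by rw [Matrix.sub_mul, h1, hg, sub_self])
  rwa [add_sub_cancel] at h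

theorem rk_reindex [DecidableEq m] [DecidableEq n] (e : Matrix n n T) (he : e * e = e) (f : m ≃ n) :
    σ.rk (e.submatrix f f) = σ.rk e := by
  have h1 : e.submatrix f id * e.submatrix id f = e.submatrix f f := by
    rw [← Matrix.submatrix_mul e e f id f Function.bijective_id, he]
  have h2 : e.submatrix id f * e.submatrix f id = e := by
    rw [Matrix.submatrix_mul_equiv, he, Matrix.submatrix_id_id]
  have h3 := σ.rk_comm (e.submatrix f id) (e.submatrix id f) (by
    rw [h1, Matrix.submatrix_mul_equiv, he]) (by rw [h2, he])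
  rwa [h1, h2] at h3

/-- `A` factors through an idempotent of rank `r` -/
def Fac {m n : Type} (A : Matrix m n T) (r : ℕ) : Prop :=
  ∃ (k : ℕ) (X : Matrix m (Fin k) T) (e : Matrix (Fin k) (Fin k) T) (Y : Matrix (Fin k) n T),
    e * e = e ∧ A = X * e * Y ∧ σ.rk e = r

/-- the inner rank -/
noncomputable def ir {m n : Type} (A : Matrix m n T) : ℕ := sInf {r | σ.Fac A r}

theorem ir_le_of_fac (A : Matrix m n T) (X : Matrix m k T) (e : Matrix k k T) (Y : Matrix k n T)
    (he : e * e = e) (hA : A = X * e * Y) : σ.ir A ≤ σ.rk e := by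
  classical
  let f := Fintype.equivFin k
  refine Nat.sInf_le ⟨Fintype.card k, X.submatrix id f.symm, e.submatrix f.symm f.symm,
    Y.submatrix f.symm id, ?_, ?_, ?_⟩
  · rw [Matrix.submatrix_mul_equiv, he]
  · rw [Matrix.submatrix_mul_equiv, Matrix.submatrix_mul_equiv, Matrix.submatrix_id_id, hA]
  · rw [σ.rk_reindex e he]

theorem exists_fac (A : Matrix m n T) : σ.Fac A (σ.ir A) := by
  classical
  apply Nat.sInf_mem (s := {r | σ.Fac A r})
  let f := Fintype.equivFin m
  refine ⟨_, Fintype.card m, (1 : Matrix m m T).submatrix id f.symm, 1, A.submatrix f.symm id, ?_, ?_,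
    rfl⟩
  · rw [Matrix.one_mul]
  · rw [Matrix.mul_one, Matrix.submatrix_mul_equiv, Matrix.submatrix_id_id, Matrix.one_mul]

/-- normalised factorisation -/
theorem exists_fac' (A : Matrix m n T) : ∃ (k : ℕ) (X : Matrix m (Fin k) T)
    (e : Matrix (Fin k) (Fin k) T) (Y : Matrix (Fin k) n T),
    e * e = e ∧ X * e = X ∧ e * Y = Y ∧ A = X * Y ∧ σ.rk e = σ.ir A := by
  obtain ⟨k, X, e, Y, he, hA, hr⟩ := σ.exists_fac A
  refine ⟨k, X * e, e, e * Y, he, ?_, ?_, ?_, hr⟩
  · rw [Matrix.mul_assoc, he]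
  · rw [← Matrix.mul_assoc, he]
  · rw [hA, Matrix.mul_assoc X e (e * Y), ← Matrix.mul_assoc e e Y, he, ← Matrix.mul_assoc]

theorem ir_mul_left (A : Matrix l m T) (B : Matrix m n T) : σ.ir (A * B) ≤ σ.ir A := by
  obtain ⟨k, X, e, Y, he, h1, h2, hA, hr⟩ := σ.exists_fac' A
  rw [← hr]
  apply σ.ir_le_of_fac (A * B) X e (Y * B) he
  rw [h1, hA, Matrix.mul_assoc]

theorem ir_mul_right (A : Matrix l m T) (B : Matrix m n T) : σ.ir (A * B) ≤ σ.ir B := by
  obtain ⟨k, X, e, Y, he, h1, h2, hB, hr⟩ := σ.exists_fac' B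
  rw [← hr]
  apply σ.ir_le_of_fac (A * B) (A * X) e Y he
  rw [Matrix.mul_assoc A X e, h1, hB, Matrix.mul_assoc]

theorem ir_diag_le (A : Matrix m n T) (B : Matrix m' n' T) :
    σ.ir (fromBlocks A 0 0 B) ≤ σ.ir A + σ.ir B := by
  obtain ⟨k, X, e, Y, he, h1, h2, hA, hr⟩ := σ.exists_fac' A
  obtain ⟨k', X', e', Y', he', h1', h2', hB, hr'⟩ := σ.exists_fac' B
  rw [← hr, ← hr', ← σ.rk_diag e e' he he']
  apply σ.ir_le_of_fac _ (fromBlocks X 0 0 X') _ (fromBlocks Y 0 0 Y')
  · rw [fromBlocks_multiply]; simp [he, he']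
  · rw [fromBlocks_multiply, fromBlocks_multiply]
    simp [h1, h1', hA, hB]

theorem ir_idem (e : Matrix n n T) (he : e * e = e) : σ.ir e = σ.rk e := by
  classical
  apply le_antisymm
  · apply σ.ir_le_of_fac e e e e he
    rw [he, he]
  · obtain ⟨k, X, f, Y, hf, h1, h2, hA, hr⟩ := σ.exists_fac' e
    rw [← hr]
    have hab : (e * X) * (Y * e) = e := by
      rw [Matrix.mul_assoc, ← Matrix.mul_assoc X Y e, ← hA, he, he]
    set g := (Y * e) * (e * X) with hg
    have hgg : g * g = g := by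
      rw [hg, Matrix.mul_assoc (Y * e) (e * X) ((Y * e) * (e * X)), ← Matrix.mul_assoc (e * X) (Y * e) (e * X),
        hab, ← Matrix.mul_assoc e e X, he]
    have hfg : f * g = g := by
      rw [hg, ← Matrix.mul_assoc f (Y * e) (e * X), ← Matrix.mul_assoc f Y e, h2]
    have hgf : g * f = g := by
      rw [hg, Matrix.mul_assoc, Matrix.mul_assoc e X f, h1]
    have h3 : σ.rk e = σ.rk g := by
      have := σ.rk_comm (e * X) (Y * e) (by rw [hab, he]) hgg
      rw [hab] at this
      exact this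
    have h4 := σ.rk_le_of_le f g hf hgg hfg hgf
    omega

theorem ir_tri (hT : SH T) (A : Matrix m n T) (C : Matrix m' n T) (B : Matrix m' n' T) :
    σ.ir A + σ.ir B ≤ σ.ir (fromBlocks A 0 C B) := by
  classical
  obtain ⟨k, X, e, Y, he, h1, h2, hA, hr⟩ := σ.exists_fac' (fromBlocks A 0 C B)
  rw [← hr]
  obtain ⟨X1, X2, rfl⟩ : ∃ X1 X2, X = fromRows X1 X2 := ⟨_, _, (fromRows_toRows X).symm⟩
  obtain ⟨Y1, Y2, rfl⟩ : ∃ Y1 Y2, Y = fromCols Y1 Y2 := ⟨_, _, (fromCols_toCols Y).symm⟩
  rw [fromRows_mul_fromCols, fromBlocks_inj] at hA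
  obtain ⟨hA11, hA12, hA21, hA22⟩ := hA
  rw [fromRows_mul, fromRows_ext_iff] at h1
  obtain ⟨h11, h12⟩ := h1
  rw [mul_fromCols, fromCols_ext_iff] at h2
  obtain ⟨h21, h22⟩ := h2
  obtain ⟨f, hf, hfY, hfv⟩ := hT k (Fintype.card n') (Y2.submatrix id (Fintype.equivFin n').symm)
  have hfY' : f * Y2 = 0 := by
    ext i j
    have := congrFun (congrFun hfY i) (Fintype.equivFin n' j)
    simpa [Matrix.mul_apply] using this
  have hfv' : ∀ {s : Type} (Z : Matrix s (Fin k) T), Z * Y2 = 0 → Z * f = Z := by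
    intro s Z hZ
    ext i j
    have h := hfv (Z i) (by
      funext a
      have := congrFun (congrFun hZ i) ((Fintype.equivFin n').symm a)
      simpa [Matrix.mul_apply, Matrix.vecMul, dotProduct] using this)
    exact congrFun h j
  have hX1 : X1 * f = X1 := hfv' X1 hA12.symm
  have h1e : (1 - e) * f = 1 - e := hfv' (1 - e) (by rw [Matrix.sub_mul, Matrix.one_mul, h22, sub_self])
  have hef : e * f = f + e - 1 := by
    have : f - e * f = 1 - e := by rw [← h1e, Matrix.sub_mul, Matrix.one_mul]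
    rw [sub_eq_iff_eq_add] at this
    have h2 : e * f = f - (1 - e) := by rw [eq_sub_iff_add_eq, add_comm]; exact this.symm
    rw [h2]; abel
  have hfef : f * e * f = f * e := by
    rw [Matrix.mul_assoc, hef, Matrix.mul_sub, Matrix.mul_add, hf, Matrix.mul_one]
    abel
  have hefe : e * (f * e) = f * e := by
    rw [← Matrix.mul_assoc, hef, Matrix.sub_mul, Matrix.add_mul, he, Matrix.one_mul]
    abel
  have he1 : (f * e) * (f * e) = f * e := by
    rw [← Matrix.mul_assoc, hfef, Matrix.mul_assoc, he]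
  have hsplit := σ.rk_le_of_le e (f * e) he he1 hefe (by rw [Matrix.mul_assoc, he])
  have hA' : σ.ir A ≤ σ.rk (f * e) := by
    apply σ.ir_le_of_fac A X1 (f * e) Y1 he1
    rw [← Matrix.mul_assoc, hX1, Matrix.mul_assoc, h21, hA11]
  have hB' : σ.ir B ≤ σ.rk (e - f * e) := by
    apply σ.ir_le_of_fac B X2 (e - f * e) Y2
    · rw [Matrix.sub_mul, Matrix.mul_sub, Matrix.mul_sub, he, he1, hefe, Matrix.mul_assoc, he]
      abel
    · rw [Matrix.mul_assoc, Matrix.sub_mul, h22, Matrix.mul_assoc, h22, hfY', sub_zero, hA22]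
  omega

/-- the Sylvester rank function given by the inner rank -/
noncomputable def toSyl (hT : SH T) : SylRank T where
  rk A := σ.ir A
  rk_one := by rw [σ.ir_idem _ (Matrix.one_mul _), σ.rk_one]
  rk_mul_left A B := σ.ir_mul_left A B
  rk_mul_right A B := σ.ir_mul_right A B
  rk_diag_le A B := σ.ir_diag_le A B
  rk_tri A C B := σ.ir_tri hT A C B

theorem toSyl_rk (hT : SH T) (A : Matrix m n T) : (σ.toSyl hT).rk A = σ.ir A := rfl

theorem toSyl_idem (hT : SH T) (e : Matrix n n T) (he : e * e = e) : (σ.toSyl hT).rk e = σ.rk e :=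
  σ.ir_idem e he

end

end ProjRank

end Crest.Agent.R181.MK
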