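import Crest.Agent.R181.MonSemi

-- ▼ part R181/MonDist
section

/-!
# Two variable distraction with roots of unity
-/

namespace Crest.Agent.R181.Mon

open MvPolynomial Module Finset

variable {n : ℕ}

/-- multiplication by `ζ ^ (exponent of the last variable)`. -/
noncomputable def tau (ζ : ℂ) :
    MvPolynomial (Fin (n + 1)) ℂ →ₗ[ℂ] MvPolynomial (Fin (n + 1)) ℂ :=
  (basisMonomials (Fin (n + 1)) ℂ).constr ℂ
    (fun m => monomial m (ζ ^ (m (Fin.last n))))

theorem tau_monomial (ζ : ℂ) (m : Fin (n + 1) →₀ ℕ) :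
    tau ζ (monomial m (1 : ℂ)) = monomial m (ζ ^ (m (Fin.last n))) := by
  have := (basisMonomials (Fin (n + 1)) ℂ).constr_basis ℂ
    (fun m => (monomial m (ζ ^ (m (Fin.last n))) : MvPolynomial (Fin (n + 1)) ℂ)) m
  rwa [coe_basisMonomials] at this

/-- `coeff m` as a linear map. -/
noncomputable def coeffL (m : Fin n →₀ ℕ) : MvPolynomial (Fin n) ℂ →ₗ[ℂ] ℂ where
  toFun f := coeff m f
  map_add' f g := coeff_add _ _ _
  map_smul' a f := by rw [coeff_smul, RingHom.id_apply]

theorem linearMap_ext_monomial {W : Type*} [AddCommGroup W] [Module ℂ W]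
    {f g : MvPolynomial (Fin n) ℂ →ₗ[ℂ] W} (h : ∀ m, f (monomial m 1) = g (monomial m 1)) :
    f = g :=
  (basisMonomials (Fin n) ℂ).ext (fun m => by rw [coe_basisMonomials]; exact h m)

theorem coeff_tau (ζ : ℂ) (m : Fin (n + 1) →₀ ℕ) (f : MvPolynomial (Fin (n + 1)) ℂ) :
    coeff m (tau ζ f) = ζ ^ (m (Fin.last n)) * coeff m f := by
  have : coeffL m ∘ₗ tau ζ = (ζ ^ (m (Fin.last n))) • coeffL m := by
    apply linearMap_ext_monomial
    intro m'
    rw [LinearMap.comp_apply, tau_monomial, LinearMap.smul_apply]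
    change coeff m (monomial m' _) = _ • coeff m (monomial m' 1)
    rw [coeff_monomial, coeff_monomial]
    split_ifs with h
    · rw [h, smul_eq_mul, mul_one]
    · rw [smul_zero]
  exact LinearMap.congr_fun this f

theorem tau_X_mul (ζ : ℂ) {k : Fin (n + 1)} (hk : k ≠ Fin.last n)
    (f : MvPolynomial (Fin (n + 1)) ℂ) : tau ζ (X k * f) = X k * tau ζ f := by
  ext m
  rw [coeff_tau, coeff_X_mul', coeff_X_mul']
  split_ifs with h
  · rw [coeff_tau, Finsupp.tsub_apply, Finsupp.single_eq_of_ne (Ne.symm hk), Nat.sub_zero]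
  · rw [mul_zero]

/-- The distraction. -/
noncomputable def phi (ζ : ℂ) (j : Fin (n + 1)) :
    MvPolynomial (Fin (n + 1)) ℂ →ₗ[ℂ] MvPolynomial (Fin (n + 1)) ℂ :=
  (basisMonomials (Fin (n + 1)) ℂ).constr ℂ
    (fun m => monomial (m.erase (Fin.last n)) 1 *
      ∏ k ∈ Finset.range (m (Fin.last n)), (X (Fin.last n) - C (ζ ^ k) * X j))

theorem phi_monomial (ζ : ℂ) (j : Fin (n + 1)) (m : Fin (n + 1) →₀ ℕ) :
    phi ζ j (monomial m (1 : ℂ)) = monomial (m.erase (Fin.last n)) 1 *
      ∏ k ∈ Finset.range (m (Fin.last n)), (X (Fin.last n) - C (ζ ^ k) * X j) := by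
  have := (basisMonomials (Fin (n + 1)) ℂ).constr_basis ℂ
    (fun m => (monomial (m.erase (Fin.last n)) 1 *
      ∏ k ∈ Finset.range (m (Fin.last n)), (X (Fin.last n) - C (ζ ^ k) * X j) :
        MvPolynomial (Fin (n + 1)) ℂ)) m
  rwa [coe_basisMonomials] at this

theorem phi_mono_succ (ζ : ℂ) (j : Fin (n + 1)) (m : Fin (n + 1) →₀ ℕ) :
    phi ζ j (monomial (m + Finsupp.single (Fin.last n) 1) (1 : ℂ)) =
      (X (Fin.last n) - C (ζ ^ (m (Fin.last n))) * X j) * phi ζ j (monomial m 1) := by
  rw [phi_monomial, phi_monomial]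
  have h1 : (m + Finsupp.single (Fin.last n) 1).erase (Fin.last n) = m.erase (Fin.last n) := by
    ext i
    by_cases hi : i = Fin.last n
    · subst hi; simp
    · rw [Finsupp.erase_ne hi, Finsupp.erase_ne hi, Finsupp.add_apply,
        Finsupp.single_eq_of_ne hi, add_zero]
  have h2 : (m + Finsupp.single (Fin.last n) 1 : Fin (n + 1) →₀ ℕ) (Fin.last n) =
      m (Fin.last n) + 1 := by simp
  rw [h1, h2, Finset.prod_range_succ]
  ring

theorem phi_mono_zero (ζ : ℂ) (j : Fin (n + 1)) (m : Fin (n + 1) →₀ ℕ)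
    (h : m (Fin.last n) = 0) : phi ζ j (monomial m (1 : ℂ)) = monomial m 1 := by
  have h1 : m.erase (Fin.last n) = m := by
    ext i
    by_cases hi : i = Fin.last n
    · subst hi; simp [h]
    · rw [Finsupp.erase_ne hi]
  rw [phi_monomial, h, Finset.range_zero, Finset.prod_empty, mul_one, h1]

theorem monomial_add_single' (m : Fin n →₀ ℕ) (k : Fin n) :
    (monomial (m + Finsupp.single k 1) (1 : ℂ)) = X k * monomial m 1 := by
  rw [monomial_add_single, pow_one, mul_comm]

theorem phi_X_mul (ζ : ℂ) (j : Fin (n + 1)) {k : Fin (n + 1)} (hk : k ≠ Fin.last n)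
    (f : MvPolynomial (Fin (n + 1)) ℂ) : phi ζ j (X k * f) = X k * phi ζ j f := by
  have : phi ζ j ∘ₗ LinearMap.mulLeft ℂ (X k) = LinearMap.mulLeft ℂ (X k) ∘ₗ phi ζ j := by
    apply linearMap_ext_monomial
    intro m
    rw [LinearMap.comp_apply, LinearMap.comp_apply, LinearMap.mulLeft_apply,
      LinearMap.mulLeft_apply, ← monomial_add_single', phi_monomial, phi_monomial]
    have h1 : (m + Finsupp.single k 1).erase (Fin.last n) =
        m.erase (Fin.last n) + Finsupp.single k 1 := by
      ext i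
      by_cases hi : i = Fin.last n
      · subst hi
        rw [Finsupp.erase_same, Finsupp.add_apply, Finsupp.erase_same,
          Finsupp.single_eq_of_ne (Ne.symm hk), add_zero]
      · rw [Finsupp.erase_ne hi, Finsupp.add_apply, Finsupp.add_apply, Finsupp.erase_ne hi]
    have h2 : (m + Finsupp.single k 1 : Fin (n + 1) →₀ ℕ) (Fin.last n) = m (Fin.last n) := by
      rw [Finsupp.add_apply, Finsupp.single_eq_of_ne (Ne.symm hk), add_zero]
    rw [h1, h2, monomial_add_single', mul_assoc]
  exact LinearMap.congr_fun this f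

theorem phi_Xlast_mul (ζ : ℂ) (j : Fin (n + 1))
    (f : MvPolynomial (Fin (n + 1)) ℂ) :
    phi ζ j (X (Fin.last n) * f) = X (Fin.last n) * phi ζ j f - X j * phi ζ j (tau ζ f) := by
  have : phi ζ j ∘ₗ LinearMap.mulLeft ℂ (X (Fin.last n)) =
      LinearMap.mulLeft ℂ (X (Fin.last n)) ∘ₗ phi ζ j -
        LinearMap.mulLeft ℂ (X j) ∘ₗ phi ζ j ∘ₗ tau ζ := by
    apply linearMap_ext_monomial
    intro m
    rw [LinearMap.sub_apply]
    simp only [LinearMap.comp_apply, LinearMap.mulLeft_apply]
    rw [← monomial_add_single', phi_mono_succ, tau_monomial]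
    have : (monomial m (ζ ^ (m (Fin.last n))) : MvPolynomial (Fin (n + 1)) ℂ) =
        (ζ ^ (m (Fin.last n))) • monomial m 1 := by
      rw [smul_monomial, smul_eq_mul, mul_one]
    rw [this, map_smul, smul_eq_C_mul]
    ring
  exact LinearMap.congr_fun this f

/-- Unitriangularity of the distraction. -/
theorem phi_tri (ζ : ℂ) {j : Fin (n + 1)} (hj : j ≠ Fin.last n) (β : ℕ) :
    ∀ m : Fin (n + 1) →₀ ℕ, m (Fin.last n) = β → ∀ m' : Fin (n + 1) →₀ ℕ,
      (coeff m' (phi ζ j (monomial m 1)) ≠ 0 → m' (Fin.last n) ≤ β ∧ m'.degree = m.degree) ∧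
      (m' (Fin.last n) = β → coeff m' (phi ζ j (monomial m 1)) = if m' = m then 1 else 0) ∧
      (m' (Fin.last n) + 1 = β → coeff m' (phi ζ j (monomial m 1)) =
        if m' + Finsupp.single (Fin.last n) 1 = m + Finsupp.single j 1 then
          - ∑ k ∈ Finset.range β, ζ ^ k else 0) := by
  induction β with
  | zero =>
    intro m hm m'
    rw [phi_mono_zero ζ j m hm, coeff_monomial]
    refine ⟨?_, ?_, ?_⟩
    · intro h
      split_ifs at h with h1
      · rw [← h1]; exact ⟨hm.le, rfl⟩
      · exact absurd rfl h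
    · intro _
      by_cases h : m' = m
      · rw [if_pos h, if_pos h.symm]
      · rw [if_neg h, if_neg (fun h' => h h'.symm)]
    · intro h; omega
  | succ β ih =>
    intro m hm m'
    have hle : Finsupp.single (Fin.last n) 1 ≤ m := by
      rw [Finsupp.single_le_iff]; omega
    obtain ⟨m0, rfl⟩ : ∃ m0, m = m0 + Finsupp.single (Fin.last n) 1 :=
      ⟨m - Finsupp.single (Fin.last n) 1, (tsub_add_cancel_of_le hle).symm⟩
    have hm0 : m0 (Fin.last n) = β := by
      rw [Finsupp.add_apply, Finsupp.single_eq_same] at hm; omega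
    have hc : coeff m' (phi ζ j (monomial (m0 + Finsupp.single (Fin.last n) 1) 1)) =
        (if Fin.last n ∈ m'.support then
          coeff (m' - Finsupp.single (Fin.last n) 1) (phi ζ j (monomial m0 1)) else 0) -
        ζ ^ β * (if j ∈ m'.support then
          coeff (m' - Finsupp.single j 1) (phi ζ j (monomial m0 1)) else 0) := by
      rw [phi_mono_succ, sub_mul, coeff_sub, coeff_X_mul', mul_assoc, coeff_C_mul, coeff_X_mul', hm0]
    have hsub : ∀ k : Fin (n + 1), k ∈ m'.support →
        m' = (m' - Finsupp.single k 1) + Finsupp.single k 1 := by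
      intro k hk
      rw [tsub_add_cancel_of_le]
      rw [Finsupp.single_le_iff]
      have := Finsupp.mem_support_iff.1 hk
      omega
    have hl : (m' - Finsupp.single j 1 : Fin (n + 1) →₀ ℕ) (Fin.last n) = m' (Fin.last n) := by
      rw [Finsupp.tsub_apply, Finsupp.single_eq_of_ne (Ne.symm hj), Nat.sub_zero]
    have hl2 : (m' - Finsupp.single (Fin.last n) 1 : Fin (n + 1) →₀ ℕ) (Fin.last n) =
        m' (Fin.last n) - 1 := by
      rw [Finsupp.tsub_apply, Finsupp.single_eq_same]
    refine ⟨?_, ?_, ?_⟩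
    · intro h
      rw [hc] at h
      by_cases h1 : (if Fin.last n ∈ m'.support then
          coeff (m' - Finsupp.single (Fin.last n) 1) (phi ζ j (monomial m0 1)) else 0) ≠ 0
      · split_ifs at h1 with h2
        · obtain ⟨h3, h4⟩ := (ih m0 hm0 _).1 h1
          rw [hl2] at h3
          constructor
          · omega
          · have h5 := hsub _ h2
            rw [h5, map_add, map_add, h4]
        · exact absurd rfl h1
      · have h1' : (if Fin.last n ∈ m'.support then
          coeff (m' - Finsupp.single (Fin.last n) 1) (phi ζ j (monomial m0 1)) else 0) = 0 := by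
          by_contra h0; exact h1 h0
        rw [h1', zero_sub] at h
        have h6 := right_ne_zero_of_mul (neg_ne_zero.1 h)
        split_ifs at h6 with h2
        · obtain ⟨h3, h4⟩ := (ih m0 hm0 _).1 h6
          rw [hl] at h3
          constructor
          · omega
          · have h5 := hsub _ h2
            rw [h5, map_add, map_add, h4, Finsupp.degree_single, Finsupp.degree_single]
        · exact absurd rfl h6
    · intro h
      rw [hc]
      have hlast : Fin.last n ∈ m'.support := by rw [Finsupp.mem_support_iff]; omega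
      have h2 : (if j ∈ m'.support then
          coeff (m' - Finsupp.single j 1) (phi ζ j (monomial m0 1)) else 0) = 0 := by
        split_ifs
        · by_contra hne
          have := ((ih m0 hm0 _).1 hne).1
          rw [hl] at this
          omega
        · rfl
      rw [h2, mul_zero, sub_zero, if_pos hlast, (ih m0 hm0 _).2.1 (by rw [hl2]; omega)]
      by_cases h3 : m' = m0 + Finsupp.single (Fin.last n) 1
      · rw [if_pos h3, if_pos]
        rw [h3]; exact add_tsub_cancel_right _ _
      · rw [if_neg h3, if_neg]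
        intro h4
        apply h3
        rw [← h4]
        exact hsub _ hlast
    · intro h
      rw [hc]
      have hb : m' (Fin.last n) = β := by omega
      have h2 : (if j ∈ m'.support then
          coeff (m' - Finsupp.single j 1) (phi ζ j (monomial m0 1)) else 0) =
          if m' = m0 + Finsupp.single j 1 then 1 else 0 := by
        by_cases hjs : j ∈ m'.support
        · rw [if_pos hjs, (ih m0 hm0 _).2.1 (by rw [hl]; exact hb)]
          by_cases h3 : m' = m0 + Finsupp.single j 1
          · rw [if_pos h3, if_pos]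
            rw [h3]; exact add_tsub_cancel_right _ _
          · rw [if_neg h3, if_neg]
            intro h4
            apply h3
            rw [← h4]
            exact hsub _ hjs
        · rw [if_neg hjs, if_neg]
          intro h3
          apply hjs
          rw [h3, Finsupp.mem_support_iff, Finsupp.add_apply, Finsupp.single_eq_same]
          omega
      have h1 : (if Fin.last n ∈ m'.support then
          coeff (m' - Finsupp.single (Fin.last n) 1) (phi ζ j (monomial m0 1)) else 0) =
          if m' = m0 + Finsupp.single j 1 then - ∑ k ∈ Finset.range β, ζ ^ k else 0 := by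
        by_cases hls : Fin.last n ∈ m'.support
        · have hpos : 0 < m' (Fin.last n) := Nat.pos_of_ne_zero (Finsupp.mem_support_iff.1 hls)
          rw [if_pos hls, (ih m0 hm0 _).2.2 (by rw [hl2]; omega)]
          rw [← hsub _ hls]
        · rw [if_neg hls]
          have h0 : m' (Fin.last n) = 0 := by
            by_contra h0
            exact hls (Finsupp.mem_support_iff.2 h0)
          have : β = 0 := by omega
          subst this
          simp
      rw [h1, h2]
      have hiff : (m' + Finsupp.single (Fin.last n) 1 =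
          m0 + Finsupp.single (Fin.last n) 1 + Finsupp.single j 1) ↔
          m' = m0 + Finsupp.single j 1 := by
        rw [add_right_comm m0]
        exact add_left_inj _
      by_cases h3 : m' = m0 + Finsupp.single j 1
      · rw [if_pos h3, if_pos h3, if_pos (hiff.2 h3), Finset.sum_range_succ]
        ring
      · rw [if_neg h3, if_neg h3, if_neg (fun h4 => h3 (hiff.1 h4))]
        ring

theorem phi_coeff_sum (ζ : ℂ) (j : Fin (n + 1)) (f : MvPolynomial (Fin (n + 1)) ℂ)
    (m' : Fin (n + 1) →₀ ℕ) :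
    coeff m' (phi ζ j f) = ∑ m ∈ f.support, coeff m f * coeff m' (phi ζ j (monomial m 1)) := by
  conv_lhs => rw [f.as_sum]
  rw [map_sum, coeff_sum]
  refine Finset.sum_congr rfl fun m _ => ?_
  have : (monomial m (coeff m f) : MvPolynomial (Fin (n + 1)) ℂ) = coeff m f • monomial m 1 := by
    rw [smul_monomial, smul_eq_mul, mul_one]
  rw [this, map_smul, coeff_smul, smul_eq_mul]

/-- The top part of the distraction. -/
theorem phi_coeff_top (ζ : ℂ) {j : Fin (n + 1)} (hj : j ≠ Fin.last n)
    (f : MvPolynomial (Fin (n + 1)) ℂ) (m' : Fin (n + 1) →₀ ℕ)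
    (h : ∀ m, coeff m f ≠ 0 → m (Fin.last n) ≤ m' (Fin.last n)) :
    coeff m' (phi ζ j f) = coeff m' f := by
  rw [phi_coeff_sum]
  have h1 : ∀ m ∈ f.support, coeff m f * coeff m' (phi ζ j (monomial m 1)) =
      if m' = m then coeff m' f else 0 := by
    intro m hm
    have h2 := h m (mem_support_iff.1 hm)
    rcases lt_or_eq_of_le h2 with h3 | h3
    · have h4 : coeff m' (phi ζ j (monomial m 1)) = 0 := by
        by_contra hne
        have := ((phi_tri ζ hj _ m rfl m').1 hne).1
        omega
      rw [h4, mul_zero, if_neg]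
      intro h5
      rw [h5] at h3
      exact lt_irrefl _ h3
    · rw [(phi_tri ζ hj _ m rfl m').2.1 h3.symm]
      by_cases h5 : m' = m
      · rw [if_pos h5, if_pos h5, mul_one, h5]
      · rw [if_neg h5, if_neg h5, mul_zero]
  rw [Finset.sum_congr rfl h1, Finset.sum_ite_eq]
  split_ifs with h2
  · rfl
  · symm
    by_contra hne
    exact h2 (mem_support_iff.2 hne)

theorem phi_coeff_ne_zero (ζ : ℂ) {j : Fin (n + 1)} (hj : j ≠ Fin.last n)
    (f : MvPolynomial (Fin (n + 1)) ℂ) (m' : Fin (n + 1) →₀ ℕ) (h : coeff m' (phi ζ j f) ≠ 0) :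
    ∃ m, coeff m f ≠ 0 ∧ m' (Fin.last n) ≤ m (Fin.last n) ∧ m'.degree = m.degree := by
  rw [phi_coeff_sum] at h
  obtain ⟨m, hm, h2⟩ := Finset.exists_ne_zero_of_sum_ne_zero h
  have h3 := (phi_tri ζ hj _ m rfl m').1 (right_ne_zero_of_mul h2)
  exact ⟨m, mem_support_iff.1 hm, h3.1, h3.2⟩

theorem phi_injective (ζ : ℂ) {j : Fin (n + 1)} (hj : j ≠ Fin.last n) :
    Function.Injective (phi ζ j) := by
  rw [injective_iff_map_eq_zero]
  intro f hf
  by_contra hne
  have hne' : f.support.Nonempty := by
    rwa [Finset.nonempty_iff_ne_empty, ne_eq, MvPolynomial.support_eq_empty]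
  obtain ⟨m, hm, hmax⟩ := Finset.exists_max_image f.support (fun m => m (Fin.last n)) hne'
  have := phi_coeff_top ζ hj f m (fun m' hm' => hmax m' (mem_support_iff.2 hm'))
  rw [hf, coeff_zero] at this
  exact (mem_support_iff.1 hm) this.symm

end Crest.Agent.R181.Mon
end

-- ▼ part R181/MonDist2

/-!
# The Koszul complex of the distraction
-/

namespace Crest.Agent.R181.Mon

open MvPolynomial Module Finset

variable {n : ℕ}

/-- sign counting the bigger elements -/
noncomputable def ep (U : Finset (Fin n)) (j : Fin n) : ℂ := (-1) ^ (U.filter (j < ·)).card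

theorem card_lt_add_card_gt (U : Finset (Fin n)) (j : Fin n) (h : j ∉ U) :
    (U.filter (· < j)).card + (U.filter (j < ·)).card = U.card := by
  have h1 := Finset.card_filter_add_card_filter_not (s := U) (· < j)
  have h2 : U.filter (fun a => ¬ a < j) = U.filter (j < ·) := by
    apply Finset.filter_congr
    intro x hx
    rw [not_lt]
    constructor
    · intro h3
      exact lt_of_le_of_ne h3 (fun h4 => h (h4 ▸ hx))
    · exact le_of_lt
  rw [h2] at h1
  exact h1

theorem sg_last (U : Finset (Fin (n + 1))) (h : Fin.last n ∉ U) :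
    sg U (Fin.last n) = (-1) ^ U.card := by
  unfold sg
  congr 2
  apply Finset.filter_true_of_mem
  intro x hx
  exact lt_of_le_of_ne (Fin.le_last x) (fun h4 => h (h4 ▸ hx))

theorem sign1 (U : Finset (Fin (n + 1))) (j : Fin (n + 1)) (hj : j ∉ U) (hl : Fin.last n ∉ U) :
    sg U j * ep (insert j U) j = sg U (Fin.last n) := by
  rw [sg_last U hl]
  unfold sg ep
  rw [Finset.filter_insert, if_neg (lt_irrefl j), ← pow_add, card_lt_add_card_gt U j hj]

theorem sign2 (U : Finset (Fin (n + 1))) (j : Fin (n + 1)) (hj : j ∈ U) (hl : Fin.last n ∉ U) :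
    ep U j * sg (insert (Fin.last n) (U.erase j)) j = - sg U (Fin.last n) := by
  rw [sg_last U hl]
  unfold sg ep
  rw [Finset.filter_insert, if_neg (not_lt.2 (Fin.le_last j)), ← pow_add]
  have h1 := card_lt_add_card_gt (U.erase j) j (Finset.notMem_erase j U)
  have h2 : (U.erase j).filter (j < ·) = U.filter (j < ·) := by
    rw [Finset.filter_erase, Finset.erase_eq_of_notMem]
    simp
  have h3 := Finset.card_erase_add_one hj
  rw [h2] at h1
  have h4 : U.card = (U.filter (j < ·)).card + ((U.erase j).filter (· < j)).card + 1 := by omega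
  rw [h4, pow_succ]
  ring

theorem sign3 (U : Finset (Fin (n + 1))) (j t : Fin (n + 1)) (hj : j ∈ U)
    (ht : t ∉ U) :
    sg U t * ep (insert t U) j = ep U j * sg (insert (Fin.last n) (U.erase j)) t := by
  have htj : t ≠ j := fun h => ht (h ▸ hj)
  unfold sg ep
  rw [Finset.filter_insert, Finset.filter_insert, if_neg (not_lt.2 (Fin.le_last t)),
    Finset.filter_erase]
  rcases lt_or_gt_of_ne htj with h | h
  · rw [if_neg (not_lt.2 h.le), Finset.erase_eq_of_notMem, mul_comm]
    simp [h.le]
  · rw [if_pos h, Finset.card_insert_of_notMem (by simp [ht])]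
    have h1 : j ∈ U.filter (· < t) := by simp [hj, h]
    rw [← Finset.card_erase_add_one h1, pow_succ, pow_succ]
    ring

/-- The nilpotent part of the change of the Koszul basis. -/
noncomputable def Wop (ζ : ℂ) (j : Fin (n + 1)) : Ch (n + 1) →ₗ[ℂ] Ch (n + 1) where
  toFun f B := if j ∈ B ∧ Fin.last n ∉ B then
    ep B j • tau ζ (f (insert (Fin.last n) (B.erase j))) else 0
  map_add' f g := by
    funext B
    simp only [Pi.add_apply, map_add, smul_add]
    split_ifs <;> simp
  map_smul' a f := by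
    funext B
    simp only [Pi.smul_apply, map_smul, RingHom.id_apply]
    split_ifs
    · exact smul_comm _ _ _
    · simp

theorem Wop_apply (ζ : ℂ) (j : Fin (n + 1)) (f : Ch (n + 1)) (B : Finset (Fin (n + 1))) :
    Wop ζ j f B = if j ∈ B ∧ Fin.last n ∉ B then
      ep B j • tau ζ (f (insert (Fin.last n) (B.erase j))) else 0 := rfl

/-- The correction of the Koszul differential. -/
noncomputable def Eop (ζ : ℂ) (j : Fin (n + 1)) : Ch (n + 1) →ₗ[ℂ] Ch (n + 1) where
  toFun f U := if Fin.last n ∉ U then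
    sg U (Fin.last n) • (X j * tau ζ (f (insert (Fin.last n) U))) else 0
  map_add' f g := by
    funext B
    simp only [Pi.add_apply, map_add, mul_add, smul_add]
    split_ifs <;> simp
  map_smul' a f := by
    funext B
    simp only [Pi.smul_apply, map_smul, RingHom.id_apply, mul_smul_comm]
    split_ifs
    · simp
    · exact smul_comm _ _ _

theorem Eop_apply (ζ : ℂ) (j : Fin (n + 1)) (f : Ch (n + 1)) (U : Finset (Fin (n + 1))) :
    Eop ζ j f U = if Fin.last n ∉ U then
      sg U (Fin.last n) • (X j * tau ζ (f (insert (Fin.last n) U))) else 0 := rfl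

theorem Eop_Wop (ζ : ℂ) (j : Fin (n + 1)) (f : Ch (n + 1)) : Eop ζ j (Wop ζ j f) = 0 := by
  funext U
  rw [Eop_apply, Wop_apply]
  simp

theorem Wop_Wop (ζ : ℂ) (j : Fin (n + 1)) (f : Ch (n + 1)) : Wop ζ j (Wop ζ j f) = 0 := by
  funext U
  rw [Wop_apply, Wop_apply]
  simp

theorem KD_Wop (ζ : ℂ) {j : Fin (n + 1)} (hj : j ≠ Fin.last n) (f : Ch (n + 1)) :
    KD (Wop ζ j f) = Eop ζ j f + Wop ζ j (KD f) := by
  funext U
  rw [Pi.add_apply, KD_apply]
  by_cases hl : Fin.last n ∈ U
  · rw [Eop_apply, if_neg (by simpa using hl), Wop_apply, if_neg (by simp [hl]), add_zero]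
    apply Finset.sum_eq_zero
    intro t _
    rw [Wop_apply, if_neg (by simp [hl]), mul_zero, smul_zero]
  · by_cases hjU : j ∈ U
    · -- main case
      have hlU : Fin.last n ∈ Uᶜ := by simpa using hl
      have h0 : sg U (Fin.last n) • (X (Fin.last n) * Wop ζ j f (insert (Fin.last n) U)) = 0 := by
        rw [Wop_apply, if_neg (by simp), mul_zero, smul_zero]
      have h00 : ∑ t ∈ Uᶜ, sg U t • (X t * Wop ζ j f (insert t U)) =
          ∑ t ∈ Uᶜ.erase (Fin.last n), sg U t • (X t * Wop ζ j f (insert t U)) :=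
        (Finset.sum_erase (f := fun t => sg U t • (X t * Wop ζ j f (insert t U))) Uᶜ h0).symm
      rw [h00, Eop_apply, if_pos hl, Wop_apply, if_pos ⟨hjU, hl⟩, KD_apply]
      have hset : (insert (Fin.last n) (U.erase j))ᶜ = insert j (Uᶜ.erase (Fin.last n)) := by
        ext x
        simp only [Finset.mem_compl, Finset.mem_insert, Finset.mem_erase, not_or, not_and, ne_eq]
        constructor
        · rintro ⟨h1, h2⟩
          by_cases hx : x = j
          · exact Or.inl hx
          · exact Or.inr ⟨h1, h2 hx⟩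
        · rintro (rfl | ⟨h1, h2⟩)
          · exact ⟨hj, fun h => absurd rfl h⟩
          · exact ⟨h1, fun _ => h2⟩
      have hjn : j ∉ Uᶜ.erase (Fin.last n) := by simp [hjU]
      rw [hset, Finset.sum_insert hjn, map_add, smul_add]
      have h1 : ep U j • tau ζ (sg (insert (Fin.last n) (U.erase j)) j •
          (X j * f (insert j (insert (Fin.last n) (U.erase j))))) =
          - (sg U (Fin.last n) • (X j * tau ζ (f (insert (Fin.last n) U)))) := by
        rw [map_smul, smul_smul, sign2 U j hjU hl, tau_X_mul ζ hj, neg_smul, Finset.insert_comm,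
          Finset.insert_erase hjU]
      rw [h1, ← add_assoc, add_neg_cancel, zero_add, map_sum, Finset.smul_sum]
      refine Finset.sum_congr rfl fun t ht => ?_
      rw [Finset.mem_erase, Finset.mem_compl] at ht
      obtain ⟨htl, htU⟩ := ht
      have htj : t ≠ j := fun h => htU (h ▸ hjU)
      rw [Wop_apply, if_pos ⟨Finset.mem_insert_of_mem hjU, by
        simp only [Finset.mem_insert, not_or]; exact ⟨fun h => htl h.symm, hl⟩⟩,
        map_smul, tau_X_mul ζ htl, smul_smul, mul_smul_comm, smul_smul, sign3 U j t hjU htU,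
        Finset.erase_insert_of_ne htj, Finset.insert_comm]
    · rw [Eop_apply, if_pos hl, Wop_apply, if_neg (by simp [hjU]), add_zero]
      rw [Finset.sum_eq_single j]
      · rw [Wop_apply, if_pos ⟨Finset.mem_insert_self _ _, by
          simp only [Finset.mem_insert, not_or]; exact ⟨fun h => hj h.symm, hl⟩⟩,
          Finset.erase_insert hjU, mul_smul_comm, smul_smul, sign1 U j hjU hl]
      · intro t ht htj
        rw [Wop_apply, if_neg, mul_zero, smul_zero]
        rintro ⟨h1, -⟩
        rw [Finset.mem_insert] at h1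
        rcases h1 with h1 | h1
        · exact htj h1.symm
        · exact hjU h1
      · intro h
        exact absurd (by simpa using hjU) h

/-- Distraction of chains. -/
noncomputable def phiC (ζ : ℂ) (j : Fin (n + 1)) : Ch (n + 1) →ₗ[ℂ] Ch (n + 1) :=
  LinearMap.pi fun T => phi ζ j ∘ₗ LinearMap.proj T

theorem phiC_apply (ζ : ℂ) (j : Fin (n + 1)) (f : Ch (n + 1)) (T : Finset (Fin (n + 1))) :
    phiC ζ j f T = phi ζ j (f T) := rfl

theorem KD_phiC (ζ : ℂ) {j : Fin (n + 1)} (hj : j ≠ Fin.last n) (f : Ch (n + 1)) :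
    KD (phiC ζ j f) = phiC ζ j (KD f + Eop ζ j f) := by
  funext U
  rw [phiC_apply, Pi.add_apply, map_add, KD_apply, KD_apply, map_sum, Eop_apply]
  by_cases hl : Fin.last n ∈ U
  · rw [if_neg (by simpa using hl), map_zero, add_zero]
    refine Finset.sum_congr rfl fun t ht => ?_
    have htl : t ≠ Fin.last n := by
      rintro rfl
      rw [Finset.mem_compl] at ht
      exact ht hl
    rw [map_smul, phiC_apply, phi_X_mul ζ j htl]
  · rw [if_pos hl]
    have hlU : Fin.last n ∈ Uᶜ := by simpa using hl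
    rw [← Finset.add_sum_erase _ _ hlU, ← Finset.add_sum_erase _ _ hlU]
    have h1 : ∑ t ∈ Uᶜ.erase (Fin.last n), sg U t • (X t * phiC ζ j f (insert t U)) =
        ∑ t ∈ Uᶜ.erase (Fin.last n), phi ζ j (sg U t • (X t * f (insert t U))) := by
      refine Finset.sum_congr rfl fun t ht => ?_
      rw [map_smul, phiC_apply, phi_X_mul ζ j (Finset.ne_of_mem_erase ht)]
    rw [h1, phiC_apply, map_smul, phi_Xlast_mul, map_smul, phi_X_mul ζ j hj, smul_sub]
    ring

/-- The isomorphism of Koszul complexes. -/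
noncomputable def Phi (ζ : ℂ) (j : Fin (n + 1)) : Ch (n + 1) →ₗ[ℂ] Ch (n + 1) :=
  phiC ζ j ∘ₗ (LinearMap.id - Wop ζ j)

theorem Phi_apply (ζ : ℂ) (j : Fin (n + 1)) (f : Ch (n + 1)) :
    Phi ζ j f = phiC ζ j (f - Wop ζ j f) := rfl

theorem KD_Phi (ζ : ℂ) {j : Fin (n + 1)} (hj : j ≠ Fin.last n) (f : Ch (n + 1)) :
    KD (Phi ζ j f) = Phi ζ j (KD f) := by
  rw [Phi_apply, Phi_apply, KD_phiC ζ hj, map_sub, map_sub, Eop_Wop, KD_Wop ζ hj]
  congr 1
  abel

theorem Phi_injective (ζ : ℂ) {j : Fin (n + 1)} (hj : j ≠ Fin.last n) :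
    Function.Injective (Phi ζ j) := by
  rw [injective_iff_map_eq_zero]
  intro f hf
  rw [Phi_apply] at hf
  have h1 : f - Wop ζ j f = 0 := by
    funext T
    have := congrFun hf T
    rw [phiC_apply] at this
    exact phi_injective ζ hj (by rw [this, Pi.zero_apply, map_zero])
  have h2 : f = Wop ζ j f := sub_eq_zero.1 h1
  rw [h2, h2]
  exact Wop_Wop ζ j f

theorem Wop_mem_chains (ζ : ℂ) {j : Fin (n + 1)} {p q : ℕ} {f : Ch (n + 1)}
    (hf : f ∈ chains (n + 1) p q) : Wop ζ j f ∈ chains (n + 1) p q := by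
  intro B m hm
  rw [Wop_apply] at hm
  split_ifs at hm with h
  · rw [coeff_smul, smul_eq_mul, coeff_tau] at hm
    have := hf _ m (right_ne_zero_of_mul (right_ne_zero_of_mul hm))
    rw [Finset.card_insert_of_notMem (fun h2 => h.2 (Finset.mem_of_mem_erase h2)),
      Finset.card_erase_add_one h.1] at this
    exact this
  · simp at hm

theorem phiC_mem_chains (ζ : ℂ) {j : Fin (n + 1)} (hj : j ≠ Fin.last n) {p q : ℕ}
    {f : Ch (n + 1)} (hf : f ∈ chains (n + 1) p q) : phiC ζ j f ∈ chains (n + 1) p q := by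
  intro B m hm
  rw [phiC_apply] at hm
  obtain ⟨m', h1, -, h2⟩ := phi_coeff_ne_zero ζ hj _ _ hm
  have := hf _ _ h1
  rw [h2]
  exact this

/-- The distraction of a monomial space. -/
noncomputable def dist (ζ : ℂ) (j : Fin (n + 1)) (J : Set (Fin (n + 1) →₀ ℕ)) :
    Submodule ℂ (MvPolynomial (Fin (n + 1)) ℂ) := (monId J).map (phi ζ j)

theorem tau_mem_monId (ζ : ℂ) {J : Set (Fin (n + 1) →₀ ℕ)} {f : MvPolynomial (Fin (n + 1)) ℂ}
    (hf : f ∈ monId J) : tau ζ f ∈ monId J := by
  intro m hm
  rw [coeff_tau] at hm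
  exact hf m (right_ne_zero_of_mul hm)

theorem zd_le_zd_dist (ζ : ℂ) {j : Fin (n + 1)} (hj : j ≠ Fin.last n)
    (J : Set (Fin (n + 1) →₀ ℕ)) (p q : ℕ) :
    zd (monId J) p q ≤ zd (dist ζ j J) p q := by
  unfold zd
  have h1 : finrank ℂ ((zsp (monId J) p q).map (Phi ζ j)) = finrank ℂ (zsp (monId J) p q) :=
    (LinearEquiv.finrank_eq (Submodule.equivMapOfInjective _ (Phi_injective ζ hj) _)).symm
  rw [← h1]
  apply Submodule.finrank_mono
  rintro _ ⟨f, hf, rfl⟩
  rw [mem_zsp]
  constructor
  · rw [Phi_apply]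
    exact phiC_mem_chains ζ hj (Submodule.sub_mem _ hf.1 (Wop_mem_chains ζ hf.1))
  · intro U
    rw [KD_Phi ζ hj, Phi_apply, phiC_apply]
    refine ⟨_, ?_, rfl⟩
    rw [Pi.sub_apply]
    refine Submodule.sub_mem _ (hf.2 U) ?_
    rw [Wop_apply]
    split_ifs
    · exact Submodule.smul_mem _ _ (tau_mem_monId ζ (hf.2 _))
    · exact Submodule.zero_mem _

end Crest.Agent.R181.Mon
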