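import Mathlib
import Crest.Prelude.Def_LexPlusPowers

-- ▼ part R181/MonLin
section

/-!
# Dimension of the space of initial forms

`finrank_eq_sum_initial` and `finrank_le_of_initial`: for a finite dimensional subspace `Z` of a
space with a family of orthogonal idempotents `c i` (components), ordered by an injective `key`.
Works over any division ring.
-/

namespace Crest.Agent.R181.Mon

open Module

variable {K V ι Λ : Type*} [DivisionRing K] [AddCommGroup V] [Module K V]
  [LinearOrder Λ]

/-- Elements of `Z` whose components of key bigger than `key i` vanish (for indices in `s`). -/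
def lowPart (key : ι → Λ) (c : ι → V →ₗ[K] V) (s : Finset ι) (Z : Submodule K V) (i : ι) :
    Submodule K V where
  carrier := {f | f ∈ Z ∧ ∀ j ∈ s, key i < key j → c j f = 0}
  add_mem' := by
    rintro f g ⟨hf, hf'⟩ ⟨hg, hg'⟩
    exact ⟨Z.add_mem hf hg, fun j hj hij => by rw [map_add, hf' j hj hij, hg' j hj hij, add_zero]⟩
  zero_mem' := ⟨Z.zero_mem, fun j _ _ => map_zero _⟩
  smul_mem' := by
    rintro a f ⟨hf, hf'⟩
    exact ⟨Z.smul_mem a hf, fun j hj hij => by rw [map_smul, hf' j hj hij, smul_zero]⟩

theorem mem_lowPart {key : ι → Λ} {c : ι → V →ₗ[K] V} {s : Finset ι} {Z : Submodule K V} {i : ι}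
    {f : V} : f ∈ lowPart key c s Z i ↔ f ∈ Z ∧ ∀ j ∈ s, key i < key j → c j f = 0 := Iff.rfl

theorem finrank_eq_sum_initial [DecidableEq ι] (key : ι → Λ) (hkey : Function.Injective key)
    (c : ι → V →ₗ[K] V) (s : Finset ι) (Z : Submodule K V) [FiniteDimensional K Z]
    (hZ : ∀ f ∈ Z, (∀ i ∈ s, c i f = 0) → f = 0) :
    finrank K Z = ∑ i ∈ s, finrank K ((lowPart key c s Z i).map (c i)) := by
  induction s using Finset.induction_on_max_value key generalizing Z with
  | empty =>
    have : Z = ⊥ := by
      rw [Submodule.eq_bot_iff]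
      intro f hf
      exact hZ f hf (by simp)
    subst this
    simp
  | insert a s has hmax ih =>
    have hlt : ∀ x ∈ s, key x < key a := fun x hx =>
      lt_of_le_of_ne (hmax x hx) (fun h => has (hkey h ▸ hx))
    set Z₁ : Submodule K V := Z ⊓ LinearMap.ker (c a) with hZ₁
    have : FiniteDimensional K Z₁ :=
      Submodule.finiteDimensional_of_le (inf_le_left : Z₁ ≤ Z)
    have h1 := ih Z₁ (by
      intro f hf h
      refine hZ f hf.1 ?_
      intro i hi
      rcases Finset.mem_insert.1 hi with rfl | hi
      · exact hf.2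
      · exact h i hi)
    rw [Finset.sum_insert has]
    -- the top component
    have htop : (lowPart key c (insert a s) Z a) = Z := by
      ext f
      rw [mem_lowPart]
      constructor
      · exact fun h => h.1
      · intro h
        refine ⟨h, fun j hj hij => ?_⟩
        rcases Finset.mem_insert.1 hj with rfl | hj
        · exact absurd hij (lt_irrefl _)
        · exact absurd (hlt j hj) (not_lt.2 hij.le)
    have hlow : ∀ i ∈ s, lowPart key c (insert a s) Z i = lowPart key c s Z₁ i := by
      intro i hi
      ext f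
      rw [mem_lowPart, mem_lowPart]
      constructor
      · rintro ⟨hf, h⟩
        refine ⟨⟨hf, ?_⟩, fun j hj hij => h j (Finset.mem_insert_of_mem hj) hij⟩
        exact h a (Finset.mem_insert_self _ _) (hlt i hi)
      · rintro ⟨⟨hf, ha⟩, h⟩
        refine ⟨hf, fun j hj hij => ?_⟩
        rcases Finset.mem_insert.1 hj with rfl | hj
        · exact ha
        · exact h j hj hij
    rw [htop, Finset.sum_congr rfl (fun i hi => by rw [hlow i hi]), ← h1]
    -- rank nullity for `c a` restricted to `Z`
    have hrn := LinearMap.finrank_range_add_finrank_ker ((c a).domRestrict Z)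
    have hr : LinearMap.range ((c a).domRestrict Z) = Z.map (c a) := by
      rw [LinearMap.range_domRestrict]
    have hk : finrank K (LinearMap.ker ((c a).domRestrict Z)) = finrank K Z₁ := by
      have : LinearMap.ker ((c a).domRestrict Z) = Submodule.comap Z.subtype (LinearMap.ker (c a)) := by
        ext x; simp [LinearMap.mem_ker]
      rw [this]
      have h2 : Z₁ = (Submodule.comap Z.subtype (LinearMap.ker (c a))).map Z.subtype := by
        rw [Submodule.map_comap_subtype]
      rw [h2]
      exact (LinearEquiv.finrank_eq (Submodule.equivMapOfInjective Z.subtype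
        Z.injective_subtype _)).trans rfl
    rw [hr, hk] at hrn
    omega

theorem sum_finrank_le [DecidableEq ι] (c : ι → V →ₗ[K] V)
    (hc2 : ∀ i j, i ≠ j → ∀ f, c j (c i f) = 0)
    (s : Finset ι) (Z' : Submodule K V) [FiniteDimensional K Z'] (N : ι → Submodule K V)
    (hN : ∀ i ∈ s, N i ≤ Z') (hN' : ∀ i ∈ s, ∀ f ∈ N i, c i f = f) :
    ∑ i ∈ s, finrank K (N i) ≤ finrank K Z' := by
  induction s using Finset.induction_on generalizing Z' with
  | empty => simp
  | insert a s has ih =>
    rw [Finset.sum_insert has]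
    set Z₁ : Submodule K V := Z' ⊓ LinearMap.ker (c a) with hZ₁
    have : FiniteDimensional K Z₁ :=
      Submodule.finiteDimensional_of_le (inf_le_left : Z₁ ≤ Z')
    have h1 := ih Z₁ (by
        intro i hi f hf
        refine ⟨hN i (Finset.mem_insert_of_mem hi) hf, ?_⟩
        have h3 := hN' i (Finset.mem_insert_of_mem hi) f hf
        have h4 : c a (c i f) = 0 := hc2 i a (fun h => has (h ▸ hi)) f
        rw [h3] at h4
        exact h4)
      (fun i hi => hN' i (Finset.mem_insert_of_mem hi))
    have hNa := hN a (Finset.mem_insert_self _ _)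
    have : FiniteDimensional K (N a) := Submodule.finiteDimensional_of_le hNa
    have hdisj : Disjoint (N a) Z₁ := by
      rw [Submodule.disjoint_def]
      intro f hf hf1
      have := hN' a (Finset.mem_insert_self _ _) f hf
      rw [← this]
      exact hf1.2
    have h2 : finrank K (N a) + finrank K Z₁ = finrank K ↥(N a ⊔ Z₁) := by
      have := Submodule.finrank_sup_add_finrank_inf_eq (N a) Z₁
      rw [hdisj.eq_bot, finrank_bot, add_zero] at this
      exact this.symm
    have h3 : finrank K ↥(N a ⊔ Z₁) ≤ finrank K Z' :=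
      Submodule.finrank_mono (sup_le hNa inf_le_left)
    omega

/-- If all initial forms of elements of `Z` lie in `Z'`, then `dim Z ≤ dim Z'`. -/
theorem finrank_le_of_initial [DecidableEq ι] (key : ι → Λ) (hkey : Function.Injective key)
    (c : ι → V →ₗ[K] V) (hc1 : ∀ i f, c i (c i f) = c i f)
    (hc2 : ∀ i j, i ≠ j → ∀ f, c j (c i f) = 0) (s : Finset ι)
    (Z Z' : Submodule K V) [FiniteDimensional K Z] [FiniteDimensional K Z']
    (hZ : ∀ f ∈ Z, (∀ i ∈ s, c i f = 0) → f = 0)
    (hin : ∀ i ∈ s, ∀ f ∈ Z, (∀ j ∈ s, key i < key j → c j f = 0) → c i f ∈ Z') :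
    finrank K Z ≤ finrank K Z' := by
  rw [finrank_eq_sum_initial key hkey c s Z hZ]
  refine sum_finrank_le c hc2 s Z' _ ?_ ?_
  · rintro i hi _ ⟨f, hf, rfl⟩
    exact hin i hi f hf.1 hf.2
  · rintro i hi _ ⟨f, hf, rfl⟩
    exact hc1 i f

end Crest.Agent.R181.Mon
end

-- ▼ part R181/MonKos
section

/-!
# Koszul chains with polynomial values

`Ch n` are the functions from finite sets of variables to polynomials, `KD` the Koszul
differential, `chains n p j` the chains of bidegree `(p, j)`, `zsp I p j` the chains whose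
differential is `I`-valued and `zd I p j` its dimension.
-/

namespace Crest.Agent.R181.Mon

open MvPolynomial Module Finset

variable {n : ℕ}

/-- Koszul chains with values in the polynomial ring. -/
abbrev Ch (n : ℕ) := Finset (Fin n) → MvPolynomial (Fin n) ℂ

/-- The Koszul sign. -/
noncomputable def sg (U : Finset (Fin n)) (t : Fin n) : ℂ := (-1) ^ (U.filter (· < t)).card


/-- The Koszul differential on polynomial chains. -/
noncomputable def KD : Ch n →ₗ[ℂ] Ch n where
  toFun f U := ∑ t ∈ Uᶜ, sg U t • (X t * f (insert t U))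
  map_add' f g := by
    funext U
    simp only [Pi.add_apply, mul_add, smul_add, Finset.sum_add_distrib]
  map_smul' a f := by
    funext U
    simp only [Pi.smul_apply, RingHom.id_apply, Finset.smul_sum, mul_smul_comm]
    exact Finset.sum_congr rfl fun t _ => smul_comm _ _ _

theorem KD_apply (f : Ch n) (U : Finset (Fin n)) :
    KD f U = ∑ t ∈ Uᶜ, sg U t • (X t * f (insert t U)) := rfl

theorem coeff_KD (f : Ch n) (U : Finset (Fin n)) (m : Fin n →₀ ℕ) :
    coeff m (KD f U) = ∑ t ∈ Uᶜ, sg U t *
      (if t ∈ m.support then coeff (m - Finsupp.single t 1) (f (insert t U)) else 0) := by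
  rw [KD_apply, coeff_sum]
  refine Finset.sum_congr rfl fun t _ => ?_
  rw [coeff_smul, coeff_X_mul', smul_eq_mul]

/-- Chains of bidegree `(p, j)`. -/
def chains (n p j : ℕ) : Submodule ℂ (Ch n) where
  carrier := {f | ∀ T m, coeff m (f T) ≠ 0 → T.card = p ∧ m.degree + p = j}
  add_mem' := by
    intro f g hf hg T m h
    rw [Pi.add_apply, coeff_add] at h
    by_cases h1 : coeff m (f T) = 0
    · exact hg T m (by rwa [h1, zero_add] at h)
    · exact hf T m h1
  zero_mem' := by
    intro T m h
    simp at h
  smul_mem' := by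
    intro a f hf T m h
    rw [Pi.smul_apply, coeff_smul, smul_eq_mul] at h
    exact hf T m (right_ne_zero_of_mul h)


/-- Chains whose values have all exponents in `s`. -/
def suppIn (n : ℕ) (s : Finset (Fin n →₀ ℕ)) : Submodule ℂ (Ch n) where
  carrier := {f | ∀ T m, coeff m (f T) ≠ 0 → m ∈ s}
  add_mem' := by
    intro f g hf hg T m h
    rw [Pi.add_apply, coeff_add] at h
    by_cases h1 : coeff m (f T) = 0
    · exact hg T m (by rwa [h1, zero_add] at h)
    · exact hf T m h1
  zero_mem' := by
    intro T m h
    simp at h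
  smul_mem' := by
    intro a f hf T m h
    rw [Pi.smul_apply, coeff_smul, smul_eq_mul] at h
    exact hf T m (right_ne_zero_of_mul h)

instance (s : Finset (Fin n →₀ ℕ)) : FiniteDimensional ℂ (suppIn n s) := by
  let φ : suppIn n s →ₗ[ℂ] (Finset (Fin n) × s → ℂ) :=
    { toFun := fun f x => coeff x.2.1 (f.1 x.1)
      map_add' := fun f g => by funext x; simp
      map_smul' := fun a f => by funext x; simp }
  refine FiniteDimensional.of_injective φ ?_
  rw [injective_iff_map_eq_zero]
  intro f hf
  ext T m
  by_contra h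
  have hm : m ∈ s := f.2 T m (by simpa using h)
  have := congrFun hf (T, ⟨m, hm⟩)
  exact h (by simpa [φ] using this)

/-- The exponents of degree `d`. -/
noncomputable def degS (n d : ℕ) : Finset (Fin n →₀ ℕ) := Finset.finsuppAntidiag Finset.univ d

theorem mem_degS {d : ℕ} {m : Fin n →₀ ℕ} : m ∈ degS n d ↔ m.degree = d := by
  unfold degS
  rw [Finset.mem_finsuppAntidiag, Finsupp.degree_eq_sum]
  simp

theorem chains_le_suppIn (p j : ℕ) : chains n p j ≤ suppIn n (degS n (j - p)) := by
  intro f hf T m h
  have := hf T m h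
  rw [mem_degS]
  omega

instance (p j : ℕ) : FiniteDimensional ℂ (chains n p j) :=
  Submodule.finiteDimensional_of_le (chains_le_suppIn p j)

/-- Chains with values in a subspace `I`. -/
def valued (I : Submodule ℂ (MvPolynomial (Fin n) ℂ)) : Submodule ℂ (Ch n) where
  carrier := {f | ∀ T, f T ∈ I}
  add_mem' := fun hf hg T => I.add_mem (hf T) (hg T)
  zero_mem' := fun _ => I.zero_mem
  smul_mem' := fun a _ hf T => I.smul_mem a (hf T)

theorem mem_valued {I : Submodule ℂ (MvPolynomial (Fin n) ℂ)} {f : Ch n} :
    f ∈ valued I ↔ ∀ T, f T ∈ I := Iff.rfl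

/-- Chains of bidegree `(p, j)` whose differential is `I`-valued. -/
noncomputable def zsp (I : Submodule ℂ (MvPolynomial (Fin n) ℂ)) (p j : ℕ) :
    Submodule ℂ (Ch n) := chains n p j ⊓ (valued I).comap KD

theorem mem_zsp {I : Submodule ℂ (MvPolynomial (Fin n) ℂ)} {p j : ℕ} {f : Ch n} :
    f ∈ zsp I p j ↔ f ∈ chains n p j ∧ ∀ U, KD f U ∈ I := Iff.rfl

instance (I : Submodule ℂ (MvPolynomial (Fin n) ℂ)) (p j : ℕ) :
    FiniteDimensional ℂ (zsp I p j) :=
  Submodule.finiteDimensional_of_le (inf_le_left : zsp I p j ≤ chains n p j)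

/-- Dimension of the space of chains of bidegree `(p, j)` with `I`-valued differential. -/
noncomputable def zd (I : Submodule ℂ (MvPolynomial (Fin n) ℂ)) (p j : ℕ) : ℕ :=
  finrank ℂ (zsp I p j)


theorem KD_mem_chains {p j : ℕ} {f : Ch n} (hf : f ∈ chains n (p + 1) j) :
    KD f ∈ chains n p j := by
  intro U m h
  rw [coeff_KD] at h
  obtain ⟨t, ht, h2⟩ := Finset.exists_ne_zero_of_sum_ne_zero h
  have h3 := right_ne_zero_of_mul h2
  split_ifs at h3 with h4
  · obtain ⟨h5, h6⟩ := hf _ _ h3
    have htU : t ∉ U := by simpa using ht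
    rw [Finset.card_insert_of_notMem htU] at h5
    have h7 : m = (m - Finsupp.single t 1) + Finsupp.single t 1 := by
      rw [tsub_add_cancel_of_le]
      rw [Finsupp.single_le_iff]
      have := Finsupp.mem_support_iff.1 h4
      omega
    have h8 : m.degree = (m - Finsupp.single t 1).degree + 1 := by
      conv_lhs => rw [h7]
      rw [map_add, Finsupp.degree_single]
    omega
  · exact absurd rfl h3

end Crest.Agent.R181.Mon
end

-- ▼ part R181/MonSemi

/-!
# Semicontinuity: passing to the leading monomials (reverse lexicographic order)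
-/

namespace Crest.Agent.R181.Mon

open MvPolynomial Module Finset

variable {n : ℕ}

/-- The reverse lexicographic key: a smaller exponent of the last variable is bigger. -/
def key (m : Fin n →₀ ℕ) : (Colex (Fin n →₀ ℕ))ᵒᵈ := OrderDual.toDual (toColex m)

theorem key_injective : Function.Injective (key : (Fin n →₀ ℕ) → _) := fun a b h => by
  simpa [key] using h

theorem key_add_lt {a b : Fin n →₀ ℕ} (c : Fin n →₀ ℕ) : key (a + c) < key (b + c) ↔ key a < key b := by
  unfold key
  rw [OrderDual.toDual_lt_toDual, OrderDual.toDual_lt_toDual]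
  rw [show toColex (a + c) = toColex a + toColex c from rfl,
    show toColex (b + c) = toColex b + toColex c from rfl]
  exact add_lt_add_iff_right _

theorem key_lt_of_last {a b : Fin (n + 1) →₀ ℕ} (h : a (Fin.last n) < b (Fin.last n)) :
    key b < key a := by
  unfold key
  rw [OrderDual.toDual_lt_toDual, Finsupp.Colex.lt_iff]
  refine ⟨Fin.last n, fun j hj => absurd hj (not_lt.2 (Fin.le_last j)), h⟩

/-- Indicator exponent of a set of variables. -/
noncomputable def e1 (T : Finset (Fin n)) : Fin n →₀ ℕ := ∑ t ∈ T, Finsupp.single t 1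

theorem e1_insert {T : Finset (Fin n)} {t : Fin n} (h : t ∉ T) :
    e1 (insert t T) = Finsupp.single t 1 + e1 T := by
  unfold e1; rw [Finset.sum_insert h]

theorem degree_e1 (T : Finset (Fin n)) : (e1 T).degree = T.card := by
  unfold e1; rw [map_sum]; simp [Finsupp.degree_single]

/-- Component of multidegree `μ` of a chain. -/
noncomputable def cmp (μ : Fin n →₀ ℕ) : Ch n →ₗ[ℂ] Ch n where
  toFun f T := if e1 T ≤ μ then monomial (μ - e1 T) (coeff (μ - e1 T) (f T)) else 0
  map_add' f g := by
    funext T
    simp only [Pi.add_apply, coeff_add, map_add]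
    split_ifs <;> simp
  map_smul' a f := by
    funext T
    simp only [Pi.smul_apply, coeff_smul, RingHom.id_apply]
    split_ifs
    · rw [smul_monomial]
    · simp

theorem coeff_cmp (μ : Fin n →₀ ℕ) (f : Ch n) (T : Finset (Fin n)) (m : Fin n →₀ ℕ) :
    coeff m (cmp μ f T) = if m + e1 T = μ then coeff m (f T) else 0 := by
  change coeff m (if e1 T ≤ μ then monomial (μ - e1 T) (coeff (μ - e1 T) (f T)) else 0) = _
  by_cases h1 : e1 T ≤ μ
  · rw [if_pos h1, coeff_monomial]
    by_cases h2 : m + e1 T = μ
    · have : μ - e1 T = m := by rw [← h2]; exact add_tsub_cancel_right _ _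
      rw [if_pos this, if_pos h2, this]
    · rw [if_neg h2, if_neg]
      intro h3
      apply h2
      rw [← h3, tsub_add_cancel_of_le h1]
  · rw [if_neg h1, coeff_zero, if_neg]
    intro h2
    apply h1
    rw [← h2]
    exact le_add_self

theorem cmp_cmp_self (μ : Fin n →₀ ℕ) (f : Ch n) : cmp μ (cmp μ f) = cmp μ f := by
  funext T
  ext m
  rw [coeff_cmp, coeff_cmp]
  split_ifs <;> rfl

theorem cmp_cmp_ne {μ ν : Fin n →₀ ℕ} (h : μ ≠ ν) (f : Ch n) : cmp ν (cmp μ f) = 0 := by
  funext T
  ext m
  rw [coeff_cmp, coeff_cmp]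
  simp only [Pi.zero_apply, coeff_zero]
  split_ifs with h1 h2
  · exact absurd (h2.symm.trans h1) h
  · rfl
  · rfl

theorem KD_cmp (μ : Fin n →₀ ℕ) (f : Ch n) : KD (cmp μ f) = cmp μ (KD f) := by
  funext U
  ext m
  rw [coeff_cmp, coeff_KD, coeff_KD]
  have key1 : ∀ t ∈ Uᶜ, sg U t * (if t ∈ m.support then
        coeff (m - Finsupp.single t 1) (cmp μ f (insert t U)) else 0) =
      if m + e1 U = μ then sg U t * (if t ∈ m.support then
        coeff (m - Finsupp.single t 1) (f (insert t U)) else 0) else 0 := by
    intro t ht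
    have htU : t ∉ U := by simpa using ht
    by_cases h4 : t ∈ m.support
    · rw [if_pos h4, if_pos h4, coeff_cmp, e1_insert htU, ← add_assoc, tsub_add_cancel_of_le]
      · split_ifs <;> simp
      · rw [Finsupp.single_le_iff]
        have := Finsupp.mem_support_iff.1 h4
        omega
    · rw [if_neg h4, if_neg h4]
      split_ifs <;> simp
  rw [Finset.sum_congr rfl key1]
  split_ifs
  · rfl
  · simp

/-- The leading exponents of the homogeneous elements of `I`. -/
def lead (I : Submodule ℂ (MvPolynomial (Fin n) ℂ)) : Set (Fin n →₀ ℕ) :=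
  {m | ∃ f ∈ I, coeff m f ≠ 0 ∧ ∀ m', coeff m' f ≠ 0 → m'.degree = m.degree ∧ key m' ≤ key m}

/-- The span of the monomials in `J`. -/
def monId (J : Set (Fin n →₀ ℕ)) : Submodule ℂ (MvPolynomial (Fin n) ℂ) where
  carrier := {f | ∀ m, coeff m f ≠ 0 → m ∈ J}
  add_mem' := by
    intro f g hf hg m h
    rw [coeff_add] at h
    by_cases h1 : coeff m f = 0
    · exact hg m (by rwa [h1, zero_add] at h)
    · exact hf m h1
  zero_mem' := by
    intro m h
    simp at h
  smul_mem' := by
    intro a f hf m h
    rw [coeff_smul, smul_eq_mul] at h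
    exact hf m (right_ne_zero_of_mul h)

theorem mem_monId {J : Set (Fin n →₀ ℕ)} {f : MvPolynomial (Fin n) ℂ} :
    f ∈ monId J ↔ ∀ m, coeff m f ≠ 0 → m ∈ J := Iff.rfl

/-- Degree piece of a subspace. -/
noncomputable def pc (I : Submodule ℂ (MvPolynomial (Fin n) ℂ)) (d : ℕ) :
    Submodule ℂ (MvPolynomial (Fin n) ℂ) :=
  homogeneousSubmodule (Fin n) ℂ d ⊓ I

theorem isHomogeneous_iff' {f : MvPolynomial (Fin n) ℂ} {d : ℕ} :
    f.IsHomogeneous d ↔ ∀ m, coeff m f ≠ 0 → m.degree = d := by
  constructor
  · intro h m hm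
    by_contra h2
    exact hm (h.coeff_eq_zero h2)
  · intro h m hm
    have := h m hm
    rw [← this, Finsupp.degree_eq_weight_one]
    rfl

theorem mem_pc {I : Submodule ℂ (MvPolynomial (Fin n) ℂ)} {d : ℕ} {f : MvPolynomial (Fin n) ℂ} :
    f ∈ pc I d ↔ (∀ m, coeff m f ≠ 0 → m.degree = d) ∧ f ∈ I := by
  unfold pc
  rw [Submodule.mem_inf, mem_homogeneousSubmodule, isHomogeneous_iff']

theorem finiteDimensional_of_supp (Z : Submodule ℂ (MvPolynomial (Fin n) ℂ))
    (s : Finset (Fin n →₀ ℕ)) (h : ∀ f ∈ Z, ∀ m, coeff m f ≠ 0 → m ∈ s) :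
    FiniteDimensional ℂ Z := by
  let φ : Z →ₗ[ℂ] (s → ℂ) :=
    { toFun := fun f x => coeff x.1 f.1
      map_add' := fun f g => by funext x; simp
      map_smul' := fun a f => by funext x; simp }
  refine FiniteDimensional.of_injective φ ?_
  rw [injective_iff_map_eq_zero]
  intro f hf
  ext m
  by_contra h2
  have hm : m ∈ s := h f.1 f.2 m (by simpa using h2)
  have := congrFun hf ⟨m, hm⟩
  exact h2 (by simpa [φ] using this)

instance (I : Submodule ℂ (MvPolynomial (Fin n) ℂ)) (d : ℕ) : FiniteDimensional ℂ (pc I d) :=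
  finiteDimensional_of_supp _ (degS n d) (fun f hf m hm => mem_degS.2 ((mem_pc.1 hf).1 m hm))

open Classical in
/-- Hilbert function of a set of exponents. -/
noncomputable def hf (J : Set (Fin n →₀ ℕ)) (d : ℕ) : ℕ := ((degS n d).filter (· ∈ J)).card

/-- The monomial component. -/
noncomputable def mc (m : Fin n →₀ ℕ) :
    MvPolynomial (Fin n) ℂ →ₗ[ℂ] MvPolynomial (Fin n) ℂ where
  toFun f := monomial m (coeff m f)
  map_add' f g := by rw [coeff_add, map_add]
  map_smul' a f := by rw [coeff_smul, RingHom.id_apply, smul_monomial]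

theorem mc_apply (m : Fin n →₀ ℕ) (f : MvPolynomial (Fin n) ℂ) :
    mc m f = monomial m (coeff m f) := rfl

/-- General count: for a space `Z` of polynomials of degree `d`, the dimension is the number of
leading exponents. -/
theorem finrank_eq_card_lead (Z : Submodule ℂ (MvPolynomial (Fin n) ℂ)) [FiniteDimensional ℂ Z]
    (d : ℕ) (hZ : ∀ f ∈ Z, ∀ m, coeff m f ≠ 0 → m.degree = d) (S : Finset (Fin n →₀ ℕ))
    (hS : ∀ m, m ∈ S ↔ m.degree = d ∧ ∃ f ∈ Z, coeff m f ≠ 0 ∧
      ∀ m', coeff m' f ≠ 0 → key m' ≤ key m) :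
    finrank ℂ Z = S.card := by
  classical
  rw [finrank_eq_sum_initial key key_injective mc (degS n d) Z]
  · have h1 : ∀ m ∈ degS n d, finrank ℂ ((lowPart key mc (degS n d) Z m).map (mc m)) =
        if m ∈ S then 1 else 0 := by
      intro m hm
      split_ifs with h
      · obtain ⟨-, f, hf, hfm, hf2⟩ := (hS m).1 h
        have : (lowPart key mc (degS n d) Z m).map (mc m) = ℂ ∙ (monomial m (1 : ℂ)) := by
          apply le_antisymm
          · rintro _ ⟨g, -, rfl⟩
            rw [mc_apply, Submodule.mem_span_singleton]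
            exact ⟨coeff m g, by rw [smul_monomial, smul_eq_mul, mul_one]⟩
          · rw [Submodule.span_singleton_le_iff_mem]
            refine ⟨(coeff m f)⁻¹ • f, ?_, ?_⟩
            · refine ⟨Z.smul_mem _ hf, fun j hj hij => ?_⟩
              rw [mc_apply, coeff_smul]
              have : coeff j f = 0 := by
                by_contra hne
                exact absurd hij (not_lt.2 (hf2 j hne))
              rw [this, smul_zero, map_zero]
            · rw [mc_apply, coeff_smul, smul_eq_mul, inv_mul_cancel₀ hfm]
        rw [this]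
        exact finrank_span_singleton (by simp [monomial_eq_zero])
      · have : (lowPart key mc (degS n d) Z m).map (mc m) = ⊥ := by
          rw [Submodule.eq_bot_iff]
          rintro _ ⟨f, ⟨hf, hf2⟩, rfl⟩
          rw [mc_apply]
          by_contra hne
          apply h
          rw [hS]
          refine ⟨mem_degS.1 hm, f, hf, fun h0 => hne (by rw [h0, map_zero]), fun m' hm' => ?_⟩
          by_contra hlt
          have := hf2 m' (mem_degS.2 (hZ f hf m' hm')) (not_le.1 hlt)
          rw [mc_apply, monomial_eq_zero] at this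
          exact hm' this
        rw [this, finrank_bot]
    rw [Finset.sum_congr rfl h1, Finset.sum_ite_mem, Finset.sum_const, smul_eq_mul, mul_one]
    congr 1
    rw [Finset.inter_eq_right]
    intro m hm
    exact mem_degS.2 ((hS m).1 hm).1
  · intro f hf h
    ext m
    by_contra hne
    rw [coeff_zero] at hne
    have := h m (mem_degS.2 (hZ f hf m hne))
    rw [mc_apply, monomial_eq_zero] at this
    exact hne this

theorem hf_lead (I : Submodule ℂ (MvPolynomial (Fin n) ℂ)) (d : ℕ) :
    finrank ℂ (pc I d) = hf (lead I) d := by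
  classical
  unfold hf
  apply finrank_eq_card_lead (pc I d) d (fun _ hf => (mem_pc.1 hf).1)
  intro m
  rw [Finset.mem_filter, mem_degS]
  constructor
  · rintro ⟨h1, f, hf, h2, h3⟩
    exact ⟨h1, f, mem_pc.2 ⟨fun m' hm' => by rw [(h3 m' hm').1, h1], hf⟩, h2,
      fun m' hm' => (h3 m' hm').2⟩
  · rintro ⟨h1, f, hf, h2, h3⟩
    have := mem_pc.1 hf
    exact ⟨h1, f, this.2, h2, fun m' hm' => ⟨by rw [this.1 m' hm', h1], h3 m' hm'⟩⟩

theorem lead_upClosed (I : Submodule ℂ (MvPolynomial (Fin n) ℂ))
    (hX : ∀ t, ∀ f ∈ I, X t * f ∈ I) (m : Fin n →₀ ℕ) (hm : m ∈ lead I) (t : Fin n) :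
    m + Finsupp.single t 1 ∈ lead I := by
  obtain ⟨f, hf, h1, h2⟩ := hm
  refine ⟨X t * f, hX t f hf, ?_, ?_⟩
  · rw [add_comm, coeff_X_mul]; exact h1
  · intro m' hm'
    rw [coeff_X_mul'] at hm'
    split_ifs at hm' with h3
    · obtain ⟨h4, h5⟩ := h2 _ hm'
      have h6 : m' = (m' - Finsupp.single t 1) + Finsupp.single t 1 := by
        rw [tsub_add_cancel_of_le]
        rw [Finsupp.single_le_iff]
        have := Finsupp.mem_support_iff.1 h3
        omega
      constructor
      · rw [h6, map_add, map_add, h4]
      · rw [h6]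
        rw [← not_lt, key_add_lt, not_lt]
        exact h5
    · exact absurd rfl hm'

theorem monomial_mem_lead (I : Submodule ℂ (MvPolynomial (Fin n) ℂ)) (m : Fin n →₀ ℕ)
    (h : monomial m (1 : ℂ) ∈ I) : m ∈ lead I := by
  refine ⟨_, h, by simp, fun m' hm' => ?_⟩
  rw [coeff_monomial] at hm'
  split_ifs at hm' with h1
  · subst h1; exact ⟨rfl, le_rfl⟩
  · exact absurd rfl hm'

/-- Semicontinuity. -/
theorem zd_le_zd_lead (I : Submodule ℂ (MvPolynomial (Fin n) ℂ)) (p j : ℕ) :
    zd I p j ≤ zd (monId (lead I)) p j := by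
  classical
  unfold zd
  refine finrank_le_of_initial key key_injective cmp cmp_cmp_self
    (fun i j hij f => cmp_cmp_ne hij f) (degS n j) _ _ ?_ ?_
  · intro f hf h
    funext T
    ext m
    by_contra hne
    rw [Pi.zero_apply, coeff_zero] at hne
    have h1 := hf.1 T m hne
    have h2 := h (m + e1 T) (by rw [mem_degS, map_add, degree_e1]; omega)
    have h3 := coeff_cmp (m + e1 T) f T m
    rw [h2, if_pos rfl] at h3
    exact hne (by simpa using h3.symm)
  · intro μ hμ f hf h
    rw [mem_zsp]
    constructor
    · intro T m hm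
      rw [coeff_cmp] at hm
      split_ifs at hm with h1
      · exact hf.1 T m hm
      · exact absurd rfl hm
    · intro U
      rw [KD_cmp, mem_monId]
      intro m hm
      rw [coeff_cmp] at hm
      split_ifs at hm with h1
      · refine ⟨KD f U, hf.2 U, hm, fun m' hm' => ?_⟩
        have hdeg : ∀ m'', coeff m'' (KD f U) ≠ 0 → (m'' + e1 U).degree = j := by
          intro m'' hm''
          rw [coeff_KD] at hm''
          obtain ⟨t, ht, h2⟩ := Finset.exists_ne_zero_of_sum_ne_zero hm''
          have h3 := right_ne_zero_of_mul h2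
          have htU : t ∉ U := by simpa using ht
          split_ifs at h3 with h4
          · have h5 := hf.1 _ _ h3
            have h7 : m'' = (m'' - Finsupp.single t 1) + Finsupp.single t 1 := by
              rw [tsub_add_cancel_of_le]
              rw [Finsupp.single_le_iff]
              have := Finsupp.mem_support_iff.1 h4
              omega
            have h8 : m''.degree = (m'' - Finsupp.single t 1).degree + 1 := by
              conv_lhs => rw [h7]
              rw [map_add, Finsupp.degree_single]
            rw [Finset.card_insert_of_notMem htU] at h5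
            rw [map_add, degree_e1]
            omega
          · exact absurd rfl h3
        constructor
        · have h2 := hdeg m' hm'
          have h3 := hdeg m hm
          rw [map_add] at h2 h3
          omega
        · by_contra hlt
          rw [not_le, ← key_add_lt (e1 U), h1] at hlt
          have h4 := h (m' + e1 U) (mem_degS.2 (hdeg m' hm')) hlt
          have h5 := coeff_cmp (m' + e1 U) (KD f) U m'
          rw [if_pos rfl, ← KD_cmp, h4, map_zero, Pi.zero_apply, coeff_zero] at h5
          exact hm' h5.symm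
      · exact absurd rfl hm

end Crest.Agent.R181.Mon
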