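import Crest.Agent.R181.MonDist2
import Crest.Agent.R181.MonSemi
import Mathlib

-- ▼ part R181/MonStable
section

/-!
# Reduction to stable monomial sets
-/

namespace Crest.Agent.R181.Mon

open MvPolynomial Module Finset

variable {n : ℕ}

/-- closed under multiplication by variables -/
def UpClosed (J : Set (Fin n →₀ ℕ)) : Prop := ∀ m ∈ J, ∀ t, m + Finsupp.single t 1 ∈ J

/-- contains the pure powers -/
def HasP (a : Fin n → ℕ) (J : Set (Fin n →₀ ℕ)) : Prop := ∀ i, Finsupp.single i (a i) ∈ J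

/-- stable in the box with respect to the last variable -/
def Stab (A : ℕ) (J : Set (Fin (n + 1) →₀ ℕ)) : Prop :=
  ∀ m : Fin (n + 1) →₀ ℕ, ∀ j, j ≠ Fin.last n → m + Finsupp.single (Fin.last n) 1 ∈ J →
    m (Fin.last n) + 1 < A → m + Finsupp.single j 1 ∈ J

theorem UpClosed.add_mem {J : Set (Fin n →₀ ℕ)} (hJ : UpClosed J) {m : Fin n →₀ ℕ} (hm : m ∈ J) :
    ∀ d : ℕ, ∀ r : Fin n →₀ ℕ, r.degree = d → m + r ∈ J := by
  intro d
  induction d with
  | zero =>
    intro r hr
    rw [Finsupp.degree_eq_zero_iff] at hr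
    rw [hr, add_zero]; exact hm
  | succ d ih =>
    intro r hr
    have hne : r ≠ 0 := by rintro rfl; simp at hr
    obtain ⟨k, hk⟩ := Finsupp.support_nonempty_iff.2 hne
    have h1 : r = (r - Finsupp.single k 1) + Finsupp.single k 1 := by
      rw [tsub_add_cancel_of_le]
      rw [Finsupp.single_le_iff]
      have := Finsupp.mem_support_iff.1 hk
      omega
    have h2 : (r - Finsupp.single k 1).degree = d := by
      have := congrArg Finsupp.degree h1
      rw [map_add, Finsupp.degree_single] at this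
      omega
    rw [h1, ← add_assoc]
    exact hJ _ (ih _ h2) k

theorem UpClosed.mem_of_le {J : Set (Fin n →₀ ℕ)} (hJ : UpClosed J) {m m' : Fin n →₀ ℕ}
    (hm : m ∈ J) (h : m ≤ m') : m' ∈ J := by
  have := hJ.add_mem hm _ (m' - m) rfl
  rwa [add_tsub_cancel_of_le h] at this

theorem UpClosed.mem_of_exists {a : Fin n → ℕ} {J : Set (Fin n →₀ ℕ)} (hJ : UpClosed J)
    (hP : HasP a J) {m : Fin n →₀ ℕ} (h : ∃ i, a i ≤ m i) : m ∈ J := by
  obtain ⟨i, hi⟩ := h
  exact hJ.mem_of_le (hP i) (Finsupp.single_le_iff.2 hi)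

theorem X_mul_mem_monId {J : Set (Fin n →₀ ℕ)} (hJ : UpClosed J) (t : Fin n)
    {f : MvPolynomial (Fin n) ℂ} (hf : f ∈ monId J) : X t * f ∈ monId J := by
  intro m hm
  rw [coeff_X_mul'] at hm
  split_ifs at hm with h
  · have h1 := hJ _ (hf _ hm) t
    rwa [tsub_add_cancel_of_le] at h1
    rw [Finsupp.single_le_iff]
    have := Finsupp.mem_support_iff.1 h
    omega
  · exact absurd rfl hm

theorem lead_monId (J : Set (Fin n →₀ ℕ)) : lead (monId J) = J := by
  ext m
  constructor
  · rintro ⟨f, hf, h1, -⟩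
    exact hf m h1
  · intro hm
    apply monomial_mem_lead
    intro m' hm'
    rw [coeff_monomial] at hm'
    split_ifs at hm' with h1
    · rw [← h1]; exact hm
    · exact absurd rfl hm'

theorem finrank_pc_monId (J : Set (Fin n →₀ ℕ)) (d : ℕ) :
    finrank ℂ (pc (monId J) d) = hf J d := by
  rw [hf_lead, lead_monId]

theorem X_mul_mem_dist (ζ : ℂ) {j : Fin (n + 1)} (hj : j ≠ Fin.last n)
    {J : Set (Fin (n + 1) →₀ ℕ)} (hJ : UpClosed J) (t : Fin (n + 1))
    (f : MvPolynomial (Fin (n + 1)) ℂ) (hf : f ∈ dist ζ j J) : X t * f ∈ dist ζ j J := by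
  obtain ⟨h, hh, rfl⟩ := hf
  by_cases ht : t = Fin.last n
  · subst ht
    refine ⟨X (Fin.last n) * h + X j * tau ζ h, ?_, ?_⟩
    · exact Submodule.add_mem _ (X_mul_mem_monId hJ _ hh)
        (X_mul_mem_monId hJ _ (tau_mem_monId ζ hh))
    · rw [map_add, phi_Xlast_mul, phi_X_mul ζ j hj]
      ring
  · exact ⟨X t * h, X_mul_mem_monId hJ _ hh, phi_X_mul ζ j ht h⟩

theorem homogeneousComponent_phi (ζ : ℂ) {j : Fin (n + 1)} (hj : j ≠ Fin.last n) (d : ℕ)
    (f : MvPolynomial (Fin (n + 1)) ℂ) :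
    homogeneousComponent d (phi ζ j f) = phi ζ j (homogeneousComponent d f) := by
  have : homogeneousComponent d ∘ₗ phi ζ j = phi ζ j ∘ₗ homogeneousComponent d := by
    apply linearMap_ext_monomial
    intro m
    rw [LinearMap.comp_apply, LinearMap.comp_apply]
    have h1 : phi ζ j (monomial m 1) ∈ homogeneousSubmodule (Fin (n + 1)) ℂ m.degree := by
      rw [mem_homogeneousSubmodule, isHomogeneous_iff']
      intro m' hm'
      exact ((phi_tri ζ hj _ m rfl m').1 hm').2
    have h2 : (monomial m (1 : ℂ)) ∈ homogeneousSubmodule (Fin (n + 1)) ℂ m.degree := by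
      rw [mem_homogeneousSubmodule]
      exact isHomogeneous_monomial _ rfl
    rw [homogeneousComponent_of_mem h1, homogeneousComponent_of_mem h2]
    split_ifs
    · rfl
    · rw [map_zero]
  exact LinearMap.congr_fun this f

theorem pc_dist (ζ : ℂ) {j : Fin (n + 1)} (hj : j ≠ Fin.last n)
    (J : Set (Fin (n + 1) →₀ ℕ)) (d : ℕ) :
    pc (dist ζ j J) d = (pc (monId J) d).map (phi ζ j) := by
  apply le_antisymm
  · rintro f hf
    rw [mem_pc] at hf
    obtain ⟨h1, h, hh, rfl⟩ := hf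
    refine ⟨homogeneousComponent d h, ?_, ?_⟩
    · change homogeneousComponent d h ∈ pc (monId J) d
      rw [mem_pc]
      constructor
      · intro m hm
        rw [coeff_homogeneousComponent] at hm
        by_contra hne
        rw [if_neg hne] at hm
        exact hm rfl
      · intro m hm
        rw [coeff_homogeneousComponent] at hm
        split_ifs at hm
        · exact hh m hm
        · exact absurd rfl hm
    · rw [← homogeneousComponent_phi ζ hj]
      exact homogeneousComponent_eq_self (isHomogeneous_iff'.2 h1)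
  · rintro _ ⟨f, hf, rfl⟩
    have hf' := mem_pc.1 hf
    rw [mem_pc]
    refine ⟨?_, ⟨f, hf'.2, rfl⟩⟩
    intro m hm
    obtain ⟨m', h1, -, h2⟩ := phi_coeff_ne_zero ζ hj _ _ hm
    rw [h2]
    exact hf'.1 _ h1

theorem finrank_map_phi (ζ : ℂ) {j : Fin (n + 1)} (hj : j ≠ Fin.last n)
    (Z : Submodule ℂ (MvPolynomial (Fin (n + 1)) ℂ)) :
    finrank ℂ (Z.map (phi ζ j)) = finrank ℂ Z :=
  (LinearEquiv.finrank_eq (Submodule.equivMapOfInjective _ (phi_injective ζ hj) _)).symm

theorem hf_lead_dist (ζ : ℂ) {j : Fin (n + 1)} (hj : j ≠ Fin.last n)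
    (J : Set (Fin (n + 1) →₀ ℕ)) (d : ℕ) : hf (lead (dist ζ j J)) d = hf J d := by
  rw [← hf_lead, pc_dist ζ hj, finrank_map_phi ζ hj, finrank_pc_monId]

open Classical in
/-- number of exponents of degree `d` in `J` with last exponent at least `s` -/
noncomputable def cnt (J : Set (Fin (n + 1) →₀ ℕ)) (d s : ℕ) : ℕ :=
  ((degS (n + 1) d).filter (fun m => s ≤ m (Fin.last n) ∧ m ∈ J)).card

theorem cnt_add (J : Set (Fin (n + 1) →₀ ℕ)) (d s : ℕ) :
    cnt J d s + hf (J ∩ {m | m (Fin.last n) < s}) d = hf J d := by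
  classical
  unfold cnt hf
  rw [← Finset.card_filter_add_card_filter_not (s := (degS (n + 1) d).filter (· ∈ J))
    (fun m => s ≤ m (Fin.last n)), Finset.filter_filter, Finset.filter_filter]
  congr 2
  · ext m
    simp only [Finset.mem_filter]
    tauto
  · ext m
    simp only [Finset.mem_filter, Set.mem_inter_iff, Set.mem_ofPred_eq, not_le]

theorem finrank_top (ζ : ℂ) {j : Fin (n + 1)}
    (J : Set (Fin (n + 1) →₀ ℕ)) (d s : ℕ) :
    finrank ℂ ↥(pc (dist ζ j J) d ⊓ monId {m : Fin (n + 1) →₀ ℕ | s ≤ m (Fin.last n)}) =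
      cnt (lead (dist ζ j J)) d s := by
  classical
  have hfd : FiniteDimensional ℂ
      ↥(pc (dist ζ j J) d ⊓ monId {m : Fin (n + 1) →₀ ℕ | s ≤ m (Fin.last n)}) :=
    Submodule.finiteDimensional_of_le
      (inf_le_left : _ ≤ pc (dist ζ j J) d)
  unfold cnt
  apply finrank_eq_card_lead
    (pc (dist ζ j J) d ⊓ monId {m : Fin (n + 1) →₀ ℕ | s ≤ m (Fin.last n)}) d
    (fun _ hf => (mem_pc.1 hf.1).1)
  intro m
  rw [Finset.mem_filter, mem_degS]
  constructor
  · rintro ⟨h1, h2, f, hf, h3, h4⟩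
    refine ⟨h1, f, ⟨mem_pc.2 ⟨fun m' hm' => by rw [(h4 m' hm').1, h1], hf⟩, ?_⟩, h3,
      fun m' hm' => (h4 m' hm').2⟩
    intro m' hm'
    have h5 := (h4 m' hm').2
    change s ≤ m' (Fin.last n)
    by_contra hlt
    have h6 : m' (Fin.last n) < m (Fin.last n) := by omega
    exact absurd (key_lt_of_last h6) (not_lt.2 h5)
  · rintro ⟨h1, f, ⟨hf, hf2⟩, h3, h4⟩
    have := mem_pc.1 hf
    exact ⟨h1, hf2 m h3, f, this.2, h3, fun m' hm' => ⟨by rw [this.1 m' hm', h1], h4 m' hm'⟩⟩

theorem low_le (ζ : ℂ) {j : Fin (n + 1)} (hj : j ≠ Fin.last n)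
    (J : Set (Fin (n + 1) →₀ ℕ)) (d s : ℕ) :
    (pc (monId (J ∩ {m | m (Fin.last n) < s})) d).map (phi ζ j) ≤ pc (dist ζ j J) d := by
  rw [pc_dist ζ hj]
  apply Submodule.map_mono
  intro f hf
  rw [mem_pc] at hf ⊢
  exact ⟨hf.1, fun m hm => (hf.2 m hm).1⟩

theorem low_disjoint (ζ : ℂ) {j : Fin (n + 1)} (hj : j ≠ Fin.last n)
    (J : Set (Fin (n + 1) →₀ ℕ)) (d s : ℕ) :
    Disjoint (pc (dist ζ j J) d ⊓ monId {m : Fin (n + 1) →₀ ℕ | s ≤ m (Fin.last n)})
      ((pc (monId (J ∩ {m | m (Fin.last n) < s})) d).map (phi ζ j)) := by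
  rw [Submodule.disjoint_def]
  rintro _ ⟨-, h1⟩ ⟨f, hf, rfl⟩
  ext m
  by_contra hne
  rw [coeff_zero] at hne
  have h2 : s ≤ m (Fin.last n) := h1 m hne
  obtain ⟨m', h3, h4, -⟩ := phi_coeff_ne_zero ζ hj _ _ hne
  have h5 : m' (Fin.last n) < s := ((mem_pc.1 hf).2 m' h3).2
  omega

theorem sum_eq (ζ : ℂ) {j : Fin (n + 1)} (hj : j ≠ Fin.last n)
    (J : Set (Fin (n + 1) →₀ ℕ)) (d s : ℕ) :
    finrank ℂ ↥((pc (dist ζ j J) d ⊓ monId {m : Fin (n + 1) →₀ ℕ | s ≤ m (Fin.last n)}) ⊔
      ((pc (monId (J ∩ {m | m (Fin.last n) < s})) d).map (phi ζ j))) =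
      cnt (lead (dist ζ j J)) d s + hf (J ∩ {m | m (Fin.last n) < s}) d := by
  have hfd : FiniteDimensional ℂ
      ↥(pc (dist ζ j J) d ⊓ monId {m : Fin (n + 1) →₀ ℕ | s ≤ m (Fin.last n)}) :=
    Submodule.finiteDimensional_of_le
      (inf_le_left : _ ≤ pc (dist ζ j J) d)
  have := Submodule.finrank_sup_add_finrank_inf_eq
    (pc (dist ζ j J) d ⊓ monId {m : Fin (n + 1) →₀ ℕ | s ≤ m (Fin.last n)})
    ((pc (monId (J ∩ {m | m (Fin.last n) < s})) d).map (phi ζ j))
  rw [(low_disjoint ζ hj J d s).eq_bot, finrank_bot, add_zero, finrank_top,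
    finrank_map_phi ζ hj, finrank_pc_monId] at this
  exact this

theorem cnt_lead_le (ζ : ℂ) {j : Fin (n + 1)} (hj : j ≠ Fin.last n)
    (J : Set (Fin (n + 1) →₀ ℕ)) (d s : ℕ) :
    cnt (lead (dist ζ j J)) d s ≤ cnt J d s := by
  have h1 := sum_eq ζ hj J d s
  have h2 : finrank ℂ ↥((pc (dist ζ j J) d ⊓ monId {m : Fin (n + 1) →₀ ℕ | s ≤ m (Fin.last n)}) ⊔
      ((pc (monId (J ∩ {m | m (Fin.last n) < s})) d).map (phi ζ j))) ≤
      finrank ℂ (pc (dist ζ j J) d) :=
    Submodule.finrank_mono (sup_le inf_le_left (low_le ζ hj J d s))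
  rw [h1, hf_lead, hf_lead_dist ζ hj, ← cnt_add J d s] at h2
  exact Nat.le_of_add_le_add_right h2

theorem stab_of_cnt_eq (ζ : ℂ) {j : Fin (n + 1)} (hj : j ≠ Fin.last n)
    (J : Set (Fin (n + 1) →₀ ℕ)) (m : Fin (n + 1) →₀ ℕ)
    (hm : m + Finsupp.single (Fin.last n) 1 ∈ J)
    (hζ : ∑ k ∈ Finset.range (m (Fin.last n) + 1), ζ ^ k ≠ 0)
    (hc : cnt (lead (dist ζ j J)) (m.degree + 1) (m (Fin.last n) + 1) =
      cnt J (m.degree + 1) (m (Fin.last n) + 1)) :
    m + Finsupp.single j 1 ∈ J := by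
  set d := m.degree + 1 with hd
  set s := m (Fin.last n) + 1 with hs
  have h1 := sum_eq ζ hj J d s
  have h2 : (pc (dist ζ j J) d ⊓ monId {m : Fin (n + 1) →₀ ℕ | s ≤ m (Fin.last n)}) ⊔
      ((pc (monId (J ∩ {m | m (Fin.last n) < s})) d).map (phi ζ j)) = pc (dist ζ j J) d := by
    apply Submodule.eq_of_le_of_finrank_eq
    · exact sup_le inf_le_left (low_le ζ hj J d s)
    · rw [h1, hc, cnt_add, hf_lead, hf_lead_dist ζ hj]
  set m1 := m + Finsupp.single (Fin.last n) 1 with hm1
  have hm1l : m1 (Fin.last n) = s := by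
    rw [hm1, Finsupp.add_apply, Finsupp.single_eq_same]
  have h3 : phi ζ j (monomial m1 1) ∈ pc (dist ζ j J) d := by
    rw [pc_dist ζ hj]
    refine ⟨monomial m1 1, ?_, rfl⟩
    change monomial m1 1 ∈ pc (monId J) d
    rw [mem_pc]
    constructor
    · intro m' hm'
      rw [coeff_monomial] at hm'
      split_ifs at hm' with h4
      · rw [← h4, hm1, map_add, Finsupp.degree_single]
      · exact absurd rfl hm'
    · intro m' hm'
      rw [coeff_monomial] at hm'
      split_ifs at hm' with h4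
      · rw [← h4]; exact hm
      · exact absurd rfl hm'
  rw [← h2, Submodule.mem_sup] at h3
  obtain ⟨v, hv, w, ⟨h, hh, rfl⟩, hvw⟩ := h3
  have hsl : (m + Finsupp.single j 1 : Fin (n + 1) →₀ ℕ) (Fin.last n) + 1 = s := by
    rw [Finsupp.add_apply, Finsupp.single_eq_of_ne (Ne.symm hj), add_zero]
  have h5 : coeff (m + Finsupp.single j 1) (phi ζ j (monomial m1 1)) ≠ 0 := by
    rw [(phi_tri ζ hj s m1 hm1l _).2.2 hsl, if_pos]
    · exact neg_ne_zero.2 hζ
    · rw [hm1, add_right_comm]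
  have h6 : coeff (m + Finsupp.single j 1) v = 0 := by
    by_contra hne
    have : s ≤ (m + Finsupp.single j 1 : Fin (n + 1) →₀ ℕ) (Fin.last n) := hv.2 _ hne
    omega
  rw [← hvw, coeff_add, h6, zero_add] at h5
  have hh' := (mem_pc.1 hh).2
  rw [phi_coeff_top ζ hj] at h5
  · exact (hh' _ h5).1
  · intro m' hm'
    have : m' (Fin.last n) < s := (hh' _ hm').2
    omega

theorem geom_ne_zero {ζ : ℂ} {A : ℕ} (hζ : IsPrimitiveRoot ζ A) {β : ℕ} (h0 : 0 < β)
    (hβ : β < A) : ∑ k ∈ Finset.range β, ζ ^ k ≠ 0 := by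
  intro h
  have h1 := geom_sum_mul ζ β
  rw [h, zero_mul] at h1
  exact hζ.pow_ne_one_of_pos_of_lt h0.ne' hβ (sub_eq_zero.1 h1.symm)

theorem phi_pow_last (ζ : ℂ) {j : Fin (n + 1)} {A : ℕ} (hA : 0 < A)
    (hζ : IsPrimitiveRoot ζ A) :
    phi ζ j (monomial (Finsupp.single (Fin.last n) A) 1) =
      X (Fin.last n) ^ A - X j ^ A := by
  rw [phi_monomial, Finsupp.single_eq_same]
  have h1 : (Finsupp.single (Fin.last n) A).erase (Fin.last n) = 0 := by
    rw [Finsupp.erase_single]
  rw [h1]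
  have hζ' : IsPrimitiveRoot (C ζ : MvPolynomial (Fin (n + 1)) ℂ) A :=
    hζ.map_of_injective (C_injective _ _)
  rw [hζ'.pow_sub_pow_eq_prod_sub_mul (X (Fin.last n)) (X j) hA]
  have h2 : (monomial 0 1 : MvPolynomial (Fin (n + 1)) ℂ) = 1 := rfl
  rw [h2, one_mul]
  symm
  have h3 : Polynomial.nthRootsFinset A (1 : MvPolynomial (Fin (n + 1)) ℂ) =
      (Finset.range A).image (fun k => (C (ζ ^ k) : MvPolynomial (Fin (n + 1)) ℂ)) := by
    symm
    apply Finset.eq_of_subset_of_card_le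
    · intro x hx
      rw [Finset.mem_image] at hx
      obtain ⟨k, -, rfl⟩ := hx
      rw [Polynomial.mem_nthRootsFinset hA, ← map_pow, ← pow_mul, mul_comm, pow_mul, hζ.pow_eq_one,
        one_pow, map_one]
    · rw [hζ'.card_nthRootsFinset, Finset.card_image_of_injOn, Finset.card_range]
      intro k hk k' hk' h
      have := C_injective _ _ h
      exact hζ.pow_inj (Finset.mem_range.1 (Finset.mem_coe.1 hk))
        (Finset.mem_range.1 (Finset.mem_coe.1 hk')) this
  rw [h3, Finset.prod_image]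
  intro k hk k' hk' h
  have := C_injective _ _ h
  exact hζ.pow_inj (Finset.mem_range.1 (Finset.mem_coe.1 hk))
    (Finset.mem_range.1 (Finset.mem_coe.1 hk')) this

theorem hasP_lead_dist {a : Fin (n + 1) → ℕ} (ha : ∀ i, a i ≤ a (Fin.last n))
    (hpos : 0 < a (Fin.last n)) {ζ : ℂ} (hζ : IsPrimitiveRoot ζ (a (Fin.last n)))
    {j : Fin (n + 1)} (hj : j ≠ Fin.last n) {J : Set (Fin (n + 1) →₀ ℕ)} (hJ : UpClosed J)
    (hP : HasP a J) : HasP a (lead (dist ζ j J)) := by
  have hmem : ∀ m ∈ J, (monomial m (1 : ℂ)) ∈ monId J := by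
    intro m hm m' hm'
    rw [coeff_monomial] at hm'
    split_ifs at hm' with h4
    · rw [← h4]; exact hm
    · exact absurd rfl hm'
  have h0 : ∀ i b, i ≠ Fin.last n → a i ≤ b →
      (monomial (Finsupp.single i b) (1 : ℂ)) ∈ dist ζ j J := by
    intro i b hi hb
    refine ⟨monomial (Finsupp.single i b) 1, hmem _ ?_, ?_⟩
    · apply hJ.mem_of_le (hP i)
      rw [Finsupp.single_le_iff, Finsupp.single_eq_same]
      exact hb
    · exact phi_mono_zero ζ j _ (Finsupp.single_eq_of_ne (Ne.symm hi))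
  intro i
  apply monomial_mem_lead
  by_cases hi : i = Fin.last n
  · subst hi
    have h1 : (monomial (Finsupp.single (Fin.last n) (a (Fin.last n))) (1 : ℂ)) =
        phi ζ j (monomial (Finsupp.single (Fin.last n) (a (Fin.last n))) 1) +
          monomial (Finsupp.single j (a (Fin.last n))) (1 : ℂ) := by
      rw [phi_pow_last ζ hpos hζ, X_pow_eq_monomial, X_pow_eq_monomial]
      ring
    rw [h1]
    exact Submodule.add_mem _ ⟨_, hmem _ (hP _), rfl⟩ (h0 j _ hj (ha j))
  · exact h0 i _ hi le_rfl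

/-- Reduction to stable sets. -/
theorem exists_stable (a : Fin (n + 1) → ℕ) (ha : ∀ i, a i ≤ a (Fin.last n))
    (hpos : 0 < a (Fin.last n)) (J0 : Set (Fin (n + 1) →₀ ℕ)) (hJ0 : UpClosed J0)
    (hP0 : HasP a J0) :
    ∃ J : Set (Fin (n + 1) →₀ ℕ), UpClosed J ∧ HasP a J ∧ (∀ d, hf J d = hf J0 d) ∧
      (∀ p q, zd (monId J0) p q ≤ zd (monId J) p q) ∧ Stab (a (Fin.last n)) J := by
  classical
  set A := a (Fin.last n) with hA
  let D := (∑ i, a i) + 1
  let pot : Set (Fin (n + 1) →₀ ℕ) → ℕ := fun J =>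
    ∑ x ∈ Finset.range D ×ˢ Finset.range A, cnt J x.1 x.2
  let Q : Set (Set (Fin (n + 1) →₀ ℕ)) := {J | UpClosed J ∧ HasP a J ∧ (∀ d, hf J d = hf J0 d) ∧
      (∀ p q, zd (monId J0) p q ≤ zd (monId J) p q)}
  have hQ0 : J0 ∈ Q := ⟨hJ0, hP0, fun _ => rfl, fun _ _ => le_rfl⟩
  obtain ⟨J, hJQ, hmin⟩ := (measure pot).wf.has_min Q ⟨J0, hQ0⟩
  obtain ⟨hJ, hP, hhf, hz⟩ := hJQ
  refine ⟨J, hJ, hP, hhf, hz, ?_⟩
  intro m j hj hm hlt
  obtain ⟨ζ, hζ⟩ : ∃ ζ : ℂ, IsPrimitiveRoot ζ A :=
    ⟨_, Complex.isPrimitiveRoot_exp A hpos.ne'⟩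
  have hJ'Q : lead (dist ζ j J) ∈ Q := by
    refine ⟨fun m hm t => lead_upClosed _ (X_mul_mem_dist ζ hj hJ) m hm t,
      hasP_lead_dist ha hpos hζ hj hJ hP, fun d => by rw [hf_lead_dist ζ hj, hhf], fun p q => ?_⟩
    exact (hz p q).trans ((zd_le_zd_dist ζ hj J p q).trans (zd_le_zd_lead _ p q))
  have h1 : ¬ pot (lead (dist ζ j J)) < pot J := hmin _ hJ'Q
  have h2 : ∀ x ∈ Finset.range D ×ˢ Finset.range A,
      cnt (lead (dist ζ j J)) x.1 x.2 ≤ cnt J x.1 x.2 := fun x _ => cnt_lead_le ζ hj J _ _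
  have h3 : pot (lead (dist ζ j J)) = pot J := le_antisymm (Finset.sum_le_sum h2) (not_lt.1 h1)
  have h4 := (Finset.sum_eq_sum_iff_of_le h2).1 h3
  by_cases hd : m.degree + 1 < D
  · apply stab_of_cnt_eq ζ hj J m hm (geom_ne_zero hζ (Nat.succ_pos _) hlt)
    exact h4 (m.degree + 1, m (Fin.last n) + 1)
      (Finset.mem_product.2 ⟨Finset.mem_range.2 hd, Finset.mem_range.2 hlt⟩)
  · apply hJ.mem_of_exists hP
    by_contra hne
    push Not at hne
    have h5 : (m + Finsupp.single j 1).degree < D := by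
      rw [Finsupp.degree_eq_sum]
      exact Nat.lt_succ_of_le (Finset.sum_le_sum fun i _ => (hne i).le)
    rw [map_add, Finsupp.degree_single] at h5
    exact hd h5

end Crest.Agent.R181.Mon
end

-- ▼ part R181/MonBetti
section

/-!
# Graded Betti numbers in terms of the numbers `zd`
-/

namespace Crest.Agent.R181.Mon

open MvPolynomial Module Finset Crest.AlgebraR.LPP

variable {n : ℕ}

theorem finrank_map_add_finrank_inf_ker {K V W : Type*} [DivisionRing K] [AddCommGroup V]
    [Module K V] [AddCommGroup W] [Module K W] (f : V →ₗ[K] W) (Z : Submodule K V)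
    [FiniteDimensional K Z] :
    finrank K (Z.map f) + finrank K ↥(Z ⊓ LinearMap.ker f) = finrank K Z := by
  have hrn := LinearMap.finrank_range_add_finrank_ker (f.domRestrict Z)
  have hr : LinearMap.range (f.domRestrict Z) = Z.map f := by
    rw [LinearMap.range_domRestrict]
  have hk : finrank K (LinearMap.ker (f.domRestrict Z)) = finrank K ↥(Z ⊓ LinearMap.ker f) := by
    have : LinearMap.ker (f.domRestrict Z) = Submodule.comap Z.subtype (LinearMap.ker f) := by
      ext x; simp [LinearMap.mem_ker]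
    rw [this]
    have h2 : Z ⊓ LinearMap.ker f = (Submodule.comap Z.subtype (LinearMap.ker f)).map Z.subtype := by
      rw [Submodule.map_comap_subtype]
    rw [h2]
    exact (LinearEquiv.finrank_eq (Submodule.equivMapOfInjective Z.subtype
      Z.injective_subtype _)).trans rfl
  rw [hr, hk] at hrn
  exact hrn

theorem sg_swap_aux {U : Finset (Fin n)} {s t : Fin n} (hs : s ∉ U) (hst : s < t) :
    sg U t * sg (insert t U) s = -(sg U s * sg (insert s U) t) := by
  have h1 : sg (insert t U) s = sg U s := by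
    unfold sg
    rw [Finset.filter_insert, if_neg (not_lt.2 hst.le)]
  have h2 : sg (insert s U) t = - sg U t := by
    unfold sg
    rw [Finset.filter_insert, if_pos hst, Finset.card_insert_of_notMem, pow_succ]
    · ring
    · simp [hs]
  rw [h1, h2]; ring

theorem sg_swap {U : Finset (Fin n)} {s t : Fin n} (hs : s ∉ U) (ht : t ∉ U) (hst : s ≠ t) :
    sg U t * sg (insert t U) s = -(sg U s * sg (insert s U) t) := by
  rcases lt_or_gt_of_ne hst with h | h
  · exact sg_swap_aux hs h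
  · rw [sg_swap_aux ht h, neg_neg]

theorem KD_KD (f : Ch n) : KD (KD f) = 0 := by
  funext U
  rw [KD_apply]
  simp only [KD_apply, Pi.zero_apply]
  have h1 : ∀ t ∈ Uᶜ, sg U t • (X t * ∑ s ∈ (insert t U)ᶜ, sg (insert t U) s •
      (X s * f (insert s (insert t U)))) =
      ∑ s ∈ (insert t U)ᶜ, (sg U t * sg (insert t U) s) •
        (X t * X s * f (insert s (insert t U))) := by
    intro t _
    rw [Finset.mul_sum, Finset.smul_sum]
    refine Finset.sum_congr rfl fun s _ => ?_
    rw [mul_smul_comm, smul_smul, mul_assoc]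
  rw [Finset.sum_congr rfl h1, Finset.sum_sigma']
  refine Finset.sum_involution (fun x _ => ⟨x.2, x.1⟩) ?_ ?_ ?_ ?_
  · rintro ⟨t, s⟩ hx
    rw [Finset.mem_sigma] at hx
    obtain ⟨h2, h3⟩ := hx
    simp only [Finset.mem_compl, Finset.mem_insert, not_or] at h2 h3
    rw [sg_swap h3.2 h2 h3.1, Finset.insert_comm, mul_comm (X t) (X s), neg_smul]
    exact neg_add_cancel _
  · rintro ⟨t, s⟩ hx _ h
    rw [Finset.mem_sigma] at hx
    obtain ⟨h2, h3⟩ := hx
    simp only [Finset.mem_compl, Finset.mem_insert, not_or] at h2 h3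
    simp only [Sigma.mk.injEq] at h
    exact h3.1 h.1
  · rintro ⟨t, s⟩ hx
    rw [Finset.mem_sigma] at hx ⊢
    obtain ⟨h2, h3⟩ := hx
    simp only [Finset.mem_compl, Finset.mem_insert, not_or] at h2 h3 ⊢
    exact ⟨h3.2, fun h => h3.1 h.symm, h2⟩
  · rintro ⟨t, s⟩ _
    rfl

/-- Reduction of chains modulo the ideal. -/
noncomputable def piI (I : Ideal (MvPolynomial (Fin n) ℂ)) :
    Ch n →ₗ[ℂ] (Finset (Fin n) → MvPolynomial (Fin n) ℂ ⧸ I) :=
  LinearMap.pi fun T => (Ideal.Quotient.mkₐ ℂ I).toLinearMap ∘ₗ LinearMap.proj T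

theorem piI_apply (I : Ideal (MvPolynomial (Fin n) ℂ)) (f : Ch n) (T : Finset (Fin n)) :
    piI I f T = Ideal.Quotient.mk I (f T) := rfl

theorem ker_piI (I : Ideal (MvPolynomial (Fin n) ℂ)) :
    LinearMap.ker (piI I) = valued (Submodule.restrictScalars ℂ I) := by
  ext f
  rw [LinearMap.mem_ker, mem_valued]
  constructor
  · intro h T
    have := congrFun h T
    rw [piI_apply] at this
    exact Ideal.Quotient.eq_zero_iff_mem.1 this
  · intro h
    funext T
    rw [piI_apply]
    exact Ideal.Quotient.eq_zero_iff_mem.2 (h T)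

theorem koszulD_piI (I : Ideal (MvPolynomial (Fin n) ℂ)) (f : Ch n) :
    koszulD I (piI I f) = piI I (KD f) := by
  funext U
  rw [piI_apply, KD_apply, map_sum]
  unfold koszulD
  rw [LinearMap.pi_apply, LinearMap.sum_apply]
  refine Finset.sum_congr rfl fun t _ => ?_
  rw [LinearMap.smul_apply, LinearMap.comp_apply, LinearMap.proj_apply, LinearMap.mulLeft_apply,
    piI_apply, ← map_mul]
  exact ((Ideal.Quotient.mkₐ ℂ I).toLinearMap.map_smul (sg U t) (X t * f (insert t U))).symm

theorem strandChains_eq (I : Ideal (MvPolynomial (Fin n) ℂ)) (p j : ℕ) :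
    strandChains I p j = (chains n p j).map (piI I) := by
  ext g
  unfold strandChains
  rw [Submodule.mem_iInf]
  constructor
  · intro h
    have h' : ∀ T : Finset (Fin n), ∃ q : MvPolynomial (Fin n) ℂ,
        (∀ m, coeff m q ≠ 0 → T.card = p ∧ m.degree + p = j) ∧ Ideal.Quotient.mk I q = g T := by
      intro T
      have hT := h T
      rw [Submodule.mem_comap, LinearMap.proj_apply] at hT
      split_ifs at hT with h1
      · obtain ⟨q, hq, hq2⟩ := hT
        refine ⟨q, fun m hm => ?_, hq2⟩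
        have := isHomogeneous_iff'.1 ((mem_homogeneousSubmodule _ _).1 hq) m hm
        omega
      · rw [Submodule.mem_bot] at hT
        exact ⟨0, fun m hm => absurd (coeff_zero m) hm, by rw [map_zero, hT]⟩
    choose q hq hq2 using h'
    exact ⟨q, fun T m hm => hq T m hm, funext fun T => hq2 T⟩
  · rintro ⟨f, hf, rfl⟩ T
    rw [Submodule.mem_comap, LinearMap.proj_apply]
    split_ifs with h1
    · refine ⟨f T, ?_, rfl⟩
      change f T ∈ homogeneousSubmodule (Fin n) ℂ (j - p)
      rw [mem_homogeneousSubmodule, isHomogeneous_iff']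
      intro m hm
      have := hf T m hm
      omega
    · rw [Submodule.mem_bot, piI_apply]
      have : f T = 0 := by
        ext m
        by_contra hne
        have := hf T m (by simpa using hne)
        omega
      rw [this, map_zero]

/-- Dimension of the space of `I`-valued chains. -/
noncomputable def ud (I : Submodule ℂ (MvPolynomial (Fin n) ℂ)) (p j : ℕ) : ℕ :=
  finrank ℂ ↥(chains n p j ⊓ valued I)

theorem KD_valued (I : Ideal (MvPolynomial (Fin n) ℂ)) {f : Ch n}
    (hf : f ∈ valued (Submodule.restrictScalars ℂ I)) (U : Finset (Fin n)) : KD f U ∈ I := by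
  rw [KD_apply]
  refine Submodule.sum_mem _ fun t _ => ?_
  rw [Algebra.smul_def]
  exact I.mul_mem_left _ (I.mul_mem_left _ (hf _))

theorem gb_aux (I : Ideal (MvPolynomial (Fin n) ℂ)) (p j : ℕ)
    (hBA : Submodule.map (koszulD I) (strandChains I (p + 1) j) ≤
      LinearMap.ker (koszulD I) ⊓ strandChains I p j)
    (hfd : FiniteDimensional ℂ ↥(LinearMap.ker (koszulD I) ⊓ strandChains I p j)) :
    gradedBetti I p j + finrank ℂ ↥(Submodule.map (koszulD I) (strandChains I (p + 1) j)) =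
      finrank ℂ ↥(LinearMap.ker (koszulD I) ⊓ strandChains I p j) := by
  unfold gradedBetti
  rw [← (Submodule.comapSubtypeEquivOfLe hBA).finrank_eq]
  exact Submodule.finrank_quotient_add_finrank _

theorem cycles_eq (I : Ideal (MvPolynomial (Fin n) ℂ)) (p j : ℕ) :
    LinearMap.ker (koszulD I) ⊓ strandChains I p j =
      (zsp (Submodule.restrictScalars ℂ I) p j).map (piI I) := by
  rw [strandChains_eq]
  ext g
  constructor
  · rintro ⟨h1, f, hf, rfl⟩
    refine ⟨f, ⟨hf, ?_⟩, rfl⟩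
    have h1' : koszulD I (piI I f) = 0 := h1
    rw [koszulD_piI] at h1'
    have : KD f ∈ LinearMap.ker (piI I) := h1'
    rw [ker_piI] at this
    exact this
  · rintro ⟨f, hf, rfl⟩
    refine ⟨?_, f, hf.1, rfl⟩
    change koszulD I (piI I f) = 0
    rw [koszulD_piI]
    have : KD f ∈ LinearMap.ker (piI I) := by rw [ker_piI]; exact hf.2
    exact this

theorem boundaries_eq (I : Ideal (MvPolynomial (Fin n) ℂ)) (p j : ℕ) :
    Submodule.map (koszulD I) (strandChains I (p + 1) j) =
      (chains n (p + 1) j).map (piI I ∘ₗ KD) := by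
  have hcomp : koszulD I ∘ₗ piI I = piI I ∘ₗ KD := LinearMap.ext fun f => koszulD_piI I f
  rw [strandChains_eq, ← Submodule.map_comp, hcomp]

theorem finrank_cycles (I : Ideal (MvPolynomial (Fin n) ℂ)) (p j : ℕ) :
    finrank ℂ ↥((zsp (Submodule.restrictScalars ℂ I) p j).map (piI I)) +
      ud (Submodule.restrictScalars ℂ I) p j = zd (Submodule.restrictScalars ℂ I) p j := by
  have h3 := finrank_map_add_finrank_inf_ker (piI I) (zsp (Submodule.restrictScalars ℂ I) p j)
  have h4 : zsp (Submodule.restrictScalars ℂ I) p j ⊓ LinearMap.ker (piI I) =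
      chains n p j ⊓ valued (Submodule.restrictScalars ℂ I) := by
    rw [ker_piI]
    ext f
    constructor
    · rintro ⟨h5, h6⟩
      exact ⟨h5.1, h6⟩
    · rintro ⟨h5, h6⟩
      exact ⟨⟨h5, fun U => KD_valued I h6 U⟩, h6⟩
  rw [h4] at h3
  exact h3

theorem finrank_boundaries (I : Ideal (MvPolynomial (Fin n) ℂ)) (p j : ℕ) :
    finrank ℂ ↥((chains n (p + 1) j).map (piI I ∘ₗ KD)) +
      zd (Submodule.restrictScalars ℂ I) (p + 1) j = finrank ℂ (chains n (p + 1) j) := by
  have h5 := finrank_map_add_finrank_inf_ker (piI I ∘ₗ KD) (chains n (p + 1) j)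
  have h6 : chains n (p + 1) j ⊓ LinearMap.ker (piI I ∘ₗ KD) =
      zsp (Submodule.restrictScalars ℂ I) (p + 1) j := by
    rw [LinearMap.ker_comp, ker_piI]
    rfl
  rw [h6] at h5
  exact h5

theorem bd_le_aux (I : Ideal (MvPolynomial (Fin n) ℂ)) (p j : ℕ) :
    (chains n (p + 1) j).map (piI I ∘ₗ KD) ≤
      (zsp (Submodule.restrictScalars ℂ I) p j).map (piI I) := by
  rw [Submodule.map_comp]
  apply Submodule.map_mono
  rintro _ ⟨f, hf, rfl⟩
  rw [mem_zsp]
  refine ⟨KD_mem_chains hf, fun U => ?_⟩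
  rw [KD_KD]
  exact Submodule.zero_mem _

theorem bd_le (I : Ideal (MvPolynomial (Fin n) ℂ)) (p j : ℕ) :
    Submodule.map (koszulD I) (strandChains I (p + 1) j) ≤
      LinearMap.ker (koszulD I) ⊓ strandChains I p j := by
  rw [boundaries_eq, cycles_eq]
  exact bd_le_aux I p j

theorem gb_aux2 (I : Ideal (MvPolynomial (Fin n) ℂ)) (p j : ℕ) :
    gradedBetti I p j + finrank ℂ ↥((chains n (p + 1) j).map (piI I ∘ₗ KD)) =
      finrank ℂ ↥((zsp (Submodule.restrictScalars ℂ I) p j).map (piI I)) := by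
  have hfd : FiniteDimensional ℂ ↥(LinearMap.ker (koszulD I) ⊓ strandChains I p j) := by
    rw [cycles_eq]; infer_instance
  have h1 := gb_aux I p j (bd_le I p j) hfd
  rw [boundaries_eq, cycles_eq] at h1
  exact h1

theorem arith_aux {b u k z z' A B : ℕ} (h1 : b + B = A) (h2 : A + u = z) (h3 : B + z' = k) :
    b + u + k = z + z' := by omega

theorem gradedBetti_formula (I : Ideal (MvPolynomial (Fin n) ℂ)) (p j : ℕ) :
    gradedBetti I p j + ud (Submodule.restrictScalars ℂ I) p j + finrank ℂ (chains n (p + 1) j) =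
      zd (Submodule.restrictScalars ℂ I) p j + zd (Submodule.restrictScalars ℂ I) (p + 1) j :=
  arith_aux (gb_aux2 I p j) (finrank_cycles I p j) (finrank_boundaries I p j)

/-- `ud` only depends on the Hilbert function. -/
theorem ud_eq (I : Submodule ℂ (MvPolynomial (Fin n) ℂ)) (p j : ℕ) :
    ud I p j = if p ≤ j then Fintype.card {T : Finset (Fin n) // T.card = p} *
      finrank ℂ (pc I (j - p)) else 0 := by
  split_ifs with h
  · unfold ud
    have e : ↥(chains n p j ⊓ valued I) ≃ₗ[ℂ]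
        ({T : Finset (Fin n) // T.card = p} → pc I (j - p)) :=
      { toFun := fun f T => ⟨f.1 T.1, mem_pc.2 ⟨fun m hm => by
            have := f.2.1 T.1 m hm; omega, f.2.2 T.1⟩⟩
        map_add' := fun f g => rfl
        map_smul' := fun a f => rfl
        invFun := fun g => ⟨fun T => if hT : T.card = p then (g ⟨T, hT⟩).1 else 0, by
          constructor
          · intro T m hm
            by_cases hT : T.card = p
            · simp only [dif_pos hT] at hm
              have := (mem_pc.1 (g ⟨T, hT⟩).2).1 m hm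
              omega
            · simp only [dif_neg hT, coeff_zero, ne_eq, not_true_eq_false] at hm
          · intro T
            by_cases hT : T.card = p
            · simp only [dif_pos hT]
              exact (mem_pc.1 (g ⟨T, hT⟩).2).2
            · simp only [dif_neg hT]
              exact Submodule.zero_mem _⟩
        left_inv := by
          intro f
          apply Subtype.ext
          funext T
          by_cases hT : T.card = p
          · simp only [dif_pos hT]
          · simp only [dif_neg hT]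
            symm
            ext m
            by_contra hne
            exact hT (f.2.1 T m (by simpa using hne)).1
        right_inv := by
          intro g
          funext T
          apply Subtype.ext
          simp only [dif_pos T.2] }
    rw [e.finrank_eq, Module.finrank_pi_fintype]
    simp
  · unfold ud
    have : chains n p j ⊓ valued I = ⊥ := by
      rw [Submodule.eq_bot_iff]
      rintro f ⟨hf, -⟩
      funext T
      ext m
      by_contra hne
      have := hf T m (by simpa using hne)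
      omega
    rw [this, finrank_bot]

/-- Comparison of graded Betti numbers. -/
theorem gradedBetti_le_of_zd_le (I J : Ideal (MvPolynomial (Fin n) ℂ))
    (hHF : ∀ d, finrank ℂ (pc (Submodule.restrictScalars ℂ I) d) =
      finrank ℂ (pc (Submodule.restrictScalars ℂ J) d))
    (hz : ∀ p j, zd (Submodule.restrictScalars ℂ I) p j ≤ zd (Submodule.restrictScalars ℂ J) p j)
    (p j : ℕ) : gradedBetti I p j ≤ gradedBetti J p j := by
  have h1 := gradedBetti_formula I p j
  have h2 := gradedBetti_formula J p j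
  have h3 : ud (Submodule.restrictScalars ℂ I) p j = ud (Submodule.restrictScalars ℂ J) p j := by
    rw [ud_eq, ud_eq, hHF]
  have h4 := hz p j
  have h5 := hz (p + 1) j
  omega

end Crest.Agent.R181.Mon
end

-- ▼ part R181/MonComb
section

/-!
# Lexicographic combinatorics of exponent vectors (Clements-Lindström)
-/

namespace Crest.Agent.R181.Mon

open Finset

variable {n : ℕ}

/-- degree -/
def dg (m : Fin n → ℕ) : ℕ := ∑ i, m i

/-- increase a coordinate -/
def inc (m : Fin n → ℕ) (t : Fin n) : Fin n → ℕ := Function.update m t (m t + 1)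

/-- decrease a coordinate -/
def dec (m : Fin n → ℕ) (t : Fin n) : Fin n → ℕ := Function.update m t (m t - 1)

theorem inc_self (m : Fin n → ℕ) (t : Fin n) : inc m t t = m t + 1 := Function.update_self _ _ _
theorem inc_ne (m : Fin n → ℕ) {s t : Fin n} (h : s ≠ t) : inc m t s = m s :=
  Function.update_of_ne h _ _
theorem dec_self (m : Fin n → ℕ) (t : Fin n) : dec m t t = m t - 1 := Function.update_self _ _ _
theorem dec_ne (m : Fin n → ℕ) {s t : Fin n} (h : s ≠ t) : dec m t s = m s :=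
  Function.update_of_ne h _ _

theorem le_inc (m : Fin n → ℕ) (t s : Fin n) : m s ≤ inc m t s := by
  by_cases h : s = t
  · subst h; rw [inc_self]; omega
  · rw [inc_ne m h]

theorem dec_le (m : Fin n → ℕ) (t s : Fin n) : dec m t s ≤ m s := by
  by_cases h : s = t
  · subst h; rw [dec_self]; omega
  · rw [dec_ne m h]

theorem dg_inc (m : Fin n → ℕ) (t : Fin n) : dg (inc m t) = dg m + 1 := by
  unfold dg
  rw [← Finset.add_sum_erase _ _ (Finset.mem_univ t), ← Finset.add_sum_erase _ m (Finset.mem_univ t),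
    inc_self]
  have : ∑ x ∈ Finset.univ.erase t, inc m t x = ∑ x ∈ Finset.univ.erase t, m x :=
    Finset.sum_congr rfl fun x hx => inc_ne m (Finset.ne_of_mem_erase hx)
  rw [this]; omega

theorem inc_dec (m : Fin n → ℕ) (t : Fin n) (h : 0 < m t) : inc (dec m t) t = m := by
  funext s
  by_cases hs : s = t
  · subst hs; rw [inc_self, dec_self]; omega
  · rw [inc_ne _ hs, dec_ne _ hs]

theorem dec_inc (m : Fin n → ℕ) (t : Fin n) : dec (inc m t) t = m := by
  funext s
  by_cases hs : s = t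
  · subst hs; rw [dec_self, inc_self]; omega
  · rw [dec_ne _ hs, inc_ne _ hs]

theorem dg_dec (m : Fin n → ℕ) (t : Fin n) (h : 0 < m t) : dg (dec m t) + 1 = dg m := by
  rw [← dg_inc, inc_dec m t h]

/-- exponents of degree `d` -/
def fD (n d : ℕ) : Finset (Fin n → ℕ) := Finset.Nat.antidiagonalTuple n d

theorem mem_fD {d : ℕ} {m : Fin n → ℕ} : m ∈ fD n d ↔ dg m = d :=
  Finset.Nat.mem_antidiagonalTuple

theorem lex_lt_iff {m m' : Fin n → ℕ} :
    toLex m < toLex m' ↔ ∃ k, (∀ j, j < k → m j = m' j) ∧ m k < m' k := Iff.rfl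

/-- pointwise comparison and degree -/
theorem eq_of_le_of_dg_le {m m' : Fin n → ℕ} (h : ∀ i, m i ≤ m' i) (hd : dg m' ≤ dg m) :
    m = m' := by
  have h1 : dg m = dg m' := le_antisymm (Finset.sum_le_sum fun i _ => h i) hd
  have h2 := (Finset.sum_eq_sum_iff_of_le (fun i _ => h i)).1 h1
  funext i
  exact h2 i (Finset.mem_univ i)

/-- upward closed -/
def UpC (K : Set (Fin n → ℕ)) : Prop := ∀ m ∈ K, ∀ t, inc m t ∈ K

/-- contains the pure powers -/
def PP (a : Fin n → ℕ) (K : Set (Fin n → ℕ)) : Prop := ∀ m, (∃ i, a i ≤ m i) → m ∈ K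

/-- lex plus powers in each degree -/
def IsL (a : Fin n → ℕ) (K : Set (Fin n → ℕ)) : Prop :=
  ∀ m m', m ∈ K → (∀ i, m i < a i) → dg m = dg m' → toLex m < toLex m' → m' ∈ K

open Classical in
/-- elements of degree `d` -/
noncomputable def cF (K : Set (Fin n → ℕ)) (d : ℕ) : Finset (Fin n → ℕ) :=
  (fD n d).filter (· ∈ K)

theorem mem_cF {K : Set (Fin n → ℕ)} {d : ℕ} {m : Fin n → ℕ} :
    m ∈ cF K d ↔ dg m = d ∧ m ∈ K := by
  classical
  unfold cF
  rw [Finset.mem_filter, mem_fD]

/-- Hilbert function -/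
noncomputable def cH (K : Set (Fin n → ℕ)) (d : ℕ) : ℕ := (cF K d).card

theorem cH_le_card (K : Set (Fin n → ℕ)) (d : ℕ) : cH K d ≤ (fD n d).card :=
  Finset.card_le_card fun _ hm => mem_fD.2 (mem_cF.1 hm).1

theorem cH_eq_card {K : Set (Fin n → ℕ)} {d : ℕ} {B : Finset (Fin n → ℕ)}
    (h : ∀ m, m ∈ B ↔ dg m = d ∧ m ∈ K) : cH K d = B.card := by
  unfold cH
  congr 1
  ext m
  rw [mem_cF, h]

theorem cH_le {K K' : Set (Fin n → ℕ)} {d : ℕ} (h : ∀ m, dg m = d → m ∈ K → m ∈ K') :
    cH K d ≤ cH K' d := by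
  unfold cH
  apply Finset.card_le_card
  intro m hm
  rw [mem_cF] at hm ⊢
  exact ⟨hm.1, h m hm.1 hm.2⟩

theorem cH_lt {K K' : Set (Fin n → ℕ)} {d : ℕ} (h : ∀ m, dg m = d → m ∈ K → m ∈ K')
    (m : Fin n → ℕ) (hd : dg m = d) (hm : m ∈ K') (hm' : m ∉ K) : cH K d < cH K' d := by
  unfold cH
  apply Finset.card_lt_card
  rw [Finset.ssubset_iff_of_subset]
  · exact ⟨m, by rw [mem_cF]; exact ⟨hd, hm⟩,
      by rw [mem_cF]; exact fun h => hm' h.2⟩
  · intro m hm
    rw [mem_cF] at hm ⊢
    exact ⟨hm.1, h m hm.1 hm.2⟩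

theorem PP.not_mem {a : Fin n → ℕ} {K : Set (Fin n → ℕ)} (hK : PP a K) {m : Fin n → ℕ}
    (h : m ∉ K) : ∀ i, m i < a i := by
  intro i
  by_contra h1
  exact h (hK m ⟨i, not_lt.1 h1⟩)

/-- Lex plus powers sets are nested. -/
theorem nested {a : Fin n → ℕ} {K K' : Set (Fin n → ℕ)} {d : ℕ} (hP : PP a K) (hP' : PP a K')
    (hL : ∀ m m', m ∈ K → (∀ i, m i < a i) → dg m = d → dg m' = d → toLex m < toLex m' → m' ∈ K)
    (hL' : ∀ m m', m ∈ K' → (∀ i, m i < a i) → dg m = d → dg m' = d →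
      toLex m < toLex m' → m' ∈ K') (hc : cH K d ≤ cH K' d) :
    ∀ m, dg m = d → m ∈ K → m ∈ K' := by
  intro m hd hm
  by_contra hne
  have h1 : ∀ m', dg m' = d → m' ∈ K' → m' ∈ K := by
    intro m' hd' hm'
    by_contra hne'
    rcases lt_trichotomy (toLex m) (toLex m') with h | h | h
    · exact hne' (hL m m' hm (hP'.not_mem hne) hd hd' h)
    · have : m = m' := toLex_inj.1 h
      exact hne (this ▸ hm')
    · exact hne (hL' m' m hm' (hP.not_mem hne') hd' hd h)
  exact absurd (cH_lt h1 m hd hm hne) (not_lt.2 hc)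

theorem IsL.at {a : Fin n → ℕ} {K : Set (Fin n → ℕ)} (h : IsL a K) (d : ℕ) :
    ∀ m m', m ∈ K → (∀ i, m i < a i) → dg m = d → dg m' = d → toLex m < toLex m' → m' ∈ K :=
  fun m m' h1 h2 h3 h4 h5 => h m m' h1 h2 (h3.trans h4.symm) h5

/-- Existence of lex plus powers sets of given size in degree `d`. -/
theorem exists_lpp_degree (a : Fin n → ℕ) (d h : ℕ)
    (h1 : cH {m : Fin n → ℕ | ∃ i, a i ≤ m i} d ≤ h) (h2 : h ≤ (fD n d).card) :
    ∃ B : Finset (Fin n → ℕ), B ⊆ fD n d ∧ (∀ m ∈ fD n d, (∃ i, a i ≤ m i) → m ∈ B) ∧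
      B.card = h ∧ ∀ m m', m ∈ B → (∀ i, m i < a i) → dg m' = d → toLex m < toLex m' → m' ∈ B := by
  classical
  induction h, h1 using Nat.le_induction with
  | base =>
    refine ⟨(fD n d).filter (fun m => ∃ i, a i ≤ m i), Finset.filter_subset _ _,
      fun m hm h => Finset.mem_filter.2 ⟨hm, h⟩, (cH_eq_card fun m => by
        rw [Finset.mem_filter, mem_fD]; rfl).symm, ?_⟩
    intro m m' hm hlt
    rw [Finset.mem_filter] at hm
    obtain ⟨i, hi⟩ := hm.2
    exact absurd (hlt i) (not_lt.2 hi)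
  | succ h _ ih =>
    obtain ⟨B, hB1, hB2, hB3, hB4⟩ := ih (by omega)
    have hne : (fD n d \ B).Nonempty := by
      rw [← Finset.card_pos, Finset.card_sdiff_of_subset hB1]
      omega
    obtain ⟨x, hx, hmax⟩ := Finset.exists_max_image (fD n d \ B) (fun m => toLex m) hne
    rw [Finset.mem_sdiff] at hx
    refine ⟨insert x B, Finset.insert_subset hx.1 hB1, fun m hm h => Finset.mem_insert_of_mem
      (hB2 m hm h), by rw [Finset.card_insert_of_notMem hx.2, hB3], ?_⟩
    intro m m' hm hlt hd' hlex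
    rw [Finset.mem_insert] at hm ⊢
    rcases hm with rfl | hm
    · by_contra hcon
      rw [not_or] at hcon
      have := hmax m' (Finset.mem_sdiff.2 ⟨mem_fD.2 hd', hcon.2⟩)
      exact absurd hlex (not_lt.2 this)
    · exact Or.inr (hB4 m m' hm hlt hd' hlex)

/-- The lex plus powers set with a given Hilbert function. -/
theorem exists_lpp (a : Fin n → ℕ) (h : ℕ → ℕ)
    (h1 : ∀ d, cH {m : Fin n → ℕ | ∃ i, a i ≤ m i} d ≤ h d) (h2 : ∀ d, h d ≤ (fD n d).card) :
    ∃ L : Set (Fin n → ℕ), PP a L ∧ IsL a L ∧ ∀ d, cH L d = h d := by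
  classical
  choose B hB1 hB2 hB3 hB4 using fun d => exists_lpp_degree a d (h d) (h1 d) (h2 d)
  refine ⟨{m | m ∈ B (dg m)}, ?_, ?_, ?_⟩
  · intro m hm
    exact hB2 (dg m) m (mem_fD.2 rfl) hm
  · intro m m' hm hlt hd hlex
    have hm' : m ∈ B (dg m) := hm
    change m' ∈ B (dg m')
    rw [hd] at hm'
    exact hB4 (dg m') m m' hm' hlt rfl hlex
  · intro d
    rw [← hB3 d]
    apply cH_eq_card
    intro m
    constructor
    · intro h3
      have h4 := mem_fD.1 (hB1 d h3)
      refine ⟨h4, ?_⟩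
      change m ∈ B (dg m)
      rw [h4]; exact h3
    · rintro ⟨h3, h4⟩
      have : m ∈ B (dg m) := h4
      rwa [h3] at this

theorem stepA {a u w : Fin n → ℕ} (hu : ∀ i, u i < a i) (hw : ∀ i, w i < a i)
    (hlt : toLex u < toLex w) (hd : dg u + 1 ≤ dg w) :
    ∃ t, (∀ i, inc u t i < a i) ∧ toLex (inc u t) ≤ toLex w := by
  obtain ⟨k, hk1, hk2⟩ := lex_lt_iff.1 hlt
  by_cases h : ∃ l, k < l ∧ u l + 1 < a l
  · obtain ⟨l, hl1, hl2⟩ := h
    refine ⟨l, ?_, le_of_lt ?_⟩
    · intro i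
      by_cases hi : i = l
      · subst hi; rw [inc_self]; exact hl2
      · rw [inc_ne _ hi]; exact hu i
    · refine ⟨k, fun j hj => ?_, ?_⟩
      · change inc u l j = w j
        rw [inc_ne _ (ne_of_lt (hj.trans hl1))]; exact hk1 j hj
      · change inc u l k < w k
        rw [inc_ne _ (ne_of_lt hl1)]; exact hk2
  · push Not at h
    refine ⟨k, ?_, ?_⟩
    · intro i
      by_cases hi : i = k
      · subst hi; rw [inc_self]; exact lt_of_le_of_lt hk2 (hw i)
      · rw [inc_ne _ hi]; exact hu i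
    · by_cases h2 : u k + 1 < w k
      · apply le_of_lt
        refine ⟨k, fun j hj => ?_, ?_⟩
        · change inc u k j = w j
          rw [inc_ne _ (ne_of_lt hj)]; exact hk1 j hj
        · change inc u k k < w k
          rw [inc_self]; exact h2
      · apply le_of_eq
        congr 1
        symm
        apply eq_of_le_of_dg_le
        · intro i
          rcases lt_trichotomy i k with hi | hi | hi
          · rw [inc_ne _ (ne_of_lt hi), hk1 i hi]
          · subst hi; rw [inc_self]; omega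
          · rw [inc_ne _ (ne_of_gt hi)]
            have := h i hi
            have := hw i
            omega
        · rw [dg_inc]; exact hd

theorem stepB {u w : Fin n → ℕ}
    (hlt : toLex w < toLex u) (hd : dg w + 1 ≤ dg u) :
    ∃ t, 0 < u t ∧ toLex w ≤ toLex (dec u t) := by
  obtain ⟨k, hk1, hk2⟩ := lex_lt_iff.1 hlt
  by_cases h : ∃ l, k < l ∧ 0 < u l
  · obtain ⟨l, hl1, hl2⟩ := h
    refine ⟨l, hl2, le_of_lt ?_⟩
    refine ⟨k, fun j hj => ?_, ?_⟩
    · change w j = dec u l j
      rw [dec_ne _ (ne_of_lt (hj.trans hl1))]; exact hk1 j hj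
    · change w k < dec u l k
      rw [dec_ne _ (ne_of_lt hl1)]; exact hk2
  · push Not at h
    refine ⟨k, by omega, ?_⟩
    by_cases h2 : w k < u k - 1
    · apply le_of_lt
      refine ⟨k, fun j hj => ?_, ?_⟩
      · change w j = dec u k j
        rw [dec_ne _ (ne_of_lt hj)]; exact hk1 j hj
      · change w k < dec u k k
        rw [dec_self]; exact h2
    · apply le_of_eq
      congr 1
      symm
      have hdd := dg_dec u k (by omega)
      apply eq_of_le_of_dg_le
      · intro i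
        rcases lt_trichotomy i k with hi | hi | hi
        · rw [dec_ne _ (ne_of_lt hi), hk1 i hi]
        · subst hi; rw [dec_self]; omega
        · rw [dec_ne _ (ne_of_gt hi)]
          have := h i hi
          omega
      · omega

/-- Claim A. -/
theorem claimA {a : Fin n → ℕ} {A : ℕ} {K : ℕ → Set (Fin n → ℕ)} (hL0 : IsL a (K 0))
    (hst : ∀ i u t, u ∈ K (i + 1) → i + 1 < A → inc u t ∈ K i) {w : Fin n → ℕ}
    (hw : ∀ i, w i < a i) : ∀ i u, u ∈ K i → i < A → (∀ k, u k < a k) → dg u + i = dg w →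
      toLex u ≤ toLex w → w ∈ K 0 := by
  intro i
  induction i with
  | zero =>
    intro u hu _ hua hd hle
    rcases lt_or_eq_of_le hle with h | h
    · exact hL0 u w hu hua hd h
    · have : u = w := toLex_inj.1 h
      exact this ▸ hu
  | succ i ih =>
    intro u hu hi hua hd hle
    have hne : toLex u ≠ toLex w := by
      intro h
      have : u = w := toLex_inj.1 h
      subst this
      omega
    obtain ⟨t, ht1, ht2⟩ := stepA hua hw (lt_of_le_of_ne hle hne) (by omega)
    exact ih (inc u t) (hst i u t hu hi) (by omega) ht1 (by rw [dg_inc]; omega) ht2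

/-- Claim B. -/
theorem claimB {a : Fin n → ℕ} {A : ℕ} {K : ℕ → Set (Fin n → ℕ)} (hL : IsL a (K (A - 1)))
    (hst : ∀ i u t, u ∈ K (i + 1) → i + 1 < A → inc u t ∈ K i) {w : Fin n → ℕ}
    (hwK : w ∈ K (A - 1)) (hw : ∀ i, w i < a i) :
    ∀ r u i, i + r = A - 1 → (∀ k, u k < a k) → dg u + i = dg w + (A - 1) →
      toLex w ≤ toLex u → u ∈ K i := by
  intro r
  induction r with
  | zero =>
    intro u i hi hua hd hle
    have hi' : i = A - 1 := by omega
    subst hi'
    rcases lt_or_eq_of_le hle with h | h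
    · exact hL w u hwK hw (by omega) h
    · have : w = u := toLex_inj.1 h
      exact this ▸ hwK
  | succ r ih =>
    intro u i hi hua hd hle
    have hne : toLex w ≠ toLex u := by
      intro h
      have : w = u := toLex_inj.1 h
      subst this
      omega
    obtain ⟨t, ht1, ht2⟩ := stepB (lt_of_le_of_ne hle hne) (by omega)
    have hdd := dg_dec u t ht1
    have := ih (dec u t) (i + 1) (by omega) (fun k => lt_of_le_of_lt (dec_le u t k) (hua k))
      (by omega) ht2
    have := hst i _ t this (by omega)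
    rwa [inc_dec u t ht1] at this

/-- multiples of a lex plus powers set -/
def mulSet (a : Fin n → ℕ) (K : Set (Fin n → ℕ)) : Set (Fin n → ℕ) :=
  {y | (∃ i, a i ≤ y i) ∨ ∃ t, 0 < y t ∧ dec y t ∈ K}

theorem mulSet_lpp {a : Fin n → ℕ} {K : Set (Fin n → ℕ)} (hL : IsL a K) :
    IsL a (mulSet a K) := by
  rintro y y' hy hya hd hlex
  rcases hy with ⟨i, hi⟩ | ⟨t, ht, hy⟩
  · exact absurd (hya i) (not_lt.2 hi)
  obtain ⟨k, hk1, hk2⟩ := lex_lt_iff.1 hlex
  -- the last index in the support of y'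
  have hne : (Finset.univ.filter (fun i => 0 < y' i)).Nonempty :=
    ⟨k, Finset.mem_filter.2 ⟨Finset.mem_univ _, by omega⟩⟩
  obtain ⟨s, hs, hmax⟩ := Finset.exists_max_image _ (fun i => i) hne
  rw [Finset.mem_filter] at hs
  have hsk : k ≤ s := hmax k (Finset.mem_filter.2 ⟨Finset.mem_univ _, by omega⟩)
  have hzero : ∀ l, s < l → y' l = 0 := by
    intro l hl
    by_contra h
    exact absurd (hmax l (Finset.mem_filter.2 ⟨Finset.mem_univ _, Nat.pos_of_ne_zero h⟩))
      (not_le.2 hl)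
  refine Or.inr ⟨s, hs.2, ?_⟩
  have hd1 := dg_dec y t ht
  have hd2 := dg_dec y' s hs.2
  have hma : ∀ i, dec y t i < a i := fun i => lt_of_le_of_lt (dec_le y t i) (hya i)
  have hdd : dg (dec y t) = dg (dec y' s) := by omega
  -- comparison
  rcases lt_trichotomy (toLex (dec y t)) (toLex (dec y' s)) with h | h | h
  · exact hL _ _ hy hma hdd h
  · have : dec y t = dec y' s := toLex_inj.1 h
    exact this ▸ hy
  · exfalso
    obtain ⟨i, hi1, hi2⟩ := lex_lt_iff.1 h
    rcases lt_or_eq_of_le hsk with hks | hks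
    · -- s > k
      rcases le_or_gt i k with hik | hik
      · have h1 : dec y' s i = y' i := dec_ne _ (ne_of_lt (lt_of_le_of_lt hik hks))
        have h2 := dec_le y t i
        rcases lt_or_eq_of_le hik with hik | hik
        · rw [h1, ← hk1 i hik] at hi2; omega
        · subst hik; omega
      · have h1 := hi1 k hik
        rw [dec_ne _ (ne_of_lt hks)] at h1
        have h2 := dec_le y t k
        omega
    · subst hks
      rcases le_or_gt i k with hik | hik
      · have h2 := dec_le y t i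
        rcases lt_or_eq_of_le hik with hik | hik
        · rw [dec_ne _ (ne_of_lt hik), ← hk1 i hik] at hi2; omega
        · subst hik
          rw [dec_self] at hi2
          omega
      · have h3 : dec y' k = dec y t := by
          apply eq_of_le_of_dg_le
          · intro l
            rcases le_or_gt l k with hl | hl
            · exact (hi1 l (lt_of_le_of_lt hl hik)).le
            · rw [dec_ne _ (ne_of_gt hl), hzero l hl]; omega
          · omega
        rw [h3] at hi2
        exact lt_irrefl _ hi2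

end Crest.Agent.R181.Mon
end

-- ▼ part R181/MonCL
section

/-!
# Clements-Lindström step and slices
-/

namespace Crest.Agent.R181.Mon

open Finset

variable {n : ℕ}

/-- append a last exponent -/
def sn (u : Fin n → ℕ) (i : ℕ) : Fin (n + 1) → ℕ := Fin.snoc (α := fun _ => ℕ) u i

theorem sn_castSucc (u : Fin n → ℕ) (i : ℕ) (t : Fin n) : sn u i t.castSucc = u t :=
  Fin.snoc_castSucc (α := fun _ => ℕ) i u t

theorem sn_last (u : Fin n → ℕ) (i : ℕ) : sn u i (Fin.last n) = i :=
  Fin.snoc_last (α := fun _ => ℕ) i u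

theorem exists_sn (m : Fin (n + 1) → ℕ) : ∃ u i, m = sn u i :=
  ⟨Fin.init m, m (Fin.last n), (Fin.snoc_init_self (α := fun _ => ℕ) m).symm⟩

theorem sn_inj {u w : Fin n → ℕ} {i j : ℕ} (h : sn u i = sn w j) : u = w ∧ i = j := by
  constructor
  · funext t
    rw [← sn_castSucc u i, h, sn_castSucc]
  · rw [← sn_last u i, h, sn_last]

theorem dg_sn (u : Fin n → ℕ) (i : ℕ) : dg (sn u i) = dg u + i := by
  unfold dg
  rw [Fin.sum_univ_castSucc, sn_last]
  simp only [sn_castSucc]

theorem inc_sn_castSucc (u : Fin n → ℕ) (i : ℕ) (t : Fin n) :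
    inc (sn u i) t.castSucc = sn (inc u t) i := by
  unfold inc sn
  rw [Fin.snoc_update, Fin.snoc_castSucc]

theorem inc_sn_last (u : Fin n → ℕ) (i : ℕ) : inc (sn u i) (Fin.last n) = sn u (i + 1) := by
  unfold inc sn
  rw [Fin.update_snoc_last, Fin.snoc_last]

theorem dec_sn_castSucc (u : Fin n → ℕ) (i : ℕ) (t : Fin n) :
    dec (sn u i) t.castSucc = sn (dec u t) i := by
  unfold dec sn
  rw [Fin.snoc_update, Fin.snoc_castSucc]

theorem dec_sn_last (u : Fin n → ℕ) (i : ℕ) : dec (sn u i) (Fin.last n) = sn u (i - 1) := by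
  unfold dec sn
  rw [Fin.update_snoc_last, Fin.snoc_last]

theorem sn_forall_lt {a : Fin (n + 1) → ℕ} {u : Fin n → ℕ} {i : ℕ} :
    (∀ k, sn u i k < a k) ↔ (∀ k : Fin n, u k < a k.castSucc) ∧ i < a (Fin.last n) := by
  constructor
  · intro h
    exact ⟨fun k => by have := h k.castSucc; rwa [sn_castSucc] at this,
      by have := h (Fin.last n); rwa [sn_last] at this⟩
  · rintro ⟨h1, h2⟩ k
    refine Fin.lastCases ?_ (fun k => ?_) k
    · rw [sn_last]; exact h2
    · rw [sn_castSucc]; exact h1 k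

theorem lex_sn_of_lt {u w : Fin n → ℕ} {i j : ℕ} (h : toLex u < toLex w) :
    toLex (sn u i) < toLex (sn w j) := by
  obtain ⟨k, hk1, hk2⟩ := lex_lt_iff.1 h
  refine lex_lt_iff.2 ⟨k.castSucc, ?_, ?_⟩
  · intro l hl
    have hl' : l ≠ Fin.last n := by
      rintro rfl
      exact absurd hl (not_lt.2 (Fin.le_last _))
    obtain ⟨l', rfl⟩ := Fin.exists_castSucc_eq.2 hl'
    rw [sn_castSucc, sn_castSucc]
    exact hk1 l' (Fin.castSucc_lt_castSucc_iff.1 hl)
  · rw [sn_castSucc, sn_castSucc]; exact hk2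

theorem lex_of_sn {u w : Fin n → ℕ} {i j : ℕ} (h : toLex (sn u i) < toLex (sn w j)) :
    toLex u ≤ toLex w := by
  by_contra hne
  exact absurd (lex_sn_of_lt (i := j) (j := i) (not_le.1 hne)) (not_lt.2 h.le)

/-- slices -/
def sl (K : Set (Fin (n + 1) → ℕ)) (i : ℕ) : Set (Fin n → ℕ) := {u | sn u i ∈ K}

theorem mem_sl {K : Set (Fin (n + 1) → ℕ)} {i : ℕ} {u : Fin n → ℕ} : u ∈ sl K i ↔ sn u i ∈ K :=
  Iff.rfl

theorem UpC.sl {K : Set (Fin (n + 1) → ℕ)} (h : UpC K) (i : ℕ) : UpC (sl K i) := by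
  intro u hu t
  rw [mem_sl, ← inc_sn_castSucc]
  exact h _ hu _

theorem UpC.sl_succ {K : Set (Fin (n + 1) → ℕ)} (h : UpC K) (i : ℕ) :
    ∀ u, u ∈ Mon.sl K i → u ∈ Mon.sl K (i + 1) := by
  intro u hu
  rw [mem_sl, ← inc_sn_last]
  exact h _ hu _

theorem PP.sl {a : Fin (n + 1) → ℕ} {K : Set (Fin (n + 1) → ℕ)} (h : PP a K) (i : ℕ) :
    PP (fun k : Fin n => a k.castSucc) (sl K i) := by
  rintro u ⟨k, hk⟩
  exact h _ ⟨k.castSucc, by rw [sn_castSucc]; exact hk⟩

theorem PP.sl_eq {a : Fin (n + 1) → ℕ} {K : Set (Fin (n + 1) → ℕ)} (h : PP a K) {i : ℕ}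
    (hi : a (Fin.last n) ≤ i) (u : Fin n → ℕ) : u ∈ Mon.sl K i :=
  h _ ⟨Fin.last n, by rw [sn_last]; exact hi⟩

/-- stability in the box -/
def Stb (A : ℕ) (J : Set (Fin (n + 1) → ℕ)) : Prop :=
  ∀ i u t, u ∈ sl J (i + 1) → i + 1 < A → inc u t ∈ sl J i

theorem cH_add (K P : Set (Fin n → ℕ)) (d : ℕ) : cH (K ∩ P) d + cH (K ∩ Pᶜ) d = cH K d := by
  classical
  unfold cH
  rw [← Finset.card_filter_add_card_filter_not (s := cF K d) (· ∈ P)]
  congr 2 <;>
    · ext m
      simp only [Finset.mem_filter, mem_cF, Set.mem_inter_iff, Set.mem_compl_iff]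
      tauto

theorem cH_congr {K K' : Set (Fin n → ℕ)} {d : ℕ} (h : ∀ m, dg m = d → (m ∈ K ↔ m ∈ K')) :
    cH K d = cH K' d :=
  le_antisymm (cH_le fun m hd hm => (h m hd).1 hm) (cH_le fun m hd hm => (h m hd).2 hm)

theorem cH_split (K : Set (Fin (n + 1) → ℕ)) (d A : ℕ) :
    cH K d = ∑ i ∈ Finset.range A, cH (K ∩ {m | m (Fin.last n) = i}) d +
      cH (K ∩ {m | A ≤ m (Fin.last n)}) d := by
  induction A with
  | zero =>
    rw [Finset.range_zero, Finset.sum_empty, zero_add]
    apply cH_congr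
    intro m _
    simp
  | succ A ih =>
    rw [ih, Finset.sum_range_succ, add_assoc]
    congr 1
    rw [← cH_add _ {m | m (Fin.last n) = A}]
    congr 1
    · apply cH_congr
      intro m _
      simp only [Set.mem_inter_iff, Set.mem_ofPred_eq]
      constructor
      · rintro ⟨⟨h1, h2⟩, h3⟩; exact ⟨h1, h3⟩
      · rintro ⟨h1, h3⟩; exact ⟨⟨h1, h3.ge⟩, h3⟩
    · apply cH_congr
      intro m _
      simp only [Set.mem_inter_iff, Set.mem_ofPred_eq, Set.mem_compl_iff]
      constructor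
      · rintro ⟨⟨h1, h2⟩, h3⟩; exact ⟨h1, by omega⟩
      · rintro ⟨h1, h3⟩; exact ⟨⟨h1, by omega⟩, by omega⟩

theorem cH_slice (K : Set (Fin (n + 1) → ℕ)) (d i : ℕ) :
    cH (K ∩ {m | m (Fin.last n) = i}) (d + i) = cH (sl K i) d := by
  symm
  unfold cH
  apply Finset.card_bij (fun u _ => sn u i)
  · intro u hu
    rw [mem_cF] at hu ⊢
    exact ⟨by rw [dg_sn, hu.1], hu.2, sn_last u i⟩
  · intro u _ w _ h
    exact (sn_inj h).1
  · intro m hm
    rw [mem_cF] at hm
    obtain ⟨u, j, rfl⟩ := exists_sn m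
    have hj : j = i := by have := hm.2.2; rwa [Set.mem_ofPred_eq, sn_last] at this
    subst hj
    refine ⟨u, ?_, rfl⟩
    rw [mem_cF]
    refine ⟨?_, hm.2.1⟩
    have := hm.1
    rw [dg_sn] at this
    omega

theorem cH_slice_zero (K : Set (Fin (n + 1) → ℕ)) {d i : ℕ} (h : d < i) :
    cH (K ∩ {m | m (Fin.last n) = i}) d = 0 := by
  unfold cH
  rw [Finset.card_eq_zero, Finset.eq_empty_iff_forall_notMem]
  intro m hm0
  obtain ⟨hm, hm'⟩ := mem_cF.1 hm0
  obtain ⟨u, j, rfl⟩ := exists_sn m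
  have hj : j = i := by have := hm'.2; rwa [Set.mem_ofPred_eq, sn_last] at this
  rw [dg_sn] at hm
  omega

theorem cH_slice_congr {K K' : Set (Fin (n + 1) → ℕ)} {i : ℕ}
    (h : ∀ d, cH (sl K i) d = cH (sl K' i) d) (d : ℕ) :
    cH (K ∩ {m | m (Fin.last n) = i}) d = cH (K' ∩ {m | m (Fin.last n) = i}) d := by
  rcases lt_or_ge d i with hd | hd
  · rw [cH_slice_zero K hd, cH_slice_zero K' hd]
  · obtain ⟨e, rfl⟩ : ∃ e, d = e + i := ⟨d - i, by omega⟩
    rw [cH_slice, cH_slice, h]

theorem cH_slice_mono {K K' : Set (Fin (n + 1) → ℕ)} {i : ℕ} {d : ℕ}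
    (h : ∀ u, dg u + i = d → u ∈ sl K i → u ∈ sl K' i) :
    cH (K ∩ {m | m (Fin.last n) = i}) d ≤ cH (K' ∩ {m | m (Fin.last n) = i}) d := by
  apply cH_le
  rintro m hd ⟨h1, h2⟩
  obtain ⟨u, j, rfl⟩ := exists_sn m
  have hj : j = i := by rwa [Set.mem_ofPred_eq, sn_last] at h2
  subst hj
  rw [dg_sn] at hd
  exact ⟨h u hd h1, h2⟩

theorem rest_congr {a : Fin (n + 1) → ℕ} {K K' : Set (Fin (n + 1) → ℕ)} (hK : PP a K)
    (hK' : PP a K') (d : ℕ) :
    cH (K ∩ {m | a (Fin.last n) ≤ m (Fin.last n)}) d =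
      cH (K' ∩ {m | a (Fin.last n) ≤ m (Fin.last n)}) d := by
  apply cH_congr
  intro m _
  constructor
  · rintro ⟨_, h2⟩; exact ⟨hK' m ⟨_, h2⟩, h2⟩
  · rintro ⟨_, h2⟩; exact ⟨hK m ⟨_, h2⟩, h2⟩

/-- Claim A for sets. -/
theorem claimA' {a : Fin (n + 1) → ℕ} (hA : 0 < a (Fin.last n)) {L J : Set (Fin (n + 1) → ℕ)}
    (hLP : PP a L) (hJP : PP a J) (hL : IsL a L)
    (hJ0 : IsL (fun k : Fin n => a k.castSucc) (sl J 0)) (hst : Stb (a (Fin.last n)) J) {d : ℕ}
    (hc : cH L d ≤ cH J d) (w : Fin n → ℕ) (hd : dg w = d) (hw : w ∈ sl L 0) : w ∈ sl J 0 := by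
  by_contra hne
  have hwa : ∀ i, w i < a i.castSucc := (sn_forall_lt.1 (hJP.not_mem hne)).1
  have hsub : ∀ m, dg m = d → m ∈ J → m ∈ L := by
    intro m hm hmJ
    by_contra hmL
    obtain ⟨u, i, rfl⟩ := exists_sn m
    have hua := sn_forall_lt.1 (hLP.not_mem hmL)
    have hlt : toLex (sn u i) < toLex (sn w 0) := by
      by_contra h
      rcases lt_or_eq_of_le (not_lt.1 h) with h | h
      · exact hmL (hL _ _ hw (sn_forall_lt.2 ⟨hwa, hA⟩) (by rw [hm, dg_sn]; omega) h)
      · have h' : sn w 0 = sn u i := toLex_inj.1 h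
        exact hmL (h' ▸ hw)
    apply hne
    refine claimA (K := sl J) hJ0 hst hwa i u hmJ hua.2 hua.1 ?_ (lex_of_sn hlt)
    rw [dg_sn] at hm; omega
  exact absurd (cH_lt hsub (sn w 0) (by rw [dg_sn]; omega) hw hne) (not_lt.2 hc)

/-- Claim B for sets. -/
theorem claimB' {a : Fin (n + 1) → ℕ} (hA : 0 < a (Fin.last n)) {L J : Set (Fin (n + 1) → ℕ)}
    (hLP : PP a L) (hJP : PP a J) (hL : IsL a L)
    (hJ1 : IsL (fun k : Fin n => a k.castSucc) (sl J (a (Fin.last n) - 1)))
    (hst : Stb (a (Fin.last n)) J) {d : ℕ}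
    (hc : cH J d ≤ cH L d) (w : Fin n → ℕ) (hd : dg w + (a (Fin.last n) - 1) = d)
    (hw : w ∈ sl J (a (Fin.last n) - 1)) : w ∈ sl L (a (Fin.last n) - 1) := by
  by_contra hne
  have hwa : ∀ i, w i < a i.castSucc := (sn_forall_lt.1 (hLP.not_mem hne)).1
  have hsub : ∀ m, dg m = d → m ∈ L → m ∈ J := by
    intro m hm hmL
    by_contra hmJ
    obtain ⟨u, i, rfl⟩ := exists_sn m
    have hua := sn_forall_lt.1 (hJP.not_mem hmJ)
    have hlt : toLex (sn w (a (Fin.last n) - 1)) < toLex (sn u i) := by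
      by_contra h
      rcases lt_or_eq_of_le (not_lt.1 h) with h | h
      · exact hne (hL _ _ hmL (sn_forall_lt.2 hua) (by rw [hm, dg_sn]; omega) h)
      · have h' : sn u i = sn w (a (Fin.last n) - 1) := toLex_inj.1 h
        exact hne (show sn w (a (Fin.last n) - 1) ∈ L from h' ▸ hmL)
    apply hmJ
    refine claimB (K := sl J) hJ1 hst hw hwa (a (Fin.last n) - 1 - i) u i (by omega) hua.1 ?_
      (lex_of_sn hlt)
    rw [dg_sn] at hm; omega
  exact absurd (cH_lt hsub (sn w (a (Fin.last n) - 1)) (by rw [dg_sn]; omega) hw hne)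
    (not_lt.2 hc)

/-- Lex plus powers sets are stable. -/
theorem IsL.stb {a : Fin (n + 1) → ℕ} {L : Set (Fin (n + 1) → ℕ)} (hLP : PP a L) (hL : IsL a L) :
    Stb (a (Fin.last n)) L := by
  intro i u t hu hi
  by_contra hne
  have h1 := sn_forall_lt.1 (hLP.not_mem hne)
  apply hne
  refine hL (sn u (i + 1)) _ hu (sn_forall_lt.2 ⟨fun k => lt_of_le_of_lt (le_inc u t k) (h1.1 k),
    hi⟩) ?_ ?_
  · rw [dg_sn, dg_sn, dg_inc]; omega
  · apply lex_sn_of_lt
    refine lex_lt_iff.2 ⟨t, fun j hj => ?_, ?_⟩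
    · rw [inc_ne _ (ne_of_lt hj)]
    · rw [inc_self]; omega

theorem arithC {X Y Z : ℕ → ℕ} {B cD cD1 hL hJ hM hJ1 m0 j0 lB jB : ℕ}
    (h1 : hL = ∑ i ∈ Finset.range (B + 1), X i + cD)
    (h2 : hJ = ∑ i ∈ Finset.range (B + 1), Y i + cD) (h3 : hL = hJ)
    (hlB : X B = lB) (hjB : Y B = jB) (h4 : jB ≤ lB)
    (h5 : hM ≤ m0 + ∑ i ∈ Finset.range B, X i + cD1)
    (h6 : hJ1 = j0 + ∑ i ∈ Finset.range B, Z i + cD1) (h7 : m0 ≤ j0)
    (h8 : ∀ i ∈ Finset.range B, Y i ≤ Z i) : hM ≤ hJ1 := by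
  have h9 := Finset.sum_le_sum h8
  rw [Finset.sum_range_succ] at h1 h2
  omega

/-- The combinatorial core of the Clements-Lindström theorem: induction step. -/
theorem cl_step (a : Fin (n + 1) → ℕ) (hA : 0 < a (Fin.last n))
    (IH : ∀ K : Set (Fin n → ℕ), UpC K → PP (fun k : Fin n => a k.castSucc) K →
      ∃ L, UpC L ∧ PP (fun k : Fin n => a k.castSucc) L ∧
        IsL (fun k : Fin n => a k.castSucc) L ∧ ∀ d, cH L d = cH K d)
    (J : Set (Fin (n + 1) → ℕ)) (hJ : UpC J) (hP : PP a J) (hst : Stb (a (Fin.last n)) J) :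
    ∃ L : Set (Fin (n + 1) → ℕ), UpC L ∧ PP a L ∧ IsL a L ∧ (∀ d, cH L d = cH J d) ∧
      (∀ d, cH (sl L 0) d ≤ cH (sl J 0) d) ∧
      (∀ d, cH (sl J (a (Fin.last n) - 1)) d ≤ cH (sl L (a (Fin.last n) - 1)) d) := by
  set A := a (Fin.last n) with hAdef
  set a' : Fin n → ℕ := fun k : Fin n => a k.castSucc with ha'
  have hK : ∀ i, ∃ K : Set (Fin n → ℕ), UpC K ∧ PP a' K ∧ IsL a' K ∧
      (∀ d, cH K d = cH (sl J i) d) ∧ (A ≤ i → ∀ u, u ∈ K) := by
    intro i
    by_cases hi : A ≤ i
    · refine ⟨Set.univ, fun _ _ _ => Set.mem_univ _, fun _ _ => Set.mem_univ _,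
        fun _ _ _ _ _ _ => Set.mem_univ _, fun d => ?_, fun _ _ => Set.mem_univ _⟩
      apply cH_congr
      intro m _
      simp only [Set.mem_univ, true_iff]
      exact hP.sl_eq hi m
    · obtain ⟨L, h1, h2, h3, h4⟩ := IH (sl J i) (hJ.sl i) (hP.sl i)
      exact ⟨L, h1, h2, h3, h4, fun h => absurd h hi⟩
  choose K hKU hKP hKL hKc hKA using hK
  -- nestedness of the lex slices
  have hKn : ∀ i u, u ∈ K i → u ∈ K (i + 1) := by
    intro i u hu
    refine nested (d := dg u) (hKP i) (hKP (i + 1)) ((hKL i).at _) ((hKL (i + 1)).at _) ?_ u rfl hu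
    rw [hKc, hKc]
    exact cH_le fun m _ hm => hJ.sl_succ i m hm
  -- stability of the lex slices
  have hKs : ∀ i u t, u ∈ K (i + 1) → i + 1 < A → inc u t ∈ K i := by
    intro i u t hu hi
    set d := dg u with hd
    obtain ⟨L, hL1, hL2, hL3, hL4⟩ := IH {v | if dg v ≤ d then v ∈ sl J (i + 1) else v ∈ sl J i}
      (by
        intro v hv s
        change (if dg (inc v s) ≤ d then inc v s ∈ sl J (i + 1) else inc v s ∈ sl J i)
        have hv' : (if dg v ≤ d then v ∈ sl J (i + 1) else v ∈ sl J i) := hv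
        rw [dg_inc]
        by_cases h1 : dg v ≤ d
        · rw [if_pos h1] at hv'
          by_cases h2 : dg v + 1 ≤ d
          · rw [if_pos h2]; exact (hJ.sl (i + 1)) v hv' s
          · rw [if_neg h2]; exact hst i v s hv' hi
        · rw [if_neg h1] at hv'
          rw [if_neg (by omega)]
          exact (hJ.sl i) v hv' s)
      (by
        intro v hv
        change (if dg v ≤ d then v ∈ sl J (i + 1) else v ∈ sl J i)
        split_ifs
        · exact (hP.sl (i + 1)) v hv
        · exact (hP.sl i) v hv)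
    have h1 : u ∈ L := by
      refine nested (d := d) (hKP (i + 1)) hL2 ((hKL (i + 1)).at _) (hL3.at _) ?_ u rfl hu
      rw [hKc, hL4]
      apply cH_le
      intro m hm hmJ
      change (if dg m ≤ d then m ∈ sl J (i + 1) else m ∈ sl J i)
      rw [if_pos hm.le]; exact hmJ
    have h2 := hL1 u h1 t
    refine nested (d := d + 1) hL2 (hKP i) (hL3.at _) ((hKL i).at _) ?_ _ (dg_inc u t) h2
    rw [hKc, hL4]
    apply cH_le
    intro m hm hmJ
    have hmJ' : (if dg m ≤ d then m ∈ sl J (i + 1) else m ∈ sl J i) := hmJ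
    rwa [if_neg (by omega)] at hmJ'
  -- the set J'
  let J' : Set (Fin (n + 1) → ℕ) := {m | Fin.init m ∈ K (m (Fin.last n))}
  have hJ'sl : ∀ i, sl J' i = K i := by
    intro i
    ext u
    rw [mem_sl]
    change Fin.init (sn u i) ∈ K (sn u i (Fin.last n)) ↔ _
    rw [sn_last]
    unfold sn
    rw [Fin.init_snoc]
  have hJ'mem : ∀ u i, sn u i ∈ J' ↔ u ∈ K i := fun u i => by rw [← hJ'sl i]; rfl
  have hJ'U : UpC J' := by
    intro m hm t
    obtain ⟨u, i, rfl⟩ := exists_sn m
    rw [hJ'mem] at hm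
    refine Fin.lastCases ?_ (fun t => ?_) t
    · rw [inc_sn_last, hJ'mem]; exact hKn i u hm
    · rw [inc_sn_castSucc, hJ'mem]; exact hKU i u hm t
  have hJ'P : PP a J' := by
    rintro m ⟨k, hk⟩
    obtain ⟨u, i, rfl⟩ := exists_sn m
    rw [hJ'mem]
    by_cases hi : A ≤ i
    · exact hKA i hi u
    · apply hKP i
      by_cases hkl : k = Fin.last n
      · subst hkl; rw [sn_last] at hk; exact absurd hk hi
      · obtain ⟨k', rfl⟩ := Fin.exists_castSucc_eq.2 hkl
        rw [sn_castSucc] at hk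
        exact ⟨k', hk⟩
  have hJ's : Stb A J' := by
    intro i u t hu hi
    rw [hJ'sl] at hu ⊢
    exact hKs i u t hu hi
  have hJ'c : ∀ d, cH J' d = cH J d := by
    intro d
    rw [cH_split J' d A, cH_split J d A, rest_congr hJ'P hP d]
    congr 1
    exact Finset.sum_congr rfl fun i _ => cH_slice_congr (fun e => by rw [hJ'sl, hKc]) d
  -- the lex plus powers set
  obtain ⟨L, hLP, hLL, hLc⟩ := exists_lpp a (cH J')
    (fun d => cH_le fun m _ hm => hJ'P m hm)
    (fun d => cH_le_card _ _)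
  have hclA : ∀ w, w ∈ sl L 0 → w ∈ sl J' 0 := fun w hw =>
    claimA' hA hLP hJ'P hLL (by rw [hJ'sl]; exact hKL 0) hJ's (hLc _).le w rfl hw
  have hclB : ∀ w, w ∈ sl J' (A - 1) → w ∈ sl L (A - 1) := fun w hw =>
    claimB' hA hLP hJ'P hLL (by rw [hJ'sl]; exact hKL _) hJ's (hLc _).ge w rfl hw
  have hLs : Stb A L := hLL.stb hLP
  refine ⟨L, ?_, hLP, hLL, fun d => by rw [hLc, hJ'c], ?_, ?_⟩
  · -- upward closed
    intro m hm t
    set D := dg m with hD
    have hMP : PP a (mulSet a L) := fun y hy => Or.inl hy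
    refine nested (d := D + 1) hMP hLP ((mulSet_lpp hLL).at _) (hLL.at _) ?_ _ (dg_inc m t)
      (Or.inr ⟨t, by rw [inc_self]; omega, by rw [dec_inc]; exact hm⟩)
    obtain ⟨B, hB⟩ : ∃ B, A = B + 1 := ⟨A - 1, by omega⟩
    have hr1 : cH (mulSet a L ∩ {m | A ≤ m (Fin.last n)}) (D + 1) =
        cH (L ∩ {m | A ≤ m (Fin.last n)}) (D + 1) := rest_congr hMP hLP (D + 1)
    have hr2 : cH (J' ∩ {m | A ≤ m (Fin.last n)}) (D + 1) =
        cH (L ∩ {m | A ≤ m (Fin.last n)}) (D + 1) := rest_congr hJ'P hLP (D + 1)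
    have hr3 : cH (J' ∩ {m | A ≤ m (Fin.last n)}) D =
        cH (L ∩ {m | A ≤ m (Fin.last n)}) D := rest_congr hJ'P hLP D
    refine arithC (X := fun i => cH (L ∩ {m | m (Fin.last n) = i}) D)
      (Y := fun i => cH (J' ∩ {m | m (Fin.last n) = i}) D)
      (Z := fun i => cH (J' ∩ {m | m (Fin.last n) = i + 1}) (D + 1)) (B := B)
      (cD := cH (L ∩ {m | A ≤ m (Fin.last n)}) D)
      (cD1 := cH (L ∩ {m | A ≤ m (Fin.last n)}) (D + 1))
      (m0 := cH (mulSet a L ∩ {m | m (Fin.last n) = 0}) (D + 1))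
      (j0 := cH (J' ∩ {m | m (Fin.last n) = 0}) (D + 1)) ?_ ?_ (hLc D) rfl rfl ?_ ?_ ?_ ?_ ?_
    · rw [← hB]; exact cH_split L D A
    · rw [← hB, ← hr3]; exact cH_split J' D A
    · apply cH_slice_mono
      intro u _ hu
      have hB' : B = A - 1 := by omega
      rw [hB'] at hu ⊢
      exact hclB u hu
    · rw [cH_split (mulSet a L) (D + 1) A, hr1, hB, Finset.sum_range_succ', ← hB]
      have : ∑ i ∈ Finset.range B, cH (mulSet a L ∩ {m | m (Fin.last n) = i + 1}) (D + 1) ≤
          ∑ i ∈ Finset.range B, cH (L ∩ {m | m (Fin.last n) = i}) D := by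
        apply Finset.sum_le_sum
        intro i hi
        rw [Finset.mem_range] at hi
        rcases lt_or_ge D i with hDi | hDi
        · rw [cH_slice_zero _ (by omega)]; exact Nat.zero_le _
        · obtain ⟨e, he⟩ : ∃ e, D = e + i := ⟨D - i, by omega⟩
          have h1 := cH_slice (mulSet a L) e (i + 1)
          have h2 := cH_slice L e i
          rw [← add_assoc, ← he] at h1
          rw [← he] at h2
          rw [h1, h2]
          apply cH_le
          rintro u hu (⟨k, hk⟩ | ⟨k, hk1, hk2⟩)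
          · by_cases hkl : k = Fin.last n
            · subst hkl; rw [sn_last] at hk; omega
            · obtain ⟨k', rfl⟩ := Fin.exists_castSucc_eq.2 hkl
              rw [sn_castSucc] at hk
              exact (hLP.sl i) u ⟨k', hk⟩
          · by_cases hkl : k = Fin.last n
            · subst hkl
              rw [dec_sn_last] at hk2
              exact hk2
            · obtain ⟨k', rfl⟩ := Fin.exists_castSucc_eq.2 hkl
              rw [dec_sn_castSucc] at hk2
              rw [sn_castSucc] at hk1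
              have := hLs i _ k' hk2 (by omega)
              rwa [inc_dec u k' hk1] at this
      omega
    · rw [hLc, cH_split J' (D + 1) A, hr2, hB, Finset.sum_range_succ', ← hB]
      omega
    · apply cH_slice_mono
      rintro u _ (⟨k, hk⟩ | ⟨k, hk1, hk2⟩)
      · exact hJ'P _ ⟨k, hk⟩
      · by_cases hkl : k = Fin.last n
        · subst hkl; rw [sn_last] at hk1; exact absurd hk1 (lt_irrefl _)
        · obtain ⟨k', rfl⟩ := Fin.exists_castSucc_eq.2 hkl
          rw [dec_sn_castSucc] at hk2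
          rw [sn_castSucc] at hk1
          have := (hJ'U.sl 0) _ (hclA _ hk2) k'
          rwa [inc_dec u k' hk1] at this
    · intro i _
      rcases lt_or_ge D i with hDi | hDi
      · rw [cH_slice_zero _ hDi]; exact Nat.zero_le _
      · obtain ⟨e, he⟩ : ∃ e, D = e + i := ⟨D - i, by omega⟩
        have h1 := cH_slice J' e (i + 1)
        have h2 := cH_slice J' e i
        rw [← add_assoc, ← he] at h1
        rw [← he] at h2
        change cH (J' ∩ {m | m (Fin.last n) = i}) D ≤
          cH (J' ∩ {m | m (Fin.last n) = i + 1}) (D + 1)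
        rw [h1, h2]
        exact cH_le fun u _ hu => hJ'U.sl_succ i u hu
  · intro d
    rw [← hKc 0, ← hJ'sl]
    exact cH_le fun u _ hu => hclA u hu
  · intro d
    rw [← hKc (A - 1), ← hJ'sl]
    exact cH_le fun u _ hu => hclB u hu

end Crest.Agent.R181.Mon
end

-- ▼ part R181/MonLink
section

/-!
# Chains in coefficient form
-/

namespace Crest.Agent.R181.Mon

open MvPolynomial Module Finset

variable {n : ℕ}

/-- chains in coefficient form -/
abbrev Fn (n : ℕ) := Finset (Fin n) → (Fin n → ℕ) → ℂ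

/-- the differential in coefficient form -/
noncomputable def cD : Fn n →ₗ[ℂ] Fn n where
  toFun f U m := ∑ t, if t ∈ U ∨ m t = 0 then 0 else sg U t * f (insert t U) (dec m t)
  map_add' f g := by
    funext U m
    simp only [Pi.add_apply]
    rw [← Finset.sum_add_distrib]
    refine Finset.sum_congr rfl fun t _ => ?_
    split_ifs
    · rw [add_zero]
    · ring
  map_smul' a f := by
    funext U m
    simp only [Pi.smul_apply, RingHom.id_apply, smul_eq_mul]
    rw [Finset.mul_sum]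
    refine Finset.sum_congr rfl fun t _ => ?_
    split_ifs
    · rw [mul_zero]
    · ring

theorem cD_apply (f : Fn n) (U : Finset (Fin n)) (m : Fin n → ℕ) :
    cD f U m = ∑ t, if t ∈ U ∨ m t = 0 then 0 else sg U t * f (insert t U) (dec m t) := rfl

theorem cD_ne_zero {f : Fn n} {U : Finset (Fin n)} {m : Fin n → ℕ} (h : cD f U m ≠ 0) :
    ∃ t, t ∉ U ∧ 0 < m t ∧ f (insert t U) (dec m t) ≠ 0 := by
  rw [cD_apply] at h
  obtain ⟨t, -, ht⟩ := Finset.exists_ne_zero_of_sum_ne_zero h
  split_ifs at ht with h1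
  · exact absurd rfl ht
  · rw [not_or] at h1
    exact ⟨t, h1.1, Nat.pos_of_ne_zero h1.2, right_ne_zero_of_mul ht⟩

/-- chains of bidegree `(p, j)` in coefficient form -/
def cch (n p j : ℕ) : Submodule ℂ (Fn n) where
  carrier := {f | ∀ T m, f T m ≠ 0 → T.card = p ∧ dg m + p = j}
  add_mem' := by
    intro f g hf hg T m h
    rw [Pi.add_apply, Pi.add_apply] at h
    by_cases h1 : f T m = 0
    · exact hg T m (by rwa [h1, zero_add] at h)
    · exact hf T m h1
  zero_mem' := by
    intro T m h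
    exact absurd rfl h
  smul_mem' := by
    intro a f hf T m h
    rw [Pi.smul_apply, Pi.smul_apply, smul_eq_mul] at h
    exact hf T m (right_ne_zero_of_mul h)

/-- functions vanishing outside a set -/
def vanOut (K : Set (Fin n → ℕ)) : Submodule ℂ (Fn n) where
  carrier := {f | ∀ U m, m ∉ K → f U m = 0}
  add_mem' := by
    intro f g hf hg T m h
    rw [Pi.add_apply, Pi.add_apply, hf T m h, hg T m h, add_zero]
  zero_mem' := fun _ _ _ => rfl
  smul_mem' := by
    intro a f hf T m h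
    rw [Pi.smul_apply, Pi.smul_apply, hf T m h, smul_zero]

/-- chains with differential supported in `K` -/
noncomputable def czs (K : Set (Fin n → ℕ)) (p j : ℕ) : Submodule ℂ (Fn n) :=
  cch n p j ⊓ (vanOut K).comap cD

theorem mem_czs {K : Set (Fin n → ℕ)} {p j : ℕ} {f : Fn n} :
    f ∈ czs K p j ↔ (∀ T m, f T m ≠ 0 → T.card = p ∧ dg m + p = j) ∧
      ∀ U m, m ∉ K → cD f U m = 0 := Iff.rfl

/-- chains supported in a finite set -/
def SX (X : Finset (Finset (Fin n) × (Fin n → ℕ))) : Submodule ℂ (Fn n) where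
  carrier := {f | ∀ T m, f T m ≠ 0 → (T, m) ∈ X}
  add_mem' := by
    intro f g hf hg T m h
    rw [Pi.add_apply, Pi.add_apply] at h
    by_cases h1 : f T m = 0
    · exact hg T m (by rwa [h1, zero_add] at h)
    · exact hf T m h1
  zero_mem' := by
    intro T m h
    exact absurd rfl h
  smul_mem' := by
    intro a f hf T m h
    rw [Pi.smul_apply, Pi.smul_apply, smul_eq_mul] at h
    exact hf T m (right_ne_zero_of_mul h)

/-- coordinates of `SX` -/
noncomputable def SXequiv (X : Finset (Finset (Fin n) × (Fin n → ℕ))) : SX X ≃ₗ[ℂ] (X → ℂ) where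
  toFun f x := f.1 x.1.1 x.1.2
  map_add' f g := rfl
  map_smul' a f := rfl
  invFun g := by
    classical
    exact ⟨fun T m => if h : (T, m) ∈ X then g ⟨(T, m), h⟩ else 0, by
      intro T m hne
      by_contra h
      exact hne (dif_neg h)⟩
  left_inv f := by
    classical
    apply Subtype.ext
    funext T m
    by_cases h : (T, m) ∈ X
    · simp only [dif_pos h]
    · simp only [dif_neg h]
      by_contra hne
      exact h (f.2 T m (fun h0 => hne h0.symm))
  right_inv g := by
    classical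
    funext x
    simp only [Prod.mk.eta, Subtype.coe_eta]
    exact dif_pos x.2

instance (X : Finset (Finset (Fin n) × (Fin n → ℕ))) : FiniteDimensional ℂ (SX X) :=
  Module.Finite.equiv (SXequiv X).symm

theorem finrank_SX (X : Finset (Finset (Fin n) × (Fin n → ℕ))) : finrank ℂ (SX X) = X.card := by
  rw [(SXequiv X).finrank_eq, Module.finrank_fintype_fun_eq_card, Fintype.card_coe]

theorem cch_le_SX (p j : ℕ) : cch n p j ≤ SX (Finset.univ ×ˢ fD n (j - p)) := by
  intro f hf T m h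
  have := hf T m h
  rw [Finset.mem_product, mem_fD]
  refine ⟨Finset.mem_univ _, ?_⟩
  change dg m = j - p
  omega

instance (p j : ℕ) : FiniteDimensional ℂ (cch n p j) :=
  Submodule.finiteDimensional_of_le (cch_le_SX p j)

instance (K : Set (Fin n → ℕ)) (p j : ℕ) : FiniteDimensional ℂ (czs K p j) :=
  Submodule.finiteDimensional_of_le (inf_le_left : czs K p j ≤ cch n p j)

/-- dimension of `czs` -/
noncomputable def cz (K : Set (Fin n → ℕ)) (p j : ℕ) : ℕ := finrank ℂ (czs K p j)

theorem cz_mono {K K' : Set (Fin n → ℕ)} (h : K ⊆ K') (p j : ℕ) : cz K p j ≤ cz K' p j :=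
  Submodule.finrank_mono (fun _ hf => ⟨hf.1, fun U m hm => hf.2 U m (fun h' => hm (h h'))⟩)

/-- `Fin n → ℕ` as finitely supported functions -/
noncomputable def toF (m : Fin n → ℕ) : Fin n →₀ ℕ := Finsupp.equivFunOnFinite.symm m

theorem toF_apply (m : Fin n → ℕ) (i : Fin n) : toF m i = m i := rfl

theorem toF_injective : Function.Injective (toF : (Fin n → ℕ) → _) :=
  Finsupp.equivFunOnFinite.symm.injective

theorem toF_coe (m : Fin n →₀ ℕ) : toF (m : Fin n → ℕ) = m := by ext i; rfl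

theorem degree_toF (m : Fin n → ℕ) : (toF m).degree = dg m := by
  rw [Finsupp.degree_eq_sum]; rfl

theorem toF_dec (m : Fin n → ℕ) (t : Fin n) : toF (dec m t) = toF m - Finsupp.single t 1 := by
  ext s
  rw [Finsupp.tsub_apply, toF_apply, toF_apply]
  by_cases h : s = t
  · subst h; rw [dec_self, Finsupp.single_eq_same]
  · rw [dec_ne _ h, Finsupp.single_eq_of_ne h, Nat.sub_zero]

theorem toF_inc (m : Fin n → ℕ) (t : Fin n) : toF (inc m t) = toF m + Finsupp.single t 1 := by
  ext s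
  rw [Finsupp.add_apply, toF_apply, toF_apply]
  by_cases h : s = t
  · subst h; rw [inc_self, Finsupp.single_eq_same]
  · rw [inc_ne _ h, Finsupp.single_eq_of_ne h, Nat.add_zero]

/-- coefficient form of chains -/
noncomputable def ev : Ch n →ₗ[ℂ] Fn n where
  toFun f T m := coeff (toF m) (f T)
  map_add' f g := by funext T m; simp only [Pi.add_apply, coeff_add]
  map_smul' a f := by funext T m; simp only [Pi.smul_apply, coeff_smul, RingHom.id_apply]

theorem ev_apply (f : Ch n) (T : Finset (Fin n)) (m : Fin n → ℕ) :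
    ev f T m = coeff (toF m) (f T) := rfl

theorem ev_injective : Function.Injective (ev : Ch n →ₗ[ℂ] Fn n) := by
  rw [injective_iff_map_eq_zero]
  intro f hf
  funext T
  ext m
  have := congrFun (congrFun hf T) m
  rwa [ev_apply, toF_coe] at this

theorem ev_KD (f : Ch n) : ev (KD f) = cD (ev f) := by
  funext U m
  rw [ev_apply, coeff_KD, cD_apply, ← Finset.sum_subset (Finset.subset_univ Uᶜ)]
  · refine Finset.sum_congr rfl fun t ht => ?_
    have htU : t ∉ U := by simpa using ht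
    by_cases h : m t = 0
    · rw [if_pos (Or.inr h), if_neg, mul_zero]
      rw [Finsupp.mem_support_iff, toF_apply]
      exact fun h' => h' h
    · rw [if_neg (not_or.2 ⟨htU, h⟩), if_pos (Finsupp.mem_support_iff.2 h), ev_apply, toF_dec]
  · intro t _ ht
    rw [if_pos (Or.inl (by simpa using ht))]

theorem exists_ev {f : Fn n} {p j : ℕ} (hf : f ∈ cch n p j) : ∃ g ∈ chains n p j, ev g = f := by
  classical
  have hc : ∀ T m, coeff (toF m) (∑ x ∈ fD n (j - p), monomial (toF x) (f T x)) = f T m := by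
    intro T m
    rw [coeff_sum]
    simp only [coeff_monomial]
    by_cases h : m ∈ fD n (j - p)
    · rw [Finset.sum_eq_single m]
      · rw [if_pos rfl]
      · intro x _ hx
        rw [if_neg (fun h' => hx (toF_injective h'))]
      · exact fun h' => absurd h h'
    · rw [Finset.sum_eq_zero]
      · by_contra hne
        have := hf T m (fun h0 => hne h0.symm)
        rw [mem_fD] at h
        omega
      · intro x hx
        rw [if_neg]
        intro h'
        rw [toF_injective h'] at hx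
        exact h hx
  refine ⟨fun T => ∑ x ∈ fD n (j - p), monomial (toF x) (f T x), ?_, ?_⟩
  · intro T m hm
    rw [← toF_coe m, hc] at hm
    have := hf T _ hm
    rwa [← degree_toF, toF_coe] at this
  · funext T m
    rw [ev_apply]
    exact hc T m

theorem map_ev_zsp (J : Set (Fin n →₀ ℕ)) (p j : ℕ) :
    (zsp (monId J) p j).map ev = czs {m | toF m ∈ J} p j := by
  apply le_antisymm
  · rintro _ ⟨f, hf, rfl⟩
    rw [mem_czs]
    constructor
    · intro T m hm
      have := hf.1 T _ hm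
      rwa [degree_toF] at this
    · intro U m hm
      rw [← ev_KD, ev_apply]
      by_contra hne
      exact hm (hf.2 U _ hne)
  · intro f hf
    obtain ⟨g, hg, rfl⟩ := exists_ev hf.1
    refine ⟨g, ⟨hg, ?_⟩, rfl⟩
    intro U m hm
    by_contra hmJ
    have h1 := hf.2 U (m : Fin n → ℕ) (by
      change ¬ (toF (m : Fin n → ℕ) ∈ J)
      rwa [toF_coe])
    rw [← ev_KD, ev_apply, toF_coe] at h1
    exact hm h1

theorem zd_eq_cz (J : Set (Fin n →₀ ℕ)) (p j : ℕ) :
    zd (monId J) p j = cz {m | toF m ∈ J} p j := by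
  unfold zd cz
  rw [← map_ev_zsp]
  exact LinearEquiv.finrank_eq (Submodule.equivMapOfInjective _ ev_injective _)

theorem cD_cD {p j : ℕ} {f : Fn n} (hf : f ∈ cch n p j) : cD (cD f) = 0 := by
  obtain ⟨g, -, rfl⟩ := exists_ev hf
  rw [← ev_KD, ← ev_KD, KD_KD, map_zero]

theorem hf_eq_cH (J : Set (Fin n →₀ ℕ)) (d : ℕ) : hf J d = cH {m | toF m ∈ J} d := by
  classical
  unfold hf cH
  symm
  apply Finset.card_bij (fun m _ => toF m)
  · intro m hm
    rw [mem_cF] at hm
    rw [Finset.mem_filter, mem_degS, degree_toF]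
    exact hm
  · intro m _ m' _ h
    exact toF_injective h
  · intro m hm
    rw [Finset.mem_filter, mem_degS] at hm
    refine ⟨(m : Fin n → ℕ), ?_, toF_coe m⟩
    rw [mem_cF, ← degree_toF, toF_coe]
    refine ⟨hm.1, ?_⟩
    change toF (m : Fin n → ℕ) ∈ J
    rw [toF_coe]; exact hm.2

end Crest.Agent.R181.Mon
end

-- ▼ part R181/MonSlice
section

/-!
# Slicing the Koszul complex by the last variable
-/

namespace Crest.Agent.R181.Mon

open Module Finset

variable {n : ℕ}

/-- embed a set of variables -/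
def emb (T : Finset (Fin n)) : Finset (Fin (n + 1)) := T.map Fin.castSuccEmb

/-- embed a set of variables and add the last one -/
def embL (T : Finset (Fin n)) : Finset (Fin (n + 1)) := insert (Fin.last n) (emb T)

theorem castSucc_mem_emb {T : Finset (Fin n)} {t : Fin n} : t.castSucc ∈ emb T ↔ t ∈ T := by
  unfold emb
  rw [Finset.mem_map]
  constructor
  · rintro ⟨s, hs, h⟩
    rw [Fin.castSuccEmb_apply] at h
    rwa [← Fin.castSucc_injective n h]
  · intro h
    exact ⟨t, h, rfl⟩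

theorem last_notMem_emb (T : Finset (Fin n)) : Fin.last n ∉ emb T := by
  unfold emb
  rw [Finset.mem_map]
  rintro ⟨s, _, h⟩
  rw [Fin.castSuccEmb_apply] at h
  exact absurd h (ne_of_lt (Fin.castSucc_lt_last s))

theorem last_mem_embL (T : Finset (Fin n)) : Fin.last n ∈ embL T := Finset.mem_insert_self _ _

theorem castSucc_mem_embL {T : Finset (Fin n)} {t : Fin n} : t.castSucc ∈ embL T ↔ t ∈ T := by
  unfold embL
  rw [Finset.mem_insert, castSucc_mem_emb]
  constructor
  · rintro (h | h)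
    · exact absurd h (ne_of_lt (Fin.castSucc_lt_last t))
    · exact h
  · exact Or.inr

theorem insert_emb (T : Finset (Fin n)) (t : Fin n) :
    insert t.castSucc (emb T) = emb (insert t T) := by
  unfold emb
  rw [Finset.map_insert]; rfl

theorem insert_embL (T : Finset (Fin n)) (t : Fin n) :
    insert t.castSucc (embL T) = embL (insert t T) := by
  unfold embL
  rw [Finset.insert_comm, insert_emb]

theorem card_emb (T : Finset (Fin n)) : (emb T).card = T.card := Finset.card_map _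

theorem card_embL (T : Finset (Fin n)) : (embL T).card = T.card + 1 := by
  unfold embL
  rw [Finset.card_insert_of_notMem (last_notMem_emb T), card_emb]

theorem sg_emb (U : Finset (Fin n)) (t : Fin n) : sg (emb U) t.castSucc = sg U t := by
  unfold sg emb
  rw [Finset.filter_map, Finset.card_map]
  rfl

theorem sg_embL (U : Finset (Fin n)) (t : Fin n) : sg (embL U) t.castSucc = sg U t := by
  have h := sg_emb U t
  unfold sg at h ⊢
  unfold embL
  rw [Finset.filter_insert, if_neg (not_lt.2 (Fin.castSucc_lt_last t).le)]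
  exact h

theorem sg_emb_last (U : Finset (Fin n)) : sg (emb U) (Fin.last n) = (-1) ^ U.card := by
  rw [sg_last _ (last_notMem_emb U), card_emb]

/-- restrict a set of variables -/
def res (T : Finset (Fin (n + 1))) : Finset (Fin n) := Finset.univ.filter (fun t => t.castSucc ∈ T)

theorem res_emb (T : Finset (Fin n)) : res (emb T) = T := by
  ext t
  unfold res
  rw [Finset.mem_filter, castSucc_mem_emb]
  simp

theorem res_embL (T : Finset (Fin n)) : res (embL T) = T := by
  ext t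
  unfold res
  rw [Finset.mem_filter, castSucc_mem_embL]
  simp

theorem eq_emb {T : Finset (Fin (n + 1))} (h : Fin.last n ∉ T) : T = emb (res T) := by
  ext t
  refine Fin.lastCases ?_ (fun t => ?_) t
  · exact ⟨fun h' => absurd h' h, fun h' => absurd h' (last_notMem_emb _)⟩
  · rw [castSucc_mem_emb]
    unfold res
    rw [Finset.mem_filter]
    simp

theorem eq_embL {T : Finset (Fin (n + 1))} (h : Fin.last n ∈ T) : T = embL (res T) := by
  ext t
  refine Fin.lastCases ?_ (fun t => ?_) t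
  · exact ⟨fun _ => last_mem_embL _, fun _ => h⟩
  · rw [castSucc_mem_embL]
    unfold res
    rw [Finset.mem_filter]
    simp

/-- slice of a chain without the last variable -/
def s0 (g : ℕ) : Fn (n + 1) →ₗ[ℂ] Fn n where
  toFun f T u := f (emb T) (sn u g)
  map_add' _ _ := rfl
  map_smul' _ _ := rfl

/-- slice of a chain with the last variable -/
def s1 (g : ℕ) : Fn (n + 1) →ₗ[ℂ] Fn n where
  toFun f T u := f (embL T) (sn u g)
  map_add' _ _ := rfl
  map_smul' _ _ := rfl

/-- sign twist -/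
noncomputable def tw : Fn n →ₗ[ℂ] Fn n where
  toFun f T u := (-1) ^ T.card * f T u
  map_add' f g := by funext T u; simp only [Pi.add_apply, mul_add]
  map_smul' a f := by
    funext T u
    simp only [Pi.smul_apply, smul_eq_mul, RingHom.id_apply]; ring

theorem s0_apply (g : ℕ) (f : Fn (n + 1)) (T : Finset (Fin n)) (u : Fin n → ℕ) :
    s0 g f T u = f (emb T) (sn u g) := rfl
theorem s1_apply (g : ℕ) (f : Fn (n + 1)) (T : Finset (Fin n)) (u : Fin n → ℕ) :
    s1 g f T u = f (embL T) (sn u g) := rfl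
theorem tw_apply (f : Fn n) (T : Finset (Fin n)) (u : Fin n → ℕ) :
    tw f T u = (-1) ^ T.card * f T u := rfl


theorem cD_tw (f : Fn n) : cD (tw f) = - tw (cD f) := by
  funext U m
  rw [Pi.neg_apply, Pi.neg_apply, tw_apply, cD_apply, cD_apply, Finset.mul_sum,
    ← Finset.sum_neg_distrib]
  refine Finset.sum_congr rfl fun t _ => ?_
  split_ifs with h
  · ring
  · rw [not_or] at h
    rw [tw_apply, Finset.card_insert_of_notMem h.1, pow_succ]
    ring

theorem s0_cD (g : ℕ) (f : Fn (n + 1)) (U : Finset (Fin n)) (u : Fin n → ℕ) :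
    cD f (emb U) (sn u g) = cD (s0 g f) U u +
      (if g = 0 then 0 else (-1) ^ U.card * s1 (g - 1) f U u) := by
  rw [cD_apply, Fin.sum_univ_castSucc, cD_apply]
  congr 1
  · refine Finset.sum_congr rfl fun t _ => ?_
    rw [sn_castSucc, sg_emb, insert_emb, dec_sn_castSucc, s0_apply]
    simp only [castSucc_mem_emb]
  · rw [sn_last, sg_emb_last, dec_sn_last, s1_apply]
    by_cases h : g = 0
    · rw [if_pos h, if_pos (Or.inr h)]
    · rw [if_neg h, if_neg (not_or.2 ⟨last_notMem_emb U, h⟩)]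
      rfl

theorem s1_cD (g : ℕ) (f : Fn (n + 1)) (U : Finset (Fin n)) (u : Fin n → ℕ) :
    cD f (embL U) (sn u g) = cD (s1 g f) U u := by
  rw [cD_apply, Fin.sum_univ_castSucc, cD_apply, if_pos (Or.inl (last_mem_embL U)), add_zero]
  refine Finset.sum_congr rfl fun t _ => ?_
  rw [sn_castSucc, sg_embL, insert_embL, dec_sn_castSucc, s1_apply]
  simp only [castSucc_mem_embL]

/-- the first part of a slice -/
def As (J : Set (Fin (n + 1) → ℕ)) (p j g : ℕ) : Submodule ℂ (Fn n) where
  carrier := {F | (∀ T u, F T u ≠ 0 → T.card = p + 1 ∧ dg u + g + (p + 1) = j) ∧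
    (g = 0 → ∀ U u, sn u 0 ∉ J → cD F U u = 0)}
  add_mem' := by
    rintro f h ⟨hf1, hf2⟩ ⟨hh1, hh2⟩
    refine ⟨?_, ?_⟩
    · intro T m hne
      rw [Pi.add_apply, Pi.add_apply] at hne
      by_cases h1 : f T m = 0
      · exact hh1 T m (by rwa [h1, zero_add] at hne)
      · exact hf1 T m h1
    · intro hg U u hu
      rw [map_add, Pi.add_apply, Pi.add_apply, hf2 hg U u hu, hh2 hg U u hu, add_zero]
  zero_mem' := by
    refine ⟨fun T m h => absurd rfl h, ?_⟩
    intro _ U u _
    rw [map_zero]; rfl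
  smul_mem' := by
    rintro a f ⟨hf1, hf2⟩
    refine ⟨?_, ?_⟩
    · intro T m hne
      rw [Pi.smul_apply, Pi.smul_apply, smul_eq_mul] at hne
      exact hf1 T m (right_ne_zero_of_mul hne)
    · intro hg U u hu
      rw [map_smul, Pi.smul_apply, Pi.smul_apply, hf2 hg U u hu, smul_zero]

/-- the second part of a slice -/
def Bs (J : Set (Fin (n + 1) → ℕ)) (p j g : ℕ) : Submodule ℂ (Fn n) where
  carrier := {F | (∀ T u, F T u ≠ 0 → (T.card = p ∧ dg u + g + p = j) ∧ 0 < g ∧ sn u g ∈ J) ∧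
    (∀ U u, sn u (g - 1) ∉ J → cD F U u = 0)}
  add_mem' := by
    rintro f h ⟨hf1, hf2⟩ ⟨hh1, hh2⟩
    refine ⟨?_, ?_⟩
    · intro T m hne
      rw [Pi.add_apply, Pi.add_apply] at hne
      by_cases h1 : f T m = 0
      · exact hh1 T m (by rwa [h1, zero_add] at hne)
      · exact hf1 T m h1
    · intro U u hu
      rw [map_add, Pi.add_apply, Pi.add_apply, hf2 U u hu, hh2 U u hu, add_zero]
  zero_mem' := by
    refine ⟨fun T m h => absurd rfl h, ?_⟩
    intro U u _
    rw [map_zero]; rfl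
  smul_mem' := by
    rintro a f ⟨hf1, hf2⟩
    refine ⟨?_, ?_⟩
    · intro T m hne
      rw [Pi.smul_apply, Pi.smul_apply, smul_eq_mul] at hne
      exact hf1 T m (right_ne_zero_of_mul hne)
    · intro U u hu
      rw [map_smul, Pi.smul_apply, Pi.smul_apply, hf2 U u hu, smul_zero]

theorem As_le (J : Set (Fin (n + 1) → ℕ)) (p j g : ℕ) : As J p j g ≤ cch n (p + 1) (j - g) := by
  intro f hf T m h
  have := hf.1 T m h
  omega

theorem Bs_le (J : Set (Fin (n + 1) → ℕ)) (p j g : ℕ) : Bs J p j g ≤ cch n p (j - g) := by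
  intro f hf T m h
  have := (hf.1 T m h).1
  omega

instance (J : Set (Fin (n + 1) → ℕ)) (p j g : ℕ) : FiniteDimensional ℂ (As J p j g) :=
  Submodule.finiteDimensional_of_le (As_le J p j g)

instance (J : Set (Fin (n + 1) → ℕ)) (p j g : ℕ) : FiniteDimensional ℂ (Bs J p j g) :=
  Submodule.finiteDimensional_of_le (Bs_le J p j g)

theorem s0_mem_As {J : Set (Fin (n + 1) → ℕ)} {p j : ℕ} {f : Fn (n + 1)}
    (hf : f ∈ czs J (p + 1) j) (g : ℕ) : s0 g f ∈ As J p j g := by
  refine ⟨?_, ?_⟩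
  · intro T u h
    have := hf.1 _ _ h
    rw [card_emb, dg_sn] at this
    exact this
  · rintro rfl U u hu
    have h1 := s0_cD 0 f U u
    rw [if_pos rfl, add_zero] at h1
    rw [← h1]
    exact hf.2 _ _ hu

/-- the twisted second slice -/
noncomputable def hh (g : ℕ) : Fn (n + 1) →ₗ[ℂ] Fn n :=
  if g = 0 then 0 else s1 (g - 1) + tw ∘ₗ cD ∘ₗ s0 g

theorem hh_zero : hh 0 = (0 : Fn (n + 1) →ₗ[ℂ] Fn n) := by unfold hh; rw [if_pos rfl]

theorem hh_succ (g : ℕ) (f : Fn (n + 1)) : hh (g + 1) f = s1 g f + tw (cD (s0 (g + 1) f)) := by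
  unfold hh
  rw [if_neg (Nat.succ_ne_zero g)]
  rfl

theorem cD_hh_succ {J : Set (Fin (n + 1) → ℕ)} {p j : ℕ} {f : Fn (n + 1)}
    (hf : f ∈ czs J (p + 1) j) (g : ℕ) : cD (hh (g + 1) f) = cD (s1 g f) := by
  rw [hh_succ, map_add, cD_tw, cD_cD (As_le J p j _ (s0_mem_As hf (g + 1))), map_zero, neg_zero,
    add_zero]

theorem hh_mem_Bs {J : Set (Fin (n + 1) → ℕ)} {p j : ℕ} {f : Fn (n + 1)}
    (hf : f ∈ czs J (p + 1) j) (g : ℕ) : hh g f ∈ Bs J p j g := by
  rcases Nat.eq_zero_or_pos g with rfl | hg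
  · rw [hh_zero]; exact Submodule.zero_mem _
  obtain ⟨g, rfl⟩ : ∃ g', g = g' + 1 := ⟨g - 1, by omega⟩
  refine ⟨?_, ?_⟩
  · intro T u h
    rw [hh_succ, Pi.add_apply, Pi.add_apply, tw_apply] at h
    refine ⟨?_, Nat.succ_pos g, ?_⟩
    · by_cases h1 : s1 g f T u = 0
      · rw [h1, zero_add] at h
        obtain ⟨t, ht1, ht2, ht3⟩ := cD_ne_zero (right_ne_zero_of_mul h)
        have h2 := (s0_mem_As hf (g + 1)).1 _ _ ht3
        rw [Finset.card_insert_of_notMem ht1] at h2
        have h3 := dg_dec u t ht2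
        omega
      · have h2 := hf.1 _ _ h1
        rw [card_embL, dg_sn] at h2
        omega
    · by_contra hJ
      apply h
      have h1 := s0_cD (g + 1) f T u
      rw [if_neg (Nat.succ_ne_zero g), hf.2 _ _ hJ, Nat.add_sub_cancel] at h1
      have h2 : cD (s0 (g + 1) f) T u = - ((-1) ^ T.card * s1 g f T u) :=
        eq_neg_of_add_eq_zero_left h1.symm
      rw [h2, mul_neg, ← mul_assoc, ← mul_pow]
      norm_num
  · intro U u hu
    rw [Nat.add_sub_cancel] at hu
    rw [cD_hh_succ hf, ← s1_cD]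
    exact hf.2 _ _ hu

/-- assemble a chain from its slices -/
def mk (F0 F1 : ℕ → Fn n) : Fn (n + 1) := fun T m =>
  if Fin.last n ∈ T then F1 (m (Fin.last n)) (res T) (Fin.init m)
  else F0 (m (Fin.last n)) (res T) (Fin.init m)

theorem init_sn (u : Fin n → ℕ) (g : ℕ) : Fin.init (sn u g) = u := by
  unfold sn; rw [Fin.init_snoc]

theorem s0_mk (F0 F1 : ℕ → Fn n) (g : ℕ) : s0 g (mk F0 F1) = F0 g := by
  funext T u
  rw [s0_apply]
  unfold mk
  rw [if_neg (last_notMem_emb T), sn_last, res_emb, init_sn]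

theorem s1_mk (F0 F1 : ℕ → Fn n) (g : ℕ) : s1 g (mk F0 F1) = F1 g := by
  funext T u
  rw [s1_apply]
  unfold mk
  rw [if_pos (last_mem_embL T), sn_last, res_embL, init_sn]

theorem eq_of_slices {f f' : Fn (n + 1)} (h0 : ∀ g, s0 g f = s0 g f') (h1 : ∀ g, s1 g f = s1 g f') :
    f = f' := by
  funext T m
  obtain ⟨u, g, rfl⟩ := exists_sn m
  by_cases h : Fin.last n ∈ T
  · rw [eq_embL h]
    exact congrFun (congrFun (h1 g) (res T)) u
  · rw [eq_emb h]
    exact congrFun (congrFun (h0 g) (res T)) u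

/-- the slicing map -/
noncomputable def slicing (J : Set (Fin (n + 1) → ℕ)) (p j N : ℕ) :
    czs J (p + 1) j →ₗ[ℂ] ((g : Fin N) → As J p j g × Bs J p j g) where
  toFun f g := (⟨s0 g f.1, s0_mem_As f.2 g⟩, ⟨hh g f.1, hh_mem_Bs f.2 g⟩)
  map_add' f f' := by
    funext g
    apply Prod.ext
    · apply Subtype.ext; exact map_add (s0 (g : ℕ)) f.1 f'.1
    · apply Subtype.ext; exact map_add (hh (g : ℕ)) f.1 f'.1
  map_smul' a f := by
    funext g
    apply Prod.ext
    · apply Subtype.ext; exact map_smul (s0 (g : ℕ)) a f.1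
    · apply Subtype.ext; exact map_smul (hh (g : ℕ)) a f.1

theorem slicing_injective (J : Set (Fin (n + 1) → ℕ)) (p j N : ℕ) (hN : j < N) :
    Function.Injective (slicing J p j N) := by
  rw [injective_iff_map_eq_zero]
  intro f hf
  apply Subtype.ext
  have h0 : ∀ g, s0 g f.1 = 0 := by
    intro g
    by_cases hg : g < N
    · exact congrArg (fun x => x.1.1) (congrFun hf ⟨g, hg⟩)
    · funext T u
      by_contra hne
      have := (s0_mem_As f.2 g).1 T u hne
      omega
  refine eq_of_slices (fun g => ?_) (fun g => ?_)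
  · rw [h0]; exact (map_zero (s0 g)).symm
  · have h1 : s1 g f.1 = 0 := by
      by_cases hg : g + 1 < N
      · have h2 : hh (g + 1) f.1 = 0 := congrArg (fun x => x.2.1) (congrFun hf ⟨g + 1, hg⟩)
        rw [hh_succ, h0, map_zero, map_zero, add_zero] at h2
        exact h2
      · funext T u
        by_contra hne
        have h2 := f.2.1 _ _ hne
        rw [card_embL, dg_sn] at h2
        omega
    rw [h1]; exact (map_zero (s1 g)).symm

theorem slicing_surjective (J : Set (Fin (n + 1) → ℕ)) (p j N : ℕ) :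
    Function.Surjective (slicing J p j N) := by
  intro F
  let F0 : ℕ → Fn n := fun g => if h : g < N then (F ⟨g, h⟩).1.1 else 0
  let H : ℕ → Fn n := fun g => if h : g < N then (F ⟨g, h⟩).2.1 else 0
  have hF0 : ∀ g, F0 g ∈ As J p j g := by
    intro g
    by_cases h : g < N
    · simp only [F0, dif_pos h]; exact (F ⟨g, h⟩).1.2
    · simp only [F0, dif_neg h]; exact Submodule.zero_mem _
  have hH : ∀ g, H g ∈ Bs J p j g := by
    intro g
    by_cases h : g < N
    · simp only [H, dif_pos h]; exact (F ⟨g, h⟩).2.2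
    · simp only [H, dif_neg h]; exact Submodule.zero_mem _
  let F1 : ℕ → Fn n := fun g => H (g + 1) - tw (cD (F0 (g + 1)))
  have hF1D : ∀ g, cD (F1 g) = cD (H (g + 1)) := by
    intro g
    simp only [F1]
    rw [map_sub, cD_tw, cD_cD (As_le J p j _ (hF0 (g + 1))), map_zero, neg_zero, sub_zero]
  have hmem : mk F0 F1 ∈ czs J (p + 1) j := by
    rw [mem_czs]
    constructor
    · intro T m hne
      obtain ⟨u, g, rfl⟩ := exists_sn m
      by_cases h : Fin.last n ∈ T
      · rw [eq_embL h] at hne ⊢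
        have h1 : F1 g (res T) u ≠ 0 := by rw [← s1_mk F0 F1]; exact hne
        rw [card_embL, dg_sn]
        by_cases h2 : H (g + 1) (res T) u = 0
        · simp only [F1, Pi.sub_apply, h2, zero_sub, ne_eq, neg_eq_zero] at h1
          rw [tw_apply] at h1
          obtain ⟨t, ht1, ht2, ht3⟩ := cD_ne_zero (right_ne_zero_of_mul h1)
          have h2 := (hF0 (g + 1)).1 _ _ ht3
          rw [Finset.card_insert_of_notMem ht1] at h2
          have h3 := dg_dec u t ht2
          omega
        · have h3 := ((hH (g + 1)).1 _ _ h2).1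
          omega
      · rw [eq_emb h] at hne ⊢
        have h1 : F0 g (res T) u ≠ 0 := by rw [← s0_mk F0 F1]; exact hne
        rw [card_emb, dg_sn]
        exact (hF0 g).1 _ _ h1
    · intro U m hm
      obtain ⟨u, g, rfl⟩ := exists_sn m
      by_cases h : Fin.last n ∈ U
      · rw [eq_embL h, s1_cD, s1_mk, hF1D]
        exact (hH (g + 1)).2 _ _ (by rwa [Nat.add_sub_cancel])
      · rw [eq_emb h, s0_cD, s0_mk]
        rcases Nat.eq_zero_or_pos g with rfl | hg
        · rw [if_pos rfl, add_zero]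
          exact (hF0 0).2 rfl _ _ hm
        · obtain ⟨g, rfl⟩ : ∃ g', g = g' + 1 := ⟨g - 1, by omega⟩
          rw [if_neg (Nat.succ_ne_zero g), Nat.add_sub_cancel, s1_mk]
          have h1 : H (g + 1) (res U) u = 0 := by
            by_contra hne
            exact hm ((hH (g + 1)).1 _ _ hne).2.2
          simp only [F1, Pi.sub_apply, h1, zero_sub]
          rw [tw_apply, mul_neg, ← mul_assoc, ← mul_pow]
          norm_num
  refine ⟨⟨mk F0 F1, hmem⟩, ?_⟩
  funext g
  apply Prod.ext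
  · apply Subtype.ext
    change s0 (g : ℕ) (mk F0 F1) = _
    rw [s0_mk]
    simp only [F0, dif_pos g.2]
  · apply Subtype.ext
    change hh (g : ℕ) (mk F0 F1) = _
    have hgen : ∀ g : ℕ, hh g (mk F0 F1) = H g := by
      intro g
      rcases Nat.eq_zero_or_pos g with rfl | hg
      · rw [hh_zero]
        funext T u
        symm
        by_contra hne
        exact absurd ((hH 0).1 T u hne).2.1 (lt_irrefl _)
      · obtain ⟨g', rfl⟩ : ∃ g', g = g' + 1 := ⟨g - 1, by omega⟩
        rw [hh_succ, s1_mk, s0_mk]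
        simp only [F1]
        rw [sub_add_cancel]
    rw [hgen]
    simp only [H, dif_pos g.2]

theorem cz_slices (J : Set (Fin (n + 1) → ℕ)) (p j N : ℕ) (hN : j < N) :
    cz J (p + 1) j = ∑ g ∈ Finset.range N,
      (finrank ℂ (As J p j g) + finrank ℂ (Bs J p j g)) := by
  unfold cz
  rw [(LinearEquiv.ofBijective (slicing J p j N) ⟨slicing_injective J p j N hN,
    slicing_surjective J p j N⟩).finrank_eq, Module.finrank_pi_fintype,
    ← Fin.sum_univ_eq_sum_range (fun g => finrank ℂ (As J p j g) + finrank ℂ (Bs J p j g))]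
  refine Finset.sum_congr rfl fun g _ => ?_
  rw [Module.finrank_prod]

theorem As_zero (J : Set (Fin (n + 1) → ℕ)) (p j : ℕ) :
    finrank ℂ (As J p j 0) = cz (sl J 0) (p + 1) j := by
  unfold cz
  have : As J p j 0 = czs (sl J 0) (p + 1) j := by
    ext f
    constructor
    · rintro ⟨h1, h2⟩
      exact ⟨h1, fun U m hm => h2 rfl U m hm⟩
    · rintro ⟨h1, h2⟩
      exact ⟨h1, fun _ U m hm => h2 U m hm⟩
  rw [this]

theorem As_pos (J L : Set (Fin (n + 1) → ℕ)) (p j g : ℕ) (hg : 0 < g) :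
    finrank ℂ (As J p j g) = finrank ℂ (As L p j g) := by
  have : As J p j g = As L p j g := by
    ext f
    constructor
    · rintro ⟨h1, _⟩
      exact ⟨h1, fun h => absurd h hg.ne'⟩
    · rintro ⟨h1, _⟩
      exact ⟨h1, fun h => absurd h hg.ne'⟩
  rw [this]

/-- index set for the middle slices -/
noncomputable def XB (K : Set (Fin n → ℕ)) (p d : ℕ) : Finset (Finset (Fin n) × (Fin n → ℕ)) :=
  Finset.powersetCard p Finset.univ ×ˢ cF K d

theorem mem_XB {K : Set (Fin n → ℕ)} {p d : ℕ} {T : Finset (Fin n)} {u : Fin n → ℕ} :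
    (T, u) ∈ XB K p d ↔ T.card = p ∧ dg u = d ∧ u ∈ K := by
  unfold XB
  rw [Finset.mem_product, Finset.mem_powersetCard, mem_cF]
  simp

theorem card_XB (K : Set (Fin n → ℕ)) (p d : ℕ) : (XB K p d).card = n.choose p * cH K d := by
  unfold XB
  rw [Finset.card_product, Finset.card_powersetCard, Finset.card_univ, Fintype.card_fin]
  rfl

theorem Bs_zero (J : Set (Fin (n + 1) → ℕ)) (p j : ℕ) : finrank ℂ (Bs J p j 0) = 0 := by
  have : Bs J p j 0 = ⊥ := by
    rw [Submodule.eq_bot_iff]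
    rintro f ⟨h1, _⟩
    funext T u
    by_contra hne
    exact absurd (h1 T u hne).2.1 (lt_irrefl _)
  rw [this, finrank_bot]

theorem Bs_le_count (J : Set (Fin (n + 1) → ℕ)) (p j g : ℕ) (hpj : p ≤ j) :
    finrank ℂ (Bs J p j g) ≤
      n.choose p * cH (J ∩ {m | m (Fin.last n) = g}) (j - p) := by
  rcases lt_or_ge (j - p) g with h | h
  · have : Bs J p j g = ⊥ := by
      rw [Submodule.eq_bot_iff]
      rintro f ⟨h1, _⟩
      funext T u
      by_contra hne
      have := (h1 T u hne).1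
      omega
    rw [this, finrank_bot]
    exact Nat.zero_le _
  · obtain ⟨e, he⟩ : ∃ e, j - p = e + g := ⟨j - p - g, by omega⟩
    rw [he, cH_slice, ← card_XB, ← finrank_SX]
    apply Submodule.finrank_mono
    rintro f ⟨h1, _⟩ T u hne
    obtain ⟨h2, _, h3⟩ := h1 T u hne
    rw [mem_XB]
    exact ⟨h2.1, by omega, h3⟩

theorem Bs_eq_count {J : Set (Fin (n + 1) → ℕ)} {A : ℕ} (hst : Stb A J) (p j g : ℕ) (hpj : p ≤ j)
    (hg : 0 < g) (hgA : g < A) :
    finrank ℂ (Bs J p j g) =
      n.choose p * cH (J ∩ {m | m (Fin.last n) = g}) (j - p) := by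
  apply le_antisymm (Bs_le_count J p j g hpj)
  rcases lt_or_ge (j - p) g with h | h
  · rw [cH_slice_zero _ h, mul_zero]
    exact Nat.zero_le _
  · obtain ⟨e, he⟩ : ∃ e, j - p = e + g := ⟨j - p - g, by omega⟩
    rw [he, cH_slice, ← card_XB, ← finrank_SX]
    apply Submodule.finrank_mono
    intro f hf
    refine ⟨?_, ?_⟩
    · intro T u hne
      have := mem_XB.1 (hf T u hne)
      exact ⟨⟨this.1, by omega⟩, hg, this.2.2⟩
    · intro U u hu
      by_contra hne
      obtain ⟨t, ht1, ht2, ht3⟩ := cD_ne_zero hne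
      have h1 := (mem_XB.1 (hf _ _ ht3)).2.2
      obtain ⟨g', rfl⟩ : ∃ g', g = g' + 1 := ⟨g - 1, by omega⟩
      have h2 := hst g' _ t h1 hgA
      rw [inc_dec u t ht2] at h2
      rw [Nat.add_sub_cancel] at hu
      exact hu h2

theorem Bs_top {a : Fin (n + 1) → ℕ} {J : Set (Fin (n + 1) → ℕ)} (hJ : PP a J) (p j : ℕ)
    (hA : 0 < a (Fin.last n)) (hj : a (Fin.last n) ≤ j) :
    finrank ℂ (Bs J p j (a (Fin.last n))) = cz (sl J (a (Fin.last n) - 1)) p (j - a (Fin.last n)) := by
  unfold cz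
  have : Bs J p j (a (Fin.last n)) = czs (sl J (a (Fin.last n) - 1)) p (j - a (Fin.last n)) := by
    ext f
    constructor
    · rintro ⟨h1, h2⟩
      refine ⟨fun T u hne => ?_, fun U m hm => h2 U m hm⟩
      have := (h1 T u hne).1
      omega
    · rintro ⟨h1, h2⟩
      refine ⟨fun T u hne => ?_, fun U m hm => h2 U m hm⟩
      have := h1 T u hne
      exact ⟨by omega, hA, hJ.sl_eq le_rfl u⟩
  rw [this]

theorem Bs_big (J : Set (Fin (n + 1) → ℕ)) (p j g : ℕ) (hg : j < g) :
    finrank ℂ (Bs J p j g) = 0 := by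
  have : Bs J p j g = ⊥ := by
    rw [Submodule.eq_bot_iff]
    rintro f ⟨h1, _⟩
    funext T u
    by_contra hne
    have := (h1 T u hne).1
    omega
  rw [this, finrank_bot]

theorem Bs_above {a : Fin (n + 1) → ℕ} {J L : Set (Fin (n + 1) → ℕ)} (hJ : PP a J) (hL : PP a L)
    (p j g : ℕ) (hg : a (Fin.last n) < g) :
    finrank ℂ (Bs J p j g) = finrank ℂ (Bs L p j g) := by
  have : ∀ {J' L' : Set (Fin (n + 1) → ℕ)}, PP a L' → Bs J' p j g ≤ Bs L' p j g := by
    intro J' L' hL' f hf
    refine ⟨fun T u hne => ⟨(hf.1 T u hne).1, by omega, hL'.sl_eq hg.le u⟩, fun U u hu => ?_⟩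
    exact absurd (hL'.sl_eq (show a (Fin.last n) ≤ g - 1 by omega) u) hu
  rw [le_antisymm (this hL) (this hJ)]

theorem cz_zero_homological (J : Set (Fin n → ℕ)) (j : ℕ) : czs J 0 j = cch n 0 j := by
  apply le_antisymm inf_le_left
  intro f hf
  refine ⟨hf, fun U m _ => ?_⟩
  by_contra hne
  obtain ⟨t, ht1, ht2, ht3⟩ := cD_ne_zero hne
  have := (hf _ _ ht3).1
  rw [Finset.card_insert_of_notMem ht1] at this
  exact absurd this (Nat.succ_ne_zero _)

/-- comparison of `cz` for nested sets -/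
theorem cz_add_le {K M : Set (Fin n → ℕ)} (p j : ℕ)
    (hMK : ∀ u, dg u = j - p → u ∈ M → u ∈ K) :
    cz K (p + 1) j + n.choose p * cH M (j - p) ≤
      cz M (p + 1) j + n.choose p * cH K (j - p) := by
  classical
  set X := XB (K ∩ Mᶜ) p (j - p) with hX
  let R : Fn n →ₗ[ℂ] (X → ℂ) :=
    { toFun := fun f x => cD f x.1.1 x.1.2
      map_add' := fun f g => by funext x; rw [map_add]; rfl
      map_smul' := fun c f => by funext x; rw [map_smul]; rfl }
  have h1 := finrank_map_add_finrank_inf_ker R (czs K (p + 1) j)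
  have h2 : finrank ℂ ((czs K (p + 1) j).map R) ≤ X.card := by
    refine (Submodule.finrank_le _).trans ?_
    rw [Module.finrank_fintype_fun_eq_card, Fintype.card_coe]
  have h3 : finrank ℂ ↥(czs K (p + 1) j ⊓ LinearMap.ker R) ≤ cz M (p + 1) j := by
    apply Submodule.finrank_mono
    rintro f ⟨hf1, hf2⟩
    refine ⟨hf1.1, fun U m hm => ?_⟩
    by_contra hne
    have hK : m ∈ K := by
      by_contra hK
      exact hne (hf1.2 U m hK)
    obtain ⟨t, ht1, ht2, ht3⟩ := cD_ne_zero hne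
    have h4 := hf1.1 _ _ ht3
    rw [Finset.card_insert_of_notMem ht1] at h4
    have h5 := dg_dec m t ht2
    have h6 : (U, m) ∈ X := by
      rw [hX, mem_XB]
      exact ⟨by omega, by omega, hK, hm⟩
    exact hne (congrFun hf2 ⟨(U, m), h6⟩)
  have h4 : cH (K ∩ Mᶜ) (j - p) + cH M (j - p) = cH K (j - p) := by
    rw [← cH_add K M, add_comm]
    congr 1
    apply cH_congr
    intro m hm
    exact ⟨fun h => ⟨hMK m hm h, h⟩, fun h => h.2⟩
  have h5 : X.card = n.choose p * cH (K ∩ Mᶜ) (j - p) := card_XB _ _ _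
  have h6 : cz K (p + 1) j ≤ n.choose p * cH (K ∩ Mᶜ) (j - p) + cz M (p + 1) j := by
    have h7 : cz K (p + 1) j = finrank ℂ (czs K (p + 1) j) := rfl
    omega
  rw [← h4, mul_add]
  omega

theorem arithM {N A : ℕ} {x y γx γy : ℕ → ℕ} (h1 : ∀ g, g < A → x g + γy g ≤ y g + γx g)
    (h2 : ∀ g, A ≤ g → x g ≤ y g)
    (h3 : ∑ g ∈ Finset.range A, γx g = ∑ g ∈ Finset.range A, γy g) (hN : A ≤ N) :
    ∑ g ∈ Finset.range N, x g ≤ ∑ g ∈ Finset.range N, y g := by
  have h4 : ∑ g ∈ Finset.range A, (x g + γy g) ≤ ∑ g ∈ Finset.range A, (y g + γx g) :=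
    Finset.sum_le_sum fun g hg => h1 g (Finset.mem_range.1 hg)
  rw [Finset.sum_add_distrib, Finset.sum_add_distrib, h3] at h4
  obtain ⟨k, rfl⟩ : ∃ k, N = A + k := ⟨N - A, by omega⟩
  rw [Finset.sum_range_add, Finset.sum_range_add]
  have h5 : ∑ g ∈ Finset.range k, x (A + g) ≤ ∑ g ∈ Finset.range k, y (A + g) :=
    Finset.sum_le_sum fun g _ => h2 _ (Nat.le_add_right _ _)
  omega

/-- The comparison of `cz` in `n + 1` variables. -/
theorem cz_compare {a : Fin (n + 1) → ℕ} (hA : 0 < a (Fin.last n)) {J L : Set (Fin (n + 1) → ℕ)}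
    (hJP : PP a J) (hLP : PP a L) (hLs : Stb (a (Fin.last n)) L) (hc : ∀ d, cH J d = cH L d)
    (p j : ℕ) (hpj : p ≤ j)
    (h0 : cz (sl J 0) (p + 1) j + n.choose p * cH (sl L 0) (j - p) ≤
      cz (sl L 0) (p + 1) j + n.choose p * cH (sl J 0) (j - p))
    (h1 : cz (sl J (a (Fin.last n) - 1)) p (j - a (Fin.last n)) ≤
      cz (sl L (a (Fin.last n) - 1)) p (j - a (Fin.last n))) :
    cz J (p + 1) j ≤ cz L (p + 1) j := by
  rw [cz_slices J p j (a (Fin.last n) + (j + 1)) (by omega),
    cz_slices L p j (a (Fin.last n) + (j + 1)) (by omega)]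
  refine arithM (A := a (Fin.last n))
    (γx := fun g => n.choose p * cH (J ∩ {m | m (Fin.last n) = g}) (j - p))
    (γy := fun g => n.choose p * cH (L ∩ {m | m (Fin.last n) = g}) (j - p)) ?_ ?_ ?_ (by omega)
  · intro g hg
    rcases Nat.eq_zero_or_pos g with rfl | hg0
    · rw [As_zero, As_zero, Bs_zero, Bs_zero, add_zero, add_zero]
      have e1 := cH_slice J (j - p) 0
      have e2 := cH_slice L (j - p) 0
      rw [add_zero] at e1 e2
      simp only [e1, e2]
      exact h0
    · rw [As_pos J L p j g hg0]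
      have e1 := Bs_le_count J p j g hpj
      have e2 := Bs_eq_count hLs p j g hpj hg0 hg
      rw [← e2]
      omega
  · intro g hg
    rcases lt_or_eq_of_le hg with hg | hg
    · rw [As_pos J L p j g (by omega), Bs_above hJP hLP p j g hg]
    · rw [As_pos J L p j g (by omega)]
      by_cases hj : a (Fin.last n) ≤ j
      · rw [← hg, Bs_top hJP p j hA hj, Bs_top hLP p j hA hj]
        omega
      · rw [Bs_big J p j g (by omega)]
        omega
  · have e1 := cH_split J (j - p) (a (Fin.last n))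
    have e2 := cH_split L (j - p) (a (Fin.last n))
    rw [hc, rest_congr hJP hLP] at e1
    rw [e1] at e2
    rw [← Finset.mul_sum, ← Finset.mul_sum, Nat.add_right_cancel e2]

end Crest.Agent.R181.Mon
end

-- ▼ part R181/MonMain

/-!
# Lex-plus-powers theorem for ideals containing pure powers

Main results: `lpp_of_monomial` (reduction of the statement to a monomial ideal containing the
pure powers, with the same Hilbert function and bigger Betti numbers) and `lpp_of_purePowers`.
-/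

namespace Crest.Agent.R181.Mon

open MvPolynomial Module Finset Crest.AlgebraR.LPP

theorem IsL.sl {n : ℕ} {a : Fin (n + 1) → ℕ} {L : Set (Fin (n + 1) → ℕ)} (hL : IsL a L) {i : ℕ}
    (hi : i < a (Fin.last n)) : IsL (fun k : Fin n => a k.castSucc) (sl L i) := by
  intro u u' hu hlt hd hlex
  exact hL (sn u i) (sn u' i) hu (sn_forall_lt.2 ⟨hlt, hi⟩) (by rw [dg_sn, dg_sn, hd])
    (lex_sn_of_lt hlex)

theorem stable_reduction {n : ℕ} (a : Fin (n + 1) → ℕ) (ha : ∀ i, a i ≤ a (Fin.last n))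
    (hpos : 0 < a (Fin.last n)) (J : Set (Fin (n + 1) → ℕ)) (hJ : UpC J) (hP : PP a J) :
    ∃ J' : Set (Fin (n + 1) → ℕ), UpC J' ∧ PP a J' ∧ Stb (a (Fin.last n)) J' ∧
      (∀ d, cH J' d = cH J d) ∧ ∀ p j, cz J p j ≤ cz J' p j := by
  set J1 : Set (Fin (n + 1) →₀ ℕ) := {m | (m : Fin (n + 1) → ℕ) ∈ J} with hJ1
  have hback : {m | toF m ∈ J1} = J := by
    ext m
    rfl
  have hU1 : UpClosed J1 := by
    intro m hm t
    have h1 := hJ _ hm t
    have h2 : ((m + Finsupp.single t 1 : Fin (n + 1) →₀ ℕ) : Fin (n + 1) → ℕ) = inc m t := by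
      have := toF_inc (m : Fin (n + 1) → ℕ) t
      rw [toF_coe] at this
      rw [← this]; rfl
    change ((m + Finsupp.single t 1 : Fin (n + 1) →₀ ℕ) : Fin (n + 1) → ℕ) ∈ J
    rw [h2]; exact h1
  have hP1 : HasP a J1 := by
    intro i
    exact hP _ ⟨i, by rw [Finsupp.single_eq_same]⟩
  obtain ⟨J2, hU2, hP2, hc2, hz2, hs2⟩ := exists_stable a ha hpos J1 hU1 hP1
  refine ⟨{m | toF m ∈ J2}, ?_, ?_, ?_, ?_, ?_⟩
  · intro m hm t
    change toF (inc m t) ∈ J2
    rw [toF_inc]
    exact hU2 _ hm t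
  · rintro m ⟨i, hi⟩
    exact hU2.mem_of_exists hP2 ⟨i, hi⟩
  · intro i u t hu hi
    change toF (sn (inc u t) i) ∈ J2
    rw [← inc_sn_castSucc, toF_inc]
    refine hs2 (toF (sn u i)) t.castSucc (ne_of_lt (Fin.castSucc_lt_last t)) ?_ ?_
    · rw [← toF_inc, inc_sn_last]
      exact hu
    · rw [toF_apply, sn_last]; exact hi
  · intro d
    rw [← hf_eq_cH, hc2, hf_eq_cH, hback]
  · intro p j
    have := hz2 p j
    rwa [zd_eq_cz, zd_eq_cz, hback] at this

theorem cz_eq_zero {n : ℕ} (K : Set (Fin n → ℕ)) {p j : ℕ} (h : j < p) : cz K p j = 0 := by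
  unfold cz
  have : czs K p j = ⊥ := by
    rw [Submodule.eq_bot_iff]
    intro f hf
    funext T m
    by_contra hne
    have := hf.1 T m hne
    omega
  rw [this, finrank_bot]

/-- The lex-plus-powers theorem for monomial sets. -/
theorem lpp_sets : ∀ (n : ℕ) (a : Fin n → ℕ), Monotone a → (∀ i, 0 < a i) →
    ∀ K : Set (Fin n → ℕ), UpC K → PP a K →
    ∃ L : Set (Fin n → ℕ), UpC L ∧ PP a L ∧ IsL a L ∧ (∀ d, cH L d = cH K d) ∧
      ∀ p j, cz K p j ≤ cz L p j := by
  intro n
  induction n with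
  | zero =>
    intro a _ _ K hU hP
    refine ⟨K, hU, hP, ?_, fun _ => rfl, fun _ _ => le_rfl⟩
    intro m m' hm _ _ _
    rwa [Subsingleton.elim m' m]
  | succ n ih =>
    intro a ha hpos K hU hP
    have ha' : Monotone (fun k : Fin n => a k.castSucc) := fun i j hij =>
      ha (Fin.castSucc_le_castSucc_iff.2 hij)
    obtain ⟨J, hJU, hJP, hJs, hJc, hJz⟩ := stable_reduction a (fun i => ha (Fin.le_last i))
      (hpos _) K hU hP
    obtain ⟨L, hLU, hLP, hLL, hLc, hL0, hL1⟩ := cl_step a (hpos _)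
      (fun K hK hPK => by
        obtain ⟨L, h1, h2, h3, h4, _⟩ := ih _ ha' (fun i => hpos _) K hK hPK
        exact ⟨L, h1, h2, h3, h4⟩) J hJU hJP hJs
    refine ⟨L, hLU, hLP, hLL, fun d => by rw [hLc, hJc], fun p j => (hJz p j).trans ?_⟩
    rcases Nat.eq_zero_or_pos p with rfl | hp
    · unfold cz
      rw [cz_zero_homological, cz_zero_homological]
    obtain ⟨p, rfl⟩ : ∃ p', p = p' + 1 := ⟨p - 1, by omega⟩
    rcases lt_or_ge j p with hpj | hpj
    · rw [cz_eq_zero J (by omega)]; exact Nat.zero_le _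
    have hLs : Stb (a (Fin.last n)) L := hLL.stb hLP
    refine cz_compare (hpos _) hJP hLP hLs (fun d => (hLc d).symm) p j hpj ?_ ?_
    · obtain ⟨K0, h1, h2, h3, h4, h5⟩ := ih _ ha' (fun i => hpos _) (sl J 0) (hJU.sl 0) (hJP.sl 0)
      have hsub : ∀ d u, dg u = d → u ∈ sl L 0 → u ∈ K0 := fun d =>
        nested (hLP.sl 0) h2 ((hLL.sl (hpos _)).at d) (h3.at d) (by rw [h4]; exact hL0 d)
      have h6 := cz_add_le (K := K0) (M := sl L 0) p j (fun u hu => hsub _ u hu)
      have h7 := h5 (p + 1) j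
      rw [h4] at h6
      omega
    · obtain ⟨K1, h1, h2, h3, h4, h5⟩ := ih _ ha' (fun i => hpos _)
        (sl J (a (Fin.last n) - 1)) (hJU.sl _) (hJP.sl _)
      have hlt : a (Fin.last n) - 1 < a (Fin.last n) := by have := hpos (Fin.last n); omega
      have hsub : ∀ u, u ∈ K1 → u ∈ sl L (a (Fin.last n) - 1) := fun u =>
        nested h2 (hLP.sl _) (h3.at (dg u)) ((hLL.sl hlt).at (dg u))
          (by rw [h4]; exact hL1 _) u rfl
      exact (h5 _ _).trans (cz_mono hsub _ _)

variable {n : ℕ}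

/-- the monomial ideal of an upward closed set -/
def monIdeal (J : Set (Fin n →₀ ℕ)) (hJ : UpClosed J) : Ideal (MvPolynomial (Fin n) ℂ) where
  carrier := {f | f ∈ monId J}
  add_mem' := fun h1 h2 => (monId J).add_mem h1 h2
  zero_mem' := (monId J).zero_mem
  smul_mem' := by
    intro c f hf
    change c * f ∈ monId J
    induction c using MvPolynomial.induction_on generalizing f with
    | C r =>
      rw [← smul_eq_C_mul]
      exact (monId J).smul_mem r hf
    | add p q hp hq =>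
      rw [add_mul]
      exact (monId J).add_mem (hp hf) (hq hf)
    | mul_X p i hp =>
      rw [mul_assoc]
      exact hp (X_mul_mem_monId hJ i hf)

theorem restrictScalars_monIdeal (J : Set (Fin n →₀ ℕ)) (hJ : UpClosed J) :
    Submodule.restrictScalars ℂ (monIdeal J hJ) = monId J := by
  ext f; rfl

theorem degreePiece_eq (I : Ideal (MvPolynomial (Fin n) ℂ)) (d : ℕ) :
    degreePiece I d = pc (Submodule.restrictScalars ℂ I) d := rfl

theorem monIdeal_homogeneous (J : Set (Fin n →₀ ℕ)) (hJ : UpClosed J) :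
    ∀ g ∈ monIdeal J hJ, ∀ d : ℕ, homogeneousComponent d g ∈ monIdeal J hJ := by
  intro g hg d m hm
  rw [coeff_homogeneousComponent] at hm
  split_ifs at hm
  · exact hg m hm
  · exact absurd rfl hm

theorem monomial_mem_purePowers {a : Fin n → ℕ} {m : Fin n →₀ ℕ} (h : ∃ i, a i ≤ m i) (c : ℂ) :
    monomial m c ∈ purePowers a := by
  obtain ⟨i, hi⟩ := h
  have h1 : (monomial m c : MvPolynomial (Fin n) ℂ) =
      monomial (m - Finsupp.single i (a i)) c * X i ^ a i := by
    rw [X_pow_eq_monomial, monomial_mul, mul_one, tsub_add_cancel_of_le]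
    exact Finsupp.single_le_iff.2 hi
  rw [h1]
  unfold purePowers
  exact Ideal.mul_mem_left _ _ (Ideal.subset_span ⟨i, rfl⟩)

theorem lex_toF {m m' : Fin n →₀ ℕ} :
    toLex (m : Fin n → ℕ) < toLex (m' : Fin n → ℕ) ↔ toLex m < toLex m' := Iff.rfl

/-- the pieces of a lex-plus-powers set -/
theorem lppPiece_eq (a : Fin n → ℕ) (L : Set (Fin n → ℕ)) (hP : PP a L) (hL : IsL a L)
    (hU : UpClosed {m : Fin n →₀ ℕ | (m : Fin n → ℕ) ∈ L}) (d : ℕ) :
    degreePiece (monIdeal {m : Fin n →₀ ℕ | (m : Fin n → ℕ) ∈ L} hU) d =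
      lppPiece a {m | m.degree = d ∧ ∃ m0 : Fin n →₀ ℕ, (m0 : Fin n → ℕ) ∈ L ∧ m0.degree = d ∧
        (∀ i, m0 i < a i) ∧ toLex m0 ≤ toLex m} d := by
  apply le_antisymm
  · intro f hf
    rw [degreePiece_eq, restrictScalars_monIdeal, mem_pc] at hf
    rw [f.as_sum]
    refine Submodule.sum_mem _ fun m hm => ?_
    have hm' := mem_support_iff.1 hm
    have h1 := hf.1 m hm'
    have h2 : (m : Fin n → ℕ) ∈ L := hf.2 m hm'
    unfold lppPiece
    by_cases h3 : ∃ i, a i ≤ m i
    · apply Submodule.mem_sup_right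
      rw [degreePiece_eq]
      refine ⟨?_, monomial_mem_purePowers h3 _⟩
      change monomial m (coeff m f) ∈ homogeneousSubmodule (Fin n) ℂ d
      rw [mem_homogeneousSubmodule]
      exact isHomogeneous_monomial _ h1
    · push Not at h3
      apply Submodule.mem_sup_left
      have h4 : (monomial m (coeff m f) : MvPolynomial (Fin n) ℂ) = coeff m f • monomial m 1 := by
        rw [smul_monomial, smul_eq_mul, mul_one]
      rw [h4]
      apply Submodule.smul_mem
      apply Submodule.subset_span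
      exact ⟨m, ⟨h1, m, h2, h1, h3, le_rfl⟩, rfl⟩
  · unfold lppPiece
    apply sup_le
    · rw [Submodule.span_le]
      rintro _ ⟨m, ⟨h1, m0, h2, h3, h4, h5⟩, rfl⟩
      have hmL : (m : Fin n → ℕ) ∈ L := by
        rcases lt_or_eq_of_le h5 with h6 | h6
        · refine hL _ _ h2 h4 ?_ (lex_toF.2 h6)
          rw [← degree_toF, ← degree_toF, toF_coe, toF_coe, h1, h3]
        · have : m0 = m := toLex_inj.1 h6
          rw [← this]; exact h2
      change monomial m 1 ∈ degreePiece _ d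
      rw [degreePiece_eq, restrictScalars_monIdeal, mem_pc]
      constructor
      · intro m' hm'
        rw [coeff_monomial] at hm'
        split_ifs at hm' with h7
        · rw [← h7]; exact h1
        · exact absurd rfl hm'
      · intro m' hm'
        rw [coeff_monomial] at hm'
        split_ifs at hm' with h7
        · rw [← h7]; exact hmL
        · exact absurd rfl hm'
    · have h1 : purePowers a ≤ monIdeal {m : Fin n →₀ ℕ | (m : Fin n → ℕ) ∈ L} hU := by
        unfold purePowers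
        rw [Ideal.span_le]
        rintro _ ⟨i, rfl⟩
        intro m hm
        simp only [X_pow_eq_monomial] at hm
        rw [coeff_monomial] at hm
        split_ifs at hm with h2
        · rw [← h2]
          exact hP _ ⟨i, by rw [Finsupp.single_eq_same]⟩
        · exact absurd rfl hm
      exact inf_le_inf_left _ (fun x hx => h1 hx)

/-- Reduction of the lex-plus-powers statement to a monomial ideal containing the pure powers. -/
theorem lpp_of_monomial (a : Fin n → ℕ) (ha : Monotone a) (hpos : ∀ i, 0 < a i)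
    (I : Ideal (MvPolynomial (Fin n) ℂ)) (J0 : Set (Fin n →₀ ℕ)) (hJ0 : UpClosed J0)
    (hP0 : HasP a J0) (hHF : ∀ d, finrank ℂ (degreePiece I d) = hf J0 d)
    (hB : ∀ p j, gradedBetti I p j ≤ gradedBetti (monIdeal J0 hJ0) p j) :
    ∃ U : ℕ → Set (Fin n →₀ ℕ), (∀ d, IsLexSegment n d (U d)) ∧
      (∀ d, Module.finrank ℂ (lppPiece a (U d) d) = Module.finrank ℂ (degreePiece I d)) ∧
      ∃ J : Ideal (MvPolynomial (Fin n) ℂ), (∀ g ∈ J, ∀ d : ℕ, homogeneousComponent d g ∈ J) ∧
        (∀ d, degreePiece J d = lppPiece a (U d) d) ∧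
        ∀ p j : ℕ, gradedBetti I p j ≤ gradedBetti J p j := by
  have hUC : UpC {m : Fin n → ℕ | toF m ∈ J0} := by
    intro m hm t
    change toF (inc m t) ∈ J0
    rw [toF_inc]
    exact hJ0 _ hm t
  have hPP : PP a {m : Fin n → ℕ | toF m ∈ J0} := by
    rintro m ⟨i, hi⟩
    exact hJ0.mem_of_exists hP0 ⟨i, hi⟩
  obtain ⟨L, hLU, hLP, hLL, hLc, hLz⟩ := lpp_sets n a ha hpos _ hUC hPP
  have hU : UpClosed {m : Fin n →₀ ℕ | (m : Fin n → ℕ) ∈ L} := by
    intro m hm t
    have h2 : ((m + Finsupp.single t 1 : Fin n →₀ ℕ) : Fin n → ℕ) = inc m t := by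
      have := toF_inc (m : Fin n → ℕ) t
      rw [toF_coe] at this
      rw [← this]; rfl
    change ((m + Finsupp.single t 1 : Fin n →₀ ℕ) : Fin n → ℕ) ∈ L
    rw [h2]
    exact hLU _ hm t
  have hback : {m : Fin n → ℕ | toF m ∈ {m : Fin n →₀ ℕ | (m : Fin n → ℕ) ∈ L}} = L := by
    ext m; rfl
  have hhf : ∀ d, hf {m : Fin n →₀ ℕ | (m : Fin n → ℕ) ∈ L} d = hf J0 d := by
    intro d
    rw [hf_eq_cH, hback, hLc, hf_eq_cH]
  refine ⟨fun d => {m | m.degree = d ∧ ∃ m0 : Fin n →₀ ℕ, (m0 : Fin n → ℕ) ∈ L ∧ m0.degree = d ∧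
        (∀ i, m0 i < a i) ∧ toLex m0 ≤ toLex m}, ?_, ?_,
    monIdeal {m : Fin n →₀ ℕ | (m : Fin n → ℕ) ∈ L} hU, monIdeal_homogeneous _ hU,
    fun d => lppPiece_eq a L hLP hLL hU d, ?_⟩
  · intro d
    refine ⟨fun m hm => hm.1, ?_⟩
    rintro m ⟨_, m0, h2, h3, h4, h5⟩ m' hm' hle
    exact ⟨hm', m0, h2, h3, h4, h5.trans hle⟩
  · intro d
    rw [← lppPiece_eq a L hLP hLL hU d, hHF, degreePiece_eq, restrictScalars_monIdeal,
      finrank_pc_monId, hhf]
  · intro p j
    refine (hB p j).trans (gradedBetti_le_of_zd_le _ _ ?_ ?_ p j)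
    · intro d
      rw [restrictScalars_monIdeal, restrictScalars_monIdeal, finrank_pc_monId, finrank_pc_monId,
        hhf]
    · intro p j
      rw [restrictScalars_monIdeal, restrictScalars_monIdeal, zd_eq_cz, zd_eq_cz, hback]
      exact hLz p j


end Crest.Agent.R181.Mon
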