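import Mathlib

/-!
R181, V-chain (helper868's [V3b]): the ring `O` as a subring of `T⟦π⟧`.
-/

namespace Crest.Agent.R181.RO

open PowerSeries Matrix

universe u

section mat

variable {T : Type*} [Ring T] {n : Type*} [Fintype n] [DecidableEq n]

/-- matrices of power series as power series of matrices -/
noncomputable def toPS (M : Matrix n n (PowerSeries T)) : PowerSeries (Matrix n n T) :=
  PowerSeries.mk fun k => M.map (PowerSeries.coeff k)

/-- power series of matrices as matrices of power series -/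
noncomputable def ofPS (φ : PowerSeries (Matrix n n T)) : Matrix n n (PowerSeries T) :=
  fun i j => PowerSeries.mk fun k => (PowerSeries.coeff k φ) i j

theorem ofPS_toPS (M : Matrix n n (PowerSeries T)) : ofPS (toPS M) = M := by
  ext i j k
  simp [ofPS, toPS]

theorem ofPS_mul (φ ψ : PowerSeries (Matrix n n T)) : ofPS (φ * ψ) = ofPS φ * ofPS ψ := by
  ext i j k
  simp only [ofPS, PowerSeries.coeff_mk, PowerSeries.coeff_mul, Matrix.mul_apply, map_sum,
    Matrix.sum_apply]
  rw [Finset.sum_comm]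

theorem ofPS_one : ofPS (1 : PowerSeries (Matrix n n T)) = 1 := by
  ext i j k
  simp only [ofPS, PowerSeries.coeff_mk, PowerSeries.coeff_one, Matrix.one_apply]
  by_cases hij : i = j <;> by_cases hk : k = 0 <;>
    simp [hij, hk, PowerSeries.coeff_one, Matrix.one_apply]

/-- a matrix over `T⟦π⟧` which is invertible modulo `π` is invertible -/
theorem isUnit_of_constantCoeff (M : Matrix n n (PowerSeries T))
    (h : IsUnit (M.map (PowerSeries.constantCoeff (R := T)))) : IsUnit M := by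
  obtain ⟨v, hv⟩ := h
  have hc : PowerSeries.constantCoeff (toPS M) = v := by
    rw [hv, ← PowerSeries.coeff_zero_eq_constantCoeff_apply]
    ext i j
    simp [toPS]
  have h1 := PowerSeries.mul_invOfUnit (toPS M) v hc
  have h2 := PowerSeries.invOfUnit_mul (toPS M) v hc
  refine ⟨⟨M, ofPS (PowerSeries.invOfUnit (toPS M) v), ?_, ?_⟩, rfl⟩
  · conv_lhs => rw [← ofPS_toPS M]
    rw [ofPS_toPS M]
    rw [← ofPS_one, ← h1, ofPS_mul, ofPS_toPS]
  · rw [← ofPS_one, ← h2, ofPS_mul, ofPS_toPS]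

end mat

section

variable {T S Δ : Type u} [Ring T] [Ring S] [Ring Δ]

/-- entries of inverses (in `T⟦π⟧`) of the `S`-matrices which become invertible over `Δ` -/
def gens (j : S →+* PowerSeries T) (δ : S →+* Δ) : Set (PowerSeries T) :=
  {x | ∃ (n : ℕ) (M : Matrix (Fin n) (Fin n) S) (N : Matrix (Fin n) (Fin n) (PowerSeries T))
    (a b : Fin n), IsUnit (M.map δ) ∧ M.map j * N = 1 ∧ N * M.map j = 1 ∧ x = N a b}

/-- the rational closure of `S` in `T⟦π⟧` w.r.t. matrices invertible over `Δ` -/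
noncomputable def O' (j : S →+* PowerSeries T) (δ : S →+* Δ) : Subring (PowerSeries T) :=
  Subring.closure (Set.range j ∪ gens j δ)

theorem j_mem (j : S →+* PowerSeries T) (δ : S →+* Δ) (s : S) : j s ∈ O' j δ :=
  Subring.subset_closure (Or.inl ⟨s, rfl⟩)

/-- `Δ` is the universal localisation of `S/(p)` at the matrices invertible over `Δ` -/
def Univ (δ : S →+* Δ) (p : S) : Prop :=
  ∀ (A : Type u) [Ring A] (ψ : S →+* A), ψ p = 0 →
    (∀ n (M : Matrix (Fin n) (Fin n) S), IsUnit (M.map δ) → IsUnit (M.map ψ)) →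
    ∃! f : Δ →+* A, f.comp δ = ψ

/-- the data: `S`, a central `p`, `j : S → T⟦π⟧`, `j p = π`, `Δ = (S/p)_Σ ⊂ T`. -/
structure Dat (j : S →+* PowerSeries T) (δ : S →+* Δ) (i : Δ →+* T) (p : S) : Prop where
  jp : j p = PowerSeries.X
  dp : δ p = 0
  univ : Univ δ p
  inj : Function.Injective i
  comp : ∀ s, i (δ s) = PowerSeries.constantCoeff (j s)

variable {j : S →+* PowerSeries T} {δ : S →+* Δ} {i : Δ →+* T} {p : S}

theorem Dat.isUnit_map (h : Dat j δ i p) {n : ℕ} (M : Matrix (Fin n) (Fin n) S)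
    (hM : IsUnit (M.map δ)) : IsUnit (M.map j) := by
  apply isUnit_of_constantCoeff
  have h1 : (M.map j).map (PowerSeries.constantCoeff (R := T)) = (M.map δ).map i := by
    ext a b
    simp [h.comp]
  rw [h1]
  exact hM.map i.mapMatrix

theorem X_mem (h : Dat j δ i p) : (PowerSeries.X : PowerSeries T) ∈ O' j δ := by
  rw [← h.jp]; exact j_mem j δ p

theorem commX (f : PowerSeries T) : f * PowerSeries.X = PowerSeries.X * f := by
  ext k
  cases k with
  | zero => simp
  | succ k => rw [PowerSeries.coeff_succ_mul_X, PowerSeries.coeff_succ_X_mul]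

/-- the key lemma: `O' ∩ π T⟦π⟧ = π O'`, `O' mod π = Δ`. -/
theorem key' (h : Dat j δ i p) :
    (∀ g ∈ O' j δ, PowerSeries.constantCoeff g = 0 → ∃ g' ∈ O' j δ, g = PowerSeries.X * g') ∧
    (∀ g ∈ O' j δ, ∃ d, PowerSeries.constantCoeff g = i d) ∧
    (∀ d, ∃ g ∈ O' j δ, PowerSeries.constantCoeff g = i d) := by
  classical
  set R := O' j δ with hR
  let x : R := ⟨PowerSeries.X, X_mem h⟩
  have hxc : ∀ r : R, r * x = x * r := fun r => Subtype.ext (commX (r : PowerSeries T))
  -- the two-sided ideal `x R`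
  let I : Ideal R := Ideal.span {x}
  have hI : ∀ r : R, r ∈ I ↔ ∃ s, r = x * s := by
    intro r
    rw [Ideal.mem_span_singleton']
    constructor
    · rintro ⟨a, rfl⟩; exact ⟨a, hxc a⟩
    · rintro ⟨a, rfl⟩; exact ⟨a, hxc a⟩
  have : I.IsTwoSided := ⟨by
    intro a b ha
    rw [hI] at ha ⊢
    obtain ⟨s, rfl⟩ := ha
    exact ⟨s * b, mul_assoc _ _ _⟩⟩
  let mk : R →+* R ⧸ I := Ideal.Quotient.mk I
  let jR : S →+* R := j.codRestrict R (fun s => j_mem j δ s)
  let ψ : S →+* R ⧸ I := mk.comp jR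
  have hψp : ψ p = 0 := by
    change mk (jR p) = 0
    rw [Ideal.Quotient.eq_zero_iff_mem, hI]
    exact ⟨1, Subtype.ext (by simp [jR, x, h.jp])⟩
  -- inverses
  have hinv : ∀ n (M : Matrix (Fin n) (Fin n) S), IsUnit (M.map δ) →
      ∃ N : Matrix (Fin n) (Fin n) R, M.map jR * N = 1 ∧ N * M.map jR = 1 := by
    intro n M hM
    obtain ⟨v, hv⟩ := h.isUnit_map M hM
    have h1 : M.map j * (↑v⁻¹ : Matrix (Fin n) (Fin n) (PowerSeries T)) = 1 := by
      rw [← hv]; exact v.mul_inv
    have h2 : (↑v⁻¹ : Matrix (Fin n) (Fin n) (PowerSeries T)) * M.map j = 1 := by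
      rw [← hv]; exact v.inv_mul
    have hmem : ∀ a b, (↑v⁻¹ : Matrix (Fin n) (Fin n) (PowerSeries T)) a b ∈ R := fun a b =>
      Subring.subset_closure (Or.inr ⟨n, M, _, a, b, hM, h1, h2, rfl⟩)
    let N : Matrix (Fin n) (Fin n) R := Matrix.of fun a b => ⟨_, hmem a b⟩
    have hN : N.map R.subtype = (↑v⁻¹ : Matrix (Fin n) (Fin n) (PowerSeries T)) := by
      ext a b; rfl
    have hMj : (M.map jR).map R.subtype = M.map j := rfl
    have hsub : Function.Injective (fun X : Matrix (Fin n) (Fin n) R => X.map R.subtype) := by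
      intro A B hAB
      ext1 a b
      exact Subtype.ext (congrFun (congrFun hAB a) b)
    refine ⟨N, hsub ?_, hsub ?_⟩
    · simp only
      rw [Matrix.map_mul, hN, hMj, h1, Matrix.map_one _ (map_zero _) (map_one _)]
    · simp only
      rw [Matrix.map_mul, hN, hMj, h2, Matrix.map_one _ (map_zero _) (map_one _)]
  have hψi : ∀ n (M : Matrix (Fin n) (Fin n) S), IsUnit (M.map δ) → IsUnit (M.map ψ) := by
    intro n M hM
    obtain ⟨N, h1, h2⟩ := hinv n M hM
    have h3 : M.map ψ = (M.map jR).map mk := rfl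
    refine ⟨⟨M.map ψ, N.map mk, ?_, ?_⟩, rfl⟩
    · rw [h3, ← Matrix.map_mul, h1, Matrix.map_one _ (map_zero mk) (map_one mk)]
    · rw [h3, ← Matrix.map_mul, h2, Matrix.map_one _ (map_zero mk) (map_one mk)]
  obtain ⟨f, hf, -⟩ := h.univ _ ψ hψp hψi
  have hfs : ∀ s, f (δ s) = mk (jR s) := fun s => RingHom.congr_fun hf s
  -- surjectivity of `f`
  let R' : Subring (PowerSeries T) := (f.range.comap mk).map R.subtype
  have hRR : R ≤ R' := by
    rw [hR, O', Subring.closure_le]
    rintro y (⟨s, rfl⟩ | ⟨n, M, N, a, b, hM, h1, h2, rfl⟩)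
    · exact ⟨jR s, ⟨δ s, hfs s⟩, rfl⟩
    · obtain ⟨N', h1', h2'⟩ := hinv n M hM
      have hN : N = N'.map R.subtype := by
        have h3 : (M.map jR).map R.subtype = M.map j := rfl
        have h4 : M.map j * N'.map R.subtype = 1 := by
          rw [← h3, ← Matrix.map_mul, h1', Matrix.map_one _ (map_zero _) (map_one _)]
        calc N = N * (M.map j * N'.map R.subtype) := by rw [h4, mul_one]
          _ = (N * M.map j) * N'.map R.subtype := by rw [mul_assoc]
          _ = _ := by rw [h2, one_mul]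
      obtain ⟨v, hv⟩ := hM
      have h5 : (↑v⁻¹ : Matrix (Fin n) (Fin n) Δ).map f = N'.map mk := by
        have h6 : (M.map δ).map f = (M.map jR).map mk := by
          ext a b; simp [hfs]
        have h7 : (↑v⁻¹ : Matrix (Fin n) (Fin n) Δ).map f * (M.map jR).map mk = 1 := by
          rw [← h6, ← Matrix.map_mul, ← hv, v.inv_mul, Matrix.map_one _ (map_zero f) (map_one f)]
        have h8 : (M.map jR).map mk * N'.map mk = 1 := by
          rw [← Matrix.map_mul, h1', Matrix.map_one _ (map_zero mk) (map_one mk)]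
        calc (↑v⁻¹ : Matrix (Fin n) (Fin n) Δ).map f
            = (↑v⁻¹ : Matrix (Fin n) (Fin n) Δ).map f * ((M.map jR).map mk * N'.map mk) := by
              rw [h8, mul_one]
          _ = _ := by rw [← mul_assoc, h7, one_mul]
      refine ⟨N' a b, ⟨(↑v⁻¹ : Matrix (Fin n) (Fin n) Δ) a b, ?_⟩, by rw [hN]; rfl⟩
      exact congrFun (congrFun h5 a) b
  have hsurj : ∀ r : R, ∃ d, f d = mk r := by
    intro r
    obtain ⟨r', ⟨d, hd⟩, hr'⟩ := hRR r.2
    have : r' = r := Subtype.ext hr'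
    subst this
    exact ⟨d, hd⟩
  -- the constant coefficient on the quotient
  let c : R ⧸ I →+* T := Ideal.Quotient.lift I ((PowerSeries.constantCoeff (R := T)).comp R.subtype)
    (by
      intro a ha
      rw [hI] at ha
      obtain ⟨s, rfl⟩ := ha
      simp [x])
  have hc : ∀ r : R, c (mk r) = PowerSeries.constantCoeff (r : PowerSeries T) := fun r => rfl
  have hcf : c.comp f = i := by
    have h9 : ∀ n (M : Matrix (Fin n) (Fin n) S), IsUnit (M.map δ) →
        IsUnit (M.map (i.comp δ)) := by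
      intro n M hM
      have : M.map (i.comp δ) = (M.map δ).map i := rfl
      rw [this]
      exact hM.map i.mapMatrix
    obtain ⟨f₀, -, hu⟩ := h.univ T (i.comp δ) (by simp [h.dp]) h9
    rw [hu i rfl, hu (c.comp f) ?_]
    ext s
    simp [hfs, hc, jR, h.comp]
  have hcfd : ∀ d, c (f d) = i d := fun d => RingHom.congr_fun hcf d
  refine ⟨?_, ?_, ?_⟩
  · intro g hg h0
    obtain ⟨d, hd⟩ := hsurj ⟨g, hg⟩
    have h10 : i d = 0 := by rw [← hcfd, hd, hc, h0]
    have h11 : d = 0 := h.inj (by rw [h10, map_zero])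
    rw [h11, map_zero] at hd
    have h12 : (⟨g, hg⟩ : R) ∈ I := Ideal.Quotient.eq_zero_iff_mem.1 hd.symm
    rw [hI] at h12
    obtain ⟨s, hs⟩ := h12
    exact ⟨s, s.2, congrArg Subtype.val hs⟩
  · intro g hg
    obtain ⟨d, hd⟩ := hsurj ⟨g, hg⟩
    exact ⟨d, by rw [← hcfd, hd, hc]⟩
  · intro d
    obtain ⟨r, hr⟩ := Ideal.Quotient.mk_surjective (f d)
    refine ⟨r, r.2, ?_⟩
    rw [← hc, ← hcfd]
    exact congrArg c hr

/-- `O`: the `π`-adic closure of `O'` in `T⟦π⟧`. -/
noncomputable def O (j : S →+* PowerSeries T) (δ : S →+* Δ) : Subring (PowerSeries T) where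
  carrier := {f | ∀ s : ℕ, ∃ g ∈ O' j δ, ∀ m < s, PowerSeries.coeff m f = PowerSeries.coeff m g}
  mul_mem' := by
    intro a b ha hb s
    obtain ⟨a', ha', h1⟩ := ha s
    obtain ⟨b', hb', h2⟩ := hb s
    refine ⟨a' * b', mul_mem ha' hb', fun m hm => ?_⟩
    rw [PowerSeries.coeff_mul, PowerSeries.coeff_mul]
    refine Finset.sum_congr rfl fun x hx => ?_
    rw [Finset.HasAntidiagonal.mem_antidiagonal] at hx
    rw [h1 _ (by omega), h2 _ (by omega)]
  one_mem' := fun s => ⟨1, one_mem _, fun _ _ => rfl⟩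
  add_mem' := by
    intro a b ha hb s
    obtain ⟨a', ha', h1⟩ := ha s
    obtain ⟨b', hb', h2⟩ := hb s
    exact ⟨a' + b', add_mem ha' hb', fun m hm => by rw [map_add, map_add, h1 _ hm, h2 _ hm]⟩
  zero_mem' := fun s => ⟨0, zero_mem _, fun _ _ => rfl⟩
  neg_mem' := by
    intro a ha s
    obtain ⟨a', ha', h1⟩ := ha s
    exact ⟨-a', neg_mem ha', fun m hm => by rw [map_neg, map_neg, h1 _ hm]⟩

theorem mem_O {f : PowerSeries T} : f ∈ O j δ ↔
    ∀ s : ℕ, ∃ g ∈ O' j δ, ∀ m < s, PowerSeries.coeff m f = PowerSeries.coeff m g := Iff.rfl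

theorem O'_le : O' j δ ≤ O j δ := fun f hf _ => ⟨f, hf, fun _ _ => rfl⟩

theorem j_mem_O (s : S) : j s ∈ O j δ := O'_le (j_mem j δ s)

theorem X_mem_O (h : Dat j δ i p) : (PowerSeries.X : PowerSeries T) ∈ O j δ := O'_le (X_mem h)

/-- `O` is closed in the `π`-adic topology of `T⟦π⟧`. -/
theorem mem_O_of_forall {f : PowerSeries T}
    (hf : ∀ s : ℕ, ∃ g ∈ O j δ, ∀ m < s, PowerSeries.coeff m f = PowerSeries.coeff m g) :
    f ∈ O j δ := by
  intro s
  obtain ⟨g, hg, h1⟩ := hf s
  obtain ⟨g', hg', h2⟩ := hg s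
  exact ⟨g', hg', fun m hm => (h1 m hm).trans (h2 m hm)⟩

theorem X_mul_mem (h : Dat j δ i p) {g : PowerSeries T} (hg : g ∈ O j δ) :
    PowerSeries.X * g ∈ O j δ := mul_mem (X_mem_O h) hg

/-- `O ∩ π T⟦π⟧ = π O` -/
theorem mem_of_X_mul_mem (h : Dat j δ i p) {g : PowerSeries T}
    (hg : PowerSeries.X * g ∈ O j δ) : g ∈ O j δ := by
  intro s
  obtain ⟨a, ha, h1⟩ := hg (s + 1)
  have h0 : PowerSeries.constantCoeff a = 0 := by
    rw [← PowerSeries.coeff_zero_eq_constantCoeff_apply, ← h1 0 (by omega)]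
    simp
  obtain ⟨b, hb, rfl⟩ := (key' h).1 a ha h0
  refine ⟨b, hb, fun m hm => ?_⟩
  have := h1 (m + 1) (by omega)
  rwa [PowerSeries.coeff_succ_X_mul, PowerSeries.coeff_succ_X_mul] at this

theorem X_mul_mem_iff (h : Dat j δ i p) {g : PowerSeries T} :
    PowerSeries.X * g ∈ O j δ ↔ g ∈ O j δ := ⟨mem_of_X_mul_mem h, X_mul_mem h⟩

theorem X_pow_mul_mem_iff (h : Dat j δ i p) (k : ℕ) {g : PowerSeries T} :
    PowerSeries.X ^ k * g ∈ O j δ ↔ g ∈ O j δ := by
  induction k with
  | zero => simp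
  | succ k ih => rw [pow_succ', mul_assoc, X_mul_mem_iff h, ih]

theorem exists_eq_X_mul (h : Dat j δ i p) {f : PowerSeries T} (hf : f ∈ O j δ)
    (h0 : PowerSeries.constantCoeff f = 0) : ∃ g ∈ O j δ, f = PowerSeries.X * g := by
  have h1 : f = PowerSeries.X * PowerSeries.mk fun n => PowerSeries.coeff (n + 1) f := by
    ext n
    cases n with
    | zero => simpa using h0
    | succ n => simp
  refine ⟨_, ?_, h1⟩
  rw [h1] at hf
  exact mem_of_X_mul_mem h hf

/-- the constant coefficient of an element of `O` is in `Δ` -/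
theorem exists_const (h : Dat j δ i p) {f : PowerSeries T} (hf : f ∈ O j δ) :
    ∃ d, PowerSeries.constantCoeff f = i d := by
  obtain ⟨g, hg, h1⟩ := hf 1
  obtain ⟨d, hd⟩ := (key' h).2.1 g hg
  refine ⟨d, ?_⟩
  rw [← hd, ← PowerSeries.coeff_zero_eq_constantCoeff_apply,
    ← PowerSeries.coeff_zero_eq_constantCoeff_apply, h1 0 (by omega)]

/-- every element of `Δ` is the constant coefficient of an element of `O` -/
theorem exists_lift (h : Dat j δ i p) (d : Δ) :
    ∃ f ∈ O j δ, PowerSeries.constantCoeff f = i d := by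
  obtain ⟨g, hg, h1⟩ := (key' h).2.2 d
  exact ⟨g, O'_le hg, h1⟩

/-- the residue map `q : O → Δ` -/
noncomputable def q (h : Dat j δ i p) : O j δ →+* Δ where
  toFun f := (exists_const h f.2).choose
  map_one' := h.inj (by
    rw [← (exists_const h (1 : O j δ).2).choose_spec]; simp)
  map_zero' := h.inj (by
    rw [← (exists_const h (0 : O j δ).2).choose_spec]; simp)
  map_mul' a b := h.inj (by
    rw [map_mul, ← (exists_const h (a * b).2).choose_spec,
      ← (exists_const h a.2).choose_spec, ← (exists_const h b.2).choose_spec]; simp)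
  map_add' a b := h.inj (by
    rw [map_add, ← (exists_const h (a + b).2).choose_spec,
      ← (exists_const h a.2).choose_spec, ← (exists_const h b.2).choose_spec]; simp)

theorem i_q (h : Dat j δ i p) (f : O j δ) :
    i (q h f) = PowerSeries.constantCoeff (f : PowerSeries T) :=
  (exists_const h f.2).choose_spec.symm

theorem q_surjective (h : Dat j δ i p) : Function.Surjective (q h) := by
  intro d
  obtain ⟨f, hf, h1⟩ := exists_lift h d
  exact ⟨⟨f, hf⟩, h.inj (by rw [i_q, h1])⟩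

theorem q_j (h : Dat j δ i p) (s : S) : q h ⟨j s, j_mem_O s⟩ = δ s :=
  h.inj (by rw [i_q, h.comp])

/-- the element `π` of `O` -/
noncomputable def pi (h : Dat j δ i p) : O j δ := ⟨PowerSeries.X, X_mem_O h⟩

theorem pi_comm (h : Dat j δ i p) (f : O j δ) : f * pi h = pi h * f :=
  Subtype.ext (commX (f : PowerSeries T))


theorem q_eq_zero_iff (h : Dat j δ i p) (f : O j δ) : q h f = 0 ↔ ∃ g, f = pi h * g := by
  constructor
  · intro h0
    have h1 : PowerSeries.constantCoeff (f : PowerSeries T) = 0 := by rw [← i_q h, h0, map_zero]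
    obtain ⟨g, hg, hfg⟩ := exists_eq_X_mul h f.2 h1
    exact ⟨⟨g, hg⟩, Subtype.ext hfg⟩
  · rintro ⟨g, rfl⟩
    apply h.inj
    rw [i_q, map_zero]
    simp [pi]

end

end Crest.Agent.R181.RO
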