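import Crest.Agent.R181.UR396e

/-!
R181 (helper396): the chain rings `Us g α β = U(D, w; L', Q(s ↦ α s, x_i ↦ β s))` and the maps
`chainV`, `chainInf` out of them.
-/

set_option autoImplicit false
set_option linter.unusedSectionVars false

namespace Crest.Agent.R181.UR

open AddMonoidAlgebra
open scoped Polynomial

section Chain

variable {F D D₁ L L' L'' I σ : Type} [CommRing F] [Ring D] [Algebra F D] [Ring D₁] [Algebra F D₁]
  [CommRing L] [Algebra F L] [CommRing L'] [Algebra F L'] [CommRing L''] [Algebra F L'']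
  [Fintype I] [Fintype σ] [DecidableEq σ]
  (a : I → ℕ) (th : I → I → F)
  (Q : I → MvPolynomial (Option (Option σ)) L)
  (w : I → σ → D) (w₁ : I → Option σ → D₁)

/-- the substitution `s ↦ α * s`, `x_i ↦ β * s`, `x_v ↦ x_v`
(`none = s`, `some none = x_i`, `some (some v) = x_v`). -/
def Xm (α β : L') : Option (Option σ) → Option σ → L'
  | none, none => α
  | none, some _ => 0
  | some none, none => β
  | some none, some _ => 0
  | some (some _), none => 0
  | some (some v), some v' => if v = v' then 1 else 0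

/-- the substituted right hand sides -/
noncomputable def Qs (g : L →+* L') (α β : L') (i : I) : MvPolynomial (Option σ) L' :=
  subL g (Xm α β) (Q i)

/-- the chain rings -/
abbrev Us (g : L →+* L') (α β : L') : Type := U a th (Qs Q g α β) w

theorem mp_subL {σ₁ σ₂ : Type} [Fintype σ₁] [Fintype σ₂] (g : L →+* L') (φ : L' →+* L'')
    (X : σ₁ → σ₂ → L') (q : MvPolynomial σ₁ L) :
    mp σ₂ φ (subL g X q) = subL (φ.comp g) (fun v v' => φ (X v v')) q := by
  have h : (mp σ₂ φ).comp (subL g X) = subL (φ.comp g) (fun v v' => φ (X v v')) := by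
    apply MvPolynomial.ringHom_ext
    · intro c
      rw [RingHom.comp_apply, subL_C, subL_C]
      exact mp_C φ (g c)
    · intro v
      rw [RingHom.comp_apply, subL_X, subL_X, map_sum]
      refine Finset.sum_congr rfl fun v' _ => ?_
      rw [map_mul]
      exact congrArg₂ _ (mp_C φ _) (mp_X φ _)
  exact RingHom.congr_fun h q

theorem map_Xm (φ : L' →+* L'') (α β : L') :
    (fun v v' => φ (Xm (σ := σ) α β v v')) = Xm (φ α) (φ β) := by
  funext v v'
  rcases v with _ | _ | v <;> rcases v' with _ | v' <;> simp [Xm, apply_ite φ]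

theorem mp_Qs (g : L →+* L') (φ : L' →+* L'') (α β : L') (i : I) :
    mp (Option σ) φ (Qs Q g α β i) = Qs Q (φ.comp g) (φ α) (φ β) i := by
  rw [Qs, mp_subL, map_Xm]; rfl

/-- the coefficients of the substituted tuple -/
theorem sum_Xm {A : Type*} [Ring A] (τ' : L' →+* A) (α β : L') (u : Option (Option σ) → A)
    (v' : Option σ) : ∑ v, u v * τ' (Xm α β v v') =
      (match v' with
        | none => u none * τ' α + u (some none) * τ' β
        | some v => u (some (some v)) : A) := by
  rw [Fintype.sum_option, Fintype.sum_option]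
  rcases v' with _ | v'
  · simp [Xm]
  · simp [Xm, apply_ite τ']

variable {κ : D →+* D₁} (hκ : ∀ i v, w₁ i (some v) = κ (w i v))
  (hκF : ∀ c : F, κ (algebraMap F D c) = algebraMap F D₁ c)

variable {Q w w₁}

include hκ hκF in
/-- General chain map `Us g α β → A'`. -/
theorem exists_chain {A' : Type*} [Ring A'] (g : L →+* L')
    (hg : ∀ c : F, g (algebraMap F L c) = algebraMap F L' c) (α β : L')
    (f : U a th Q w₁ →+* A') (τ' : L' →+* A') (hτ' : ∀ x y, Commute (τ' x) y)
    (hf : f.comp (iL a th Q w₁) = τ'.comp g) :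
    ∃ Φ : Us a th Q w g α β →+* A',
      (∀ d, Φ (iD a th _ w d) = f (iD a th Q w₁ (κ d))) ∧
      (∀ x, Φ (iL a th _ w x) = τ' x) ∧
      ∀ i, Φ (eta a th _ w i) = f (eta a th Q w₁ i) * τ' α +
        f (iD a th Q w₁ (w₁ i none)) * τ' β := by
  have h1 := (isTuple_wU a th Q w₁).subst f g _ τ' hτ' (Xm α β) hf hg
  refine exists_lift (a := a) (th := th) (Q := Qs Q g α β) (w := w)
    (f.comp ((iD a th Q w₁).comp κ)) τ'
    (fun i => f (eta a th Q w₁ i) * τ' α + f (iD a th Q w₁ (w₁ i none)) * τ' β) ?_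
    (fun _ _ => hτ' _ _) (fun _ _ => hτ' _ _) ?_
  · intro c
    rw [RingHom.comp_apply, RingHom.comp_apply, hκF, iD_base, ← RingHom.comp_apply, hf,
      RingHom.comp_apply, hg]
  · have e : (fun i v' => ∑ v, f (wU a th Q w₁ i v) * τ' (Xm α β v v')) =
        ext' (fun i v => (f.comp ((iD a th Q w₁).comp κ)) (w i v))
          (fun i => f (eta a th Q w₁ i) * τ' α + f (iD a th Q w₁ (w₁ i none)) * τ' β) := by
      funext i v'
      rw [sum_Xm τ' α β (fun v => f (wU a th Q w₁ i v))]
      rcases v' with _ | v'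
      · rfl
      · simp only [wU, ext'_some, hκ]
        rfl
    rw [e] at h1
    exact h1

section Poly

variable {A' : Type*} [Ring A'] (f : U a th Q w₁ →+* A') (p : A') (hp : ∀ y, Commute p y)
  (hfL : ∀ x y, Commute (f (iL a th Q w₁ x)) y)

/-- `L[X] → A'`, `X ↦ p`. -/
noncomputable def tauP : L[X] →+* A' :=
  Polynomial.eval₂RingHom' (f.comp (iL a th Q w₁)) p (fun _ => (hp _).symm)

@[simp] theorem tauP_C (x : L) : tauP a th f p hp (Polynomial.C x) = f (iL a th Q w₁ x) := by
  simp [tauP, Polynomial.eval₂RingHom']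

@[simp] theorem tauP_X : tauP a th f p hp Polynomial.X = p := by
  simp [tauP, Polynomial.eval₂RingHom']

include hfL in
theorem tauP_comm (x : L[X]) (y : A') : Commute (tauP a th f p hp x) y := by
  induction x using Polynomial.induction_on with
  | C x => rw [tauP_C]; exact hfL x y
  | add x z hx hz => rw [map_add]; exact hx.add_left hz
  | monomial n x _ =>
    rw [map_mul, map_pow, tauP_C, tauP_X]
    exact (hfL x y).mul_left ((hp y).pow_left _)

variable (Q w) in
/-- `V'` : over `L[x]`, `s ↦ s`, `x_i ↦ x * s`. -/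
abbrev Vp : Type := Us a th Q w (Polynomial.C : L →+* L[X]) 1 Polynomial.X

variable (Q w) in
/-- `V^∞` : over `L[π]`, `s ↦ π * s`, `x_i ↦ s`. -/
abbrev Vinf : Type := Us a th Q w (Polynomial.C : L →+* L[X]) Polynomial.X 1

include hκ hκF hp hfL in
theorem exists_chainV : ∃ Φ : Vp a th Q w →+* A',
      (∀ d, Φ (iD a th _ w d) = f (iD a th Q w₁ (κ d))) ∧
      (∀ x, Φ (iL a th _ w (Polynomial.C x)) = f (iL a th Q w₁ x)) ∧
      Φ (iL a th _ w Polynomial.X) = p ∧
      ∀ i, Φ (eta a th _ w i) = f (eta a th Q w₁ i) + f (iD a th Q w₁ (w₁ i none)) * p := by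
  obtain ⟨Φ, h1, h2, h3⟩ := exists_chain (κ := κ) a th hκ hκF (Polynomial.C : L →+* L[X])
    (fun c => rfl) 1 Polynomial.X f (tauP a th f p hp) (tauP_comm a th f p hp hfL)
    (by ext x; simp)
  refine ⟨Φ, h1, fun x => ?_, ?_, fun i => ?_⟩
  · rw [h2, tauP_C]
  · rw [h2, tauP_X]
  · rw [h3, tauP_X, map_one, mul_one]

include hκ hκF hp hfL in
theorem exists_chainInf : ∃ Φ : Vinf a th Q w →+* A',
      (∀ d, Φ (iD a th _ w d) = f (iD a th Q w₁ (κ d))) ∧
      (∀ x, Φ (iL a th _ w (Polynomial.C x)) = f (iL a th Q w₁ x)) ∧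
      Φ (iL a th _ w Polynomial.X) = p ∧
      ∀ i, Φ (eta a th _ w i) = f (eta a th Q w₁ i) * p + f (iD a th Q w₁ (w₁ i none)) := by
  obtain ⟨Φ, h1, h2, h3⟩ := exists_chain (κ := κ) a th hκ hκF (Polynomial.C : L →+* L[X])
    (fun c => rfl) Polynomial.X 1 f (tauP a th f p hp) (tauP_comm a th f p hp hfL)
    (by ext x; simp)
  refine ⟨Φ, h1, fun x => ?_, ?_, fun i => ?_⟩
  · rw [h2, tauP_C]
  · rw [h2, tauP_X]
  · rw [h3, tauP_X, map_one, mul_one]

/-- `V' → A'`, `x ↦ p`, `η' ↦ f η + f ξ * p`. -/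
noncomputable def chainV : Vp a th Q w →+* A' :=
  (exists_chainV (κ := κ) a th hκ hκF f p hp hfL).choose

@[simp] theorem chainV_iD (d : D) : chainV a th hκ hκF f p hp hfL (iD a th _ w d) =
    f (iD a th Q w₁ (κ d)) :=
  (exists_chainV (κ := κ) a th hκ hκF f p hp hfL).choose_spec.1 d

@[simp] theorem chainV_iL (x : L) : chainV a th hκ hκF f p hp hfL
    (iL a th _ w (Polynomial.C x)) = f (iL a th Q w₁ x) :=
  (exists_chainV (κ := κ) a th hκ hκF f p hp hfL).choose_spec.2.1 x

@[simp] theorem chainV_X : chainV a th hκ hκF f p hp hfL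
    (iL a th _ w Polynomial.X) = p :=
  (exists_chainV (κ := κ) a th hκ hκF f p hp hfL).choose_spec.2.2.1

@[simp] theorem chainV_eta (i : I) : chainV a th hκ hκF f p hp hfL (eta a th _ w i) =
    f (eta a th Q w₁ i) + f (iD a th Q w₁ (w₁ i none)) * p :=
  (exists_chainV (κ := κ) a th hκ hκF f p hp hfL).choose_spec.2.2.2 i

/-- `V^∞ → A'`, `π ↦ p`, `η'' ↦ f η * p + f ξ`. -/
noncomputable def chainInf : Vinf a th Q w →+* A' :=
  (exists_chainInf (κ := κ) a th hκ hκF f p hp hfL).choose

@[simp] theorem chainInf_iD (d : D) : chainInf a th hκ hκF f p hp hfL (iD a th _ w d) =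
    f (iD a th Q w₁ (κ d)) :=
  (exists_chainInf (κ := κ) a th hκ hκF f p hp hfL).choose_spec.1 d

@[simp] theorem chainInf_iL (x : L) : chainInf a th hκ hκF f p hp hfL
    (iL a th _ w (Polynomial.C x)) = f (iL a th Q w₁ x) :=
  (exists_chainInf (κ := κ) a th hκ hκF f p hp hfL).choose_spec.2.1 x

@[simp] theorem chainInf_X : chainInf a th hκ hκF f p hp hfL
    (iL a th _ w Polynomial.X) = p :=
  (exists_chainInf (κ := κ) a th hκ hκF f p hp hfL).choose_spec.2.2.1

@[simp] theorem chainInf_eta (i : I) : chainInf a th hκ hκF f p hp hfL (eta a th _ w i) =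
    f (eta a th Q w₁ i) * p + f (iD a th Q w₁ (w₁ i none)) :=
  (exists_chainInf (κ := κ) a th hκ hκF f p hp hfL).choose_spec.2.2.2 i

end Poly

end Chain

end Crest.Agent.R181.UR
private theorem rz_a985b34522 : type_of% @_root_.Crest.Agent.R181.UR.Xm.eq_1 := @_root_.Crest.Agent.R181.UR.Xm.eq_1 -- L27
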