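import Crest.Agent.R181.FR459a
import Crest.Agent.R181.VB789e

-- ▼ part R181/VC889a
section

/-!
# R181, V-chain, V2c (1): pairs `A → C` with a finite free resolution

`σ : V →+* D`; a pair is a `σ`-semilinear map `α : A → C`.  `RR σ n α` says that the pair has a
resolution of length `n` by pairs `V^ι → D^ι`, exact in both components.
Extensions, Schanuel, direct summands.
-/

set_option autoImplicit false

namespace Crest.Agent.R181.VC

open FR

universe u

section Generic

variable {R : Type u} [Ring R] {A B C : Type u} [AddCommGroup A] [Module R A] [AddCommGroup B]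
  [Module R B] [AddCommGroup C] [Module R C]

variable {ι κ : Type} [Fintype ι] [Fintype κ]

/-- linear combinations of a finite tuple -/
noncomputable abbrev lc (R : Type u) [Ring R] {A : Type u} [AddCommGroup A] [Module R A] {ι : Type}
    [Fintype ι] (a : ι → A) : (ι → R) →ₗ[R] A := Fintype.linearCombination R a

theorem lc_apply (a : ι → A) (v : ι → R) : lc R a v = ∑ i, v i • a i := rfl

theorem lc_sum (a : ι → A) (b : κ → A) (v : ι ⊕ κ → R) :
    lc R (Sum.elim a b) v = lc R a (fun i => v (Sum.inl i)) + lc R b (fun j => v (Sum.inr j)) := by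
  simp [lc_apply, Fintype.sum_sum_type]

theorem lc_comp (f : A →ₗ[R] B) (a : ι → A) (v : ι → R) :
    lc R (fun i => f (a i)) v = f (lc R a v) := by
  simp [lc_apply, map_sum]

/-- horseshoe: surjectivity of the combined cover -/
theorem horse_surj {f : A →ₗ[R] B} {g : B →ₗ[R] C} (hfg : Function.Exact f g) (a : ι → A)
    (b : κ → B) (ha : Function.Surjective (lc R a))
    (hc : Function.Surjective (lc R (fun j => g (b j)))) :
    Function.Surjective (lc R (Sum.elim (fun i => f (a i)) b)) := by
  intro y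
  obtain ⟨v, hv⟩ := hc (g y)
  have h1 : g (y - lc R b v) = 0 := by
    rw [map_sub, ← lc_comp, hv, sub_self]
  obtain ⟨x, hx⟩ := (hfg _).mp h1
  obtain ⟨w, rfl⟩ := ha x
  refine ⟨Sum.elim w v, ?_⟩
  rw [lc_sum]
  simp only [Sum.elim_inl, Sum.elim_inr]
  rw [lc_comp, hx]
  abel

theorem horse_inj {f : A →ₗ[R] B} {g : B →ₗ[R] C} (hf : Function.Injective f)
    (hfg : Function.Exact f g) (a : ι → A)
    (b : κ → B) (ha : Function.Injective (lc R a))
    (hc : Function.Injective (lc R (fun j => g (b j)))) :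
    Function.Injective (lc R (Sum.elim (fun i => f (a i)) b)) := by
  rw [injective_iff_map_eq_zero]
  intro v hv
  rw [lc_sum, lc_comp] at hv
  have h1 : (fun j => v (Sum.inr j)) = 0 := by
    apply hc
    rw [lc_comp, map_zero]
    have := congrArg g hv
    rw [map_add, hfg.apply_apply_eq_zero, zero_add, map_zero] at this
    exact this
  rw [h1, map_zero, add_zero] at hv
  have h2 : (fun i => v (Sum.inl i)) = 0 := by
    apply ha
    apply hf
    rw [hv, map_zero, map_zero]
  funext x
  rcases x with i | j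
  · exact congrFun h2 i
  · exact congrFun h1 j

/-- kernel of the first cover into the kernel of the combined one -/
noncomputable def hi (f : A →ₗ[R] B) (a : ι → A) (b : κ → B) :
    LinearMap.ker (lc R a) →ₗ[R] LinearMap.ker (lc R (Sum.elim (fun i => f (a i)) b)) :=
  LinearMap.codRestrict _
    (({ toFun := fun v => Sum.elim v 0
        map_add' := fun v w => by funext x; rcases x with i | j <;> simp
        map_smul' := fun r v => by funext x; rcases x with i | j <;> simp } :
        (ι → R) →ₗ[R] (ι ⊕ κ → R)).comp (LinearMap.ker (lc R a)).subtype) (by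
    intro x
    rw [LinearMap.mem_ker]
    show lc R (Sum.elim (fun i => f (a i)) b) (Sum.elim (x : ι → R) 0) = 0
    rw [lc_sum]
    simp only [Sum.elim_inl, Sum.elim_inr]
    rw [lc_comp, LinearMap.mem_ker.mp x.2, map_zero, zero_add]
    exact map_zero _)

@[simp] theorem hi_coe (f : A →ₗ[R] B) (a : ι → A) (b : κ → B) (x : LinearMap.ker (lc R a)) :
    ((hi f a b x : _) : ι ⊕ κ → R) = Sum.elim (x : ι → R) 0 := rfl

/-- kernel of the combined cover onto the kernel of the second one -/
noncomputable def hp {f : A →ₗ[R] B} {g : B →ₗ[R] C} (hfg : Function.Exact f g)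
    (a : ι → A) (b : κ → B) :
    LinearMap.ker (lc R (Sum.elim (fun i => f (a i)) b)) →ₗ[R]
      LinearMap.ker (lc R (fun j => g (b j))) :=
  LinearMap.codRestrict _
    ((LinearMap.funLeft R R (Sum.inr : κ → ι ⊕ κ)).comp
      (LinearMap.ker (lc R (Sum.elim (fun i => f (a i)) b))).subtype) (by
    rintro ⟨x, hx⟩
    rw [LinearMap.mem_ker]
    show lc R (fun j => g (b j)) (fun j => x (Sum.inr j)) = 0
    rw [LinearMap.mem_ker, lc_sum, lc_comp] at hx
    rw [lc_comp]
    have := congrArg g hx
    rw [map_add, hfg.apply_apply_eq_zero, zero_add, map_zero] at this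
    exact this)

@[simp] theorem hp_coe {f : A →ₗ[R] B} {g : B →ₗ[R] C} (hfg : Function.Exact f g)
    (a : ι → A) (b : κ → B) (x : LinearMap.ker (lc R (Sum.elim (fun i => f (a i)) b))) :
    ((hp hfg a b x : _) : κ → R) = fun j => (x : ι ⊕ κ → R) (Sum.inr j) := rfl

theorem hi_inj (f : A →ₗ[R] B) (a : ι → A) (b : κ → B) : Function.Injective (hi f a b) := by
  intro x y hxy
  apply Subtype.ext
  funext i
  have h1 := congrArg Subtype.val hxy
  simp only [hi_coe] at h1
  exact congrFun h1 (Sum.inl i)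

theorem hp_surj {f : A →ₗ[R] B} {g : B →ₗ[R] C} (hfg : Function.Exact f g)
    (a : ι → A) (b : κ → B) (ha : Function.Surjective (lc R a)) :
    Function.Surjective (hp hfg a b) := by
  rintro ⟨v, hv⟩
  rw [LinearMap.mem_ker, lc_comp] at hv
  obtain ⟨x, hx⟩ := (hfg _).mp hv
  obtain ⟨w, rfl⟩ := ha x
  refine ⟨⟨Sum.elim (-w) v, ?_⟩, ?_⟩
  · rw [LinearMap.mem_ker, lc_sum]
    simp only [Sum.elim_inl, Sum.elim_inr]
    rw [lc_comp]
    show f (lc R a (fun i => (-w) i)) + _ = 0
    have : (fun i => (-w) i) = -w := rfl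
    rw [this, map_neg, map_neg, hx]
    exact neg_add_cancel _
  · apply Subtype.ext
    rfl

theorem hi_hp_exact {f : A →ₗ[R] B} {g : B →ₗ[R] C} (hf : Function.Injective f)
    (hfg : Function.Exact f g) (a : ι → A) (b : κ → B) :
    Function.Exact (hi f a b) (hp hfg a b) := by
  rintro ⟨x, hx⟩
  constructor
  · intro h
    have h1 : (fun j => x (Sum.inr j)) = 0 := congrArg Subtype.val h
    rw [LinearMap.mem_ker, lc_sum, lc_comp, h1, map_zero, add_zero] at hx
    have h2 : lc R a (fun i => x (Sum.inl i)) = 0 := hf (by rw [hx, map_zero])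
    refine ⟨⟨fun i => x (Sum.inl i), h2⟩, ?_⟩
    apply Subtype.ext
    funext y
    rcases y with i | j
    · rfl
    · exact (congrFun h1 j).symm
  · rintro ⟨z, hz⟩
    apply Subtype.ext
    funext j
    have h1 := congrArg Subtype.val hz
    exact (congrFun h1 (Sum.inr j)).symm

theorem exact_conj {B' C' : Type u} [AddCommGroup B'] [Module R B'] [AddCommGroup C'] [Module R C']
    {f : A →ₗ[R] B} {g : B →ₗ[R] C} (e : B ≃ₗ[R] B') (k : C ≃ₗ[R] C') (h : Function.Exact f g) :
    Function.Exact (e.toLinearMap.comp f)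
      (k.toLinearMap.comp (g.comp e.symm.toLinearMap)) := by
  intro x
  constructor
  · intro hx
    have h2 : g (e.symm x) = 0 := by
      apply k.injective
      rw [map_zero]; exact hx
    obtain ⟨y, hy⟩ := (h _).mp h2
    refine ⟨y, ?_⟩
    show e (f y) = x
    rw [hy]; simp
  · rintro ⟨y, hy⟩
    have h2 : f y = e.symm x := by
      apply e.injective
      rw [LinearEquiv.apply_symm_apply]; exact hy
    have h3 := (h _).mpr ⟨y, h2⟩
    show k (g (e.symm x)) = 0
    rw [h3, map_zero]

theorem surj_conj {B' C' : Type u} [AddCommGroup B'] [Module R B'] [AddCommGroup C'] [Module R C']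
    {g : B →ₗ[R] C} (e : B ≃ₗ[R] B') (k : C ≃ₗ[R] C') (h : Function.Surjective g) :
    Function.Surjective (k.toLinearMap.comp (g.comp e.symm.toLinearMap)) := by
  intro x
  obtain ⟨y, hy⟩ := h (k.symm x)
  refine ⟨e y, ?_⟩
  show k (g (e.symm (e y))) = x
  rw [LinearEquiv.symm_apply_apply, hy, LinearEquiv.apply_symm_apply]

end Generic

section Pairs

variable {V D : Type u} [Ring V] [Ring D] (σ : V →+* D)

/-- coordinatewise `σ` -/
def cσ (ι : Type) : (ι → V) →ₛₗ[σ] (ι → D) where
  toFun v i := σ (v i)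
  map_add' v w := by funext i; simp
  map_smul' r v := by funext i; simp

@[simp] theorem cσ_apply (ι : Type) (v : ι → V) (i : ι) : cσ σ ι v i = σ (v i) := rfl

variable {σ}

section

variable {A B C A' C' : Type u} [AddCommGroup A] [Module V A] [AddCommGroup C] [Module D C]
  [AddCommGroup A'] [Module V A'] [AddCommGroup C'] [Module D C']

theorem lc_cσ {ι : Type} [Fintype ι] (α : A →ₛₗ[σ] C) (a : ι → A) (v : ι → V) :
    lc D (fun i => α (a i)) (cσ σ ι v) = α (lc V a v) := by
  simp [lc_apply, map_sum, map_smulₛₗ]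

/-- the pair of kernels -/
def kmap {ι : Type} [Fintype ι] (α : A →ₛₗ[σ] C) (a : ι → A) :
    LinearMap.ker (lc V a) →ₛₗ[σ] LinearMap.ker (lc D (fun i => α (a i))) where
  toFun v := ⟨cσ σ ι (v : ι → V), by
    rw [LinearMap.mem_ker, lc_cσ, LinearMap.mem_ker.mp v.2, map_zero]⟩
  map_add' v w := by
    apply Subtype.ext
    exact map_add (cσ σ ι) _ _
  map_smul' r v := by
    apply Subtype.ext
    exact (cσ σ ι).map_smulₛₗ r _

@[simp] theorem kmap_coe {ι : Type} [Fintype ι] (α : A →ₛₗ[σ] C) (a : ι → A)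
    (v : LinearMap.ker (lc V a)) : ((kmap α a v : _) : ι → D) = cσ σ ι (v : ι → V) := rfl

/-- product of two pairs -/
def pmap (α : A →ₛₗ[σ] C) (α' : A' →ₛₗ[σ] C') : (A × A') →ₛₗ[σ] (C × C') where
  toFun x := (α x.1, α' x.2)
  map_add' x y := by simp
  map_smul' r x := by
    ext
    · simp [map_smulₛₗ]
    · simp [map_smulₛₗ]

@[simp] theorem pmap_apply (α : A →ₛₗ[σ] C) (α' : A' →ₛₗ[σ] C') (x : A × A') :
    pmap α α' x = (α x.1, α' x.2) := rfl

end

/-- finite free resolutions of pairs -/
def RR : ℕ → ∀ {A C : Type u} [AddCommGroup A] [Module V A] [AddCommGroup C] [Module D C],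
    (A →ₛₗ[σ] C) → Prop
  | 0, A, C, _, _, _, _, α => ∃ (ι : Type) (_ : Fintype ι) (a : ι → A),
      Function.Bijective (lc V a) ∧ Function.Bijective (lc D (fun i => α (a i)))
  | n + 1, A, C, _, _, _, _, α => ∃ (ι : Type) (_ : Fintype ι) (a : ι → A),
      Function.Surjective (lc V a) ∧ Function.Surjective (lc D (fun i => α (a i))) ∧
        RR n (kmap α a)

/-- the pair `A → C` has a finite free resolution -/
def PFF {A C : Type u} [AddCommGroup A] [Module V A] [AddCommGroup C] [Module D C]
    (α : A →ₛₗ[σ] C) : Prop := ∃ n, RR n α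

theorem RR.of_equiv : ∀ {n : ℕ} {A C A' C' : Type u} [AddCommGroup A] [Module V A]
    [AddCommGroup C] [Module D C] [AddCommGroup A'] [Module V A'] [AddCommGroup C'] [Module D C']
    {α : A →ₛₗ[σ] C} {α' : A' →ₛₗ[σ] C'} (e : A ≃ₗ[V] A') (g : C ≃ₗ[D] C')
    (_ : ∀ a, g (α a) = α' (e a)), RR n α → RR n α'
  | 0, A, C, A', C', _, _, _, _, _, _, _, _, α, α', e, g, h, ⟨ι, _, a, h1, h2⟩ => by
    refine ⟨ι, inferInstance, fun i => e (a i), ?_, ?_⟩
    · have : ⇑(lc V (fun i => e (a i))) = e ∘ (lc V a) := by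
        funext v
        exact lc_comp e.toLinearMap a v
      rw [this]
      exact e.bijective.comp h1
    · have : ⇑(lc D (fun i => α' (e (a i)))) = g ∘ (lc D (fun i => α (a i))) := by
        funext v
        simp only [← h]
        exact lc_comp g.toLinearMap _ v
      rw [this]
      exact g.bijective.comp h2
  | n + 1, A, C, A', C', _, _, _, _, _, _, _, _, α, α', e, g, h, ⟨ι, _, a, h1, h2, h3⟩ => by
    have e1 : ⇑(lc V (fun i => e (a i))) = e ∘ (lc V a) := by
      funext v
      exact lc_comp e.toLinearMap a v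
    have e2 : ⇑(lc D (fun i => α' (e (a i)))) = g ∘ (lc D (fun i => α (a i))) := by
      funext v
      simp only [← h]
      exact lc_comp g.toLinearMap _ v
    refine ⟨ι, inferInstance, fun i => e (a i), ?_, ?_, ?_⟩
    · rw [e1]
      exact e.surjective.comp h1
    · rw [e2]
      exact g.surjective.comp h2
    · have k1 : LinearMap.ker (lc V a) = LinearMap.ker (lc V (fun i => e (a i))) := by
        ext v
        rw [LinearMap.mem_ker, LinearMap.mem_ker, e1]
        exact (e.map_eq_zero_iff).symm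
      have k2 : LinearMap.ker (lc D (fun i => α (a i))) =
          LinearMap.ker (lc D (fun i => α' (e (a i)))) := by
        ext v
        rw [LinearMap.mem_ker, LinearMap.mem_ker, e2]
        exact (g.map_eq_zero_iff).symm
      exact RR.of_equiv (LinearEquiv.ofEq _ _ k1) (LinearEquiv.ofEq _ _ k2) (fun _ => rfl) h3

theorem RR.of_subsingleton : ∀ (n : ℕ) {A C : Type u} [AddCommGroup A] [Module V A]
    [AddCommGroup C] [Module D C] (α : A →ₛₗ[σ] C) [Subsingleton A] [Subsingleton C], RR n α
  | 0, A, C, _, _, _, _, α, _, _ => by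
    refine ⟨Empty, inferInstance, Empty.elim, ?_, ?_⟩
    · exact ⟨fun _ _ _ => Subsingleton.elim _ _, fun x => ⟨0, Subsingleton.elim _ _⟩⟩
    · exact ⟨fun _ _ _ => Subsingleton.elim _ _, fun x => ⟨0, Subsingleton.elim _ _⟩⟩
  | n + 1, A, C, _, _, _, _, α, _, _ => by
    refine ⟨Empty, inferInstance, Empty.elim, ?_, ?_, ?_⟩
    · exact fun x => ⟨0, Subsingleton.elim _ _⟩
    · exact fun x => ⟨0, Subsingleton.elim _ _⟩
    · exact RR.of_subsingleton n _

theorem RR.succ : ∀ {n : ℕ} {A C : Type u} [AddCommGroup A] [Module V A]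
    [AddCommGroup C] [Module D C] {α : A →ₛₗ[σ] C}, RR n α → RR (n + 1) α
  | 0, A, C, _, _, _, _, α, ⟨ι, _, a, h1, h2⟩ => by
    refine ⟨ι, inferInstance, a, h1.2, h2.2, ?_⟩
    have : Subsingleton (LinearMap.ker (lc V a)) := by
      rw [LinearMap.ker_eq_bot.mpr h1.1]; infer_instance
    have : Subsingleton (LinearMap.ker (lc D (fun i => α (a i)))) := by
      rw [LinearMap.ker_eq_bot.mpr h2.1]; infer_instance
    exact RR.of_subsingleton 0 _
  | n + 1, A, C, _, _, _, _, α, ⟨ι, _, a, h1, h2, h3⟩ =>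
    ⟨ι, inferInstance, a, h1, h2, RR.succ h3⟩

theorem RR.mono {n m : ℕ} (hnm : n ≤ m) {A C : Type u} [AddCommGroup A] [Module V A]
    [AddCommGroup C] [Module D C] {α : A →ₛₗ[σ] C} (h : RR n α) : RR m α := by
  induction m, hnm using Nat.le_induction with
  | base => exact h
  | succ m _ ih => exact ih.succ

theorem lc_single {R : Type u} [Ring R] {ι : Type} [Fintype ι] [DecidableEq ι] (v : ι → R) :
    lc R (fun i => (Pi.single i 1 : ι → R)) v = v := by
  rw [lc_apply]
  funext j
  simp [Finset.sum_apply, Pi.single_apply]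

theorem RR.of_free (n : ℕ) (ι : Type) [Fintype ι] : RR n (cσ σ ι) := by
  classical
  have h0 : RR 0 (cσ σ ι) := by
    refine ⟨ι, inferInstance, fun i => Pi.single i 1, ?_, ?_⟩
    · have : ⇑(lc V (fun i => (Pi.single i 1 : ι → V))) = id := by
        funext v; exact lc_single v
      rw [this]; exact Function.bijective_id
    · have h1 : (fun i => cσ σ ι (Pi.single i 1)) = fun i => (Pi.single i 1 : ι → D) := by
        funext i j
        rw [cσ_apply]
        by_cases h : j = i
        · subst h; simp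
        · simp [h]
      have : ⇑(lc D (fun i => (cσ σ ι (Pi.single i 1)))) = id := by
        rw [h1]
        funext v; exact lc_single v
      rw [this]; exact Function.bijective_id
  exact h0.mono (Nat.zero_le _)

/-- the horseshoe lemma for pairs -/
theorem RR.mid : ∀ {n : ℕ} {A B C A' B' C' : Type u} [AddCommGroup A] [Module V A]
    [AddCommGroup B] [Module V B] [AddCommGroup C] [Module V C] [AddCommGroup A'] [Module D A']
    [AddCommGroup B'] [Module D B'] [AddCommGroup C'] [Module D C']
    {α : A →ₛₗ[σ] A'} {β : B →ₛₗ[σ] B'} {γ : C →ₛₗ[σ] C'}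
    {f : A →ₗ[V] B} {g : B →ₗ[V] C} {f' : A' →ₗ[D] B'} {g' : B' →ₗ[D] C'}
    (_ : ∀ a, f' (α a) = β (f a)) (_ : ∀ b, g' (β b) = γ (g b))
    (_ : Function.Injective f) (_ : Function.Surjective g) (_ : Function.Exact f g)
    (_ : Function.Injective f') (_ : Function.Surjective g') (_ : Function.Exact f' g'),
    RR n α → RR n γ → RR n β
  | 0, A, B, C, A', B', C', _, _, _, _, _, _, _, _, _, _, _, _, α, β, γ, f, g, f', g', hf, hg,
      f1, g1, e1, f2, g2, e2, ⟨ι, _, a, a1, a2⟩, ⟨κ, _, c, c1, c2⟩ => by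
    choose b hb using fun j => g1 (c j)
    have hc : (fun j => g (b j)) = c := funext hb
    have hc' : (fun j => g' (β (b j))) = fun j => γ (c j) := by
      funext j; rw [hg, hb]
    have hα : (fun i => β (f (a i))) = fun i => f' (α (a i)) := by
      funext i; rw [hf]
    have hx : (fun x => β (Sum.elim (fun i => f (a i)) b x)) =
        Sum.elim (fun i => f' (α (a i))) (fun j => β (b j)) := by
      funext x
      rcases x with i | j
      · exact congrFun hα i
      · rfl
    refine ⟨ι ⊕ κ, inferInstance, Sum.elim (fun i => f (a i)) b, ⟨?_, ?_⟩, ?_, ?_⟩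
    · exact horse_inj f1 e1 a b a1.1 (by rw [hc]; exact c1.1)
    · exact horse_surj e1 a b a1.2 (by rw [hc]; exact c1.2)
    · rw [hx]
      exact horse_inj f2 e2 (fun i => α (a i)) (fun j => β (b j)) a2.1 (by rw [hc']; exact c2.1)
    · rw [hx]
      exact horse_surj e2 (fun i => α (a i)) (fun j => β (b j)) a2.2 (by rw [hc']; exact c2.2)
  | n + 1, A, B, C, A', B', C', _, _, _, _, _, _, _, _, _, _, _, _, α, β, γ, f, g, f', g', hf, hg,
      f1, g1, e1, f2, g2, e2, ⟨ι, _, a, a1, a2, a3⟩, ⟨κ, _, c, c1, c2, c3⟩ => by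
    choose b hb using fun j => g1 (c j)
    have hc : (fun j => g (b j)) = c := funext hb
    have hc' : (fun j => g' (β (b j))) = fun j => γ (c j) := by
      funext j; rw [hg, hb]
    have hx : (fun x => β (Sum.elim (fun i => f (a i)) b x)) =
        Sum.elim (fun i => f' (α (a i))) (fun j => β (b j)) := by
      funext x
      rcases x with i | j
      · exact (hf _).symm
      · rfl
    subst hc
    refine ⟨ι ⊕ κ, inferInstance, Sum.elim (fun i => f (a i)) b, ?_, ?_, ?_⟩
    · exact horse_surj e1 a b a1 c1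
    · rw [hx]
      exact horse_surj e2 (fun i => α (a i)) (fun j => β (b j)) a2 (by rw [hc']; exact c2)
    · have k2 : LinearMap.ker (lc D (Sum.elim (fun i => f' (α (a i))) (fun j => β (b j)))) =
          LinearMap.ker (lc D (fun x => β (Sum.elim (fun i => f (a i)) b x))) := by
        rw [hx]
      have k3 : LinearMap.ker (lc D (fun j => g' (β (b j)))) =
          LinearMap.ker (lc D (fun j => γ (g (b j)))) := by
        rw [hc']
      refine RR.mid (f := hi f a b) (g := hp e1 a b)
        (f' := (LinearEquiv.ofEq _ _ k2).toLinearMap.comp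
          (hi f' (fun i => α (a i)) (fun j => β (b j))))
        (g' := (LinearEquiv.ofEq _ _ k3).toLinearMap.comp
          ((hp e2 (fun i => α (a i)) (fun j => β (b j))).comp
          (LinearEquiv.ofEq _ _ k2).symm.toLinearMap))
        ?_ ?_ (hi_inj _ _ _) (hp_surj _ _ _ a1) (hi_hp_exact f1 e1 a b) ?_ ?_ ?_ a3 c3
      · intro x
        apply Subtype.ext
        funext y
        rcases y with i | j
        · rfl
        · exact (map_zero σ).symm
      · intro x
        apply Subtype.ext
        rfl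
      · exact (LinearEquiv.ofEq _ _ k2).injective.comp
          (hi_inj f' (fun i => α (a i)) (fun j => β (b j)))
      · exact surj_conj _ _ (hp_surj e2 (fun i => α (a i)) (fun j => β (b j)) a2)
      · exact exact_conj _ _ (hi_hp_exact f2 e2 (fun i => α (a i)) (fun j => β (b j)))

section

variable {A B C A' B' C' : Type u} [AddCommGroup A] [Module V A] [AddCommGroup B] [Module V B]
  [AddCommGroup C] [Module V C] [AddCommGroup A'] [Module D A'] [AddCommGroup B'] [Module D B']
  [AddCommGroup C'] [Module D C']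

theorem RR.prod {n : ℕ} {α : A →ₛₗ[σ] A'} {γ : C →ₛₗ[σ] C'} (ha : RR n α) (hc : RR n γ) :
    RR n (pmap α γ) := by
  refine RR.mid (f := LinearMap.inl V A C) (g := LinearMap.snd V A C)
    (f' := LinearMap.inl D A' C') (g' := LinearMap.snd D A' C') ?_ ?_ LinearMap.inl_injective
    LinearMap.snd_surjective ?_ LinearMap.inl_injective LinearMap.snd_surjective ?_ ha hc
  · intro a
    show (α a, 0) = (α a, γ 0)
    rw [map_zero]
  · intro b
    rfl
  · exact Function.Exact.inl_snd
  · exact Function.Exact.inl_snd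

theorem PFF.mid {α : A →ₛₗ[σ] A'} {β : B →ₛₗ[σ] B'} {γ : C →ₛₗ[σ] C'}
    {f : A →ₗ[V] B} {g : B →ₗ[V] C} {f' : A' →ₗ[D] B'} {g' : B' →ₗ[D] C'}
    (h1 : ∀ a, f' (α a) = β (f a)) (h2 : ∀ b, g' (β b) = γ (g b))
    (h3 : Function.Injective f) (h4 : Function.Surjective g) (h5 : Function.Exact f g)
    (h6 : Function.Injective f') (h7 : Function.Surjective g') (h8 : Function.Exact f' g')
    (ha : PFF α) (hc : PFF γ) : PFF β := by
  obtain ⟨n, hn⟩ := ha
  obtain ⟨m, hm⟩ := hc
  exact ⟨max n m, RR.mid h1 h2 h3 h4 h5 h6 h7 h8 (hn.mono (le_max_left _ _))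
    (hm.mono (le_max_right _ _))⟩

theorem PFF.of_equiv {α : A →ₛₗ[σ] A'} {β : B →ₛₗ[σ] B'} (e : A ≃ₗ[V] B) (g : A' ≃ₗ[D] B')
    (h : ∀ a, g (α a) = β (e a)) (ha : PFF α) : PFF β := by
  obtain ⟨n, hn⟩ := ha
  exact ⟨n, hn.of_equiv e g h⟩

theorem PFF.of_free (ι : Type) [Fintype ι] : PFF (cσ σ ι) := ⟨0, RR.of_free 0 ι⟩

theorem PFF.of_subsingleton (α : A →ₛₗ[σ] A') [Subsingleton A] [Subsingleton A'] : PFF α :=
  ⟨0, RR.of_subsingleton 0 α⟩

/-- the pair of kernels, general form -/
def kmap' {ι : Type} [Fintype ι] (α : A →ₛₗ[σ] A') (a : ι → A) (c : ι → A')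
    (h : ∀ i, α (a i) = c i) : LinearMap.ker (lc V a) →ₛₗ[σ] LinearMap.ker (lc D c) where
  toFun v := ⟨cσ σ ι (v : ι → V), by
    obtain rfl : (fun i => α (a i)) = c := funext h
    rw [LinearMap.mem_ker, lc_cσ, LinearMap.mem_ker.mp v.2, map_zero]⟩
  map_add' v w := by
    apply Subtype.ext
    exact map_add (cσ σ ι) _ _
  map_smul' r v := by
    apply Subtype.ext
    exact (cσ σ ι).map_smulₛₗ r _

theorem RR.kmap'_iff {n : ℕ} {ι : Type} [Fintype ι] (α : A →ₛₗ[σ] A') (a : ι → A) (c : ι → A')
    (h : ∀ i, α (a i) = c i) : RR n (kmap' α a c h) ↔ RR n (kmap α a) := by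
  obtain rfl : (fun i => α (a i)) = c := funext h
  exact Iff.rfl

end

section Schanuel

variable {R M : Type u} [Ring R] [AddCommGroup M] [Module R M] {ι κ : Type} [Fintype ι] [Fintype κ]

/-- kernel of an enlarged cover -/
noncomputable def sch (a : ι → M) (b : κ → M) (x : κ → (ι → R)) (hx : ∀ k, lc R a (x k) = b k) :
    (LinearMap.ker (lc R a) × (κ → R)) ≃ₗ[R] LinearMap.ker (lc R (Sum.elim a b)) where
  toFun u := ⟨Sum.elim ((u.1 : ι → R) - lc R x u.2) u.2, by
    rw [LinearMap.mem_ker, lc_sum]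
    simp only [Sum.elim_inl, Sum.elim_inr]
    have h1 : (fun i => ((u.1 : ι → R) - lc R x u.2) i) = (u.1 : ι → R) - lc R x u.2 := rfl
    have h2 : lc R a (lc R x u.2) = lc R b u.2 := by
      rw [← lc_comp]
      congr 2
      funext k
      exact hx k
    rw [map_sub, LinearMap.mem_ker.mp u.1.2, h2]
    abel⟩
  map_add' u w := by
    apply Subtype.ext
    funext y
    rcases y with i | j
    · simp only [Prod.fst_add, Prod.snd_add, map_add]
      simp
      abel
    · simp
  map_smul' r u := by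
    apply Subtype.ext
    funext y
    rcases y with i | j
    · simp only [Prod.smul_fst, Prod.smul_snd, map_smul]
      simp [mul_sub]
    · simp
  invFun w := (⟨(fun i => (w : ι ⊕ κ → R) (Sum.inl i)) +
      lc R x (fun j => (w : ι ⊕ κ → R) (Sum.inr j)), by
    rw [LinearMap.mem_ker, map_add]
    have h2 : lc R a (lc R x (fun j => (w : ι ⊕ κ → R) (Sum.inr j))) =
        lc R b (fun j => (w : ι ⊕ κ → R) (Sum.inr j)) := by
      rw [← lc_comp]
      congr 2
      funext k
      exact hx k
    rw [h2, ← lc_sum]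
    exact w.2⟩, fun j => (w : ι ⊕ κ → R) (Sum.inr j))
  left_inv u := by
    refine Prod.ext (Subtype.ext ?_) rfl
    funext i
    simp
  right_inv w := by
    apply Subtype.ext
    funext y
    rcases y with i | j
    · simp
    · rfl

@[simp] theorem sch_coe (a : ι → M) (b : κ → M) (x : κ → (ι → R)) (hx : ∀ k, lc R a (x k) = b k)
    (u : LinearMap.ker (lc R a) × (κ → R)) : ((sch a b x hx u : _) : ι ⊕ κ → R) =
      Sum.elim ((u.1 : ι → R) - lc R x u.2) u.2 := rfl



end Schanuel

section

variable {A B C A' B' C' : Type u} [AddCommGroup A] [Module V A] [AddCommGroup B] [Module V B]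
  [AddCommGroup C] [Module V C] [AddCommGroup A'] [Module D A'] [AddCommGroup B'] [Module D B']
  [AddCommGroup C'] [Module D C']

variable {ι κ : Type} [Fintype ι] [Fintype κ]




end

end Pairs

end Crest.Agent.R181.VC
end

-- ▼ part R181/VC889b
section

/-!
# R181, V-chain, V2c (2): quotients and direct summands of pairs with finite free resolutions

`IsInd i`: `i : M → N` is the universal semilinear map (`N = S ⊗_R M`).
-/

set_option autoImplicit false

namespace Crest.Agent.R181.VC

open FR

universe u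

section Ind

variable {R S : Type u} [Ring R] [Ring S] {τ : R →+* S}

/-- `N` is the induced module of `M` -/
def IsInd {M N : Type u} [AddCommGroup M] [Module R M] [AddCommGroup N] [Module S N]
    (i : M →ₛₗ[τ] N) : Prop :=
  Submodule.span S (Set.range i) = ⊤ ∧
    ∀ (X : Type u) [AddCommGroup X] [Module S X] (ψ : M →ₛₗ[τ] X),
      ∃ χ : N →ₗ[S] X, ∀ m, χ (i m) = ψ m

variable {M N M' N' : Type u} [AddCommGroup M] [Module R M] [AddCommGroup N] [Module S N]
  [AddCommGroup M'] [Module R M'] [AddCommGroup N'] [Module S N']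

theorem IsInd.ext {i : M →ₛₗ[τ] N} (h : IsInd i) {X : Type u} [AddCommGroup X] [Module S X]
    {f g : N →ₗ[S] X} (hfg : ∀ m, f (i m) = g (i m)) : f = g := by
  apply LinearMap.ext_on_range h.1
  exact hfg


theorem IsInd.of_equiv {i : M →ₛₗ[τ] N} {j : M' →ₛₗ[τ] N'} (hi : IsInd i)
    (e : M ≃ₗ[R] M') (g : N ≃ₗ[S] N') (h : ∀ m, g (i m) = j (e m)) : IsInd j := by
  constructor
  · rw [eq_top_iff]
    rintro x -
    have h1 : g.symm x ∈ Submodule.span S (Set.range i) := by rw [hi.1]; trivial
    have h2 : g (g.symm x) ∈ (Submodule.span S (Set.range i)).map g.toLinearMap :=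
      Submodule.mem_map_of_mem h1
    rw [LinearEquiv.apply_symm_apply, Submodule.map_span] at h2
    refine Submodule.span_mono ?_ h2
    rintro _ ⟨_, ⟨m, rfl⟩, rfl⟩
    exact ⟨e m, (h m).symm⟩
  · intro X _ _ ψ
    obtain ⟨χ, hχ⟩ := hi.2 X (ψ.comp e.toLinearMap)
    refine ⟨χ.comp g.symm.toLinearMap, fun m => ?_⟩
    obtain ⟨m, rfl⟩ := e.surjective m
    rw [← h]
    simpa using hχ m


/-- a factor of an induced pair is induced -/
theorem IsInd.fst {α : M →ₛₗ[τ] N} {β : M' →ₛₗ[τ] N'} (h : IsInd (pmap α β)) : IsInd α := by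
  constructor
  · rw [eq_top_iff]
    rintro x -
    have h1 : ((x, 0) : N × N') ∈ Submodule.span S (Set.range (pmap α β)) := by
      rw [h.1]; trivial
    have h2 := Submodule.mem_map_of_mem (f := LinearMap.fst S N N') h1
    rw [Submodule.map_span] at h2
    refine Submodule.span_mono ?_ h2
    rintro _ ⟨_, ⟨m, rfl⟩, rfl⟩
    exact ⟨m.1, rfl⟩
  · intro X _ _ ψ
    obtain ⟨χ, hχ⟩ := h.2 X (ψ.comp (LinearMap.fst R M M'))
    refine ⟨χ.comp (LinearMap.inl S N N'), fun m => ?_⟩
    have := hχ (m, 0)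
    simpa using this

theorem IsInd.prod {α : M →ₛₗ[τ] N} {β : M' →ₛₗ[τ] N'} (h : IsInd α) (h' : IsInd β) :
    IsInd (pmap α β) := by
  constructor
  · rw [eq_top_iff]
    rintro ⟨x, y⟩ -
    have h1 : ((x, 0) : N × N') ∈ Submodule.span S (Set.range (pmap α β)) := by
      have h2 : x ∈ Submodule.span S (Set.range α) := by rw [h.1]; trivial
      have h3 := Submodule.mem_map_of_mem (f := LinearMap.inl S N N') h2
      rw [Submodule.map_span] at h3
      refine Submodule.span_mono ?_ h3
      rintro _ ⟨_, ⟨m, rfl⟩, rfl⟩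
      exact ⟨(m, 0), by simp⟩
    have h1' : ((0, y) : N × N') ∈ Submodule.span S (Set.range (pmap α β)) := by
      have h2 : y ∈ Submodule.span S (Set.range β) := by rw [h'.1]; trivial
      have h3 := Submodule.mem_map_of_mem (f := LinearMap.inr S N N') h2
      rw [Submodule.map_span] at h3
      refine Submodule.span_mono ?_ h3
      rintro _ ⟨_, ⟨m, rfl⟩, rfl⟩
      exact ⟨(0, m), by simp⟩
    have := Submodule.add_mem _ h1 h1'
    simpa using this
  · intro X _ _ ψ
    obtain ⟨χ, hχ⟩ := h.2 X (ψ.comp (LinearMap.inl R M M'))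
    obtain ⟨χ', hχ'⟩ := h'.2 X (ψ.comp (LinearMap.inr R M M'))
    refine ⟨χ.coprod χ', fun m => ?_⟩
    have e1 : χ (α m.1) = ψ (m.1, 0) := hχ m.1
    have e2 : χ' (β m.2) = ψ (0, m.2) := hχ' m.2
    rw [pmap_apply, LinearMap.coprod_apply]
    show χ (α m.1) + χ' (β m.2) = ψ m
    rw [e1, e2, ← map_add]
    simp

end Ind

section Right

variable {R : Type u} [Ring R] {A B C : Type u} [AddCommGroup A] [Module R A] [AddCommGroup B]
  [Module R B] [AddCommGroup C] [Module R C] {ι : Type} [Fintype ι]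

/-- inclusion of kernels of covers -/
noncomputable def ri (g : B →ₗ[R] C) (b : ι → B) :
    LinearMap.ker (lc R b) →ₗ[R] LinearMap.ker (lc R (fun i => g (b i))) :=
  Submodule.inclusion (fun v hv => by
    rw [LinearMap.mem_ker, lc_comp, LinearMap.mem_ker.mp hv, map_zero])

theorem ri_inj (g : B →ₗ[R] C) (b : ι → B) : Function.Injective (ri g b) :=
  Submodule.inclusion_injective _

/-- the kernel of the cover of `C` maps to `A` -/
noncomputable def rp {f : A →ₗ[R] B} {g : B →ₗ[R] C} (hf : Function.Injective f)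
    (hfg : Function.Exact f g) (b : ι → B) : LinearMap.ker (lc R (fun i => g (b i))) →ₗ[R] A :=
  (LinearEquiv.ofInjective f hf).symm.toLinearMap.comp
    (LinearMap.codRestrict (LinearMap.range f) ((lc R b).comp
      (LinearMap.ker (lc R (fun i => g (b i)))).subtype) (fun x => (hfg _).mp (by
        show g (lc R b (x : ι → R)) = 0
        rw [← lc_comp]
        exact x.2)))

theorem rp_spec {f : A →ₗ[R] B} {g : B →ₗ[R] C} (hf : Function.Injective f)
    (hfg : Function.Exact f g) (b : ι → B) (x : LinearMap.ker (lc R (fun i => g (b i)))) :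
    f (rp hf hfg b x) = lc R b (x : ι → R) := by
  have h1 : ((LinearEquiv.ofInjective f hf) (rp hf hfg b x) : B) = f (rp hf hfg b x) := rfl
  rw [← h1]
  unfold rp
  rw [LinearMap.comp_apply, LinearEquiv.coe_coe, LinearEquiv.apply_symm_apply]
  rfl

theorem rp_surj {f : A →ₗ[R] B} {g : B →ₗ[R] C} (hf : Function.Injective f)
    (hfg : Function.Exact f g) (b : ι → B) (hb : Function.Surjective (lc R b)) :
    Function.Surjective (rp hf hfg b) := by
  intro a
  obtain ⟨v, hv⟩ := hb (f a)
  refine ⟨⟨v, ?_⟩, ?_⟩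
  · rw [LinearMap.mem_ker, lc_comp, hv]
    exact hfg.apply_apply_eq_zero a
  · apply hf
    rw [rp_spec]
    exact hv

theorem ri_rp_exact {f : A →ₗ[R] B} {g : B →ₗ[R] C} (hf : Function.Injective f)
    (hfg : Function.Exact f g) (b : ι → B) : Function.Exact (ri g b) (rp hf hfg b) := by
  intro x
  constructor
  · intro h
    have h1 := rp_spec hf hfg b x
    rw [h, map_zero] at h1
    exact ⟨⟨x, h1.symm⟩, rfl⟩
  · rintro ⟨z, rfl⟩
    apply hf
    rw [rp_spec, map_zero]
    exact z.2

end Right

section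

variable {V D : Type u} [Ring V] [Ring D] {σ : V →+* D}

variable {A B C A' B' C' : Type u} [AddCommGroup A] [Module V A] [AddCommGroup B] [Module V B]
  [AddCommGroup C] [Module V C] [AddCommGroup A'] [Module D A'] [AddCommGroup B'] [Module D B']
  [AddCommGroup C'] [Module D C']

variable {ι κ : Type} [Fintype ι] [Fintype κ]




/-- 2-of-3, right term -/
theorem PFF.right {α : A →ₛₗ[σ] A'} {β : B →ₛₗ[σ] B'} {γ : C →ₛₗ[σ] C'}
    {f : A →ₗ[V] B} {g : B →ₗ[V] C} {f' : A' →ₗ[D] B'} {g' : B' →ₗ[D] C'}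
    (h1 : ∀ a, f' (α a) = β (f a)) (h2 : ∀ b, g' (β b) = γ (g b))
    (h3 : Function.Injective f) (h4 : Function.Surjective g) (h5 : Function.Exact f g)
    (h6 : Function.Injective f') (h7 : Function.Surjective g') (h8 : Function.Exact f' g')
    (ha : PFF α) (hb : PFF β) : PFF γ := by
  obtain ⟨n, hb⟩ := hb
  obtain ⟨ι, _, b, b1, b2, b3⟩ := hb.succ
  have hc : (fun i => g' (β (b i))) = fun i => γ (g (b i)) := by
    funext i; rw [h2]
  have s1 : Function.Surjective (lc V (fun i => g (b i))) := by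
    have : ⇑(lc V (fun i => g (b i))) = g ∘ lc V b := by funext v; exact lc_comp g b v
    rw [this]; exact h4.comp b1
  have s2 : Function.Surjective (lc D (fun i => g' (β (b i)))) := by
    have : ⇑(lc D (fun i => g' (β (b i)))) = g' ∘ lc D (fun i => β (b i)) := by
      funext v; exact lc_comp g' _ v
    rw [this]; exact h7.comp b2
  have key : PFF (kmap' γ (fun i => g (b i)) (fun i => g' (β (b i))) (fun i => (h2 _).symm)) := by
    -- `0 → ker(B) → ker(C) → A → 0`
    refine PFF.mid (α := kmap β b) (γ := α)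
      (f := ri g b) (g := rp h3 h5 b) (f' := ri g' (fun i => β (b i)))
      (g' := rp h6 h8 (fun i => β (b i)))
      ?_ ?_ (ri_inj _ _) (rp_surj _ _ _ b1) (ri_rp_exact _ _ _) (ri_inj _ _) (rp_surj _ _ _ b2)
      (ri_rp_exact _ _ _) ⟨n, b3⟩ ha
    · intro x; rfl
    · intro x
      apply h6
      rw [rp_spec, h1, rp_spec]
      exact lc_cσ β b (x : ι → V)
  obtain ⟨m, hm⟩ := key
  rw [RR.kmap'_iff] at hm
  exact ⟨m + 1, ι, inferInstance, fun i => g (b i), s1, by rw [← hc]; exact s2, hm⟩





end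

end Crest.Agent.R181.VC
namespace Crest.Agent.R181.VC.RR
end Crest.Agent.R181.VC.RR
end

-- ▼ part R181/VC889c

/-!
# R181, V-chain, V2c (3): Step 5

`Psi¹` of a triple `A → C ← B` with a finite free resolution of the pair `A → C`, `B` a lattice in
`C`, and `Psi⁰ = 0`, has a finite free resolution over `T`.
-/

set_option autoImplicit false

namespace Crest.Agent.R181.VC

open FR V868 VB

universe u

variable {DD : Type u} [Ring DD] {L : Line DD} {T : Type u} [Ring T] {U : UnivT L T} (R : RB U)

/-- `p` in `O` -/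
def pO (L : Line DD) : L.O := ⟨L.p, L.pO⟩

theorem be_pO_pow {B C : Type u} [AddCommGroup B] [Module L.O B] [AddCommGroup C] [Module DD C]
    (be : B →ₛₗ[L.O.subtype] C) (s : ℕ) (b : B) : be (pO L ^ s • b) = L.p ^ s • be b := by
  rw [map_smulₛₗ, map_pow]; rfl

section OOpow

/-- `o ↦ p^m o` coordinatewise -/
def bP (L : Line DD) (m : ℕ) (ι : Type) : (ι → L.O) →ₛₗ[L.O.subtype] (ι → DD) where
  toFun o i := L.p ^ m * o i
  map_add' a b := by funext i; simp [mul_add]
  map_smul' o y := by
    funext i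
    simp only [Pi.smul_apply, smul_eq_mul, Subring.subtype_apply, Subring.coe_mul]
    rw [← mul_assoc, ← mul_assoc, L.ppow_comm]

@[simp] theorem bP_apply (m : ℕ) (ι : Type) (o : ι → L.O) (i : ι) :
    bP L m ι o i = L.p ^ m * o i := rfl

variable {ι : Type} [Fintype ι] [DecidableEq ι]

/-- `i`-th coordinate -/
abbrev pr (S : Type u) [Ring S] (i : ι) : (ι → S) →ₗ[S] S := LinearMap.proj i

/-- `i`-th inclusion -/
abbrev sg (S : Type u) [Ring S] (i : ι) : S →ₗ[S] (ι → S) := LinearMap.single S (fun _ : ι => S) i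

theorem deltaF_proj (m : ℕ) (i : ι) (y : Fr R.ρV (ι → L.V) × Fr R.ρO (ι → L.O)) :
    delta R (alV L) (beP L m) ((Fr.map R.ρV (pr L.V i)).prodMap
      (Fr.map R.ρO (pr L.O i)) y) =
      Fr.map R.ρV (res L.V (pr DD i))
        (delta R (cσ L.V.subtype ι) (bP L m ι) y) :=
  delta_map R (al := cσ L.V.subtype ι) (be := bP L m ι) (al' := alV L) (be' := beP L m)
    (pr L.V i) (pr L.O i) (pr DD i) (fun _ => rfl) (fun _ => rfl) y

theorem deltaF_single (m : ℕ) (i : ι) (y : Fr R.ρV L.V × Fr R.ρO L.O) :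
    delta R (cσ L.V.subtype ι) (bP L m ι) ((Fr.map R.ρV (sg L.V i)).prodMap
      (Fr.map R.ρO (sg L.O i)) y) =
      Fr.map R.ρV (res L.V (sg DD i)) (delta R (alV L) (beP L m) y) := by
  refine delta_map R (al' := cσ L.V.subtype ι) (be' := bP L m ι) (al := alV L) (be := beP L m)
    (sg L.V i) (sg L.O i) (sg DD i) ?_ ?_ y
  · intro a
    funext j
    by_cases h : j = i
    · subst h; simp [alV]
    · simp [h]
  · intro a
    funext j
    by_cases h : j = i
    · subst h; simp [beP]
    · simp [h]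

theorem deltaF_injective (m : ℕ) :
    Function.Injective (delta R (cσ L.V.subtype ι) (bP L m ι)) := by
  rw [injective_iff_map_eq_zero]
  intro y hy
  have h1 : ∀ i, (Fr.map R.ρV (pr L.V i)).prodMap
      (Fr.map R.ρO (pr L.O i)) y = (0 : Fr R.ρV L.V × Fr R.ρO L.O) := by
    intro i
    apply delta_P_injective R m
    rw [deltaF_proj, hy, map_zero, map_zero]
  refine Prod.ext ?_ ?_
  · refine Finsupp.ext fun w => ?_
    funext i
    exact DFunLike.congr_fun (F := R.W →₀ L.V) (congrArg Prod.fst (h1 i)) w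
  · refine Finsupp.ext fun w => ?_
    funext i
    exact DFunLike.congr_fun (F := R.W →₀ L.O) (congrArg Prod.snd (h1 i)) w

theorem Fr_sum_single (z : Fr R.ρV (ι → DD)) :
    z = ∑ i, Fr.map R.ρV (res L.V (sg DD i))
      (Fr.map R.ρV (res L.V (pr DD i)) z) := by
  have h : ∀ (s : Finset ι) (w : R.W), (Fr.co R.ρV (∑ i ∈ s,
      Fr.map R.ρV (res L.V (sg DD i))
      (Fr.map R.ρV (res L.V (pr DD i)) z))) w =
      ∑ i ∈ s, (Pi.single i ((Fr.co R.ρV z) w i) : ι → DD) := by
    intro s w
    induction s using Finset.induction_on with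
    | empty => rfl
    | insert i s hi ih =>
      rw [Finset.sum_insert hi, Finset.sum_insert hi, ← ih]
      rfl
  refine Finsupp.ext fun w => ?_
  have h2 := h Finset.univ w
  refine Eq.trans ?_ h2.symm
  funext j
  rw [Finset.sum_apply, Finset.sum_pi_single]
  simp
  rfl

/-- `Psi¹(OO(-m)^ι)` has a finite free resolution (it is free) -/
theorem ffr_psi1_F (m : ℕ) : FFR T (Psi1 R (cσ L.V.subtype ι) (bP L m ι)) := by
  let f : Psi1 R (cσ L.V.subtype ι) (bP L m ι) →ₗ[T] (ι → Psi1 R (alV L) (beP L m)) :=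
    LinearMap.pi fun i => psi1Map R (al := cσ L.V.subtype ι) (be := bP L m ι) (al' := alV L)
      (be' := beP L m) (pr L.V i) (pr L.O i) (pr DD i)
      (fun _ => rfl) (fun _ => rfl)
  have hf : Function.Bijective f := by
    constructor
    · rw [injective_iff_map_eq_zero]
      intro z hz
      obtain ⟨z, rfl⟩ := Submodule.mkQ_surjective _ z
      have h1 : ∀ i, ∃ y, delta R (alV L) (beP L m) y =
          Fr.map R.ρV (res L.V (pr DD i)) z := by
        intro i
        have h2 := congrFun hz i
        have h3 : (LinearMap.range (delta R (alV L) (beP L m))).mkQ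
          (Fr.map R.ρV (res L.V (pr DD i)) z) = 0 := h2
        rw [Submodule.mkQ_apply, Submodule.Quotient.mk_eq_zero] at h3
        exact h3
      choose y hy using h1
      rw [Submodule.mkQ_apply, Submodule.Quotient.mk_eq_zero]
      rw [Fr_sum_single R z]
      refine Submodule.sum_mem _ fun i _ => ?_
      rw [← hy, ← deltaF_single]
      exact ⟨_, rfl⟩
    · intro z
      choose x hx using fun i => Submodule.mkQ_surjective _ (z i)
      refine ⟨(LinearMap.range _).mkQ (∑ i, Fr.map R.ρV
        (res L.V (sg DD i)) (x i)), ?_⟩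
      funext j
      have h1 : ∀ i, Fr.map R.ρV (res L.V (pr DD j))
          (Fr.map R.ρV (res L.V (sg DD i)) (x i)) =
          if i = j then x i else 0 := by
        intro i
        refine Finsupp.ext fun w => ?_
        show (Pi.single i ((Fr.co R.ρV (x i)) w) : ι → DD) j = _
        by_cases h : i = j
        · subst h; simp; rfl
        · rw [if_neg h]
          exact Pi.single_eq_of_ne (Ne.symm h) _
      show (LinearMap.range (delta R (alV L) (beP L m))).mkQ
        (Fr.map R.ρV (res L.V (pr DD j)) _) = z j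
      rw [map_sum]
      simp only [h1]
      rw [Finset.sum_ite_eq' Finset.univ j, if_pos (Finset.mem_univ j), hx]
  have e1 : (ι → Psi1 R (alV L) (beP L m)) ≃ₗ[T] (Fin (Fintype.card ι * (m + 1)) → T) :=
    ((LinearEquiv.piCongrRight fun _ : ι => (psiPEquiv R m).symm).trans
      (LinearEquiv.curry T T ι (Fin (m + 1))).symm).trans
      (LinearEquiv.funCongrLeft T T ((Fintype.equivFin ι).prodCongr (Equiv.refl _) |>.trans
        finProdFinEquiv).symm)
  exact (FFR.of_free _).of_equiv ((LinearEquiv.ofBijective f hf).trans e1).symm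

end OOpow

section Step

variable {A B C : Type u} [AddCommGroup A] [Module L.V A] [AddCommGroup B] [Module L.O B]
  [AddCommGroup C] [Module DD C]

variable {ι : Type} [Fintype ι]

/-- the kernel lattice -/
def kO (m : ℕ) (al : A →ₛₗ[L.V.subtype] C) (be : B →ₛₗ[L.O.subtype] C) (a : ι → A) (b : ι → B)
    (hab : ∀ i, be (b i) = L.p ^ m • al (a i)) :
    LinearMap.ker (lc L.O b) →ₛₗ[L.O.subtype] LinearMap.ker (lc DD (fun i => al (a i))) where
  toFun o := ⟨bP L m ι (o : ι → L.O), by
    rw [LinearMap.mem_ker, lc_apply]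
    have h1 := congrArg be (LinearMap.mem_ker.mp o.2)
    rw [lc_apply, map_sum, map_zero] at h1
    rw [← h1]
    refine Finset.sum_congr rfl fun i _ => ?_
    rw [map_smulₛₗ, hab, bP_apply, smul_smul]
    congr 1
    exact L.ppow_comm m _⟩
  map_add' v w := by
    apply Subtype.ext
    exact map_add (bP L m ι) _ _
  map_smul' r v := by
    apply Subtype.ext
    exact (bP L m ι).map_smulₛₗ r _

@[simp] theorem kO_coe (m : ℕ) (al : A →ₛₗ[L.V.subtype] C) (be : B →ₛₗ[L.O.subtype] C)
    (a : ι → A) (b : ι → B) (hab : ∀ i, be (b i) = L.p ^ m • al (a i))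
    (o : LinearMap.ker (lc L.O b)) :
    ((kO m al be a b hab o : _) : ι → DD) = bP L m ι (o : ι → L.O) := rfl

theorem lc_bP (m : ℕ) (al : A →ₛₗ[L.V.subtype] C) (be : B →ₛₗ[L.O.subtype] C) (a : ι → A)
    (b : ι → B) (hab : ∀ i, be (b i) = L.p ^ m • al (a i)) (o : ι → L.O) :
    lc DD (fun i => al (a i)) (bP L m ι o) = be (lc L.O b o) := by
  rw [lc_apply, lc_apply, map_sum]
  refine Finset.sum_congr rfl fun i _ => ?_
  rw [map_smulₛₗ, hab, bP_apply, smul_smul]
  congr 1
  exact L.ppow_comm m _

theorem bP_injective (m : ℕ) : Function.Injective (bP L m ι) := by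
  intro x y h
  funext i
  apply Subtype.ext
  have h1 : L.p ^ m * (x i : DD) = L.p ^ m * (y i : DD) := congrFun h i
  have h2 := congrArg (fun z => L.x ^ m * z) h1
  simp only [← mul_assoc, L.xp_pow, one_mul] at h2
  exact h2

theorem exists_bP (m : ℕ) (c : ι → DD) : ∃ (k : ℕ), ∀ j, k ≤ j → ∃ o : ι → L.O,
    bP L m ι o = L.p ^ (j + m) • c := by
  classical
  choose k hk using fun i => L.exh (c i)
  refine ⟨Finset.univ.sup k, fun j hj => ?_⟩
  have h1 : ∀ i, L.p ^ j * c i ∈ L.O := by
    intro i
    have h2 : k i ≤ j := (Finset.le_sup (Finset.mem_univ i)).trans hj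
    obtain ⟨l, rfl⟩ := Nat.exists_eq_add_of_le h2
    rw [add_comm, pow_add, mul_assoc]
    exact L.O.mul_mem (L.O.pow_mem L.pO l) (hk i)
  refine ⟨fun i => ⟨_, h1 i⟩, ?_⟩
  funext i
  rw [bP_apply, Pi.smul_apply, smul_eq_mul, ← mul_assoc, ← pow_add, add_comm m j]

/-- one step of the induction -/
theorem step (hT : ∀ (B : Type u) [AddCommGroup B] [Module L.O B], Module.Finite L.O B →
      (∃ s : ℕ, ∀ b : B, pO L ^ s • b = 0) → FFR T (Fr R.ρO B))
    (m : ℕ) (al : A →ₛₗ[L.V.subtype] C) (be : B →ₛₗ[L.O.subtype] C)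
    (a : ι → A) (b : ι → B) (hab : ∀ i, be (b i) = L.p ^ m • al (a i))
    (ha : Function.Surjective (lc L.V a)) (hc : Function.Surjective (lc DD fun i => al (a i)))
    (hB : Module.Finite L.O B) (hbe : Function.Injective be)
    (h0 : Function.Injective (delta R al be))
    (hK : FFR T (Psi1 R (kmap al a) (kO m al be a b hab))) : FFR T (Psi1 R al be) := by
  classical
  -- the image triple
  let N : Submodule L.O B := LinearMap.range (lc L.O b)
  let be' : N →ₛₗ[L.O.subtype] C := be.comp N.subtype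
  -- `Z' → Z → τ`
  have t2 : TS (al' := al) (be' := be') (al := al) (be := be)
      (al'' := (0 : PUnit.{u+1} →ₛₗ[L.V.subtype] PUnit.{u+1}))
      (be'' := (0 : (B ⧸ N) →ₛₗ[L.O.subtype] PUnit.{u+1}))
      (fA := LinearMap.id) (fB := N.subtype) (fC := LinearMap.id) (gA := 0) (gB := N.mkQ)
      (gC := 0) := by
    refine ⟨Function.injective_id, N.injective_subtype, Function.injective_id,
      fun _ => ⟨0, Subsingleton.elim _ _⟩, N.mkQ_surjective, fun _ => ⟨0, Subsingleton.elim _ _⟩,
      ?_, LinearMap.exact_subtype_mkQ N, ?_, fun _ => rfl, fun _ => rfl, fun _ => rfl,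
      fun _ => rfl⟩
    · intro y; exact ⟨fun _ => ⟨y, rfl⟩, fun _ => rfl⟩
    · intro y; exact ⟨fun _ => ⟨y, rfl⟩, fun _ => rfl⟩
  -- `K → F → Z'`
  have t1 : TS (al' := kmap al a) (be' := kO m al be a b hab) (al := cσ L.V.subtype ι)
      (be := bP L m ι) (al'' := al) (be'' := be')
      (fA := (LinearMap.ker (lc L.V a)).subtype) (fB := (LinearMap.ker (lc L.O b)).subtype)
      (fC := (LinearMap.ker (lc DD fun i => al (a i))).subtype)
      (gA := lc L.V a) (gB := (lc L.O b).rangeRestrict) (gC := lc DD fun i => al (a i)) := by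
    refine ⟨Submodule.injective_subtype _, Submodule.injective_subtype _,
      Submodule.injective_subtype _, ha, LinearMap.surjective_rangeRestrict _, hc,
      LinearMap.exact_subtype_ker_map _, ?_, LinearMap.exact_subtype_ker_map _, fun _ => rfl,
      fun _ => rfl, fun v => (lc_cσ al a v).symm, fun o => (lc_bP m al be a b hab o).symm⟩
    intro y
    constructor
    · intro h
      exact ⟨⟨y, congrArg Subtype.val h⟩, rfl⟩
    · rintro ⟨z, rfl⟩
      exact Subtype.ext z.2
  have s1 := t1.ses R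
  have s2 := t2.ses R
  have hZ' : Function.Injective (delta R al be') := s2.injective_of h0
  -- `0 → Psi¹ K → Psi¹ F → Psi¹ Z' → 0`
  have f1 : FFR T (Psi1 R al be') :=
    FFR.right (s1.cokerMap_injective hZ') s1.cokerMap'_surjective s1.exact_coker hK
      (ffr_psi1_F R m)
  -- `0 → Psi⁰ τ → Psi¹ Z' → Psi¹ Z → 0`
  have hfin : Module.Finite L.O (B ⧸ N) := inferInstance
  have htors : ∃ s : ℕ, ∀ y : B ⧸ N, pO L ^ s • y = 0 := by
    obtain ⟨r, y, hy⟩ := Module.Finite.exists_fin (R := L.O) (M := B)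
    choose c hc' using fun j => hc (be (y j))
    choose k hk using fun j => exists_bP (L := L) m (c j)
    refine ⟨Finset.univ.sup k + m, ?_⟩
    have h1 : ∀ j, pO L ^ (Finset.univ.sup k + m) • y j ∈ N := by
      intro j
      obtain ⟨o, ho⟩ := hk j (Finset.univ.sup k) (Finset.le_sup (Finset.mem_univ j))
      refine ⟨o, ?_⟩
      apply hbe
      rw [← lc_bP m al be a b hab, ho, map_smul, hc', be_pO_pow]
    intro z
    obtain ⟨z, rfl⟩ := N.mkQ_surjective z
    have h2 : z ∈ Submodule.span L.O (Set.range y) := by rw [hy]; trivial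
    rw [← map_smul, Submodule.mkQ_apply, Submodule.Quotient.mk_eq_zero]
    induction h2 using Submodule.span_induction with
    | mem x hx =>
      obtain ⟨j, rfl⟩ := hx
      exact h1 j
    | zero => rw [smul_zero]; exact N.zero_mem
    | add u v _ _ hu hv => rw [smul_add]; exact N.add_mem hu hv
    | smul o u _ hu =>
      have h3 : pO L ^ (Finset.univ.sup k + m) • o • u =
          o • pO L ^ (Finset.univ.sup k + m) • u := by
        rw [smul_smul, smul_smul]
        congr 1
        apply Subtype.ext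
        have : ((pO L ^ (Finset.univ.sup k + m) : L.O) : DD) = L.p ^ (Finset.univ.sup k + m) := by
          rw [Subring.coe_pow]; rfl
        rw [Subring.coe_mul, Subring.coe_mul, this]
        exact L.ppow_comm _ _
      rw [h3]
      exact N.smul_mem o hu
  have f2 : FFR T (Psi0 R (0 : PUnit.{u+1} →ₛₗ[L.V.subtype] PUnit.{u+1})
      (0 : (B ⧸ N) →ₛₗ[L.O.subtype] PUnit.{u+1})) :=
    (hT (B ⧸ N) hfin htors).of_equiv (psi0Tors R _ _).symm
  have hsub : Subsingleton (Psi1 R (0 : PUnit.{u+1} →ₛₗ[L.V.subtype] PUnit.{u+1})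
      (0 : (B ⧸ N) →ₛₗ[L.O.subtype] PUnit.{u+1})) := psi1_subsingleton R _ _
  refine FFR.right (f := s2.δ) (g := s2.cokerMap) (s2.δ_injective h0) ?_ s2.exact_δ_right f2 f1
  intro z
  exact (s2.exact_coker z).1 (Subsingleton.elim _ _)

/-- **Step 5**, plain triples -/
theorem step5 [IsNoetherianRing L.O] (hT : ∀ (B : Type u) [AddCommGroup B] [Module L.O B], Module.Finite L.O B →
      (∃ s : ℕ, ∀ b : B, pO L ^ s • b = 0) → FFR T (Fr R.ρO B)) :
    ∀ (n : ℕ) {A B C : Type u} [AddCommGroup A] [Module L.V A] [AddCommGroup B] [Module L.O B]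
      [AddCommGroup C] [Module DD C] (al : A →ₛₗ[L.V.subtype] C) (be : B →ₛₗ[L.O.subtype] C),
      RR n al → Module.Finite L.O B → Function.Injective be →
      (∀ c : C, ∃ (m : ℕ) (b : B), be b = L.p ^ m • c) → Function.Injective (delta R al be) →
      FFR T (Psi1 R al be) := by
  classical
  -- common part: choice of `m`
  have key : ∀ {A B C : Type u} [AddCommGroup A] [Module L.V A] [AddCommGroup B] [Module L.O B]
      [AddCommGroup C] [Module DD C] (al : A →ₛₗ[L.V.subtype] C) (be : B →ₛₗ[L.O.subtype] C)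
      {ι : Type} [Fintype ι] (a : ι → A), (∀ c : C, ∃ (m : ℕ) (b : B), be b = L.p ^ m • c) →
      ∃ (m : ℕ) (b : ι → B), ∀ i, be (b i) = L.p ^ m • al (a i) := by
    intro A B C _ _ _ _ _ _ al be ι _ a h
    choose k b hb using fun i => h (al (a i))
    refine ⟨Finset.univ.sup k, fun i => pO L ^ (Finset.univ.sup k - k i) • b i, fun i => ?_⟩
    rw [be_pO_pow, hb, smul_smul, ← pow_add,
      Nat.sub_add_cancel (Finset.le_sup (Finset.mem_univ i))]
  intro n
  induction n with
  | zero =>
    intro A B C _ _ _ _ _ _ al be hR hB hbe hC h0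
    obtain ⟨ι, _, a, a1, a2⟩ := hR
    obtain ⟨m, b, hab⟩ := key al be a hC
    refine step R hT m al be a b hab a1.2 a2.2 hB hbe h0 ?_
    have : Subsingleton (LinearMap.ker (lc DD fun i => al (a i))) := by
      rw [LinearMap.ker_eq_bot.mpr a2.1]; infer_instance
    have := psi1_subsingleton R (kmap al a) (kO m al be a b hab)
    exact FFR.of_subsingleton
  | succ n ih =>
    intro A B C _ _ _ _ _ _ al be hR hB hbe hC h0
    obtain ⟨ι, _, a, a1, a2, a3⟩ := hR
    obtain ⟨m, b, hab⟩ := key al be a hC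
    refine step R hT m al be a b hab a1 a2 hB hbe h0 ?_
    have hinj : Function.Injective (kO m al be a b hab) := by
      intro x y hxy
      exact Subtype.ext (bP_injective m (congrArg Subtype.val hxy))
    refine ih (kmap al a) (kO m al be a b hab) a3 inferInstance hinj ?_ ?_
    · rintro ⟨c, hc⟩
      obtain ⟨k, hk⟩ := exists_bP (L := L) m c
      obtain ⟨o, ho⟩ := hk k le_rfl
      have ho' : lc L.O b o = 0 := by
        apply hbe
        rw [← lc_bP m al be a b hab, ho, map_smul, LinearMap.mem_ker.mp hc, smul_zero, map_zero]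
      refine ⟨k + m, ⟨o, ho'⟩, Subtype.ext ?_⟩
      exact ho
    · -- the kernel triple sits in `F`
      intro y z hyz
      have h1 := delta_map R (al := kmap al a) (be := kO m al be a b hab)
        (al' := cσ L.V.subtype ι) (be' := bP L m ι)
        (LinearMap.ker (lc L.V a)).subtype (LinearMap.ker (lc L.O b)).subtype
        (LinearMap.ker (lc DD fun i => al (a i))).subtype (fun _ => rfl) (fun _ => rfl)
      have h2 := deltaF_injective R m ((h1 y).trans ((congrArg _ hyz).trans (h1 z).symm))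
      refine Prod.ext ?_ ?_
      · exact Fr.map_injective R.ρV _ (Submodule.injective_subtype _) (congrArg Prod.fst h2)
      · exact Fr.map_injective R.ρO _ (Submodule.injective_subtype _) (congrArg Prod.snd h2)

end Step

end Crest.Agent.R181.VC
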