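import Crest.Agent.R181.VP836b
import Crest.Agent.R181.UR396h
import Crest.Agent.R181.FFR776c
import Crest.Agent.R181.FR459b
import Crest.Agent.R181.V3386a
import Crest.Agent.R181.CU735e
import Crest.Agent.R181.RO789b
import Crest.Agent.R181.TW825d
import Crest.Agent.R181.CU735d
import Crest.Agent.R181.CU735f
import Crest.Agent.R181.UT773b
import Crest.Agent.R181.AS7

-- ▼ part R181/VP836c
section

/-!
R181, V-chain (helper836): V1 over 825's `Chain`, part c: `T1 → Δ` injective, regularity on
`T^h ⊗ L` from `Reg X`, `Reg Y` from a left basis.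
-/

set_option autoImplicit false
set_option linter.unusedSectionVars false

namespace Crest.Agent.R181.VP

open AddMonoidAlgebra Crest.Agent.R181.UR Crest.Agent.R181.TW Crest.Agent.R181.RO
open Crest.Agent.R181.OR Crest.Agent.R181.UT Crest.Agent.R181.BM
open scoped Polynomial

variable {F I : Type} [Field F] [Fintype I] {n : ℕ} {d : TW.Dat F I n} {i : ℕ}
  {X : Lvl d i} {Y : Lvl d (i + 1)}

/-! ### `T1 → Δ` -/


section psi

variable (s : Step X Y) {σ : Type} [Fintype σ] (lam : Fin n → MvPolynomial σ F)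

theorem Ito1_X : Ito1 d.a d.th (d.Ql (i + 1) lam) X.w (iL d.a d.th _ X.w Polynomial.X) = 0 := by
  simp [Ito1]

theorem dlt_eq_zero (v : Vinf d.a d.th (d.Ql (i + 1) lam) X.w) (h : dlt s lam v = 0) :
    Ito1 d.a d.th (d.Ql (i + 1) lam) X.w v = 0 := by
  obtain ⟨ψ', hψ'⟩ := exists_factor (isU_U d.a d.th _ X.w)
    (isU_U d.a d.th (d.Ql i (dl F i)) X.w) (red lam)
    (fun x => ⟨Polynomial.C x, by simp⟩) (p1 := Polynomial.X)
    (fun x hx => by
      have h : Polynomial.X ∣ x := by
        rw [Polynomial.X_dvd_iff, Polynomial.coeff_zero_eq_eval_zero]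
        exact hx
      exact h) (Ito1 d.a d.th (d.Ql (i + 1) lam) X.w) (Ito1_X lam)
  have h1 : alpha (isU_U d.a d.th _ X.w) (isU_U d.a d.th (d.Ql i (dl F i)) X.w) (red lam) v = 0 := by
    apply mp_injective s.φ s.inj
    rw [map_zero]
    exact h
  rw [← hψ', RingHom.comp_apply, h1, map_zero]


end psi

/-! ### regularity on `T^h ⊗ L` -/

theorem Reg.th (hX : Reg X) {σ : Type} [Fintype σ] (lam : Fin n → MvPolynomial σ F)
    (y : Th d.a d.th (d.Ql (i + 1) lam) X.w)
    (hy : xh d.a d.th (d.Ql (i + 1) lam) X.w * y = 0) : y = 0 := by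
  let lam' : Fin n → (MvPolynomial σ F)[X] := fun t =>
    if (t : ℕ) = i then Polynomial.X else Polynomial.C (lam t) * 0
  have h1 : Qs (d.Ql (i + 1) lam) (Polynomial.C : MvPolynomial σ F →+* (MvPolynomial σ F)[X])
      0 Polynomial.X = d.Ql i lam' :=
    Qs_Ql d (i := i) (Polynomial.C : MvPolynomial σ F →+* (MvPolynomial σ F)[X])
      (fun c => rfl) 0 Polynomial.X lam
  have key : ∀ (Q' : I → MvPolynomial (Option (Vr i)) (MvPolynomial σ F)[X]), Q' = d.Ql i lam' →
      ∀ y : U d.a d.th Q' X.w, iL d.a d.th Q' X.w Polynomial.X * y = 0 → y = 0 := by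
    rintro _ rfl y hy
    exact hX.congr (Option σ) ((MvPolynomial.optionEquivLeft F σ).symm) lam' Polynomial.X
      Polynomial.X_ne_zero y hy
  exact key _ h1 y hy

/-! ### `Reg Y` from a left basis -/

section regY

variable (s : Step X Y) {σ : Type} [Fintype σ] (lam : Fin n → MvPolynomial σ F) [Infinite F]
  (hNT : NT Y)

/-- the line of the chain step -/
noncomputable abbrev ln : V868.Line (DD (datOf s lam hNT)) :=
  line (datOf s lam hNT) (VS d.a d.th (hkap s) (hkapF s) (datOf s lam hNT))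
    (xD_mem_VS d.a d.th (hkap s) (hkapF s) (datOf s lam hNT))
    (VS_coeff d.a d.th (hkap s) (hkapF s) (datOf s lam hNT))

/-- `UnivT` of the chain step -/
noncomputable def un : V868.UnivT (ln s lam hNT) (Y.U lam) :=
  univTc d.a d.th (hkap s) (hkapF s) (datOf s lam hNT) (cst σ) (UR.mp σ (algebraMap F Y.D))
    (fun x => dz_cst d.a d.th _ Y.w x) (fun x => dz_mp lam x)

/-- the leading coefficient of an element of `O` -/
theorem coeff_zero_OD (o : DD (datOf s lam hNT)) (ho : o ∈ OD (datOf s lam hNT)) :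
    ∃ δ : PA Y.D σ, (o : LaurentSeries (Y.U lam)).coeff 0 =
      dz d.a d.th (d.Ql (i + 1) lam) Y.w δ := by
  obtain ⟨g, hg, h1⟩ := ho
  obtain ⟨δ, hδ⟩ := exists_const (datOf s lam hNT) hg
  refine ⟨δ, ?_⟩
  have h1' : HahnSeries.ofPowerSeries ℤ (Y.U lam) g = (o : LaurentSeries (Y.U lam)) := h1
  rw [← hδ, ← h1', ← PowerSeries.coeff_zero_eq_constantCoeff_apply]
  exact HahnSeries.ofPowerSeries_apply_coeff (Γ := ℤ) g 0

theorem reg_of_left (B : V868.LB (ln s lam hNT)) (x : MvPolynomial σ F) (hx : x ≠ 0)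
    (y : Y.U lam) (hy : iL d.a d.th (d.Ql (i + 1) lam) Y.w x * y = 0) : y = 0 := by
  have hj := isChain_jinf d.a d.th (Q := d.Ql (i + 1) lam) (hkap s) (hkapF s)
  -- the element `x` of `O`
  let xo : DD (datOf s lam hNT) :=
    (toOD (datOf s lam hNT) ⟨_, j_mem_O (iL d.a d.th _ X.w (Polynomial.C x))⟩ :
      OD (datOf s lam hNT))
  have hxo : (xo : LaurentSeries (Y.U lam)) =
      HahnSeries.single (0 : ℤ) (iL d.a d.th (d.Ql (i + 1) lam) Y.w x) := by
    show HahnSeries.ofPowerSeries ℤ (Y.U lam) (jinf d.a d.th (Q := d.Ql (i + 1) lam) (hkap s)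
      (hkapF s) (iL d.a d.th _ X.w (Polynomial.C x))) = _
    rw [hj.L]
    exact HahnSeries.ofPowerSeries_C _
  refine regular_of_LB B (un s lam hNT) xo (iL d.a d.th (d.Ql (i + 1) lam) Y.w x)
    (toOD (datOf s lam hNT) _).2 ?_ ?_ y hy
  · intro o _
    show ((xo : LaurentSeries (Y.U lam)) * (o : LaurentSeries (Y.U lam))).coeff 0 = _
    rw [hxo, HahnSeries.coeff_single_mul, sub_zero]
    rfl
  · intro o ho h0
    obtain ⟨δ, hδ⟩ := coeff_zero_OD s lam hNT o ho
    have h1 : (un s lam hNT).Θ o = (o : LaurentSeries (Y.U lam)) := rfl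
    rw [h1, hδ] at h0 ⊢
    rw [← dz_mp, ← map_mul] at h0
    have h2 : UR.mp σ (algebraMap F Y.D) x * δ = 0 :=
      (datOf s lam hNT).inj (by rw [h0, map_zero])
    rcases mul_eq_zero.1 h2 with h3 | h3
    · exact absurd (mp_injective (σ := σ) (algebraMap F Y.D) (algebraMap F Y.D).injective
        (h3.trans (map_zero (UR.mp σ (algebraMap F Y.D))).symm)) hx
    · rw [h3, map_zero]

end regY

end Crest.Agent.R181.VP
end

-- ▼ part R181/FFR776d
section

/-! R181, V-chain: `AllFFR` in the language of helper459 (`FR.FFR`) and helper386 (`V3.Good`). -/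

set_option autoImplicit false

namespace Crest.Agent.R181.FFR

/-- all finitely generated modules have finite free resolutions, in the form `V3.Good` -/
theorem AllFFR.good {R : Type} [Ring R] (h : AllFFR R) : V3.Good R :=
  fun M _ _ _ => FR.ffr_iff.2 (h.ffr M inferInstance)





end Crest.Agent.R181.FFR
end

-- ▼ part R181/VP836d
section

/-!
R181, V-chain (helper836): V1 over 825's `Chain`, part d: completeness and separation of `O` inside
`DD`, the residue map, stable freeness of `V` from 825's form; general facts for 495's `V2abs`.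
-/

set_option autoImplicit false
set_option linter.unusedSectionVars false

namespace Crest.Agent.R181.VP

open AddMonoidAlgebra Crest.Agent.R181.UR Crest.Agent.R181.TW Crest.Agent.R181.RO
open Crest.Agent.R181.OR Crest.Agent.R181.UT Crest.Agent.R181.BM
open scoped Polynomial

section abstr

universe u

variable {T S Δ : Type u} [Ring T] [Ring S] [Ring Δ]
variable {j : S →+* PowerSeries T} {δ : S →+* Δ} {i : Δ →+* T} {p : S}

/-- `⋂ π^n O = 0` -/
theorem hsep_DD (h : RO.Dat j δ i p) (d : DD h) (hd : ∀ n : ℕ, ∃ o ∈ OD h, d = pD h ^ n * o) :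
    d = 0 := by
  apply Subtype.ext
  ext k
  rw [Subring.coe_zero, HahnSeries.coeff_zero]
  obtain ⟨o, ho, rfl⟩ := hd (k + 1).toNat
  rw [coeff_pD_pow_mul]
  apply (mem_OD_iff_coeff h).1 ho
  omega

/-- `O` is complete -/
theorem hsum_DD (h : RO.Dat j δ i p) (a : ℕ → DD h) (ha : ∀ n, a n ∈ OD h) :
    ∃ s ∈ OD h, ∀ N : ℕ, ∃ r ∈ OD h,
      s = ∑ n ∈ Finset.range N, pD h ^ n * a n + pD h ^ N * r := by
  choose a' ha' using fun n => toOD_surjective h ⟨a n, ha n⟩
  obtain ⟨s, hs⟩ := RO.exists_sum h a'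
  have hp : ∀ n : ℕ, ((toOD h (RO.pi h ^ n) : OD h) : DD h) = pD h ^ n := by
    intro n
    rw [map_pow, toOD_pi]
    rfl
  refine ⟨(toOD h s : OD h), (toOD h s).2, fun N => ?_⟩
  obtain ⟨r, hr⟩ := hs N
  refine ⟨(toOD h r : OD h), (toOD h r).2, ?_⟩
  rw [hr, map_add, map_sum, map_mul]
  push_cast
  rw [hp]
  congr 1
  refine Finset.sum_congr rfl fun n _ => ?_
  rw [map_mul]
  push_cast
  rw [hp, ha']

end abstr

section V

variable {F I : Type} [Field F] [Fintype I] {n : ℕ} {d : TW.Dat F I n} {i : ℕ}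
  {X : Lvl d i}

/-- stable freeness over `V'` in 396's form from 825's form -/
theorem allSF_Vp {σ : Type} [Fintype σ] (lam : Fin n → MvPolynomial σ F)
    (h : AllSF (X.U (fun t : Fin n => if (t : ℕ) = i then Polynomial.X
      else Polynomial.C (lam t)))) :
    AllSF (Vp d.a d.th (d.Ql (i + 1) lam) X.w) := by
  have h1 : Qs (d.Ql (i + 1) lam) (Polynomial.C : MvPolynomial σ F →+* (MvPolynomial σ F)[X])
      1 Polynomial.X = d.Ql i (fun t : Fin n => if (t : ℕ) = i then Polynomial.X
        else Polynomial.C (lam t)) := by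
    rw [Qs_Ql d (i := i) (Polynomial.C : MvPolynomial σ F →+* (MvPolynomial σ F)[X])
      (fun c => rfl) 1 Polynomial.X lam]
    congr 1
    funext t
    rw [mul_one]
  have key : ∀ (Q' : I → MvPolynomial (Option (Vr i)) (MvPolynomial σ F)[X]),
      Q' = d.Ql i (fun t : Fin n => if (t : ℕ) = i then Polynomial.X
        else Polynomial.C (lam t)) → AllSF (U d.a d.th Q' X.w) := by
    rintro _ rfl
    exact h
  exact key _ h1

theorem allFFR_PA (D σ : Type) [DivisionRing D] [Fintype σ] : FFR.AllFFR (PA D σ) :=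
  (FFR.AllFFR.of_divisionRing D).addMonoidAlgebra σ

end V

end Crest.Agent.R181.VP
end

-- ▼ part R181/VP836e
section

/-!
R181, V-chain (helper836): nontriviality of `Y.U lam` at the top level `n` (no condition).
-/

set_option autoImplicit false
set_option linter.unusedSectionVars false

namespace Crest.Agent.R181.VP

open AddMonoidAlgebra Crest.Agent.R181.UR Crest.Agent.R181.TW
open scoped Polynomial

variable {F I : Type} [Field F] [Fintype I] {n : ℕ} {d : TW.Dat F I n}

theorem lf_ext'_zero {A σ : Type} [Ring A] [Fintype σ] (w : I → σ → A) (l : I) :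
    lf (ext' w (fun _ => (0 : A)) l) = ren A some (lf (w l)) := by
  rw [lf, Fintype.sum_option, lf, map_sum]
  simp only [ext'_none, ext'_some, ren_single, Finsupp.mapDomain_single]
  rw [single_zero, zero_add]

theorem Ql_top (lam : Fin n → F) (l : I) :
    d.Ql n lam l = MvPolynomial.rename some (d.Qr n l) := by
  rw [Dat.Ql, Dat.Qr]
  have h : lvars n lam = fun t => MvPolynomial.rename some (vars F n t) := by
    funext t
    rw [lvars, if_pos t.2]
  rw [h]
  induction d.Q l using MvPolynomial.induction_on with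
  | C c =>
    rw [MvPolynomial.algHom_C, MvPolynomial.algHom_C]
    show MvPolynomial.C c = MvPolynomial.rename some (MvPolynomial.C c)
    rw [MvPolynomial.rename_C]
  | add p q hp hq => rw [map_add, map_add, map_add, hp, hq]
  | mul_X p i hp => rw [map_mul, map_mul, map_mul, hp, MvPolynomial.aeval_X, MvPolynomial.aeval_X]

/-- at the top level the ring `Y.U lam` is nonzero -/
theorem nt_top (Y : Lvl d n) : NT Y := by
  intro lam
  have ht : IsTuple d.a d.th (d.Ql n lam) (algebraMap F Y.D)
      (ext' (fun l v => (RingHom.id Y.D) (Y.w l v)) (fun _ => (0 : Y.D))) := by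
    have h := Y.tup
    constructor
    · intro l m
      rw [lf_ext'_zero, lf_ext'_zero, ← map_mul, ← map_mul]
      exact congrArg _ (h.comm l m)
    · intro l
      rw [Ql_top, lf_ext'_zero, ← map_pow, ← ren_mp_mv]
      have h1 := congrArg (ren Y.D some) (h.rel l)
      rw [map_add, map_sum] at h1
      refine h1.trans ?_
      congr 1
      refine Finset.sum_congr rfl fun m _ => ?_
      rw [map_mul, map_pow, lf_ext'_zero, ren_cst]
      rfl
  obtain ⟨f, -, -, -⟩ := exists_lift (a := d.a) (th := d.th) (Q := d.Ql n lam) (w := Y.w)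
    (RingHom.id Y.D) (algebraMap F Y.D) (fun _ => (0 : Y.D)) (fun c => rfl)
    (fun x z => Algebra.commutes x z) (fun x l => Commute.zero_right _) ht
  exact f.domain_nontrivial

end Crest.Agent.R181.VP
end

-- ▼ part R181/CU735g
section

/-!
# Right bases of `V` and of `O / π O` over `E`, containing `1`
-/

set_option autoImplicit false
set_option linter.unusedSectionVars false

namespace Crest.Agent.R181.CU

open Crest.Agent.R181.UR AddMonoidAlgebra Crest.Agent.R181.V868

/-! ### `O / π O` -/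

namespace Chart

variable {DD V Del : Type*} [Ring DD] [Ring V] [Ring Del] {C : Chart DD V Del}

/-- the right basis of `O / π O` -/
def BasisData.cO (B : BasisData C.rightAct) : Option (B.K 0) → C.O
  | none => 1
  | some k => B.b 0 k

theorem BasisData.cO_span (B : BasisData C.rightAct) (o : C.O) :
    ∃ (e : Option (B.K 0) →₀ C.E) (o' : C.O),
      (o : DD) = (e.sum fun k r => (B.cO k : DD) * C.j r) + C.pi * o' := by
  classical
  obtain ⟨v, e, h⟩ := B.span 0 (C.q o)
  let e' : Option (B.K 0) →₀ C.E :=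
    Finsupp.single none ⟨v, v.2⟩ + e.mapDomain some
  have h1 : (e'.sum fun k r => (B.cO k : DD) * C.j r) =
      C.j v + e.sum fun k r => (B.b 0 k : DD) * C.j r := by
    rw [Finsupp.sum_add_index' (h := fun k r => (B.cO k : DD) * C.j (r : C.E))
      (fun k => by simp) (fun k a b => by simp [mul_add]),
      Finsupp.sum_single_index (by simp),
      Finsupp.sum_mapDomain_index (h := fun k r => (B.cO k : DD) * C.j (r : C.E))
      (fun k => by simp) (fun k a b => by simp [mul_add])]
    congr 1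
    exact one_mul _
  have h2 : (e.sum fun k r => (B.b 0 k : DD) * C.j r) ∈ C.O :=
    C.rightAct.sum_mem (B.b 0) e
  have h3 : C.q (o - (⟨C.j v, by
      have := C.F_O 0 v v.2
      rwa [pow_zero, one_mul] at this⟩ + ⟨_, h2⟩)) = 0 := by
    rw [map_sub, map_add]
    have h4 := C.rightAct.q_sum (B.b 0) e
    have h5 : C.q ⟨_, h2⟩ = e.sum fun k c => C.rightAct.A' c (C.q (B.b 0 k)) := h4
    rw [h5, h, sub_eq_zero]
    congr 1
    rw [s_apply]
    congr 1
    apply Subtype.ext
    change (C.pi : DD) ^ 0 * C.j v = C.j v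
    rw [pow_zero, one_mul]
  obtain ⟨o', ho'⟩ := C.q_ker _ h3
  refine ⟨e', o', ?_⟩
  rw [h1, ← ho']
  push_cast
  abel

theorem BasisData.cO_indep (B : BasisData C.rightAct) (hC : C.Inj)
    (e : Option (B.K 0) →₀ C.E) (o' : C.O)
    (h : (e.sum fun k r => (B.cO k : DD) * C.j r) = C.pi * o') : e = 0 := by
  classical
  rw [Finsupp.sum_option_index e (fun k r => (B.cO k : DD) * C.j (r : C.E))
    (fun k => by simp) (fun k a b => by simp [mul_add])] at h
  have h1 : (B.cO none : DD) * C.j (e none) = C.j (e none) := one_mul _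
  have h2 : (e.some.sum fun k r => (B.b 0 k : DD) * C.j r) ∈ C.O :=
    C.rightAct.sum_mem (B.b 0) e.some
  have h5 : C.q ⟨_, h2⟩ = e.some.sum fun k c => C.rightAct.A' c (C.q (B.b 0 k)) :=
    C.rightAct.q_sum (B.b 0) e.some
  have h3 : C.q (C.jE (e none) + ⟨_, h2⟩) = 0 := by
    refine C.q_of_pi_mul (o' := o') ?_
    rw [← h, h1]
    rfl
  rw [map_add, h5] at h3
  have h6 : (e.some.sum fun k c => C.rightAct.A' c (C.q (B.b 0 k))) =
      C.s 0 ⟨-(e none : V), (C.F 0).neg_mem (e none).2⟩ := by
    rw [eq_neg_of_add_eq_zero_right h3, ← map_neg, s_apply]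
    congr 1
    apply Subtype.ext
    change ((-C.jE (e none) : C.O) : DD) = (C.pi : DD) ^ 0 * C.j (-(e none : V))
    rw [pow_zero, one_mul, map_neg]
    rfl
  have h7 := B.indep 0 _ _ h6
  rw [h7, Finsupp.sum_zero_index, add_zero] at h3
  have h8 : e none = 0 := qE_injective hC (by rw [qE_apply, h3, map_zero])
  ext k
  rcases k with _ | k
  · rw [h8]; rfl
  · have : e.some k = 0 := by rw [h7]; rfl
    rw [Finsupp.some_apply] at this
    rw [this]; rfl

/-! ### `V` -/

variable (C)

/-- right bases of the symbols of degree `l + 1` -/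
structure VData where
  /-- index types -/
  K : ℕ → Type
  /-- lifts -/
  g : ∀ l, K l → C.F (l + 1)
  span : ∀ l (v : C.F (l + 1)), ∃ e : K l →₀ C.E,
    C.s (l + 1) v = e.sum fun k c => C.s (l + 1) (g l k) * C.qE c
  indep : ∀ l (e : K l →₀ C.E),
    (e.sum fun k c => C.s (l + 1) (g l k) * C.qE c) = 0 → e = 0

variable {C}

theorem F_mul_E {l : ℕ} {v : V} (hv : v ∈ C.F l) (e : C.E) : v * e ∈ C.F l := by
  have := C.F_mul l 0 v e hv e.2
  rwa [add_zero] at this

theorem s_mul_E {l : ℕ} (v : C.F l) (e : C.E) :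
    C.s l ⟨v * e, F_mul_E v.2 e⟩ = C.s l v * C.qE e := by
  rw [s_apply, s_apply, qE_apply, ← map_mul]
  congr 1
  apply Subtype.ext
  change (C.pi : DD) ^ l * C.j (v * e) = (C.pi : DD) ^ l * C.j v * C.j e
  rw [map_mul, mul_assoc]

theorem s_succ_of_mem {l : ℕ} {v : V} (hv : v ∈ C.F l) :
    C.s (l + 1) ⟨v, C.F_mono (Nat.le_succ l) hv⟩ = 0 := by
  rw [s_apply]
  refine C.q_of_pi_mul (o' := ⟨(C.pi : DD) ^ l * C.j v, C.F_O l v hv⟩) ?_
  change (C.pi : DD) ^ (l + 1) * C.j v = C.pi * ((C.pi : DD) ^ l * C.j v)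
  rw [pow_succ', mul_assoc]

variable (B : VData C)

/-- the right basis of `V` -/
def VData.c : Option (Σ l, B.K l) → V
  | none => 1
  | some x => B.g x.1 x.2

theorem VData.span' (hC : C.Inj) (v : V) :
    ∃ e : Option (Σ l, B.K l) →₀ C.E, v = e.sum fun k r => B.c k * (r : V) := by
  classical
  have main : ∀ (l : ℕ) (v : V), v ∈ C.F l →
      ∃ e : Option (Σ l, B.K l) →₀ C.E, v = e.sum fun k r => B.c k * (r : V) := by
    intro l
    induction l with
    | zero =>
      intro v hv
      refine ⟨Finsupp.single none ⟨v, hv⟩, ?_⟩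
      rw [Finsupp.sum_single_index (by simp)]
      exact (one_mul v).symm
    | succ l ih =>
      intro v hv
      obtain ⟨e, he⟩ := B.span l ⟨v, hv⟩
      have h1 : ∀ k, (B.g l k : V) * (e k : V) ∈ C.F (l + 1) := fun k =>
        F_mul_E (B.g l k).2 (e k)
      let y : C.F (l + 1) := e.sum fun k c => ⟨(B.g l k : V) * (c : V), F_mul_E (B.g l k).2 c⟩
      have hy : C.s (l + 1) (⟨v, hv⟩ - y) = 0 := by
        rw [map_sub, he, sub_eq_zero]
        simp only [y, Finsupp.sum]
        rw [map_sum]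
        exact Finset.sum_congr rfl fun k _ => (s_mul_E _ _).symm
      have hy' := hC.2 l _ hy
      obtain ⟨e', he'⟩ := ih _ hy'
      have h2 : ((⟨v, hv⟩ - y : C.F (l + 1)) : V) =
          v - e.sum fun k c => (B.g l k : V) * (c : V) := by
        simp only [y, Finsupp.sum]
        push_cast
        rfl
      rw [h2] at he'
      refine ⟨e' + e.mapDomain (fun k => some ⟨l, k⟩), ?_⟩
      rw [Finsupp.sum_add_index' (h := fun k r => B.c k * ((r : C.E) : V))
        (fun k => by simp) (fun k a b => by simp [mul_add]),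
        Finsupp.sum_mapDomain_index (h := fun k r => B.c k * ((r : C.E) : V))
        (fun k => by simp) (fun k a b => by simp [mul_add]), ← he']
      have : (e.sum fun m r => B.c (some ⟨l, m⟩) * ((r : C.E) : V)) =
        e.sum fun k c => (B.g l k : V) * (c : V) := rfl
      rw [this]
      abel
  obtain ⟨l, hl⟩ := C.F_exh v
  exact main l v hl

theorem VData.indep' (e : Option (Σ l, B.K l) →₀ C.E)
    (h : (e.sum fun k r => B.c k * (r : V)) = 0) : e = 0 := by
  classical
  rw [Finsupp.sum_option_index e (fun k r => B.c k * ((r : C.E) : V))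
    (fun k => by simp) (fun k a b => by simp [mul_add])] at h
  have h1 : B.c none * (e none : V) = e none := one_mul _
  rw [h1] at h
  have key : e.some = 0 := by
    by_contra hne
    have hsupp : e.some.support.Nonempty := Finsupp.support_nonempty_iff.2 hne
    obtain ⟨x₀, hx₀, hmax⟩ := Finset.exists_max_image e.some.support (fun x => x.1) hsupp
    obtain ⟨m, k₀⟩ := x₀
    simp only at hmax
    -- restriction to level `m`
    let em : B.K m →₀ C.E := e.some.comapDomain (fun k => (⟨m, k⟩ : Σ l, B.K l))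
      (by
        intro a _ b _ hab
        have := (Sigma.mk.injEq _ _ _ _).mp hab
        exact eq_of_heq this.2)
    -- the sum of level `m` is in `F m`
    let φ : B.K m ↪ Σ l, B.K l := ⟨fun k => ⟨m, k⟩, fun a b hab => by
      have := (Sigma.mk.injEq _ _ _ _).mp hab
      exact eq_of_heq this.2⟩
    have hsplit : (e.some.sum fun k r => B.c (some k) * ((r : C.E) : V)) =
        (em.sum fun k r => (B.g m k : V) * ((r : C.E) : V)) +
        ∑ x ∈ e.some.support \ em.support.map φ, B.c (some x) * ((e.some x : C.E) : V) := by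
      have hsub : em.support.map φ ⊆ e.some.support := by
        intro x hx
        rw [Finset.mem_map] at hx
        obtain ⟨k, hk, rfl⟩ := hx
        rw [Finsupp.mem_support_iff] at hk ⊢
        exact hk
      rw [Finsupp.sum, ← Finset.sum_sdiff hsub, add_comm]
      congr 1
      rw [Finset.sum_map, Finsupp.sum]
      rfl
    have hlow : ∑ x ∈ e.some.support \ em.support.map φ, B.c (some x) * ((e.some x : C.E) : V)
        ∈ C.F m := by
      refine sum_mem fun x hx => ?_
      rw [Finset.mem_sdiff] at hx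
      obtain ⟨hx, hx'⟩ := hx
      have hlt : x.1 < m := by
        refine lt_of_le_of_ne (hmax x hx) ?_
        intro hxm
        apply hx'
        obtain ⟨l, k⟩ := x
        simp only at hxm
        subst hxm
        rw [Finset.mem_map]
        refine ⟨k, ?_, rfl⟩
        rw [Finsupp.mem_support_iff] at hx ⊢
        exact hx
      exact C.F_mono hlt (F_mul_E (B.g x.1 x.2).2 _)
    have htop : (em.sum fun k r => (B.g m k : V) * ((r : C.E) : V)) ∈ C.F m := by
      have h2 : (em.sum fun k r => (B.g m k : V) * ((r : C.E) : V)) =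
          -((e none : V) + ∑ x ∈ e.some.support \ em.support.map φ,
            B.c (some x) * ((e.some x : C.E) : V)) := by
        rw [hsplit] at h
        rw [eq_neg_iff_add_eq_zero, ← h]
        abel
      rw [h2]
      exact (C.F m).neg_mem ((C.F m).add_mem (C.F_mono (Nat.zero_le m) (e none).2) hlow)
    have h0 : (em.sum fun k c => C.s (m + 1) (B.g m k) * C.qE c) = 0 := by
      rw [← s_succ_of_mem htop]
      have : (⟨em.sum fun k r => (B.g m k : V) * ((r : C.E) : V),
          C.F_mono (Nat.le_succ m) htop⟩ : C.F (m + 1)) =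
          em.sum fun k c => ⟨(B.g m k : V) * (c : V), F_mul_E (B.g m k).2 c⟩ := by
        apply Subtype.ext
        simp only [Finsupp.sum]
        push_cast
        rfl
      rw [this, Finsupp.sum, Finsupp.sum, map_sum]
      exact Finset.sum_congr rfl fun k _ => (s_mul_E _ _).symm
    have h8 : em k₀ = 0 := by rw [B.indep m em h0]; rfl
    rw [Finsupp.mem_support_iff] at hx₀
    exact hx₀ h8
  rw [key, Finsupp.sum_zero_index, add_zero] at h
  ext k
  rcases k with _ | k
  · rw [h]; rfl
  · have : e.some k = 0 := by rw [key]; rfl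
    rw [Finsupp.some_apply] at this
    rw [this]; rfl

end Chart

/-! ### in the form of the line -/

section line

variable {DD V Del : Type} [Ring DD] [Ring V] [Ring Del] {L : Line DD} {C : Chart DD V Del}
variable (hC : C.Inj) (hO : C.O = L.O) (hp : (C.pi : DD) = L.p) (hV : C.j.range = L.V)

include hC hO hV in
theorem exists_lift_E {J : Type} (e : J →₀ DD) (he : ∀ j, e j ∈ L.V ⊓ L.O) :
    ∃ e' : J →₀ C.E, ∀ j, C.j (e' j) = e j :=
  ⟨e.mapRange (invE C) (invE_zero hC), fun j => by
    rw [Finsupp.mapRange_apply]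
    exact j_invE (exists_E_of_mem hC hO hV (he j))⟩

theorem sum_map_j {J : Type} (e' : J →₀ C.E) (c : J → DD) :
    ((e'.mapRange (fun x : C.E => C.j x) (by simp)).sum fun j r => c j * r) =
      e'.sum fun j r => c j * C.j r :=
  Finsupp.sum_mapRange_index (fun _ => mul_zero _)

theorem sum_eq_of_lift {J : Type} {e : J →₀ DD} {e' : J →₀ C.E}
    (h : ∀ j, C.j (e' j) = e j) (c : J → DD) :
    (e.sum fun j r => c j * r) = e'.sum fun j r => c j * C.j r := by
  rw [← sum_map_j]
  congr 1
  ext j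
  rw [Finsupp.mapRange_apply, h]

include hC hO hp hV in
/-- **right basis of `O / π O` over `E = V ⊓ O`, containing `1`** -/
theorem rightOB (B : Chart.BasisData C.rightAct) :
    ∃ (J : Type) (j0 : J) (c : J → DD), c j0 = 1 ∧ (∀ j, c j ∈ L.O) ∧
      (∀ o ∈ L.O, ∃ e : J →₀ DD, (∀ j, e j ∈ L.V ⊓ L.O) ∧ ∃ o' ∈ L.O,
        o = (e.sum fun j r => c j * r) + L.p * o') ∧
      ∀ e : J →₀ DD, (∀ j, e j ∈ L.V ⊓ L.O) → ∀ o' ∈ L.O,
        (e.sum fun j r => c j * r) = L.p * o' → e = 0 := by
  refine ⟨Option (B.K 0), none, fun k => B.cO k, rfl, fun k => ?_, ?_, ?_⟩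
  · rw [← hO]; exact (B.cO k).2
  · intro o ho
    rw [← hO] at ho
    obtain ⟨e, o', h⟩ := B.cO_span ⟨o, ho⟩
    refine ⟨e.mapRange (fun x : C.E => C.j x) (by simp), fun j => ?_, o', ?_, ?_⟩
    · rw [Finsupp.mapRange_apply]; exact j_mem_inf hO hV _
    · rw [← hO]; exact o'.2
    · rw [sum_map_j, ← hp]; exact h
  · intro e he o' ho' h
    rw [← hO] at ho'
    obtain ⟨e', he'⟩ := exists_lift_E hC hO hV e he
    rw [sum_eq_of_lift he', ← hp] at h
    have h0 := B.cO_indep hC e' ⟨o', ho'⟩ h
    ext j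
    rw [← he', h0]
    simp

include hC hO hV in
/-- **right basis of `V` over `E = V ⊓ O`, containing `1`** -/
theorem rightVB (B : Chart.VData C) :
    ∃ (J : Type) (j0 : J) (c : J → DD), c j0 = 1 ∧ (∀ j, c j ∈ L.V) ∧
      (∀ v ∈ L.V, ∃ e : J →₀ DD, (∀ j, e j ∈ L.V ⊓ L.O) ∧ v = e.sum fun j r => c j * r) ∧
      ∀ e : J →₀ DD, (∀ j, e j ∈ L.V ⊓ L.O) → (e.sum fun j r => c j * r) = 0 → e = 0 := by
  refine ⟨Option (Σ l, B.K l), none, fun k => C.j (B.c k), map_one C.j, fun k => ?_, ?_, ?_⟩
  · rw [← hV]; exact ⟨_, rfl⟩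
  · intro v hv
    rw [← hV] at hv
    obtain ⟨v, rfl⟩ := hv
    obtain ⟨e, h⟩ := B.span' hC v
    refine ⟨e.mapRange (fun x : C.E => C.j x) (by simp), fun j => ?_, ?_⟩
    · rw [Finsupp.mapRange_apply]; exact j_mem_inf hO hV _
    · rw [sum_map_j]
      conv_lhs => rw [h]
      rw [Finsupp.sum, map_sum]
      exact Finset.sum_congr rfl fun k _ => map_mul _ _ _
  · intro e he h
    obtain ⟨e', he'⟩ := exists_lift_E hC hO hV e he
    rw [sum_eq_of_lift he'] at h
    have h1 : C.j (e'.sum fun k r => B.c k * (r : V)) = 0 := by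
      rw [← h, Finsupp.sum, map_sum]
      exact Finset.sum_congr rfl fun k _ => map_mul _ _ _
    have h2 := Chart.j_injective hC (h1.trans (map_zero _).symm)
    have h0 := B.indep' e' h2
    ext j
    rw [← he', h0]
    simp

end line

/-! ### from the symbol data -/

section sym

variable {DD V D D' : Type} [Ring DD] [Ring V] [DivisionRing D] [DivisionRing D'] {τ : Type}
variable {C : Chart DD V (PA D τ)} {κ : D' →+* D} {S : ℕ → AddSubgroup D}

/-- the symbols of degree `l` as a right `D'`-space -/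
def SymData.sub (H : SymData C κ S) (l : ℕ) :
    letI : Module D'ᵐᵒᵖ D := Module.compHom D (κ.op)
    Submodule D'ᵐᵒᵖ D :=
  letI : Module D'ᵐᵒᵖ D := Module.compHom D (κ.op)
  { S l with smul_mem' := fun x d hd => H.right l x.unop d hd }

/-- a right basis of `S l` over `D'` -/
theorem SymData.exists_basis (H : SymData C κ S) (l : ℕ) :
    ∃ (K : Type) (b : K → D), (∀ k, b k ∈ S l) ∧
      (∃ r : D → K →₀ D', (∀ d ∈ S l, d = (r d).sum fun k x => b k * κ x)) ∧
      ∀ (s : Finset K) (x : K → D'), (∑ k ∈ s, b k * κ (x k)) = 0 → ∀ k ∈ s, x k = 0 := by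
  let _ : Module D'ᵐᵒᵖ D := Module.compHom D (κ.op)
  let M := H.sub l
  let b := Module.Basis.ofVectorSpace D'ᵐᵒᵖ M
  refine ⟨_, fun k => (b k : D), fun k => (b k).2, ?_, ?_⟩
  · classical
    refine ⟨fun d => if h : d ∈ M then
      (b.repr ⟨d, h⟩).mapRange MulOpposite.unop rfl else 0, ?_⟩
    intro d hd
    have hd' : d ∈ M := hd
    beta_reduce
    rw [dif_pos hd', Finsupp.sum_mapRange_index (fun k => by simp)]
    have h1 := b.linearCombination_repr ⟨d, hd'⟩
    rw [Finsupp.linearCombination_apply] at h1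
    have h2 := congrArg (fun z : M => (z : D)) h1
    simp only [Finsupp.sum] at h2 ⊢
    refine h2.symm.trans ?_
    push_cast
    rfl
  · intro s x h k hk
    have h1 : ∑ k ∈ s, (MulOpposite.op (x k)) • b k = 0 := by
      apply Subtype.ext
      push_cast
      exact h
    have h2 := linearIndependent_iff'.1 b.linearIndependent s
      (fun k => MulOpposite.op (x k)) h1 k hk
    exact MulOpposite.op_injective h2

theorem mem_range_of_coeff (H : SymData C κ S) {l : ℕ} {d : D} (hd : d ∈ S l) :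
    ∃ v : C.F l, C.s l v = cst τ d := by
  refine (H.range l (cst τ d)).2 fun m => ?_
  classical
  rw [cst_apply, coeff_single, Finsupp.single_apply]
  split_ifs
  · exact hd
  · exact (S l).zero_mem


theorem SymData.exists_VData (H : SymData C κ S) (hC : C.Inj) : Nonempty (Chart.VData C) := by
  classical
  choose K b hb hr hi using fun l => H.exists_basis (l + 1)
  choose r hr using hr
  choose g hg using fun l k => mem_range_of_coeff H (hb l k)
  refine ⟨⟨K, g, ?_, ?_⟩⟩
  · intro l v
    let d : PA D τ := C.s (l + 1) v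
    have hd : ∀ m, d.coeff m ∈ S (l + 1) := (H.range (l + 1) d).1 ⟨v, rfl⟩
    let act := (H.eqv hC).toAddEquiv
    let P : K l →₀ C.E := ∑ m ∈ d.coeff.support, (r l (d.coeff m)).mapRange
        (fun x => act.symm (single m x)) (by simp)
    have hP : ∀ k m, m ∈ d.coeff.support → (act (P k)).coeff m = r l (d.coeff m) k := by
      intro k m hm
      simp only [P, Finsupp.finsetSum_apply, Finsupp.mapRange_apply, map_sum,
        AddEquiv.apply_symm_apply]
      rw [coeff_sum, Finsupp.finsetSum_apply, Finset.sum_eq_single m]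
      · rw [coeff_single, Finsupp.single_eq_same]
      · intro m' _ hm'
        rw [coeff_single, Finsupp.single_eq_of_ne (Ne.symm hm')]
      · intro h; exact absurd hm h
    have hP0 : ∀ k m, m ∉ d.coeff.support → (act (P k)).coeff m = 0 := by
      intro k m hm
      simp only [P, Finsupp.finsetSum_apply, Finsupp.mapRange_apply, map_sum,
        AddEquiv.apply_symm_apply]
      rw [coeff_sum, Finsupp.finsetSum_apply, Finset.sum_eq_zero]
      intro m' hm'
      rw [coeff_single, Finsupp.single_eq_of_ne]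
      rintro rfl
      exact hm hm'
    refine ⟨P, ?_⟩
    change d = _
    ext m
    have hterm : ∀ k, (C.s (l + 1) (g l k) * C.qE (P k)).coeff m =
        b l k * κ ((act (P k)).coeff m) := by
      intro k
      rw [hg, coeff_cst_mul, ← H.mp_eqv hC, mp_coeff]
      rfl
    rw [Finsupp.sum, coeff_sum, Finsupp.finsetSum_apply, Finset.sum_congr rfl fun k _ => hterm k]
    by_cases hm : m ∈ d.coeff.support
    · rw [Finset.sum_congr rfl fun k _ => by rw [hP k m hm]]
      conv_lhs => rw [hr l _ (hd m)]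
      rw [Finsupp.sum]
      apply Finset.sum_subset
      · intro k hk
        rw [Finsupp.mem_support_iff] at hk ⊢
        intro h0
        apply hk
        rw [← hP k m hm, h0, map_zero]
        rfl
      · intro k _ hk
        rw [Finsupp.notMem_support_iff.1 hk, map_zero, mul_zero]
    · rw [Finset.sum_eq_zero fun k _ => by rw [hP0 k m hm, map_zero, mul_zero]]
      exact Finsupp.notMem_support_iff.1 hm
  · intro l e h
    by_contra hne
    obtain ⟨k, hk⟩ := Finsupp.support_nonempty_iff.2 hne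
    have h2 : ∀ m, ((H.eqv hC) (e k)).coeff m = 0 := by
      intro m
      refine hi l e.support (fun k => ((H.eqv hC) (e k)).coeff m) ?_ k hk
      have h3 := congrArg (fun z : PA D τ => z.coeff m) h
      simp only [Finsupp.sum] at h3
      rw [coeff_sum, Finsupp.finsetSum_apply] at h3
      refine Eq.trans (Finset.sum_congr rfl fun k _ => ?_) h3
      rw [hg, coeff_cst_mul, ← H.mp_eqv hC, mp_coeff]
    have h3 : (H.eqv hC) (e k) = 0 := by
      ext m
      exact h2 m
    have h4 : e k = 0 := by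
      rw [← (H.eqv hC).map_eq_zero_iff, h3]
    exact (Finsupp.mem_support_iff.1 hk) h4

end sym

end Crest.Agent.R181.CU
end

-- ▼ part R181/CU735h
section

/-!
# Lemma 3 for the concrete rings

Context of `UT773b`: `h : Dat (jinf a th hk hkF) δ i (iL X)`, `δ : V^∞ → PA D₁ τ`, `L = F[τ]`.
-/

set_option autoImplicit false
set_option linter.unusedSectionVars false

namespace Crest.Agent.R181.CU

open Crest.Agent.R181.UR Crest.Agent.R181.OR Crest.Agent.R181.RO Crest.Agent.R181.UT
open AddMonoidAlgebra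
open scoped Polynomial

section jD

variable {F D D1 L I σ : Type} [CommRing F] [Ring D] [Algebra F D] [Ring D1] [Algebra F D1]
  [CommRing L] [Algebra F L] [Fintype I] [Fintype σ] [DecidableEq σ]
  (a : I → ℕ) (th : I → I → F) {Q : I → MvPolynomial (Option (Option σ)) L}
  {w : I → σ → D} {kap : D →+* D1} {w1 : I → Option σ → D1}
  (hk : ∀ i v, w1 i (some v) = kap (w i v))
  (hkF : ∀ c : F, kap (algebraMap F D c) = algebraMap F D1 c)
  {Δ : Type} [Ring Δ] {δ : Vinf a th Q w →+* Δ} {i : Δ →+* U a th Q w1}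
  (h : Dat (jinf a th (Q := Q) hk hkF) δ i (iL a th _ w Polynomial.X))

theorem jV_mem_DD (v : Vp a th Q w) : jV a th (Q := Q) hk hkF v ∈ DD h := by
  have hC : ∀ s : Vinf a th Q w, HahnSeries.ofPowerSeries ℤ _ (jinf a th (Q := Q) hk hkF s) ∈ DD h :=
    fun s => ofPS_mem_DD h (j_mem_O s)
  refine generation a th _ w (fun v => jV a th (Q := Q) hk hkF v ∈ DD h)
    ?_ ?_ ?_ ?_ ?_ v
  · intro d
    rw [jV_iD]
    have := hC (iD a th _ w d)
    rwa [(isChain_jinf a th hk hkF).D] at this
  · intro x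
    induction x using Polynomial.induction_on with
    | C x =>
      rw [jV_iL]
      have := hC (iL a th _ w (Polynomial.C x))
      rwa [(isChain_jinf a th hk hkF).L] at this
    | add x y hx hy => rw [map_add, map_add]; exact add_mem hx hy
    | monomial n x hx =>
      rw [pow_succ, ← mul_assoc, map_mul, map_mul, jV_X]
      exact mul_mem hx (single_mem_DD h _)
  · intro l
    have h1 : jV a th (Q := Q) hk hkF (eta a th _ w l) = HahnSeries.single (-1) 1 *
        HahnSeries.ofPowerSeries ℤ _ (jinf a th (Q := Q) hk hkF (eta a th _ w l)) := by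
      rw [jV_eta, (isChain_jinf a th hk hkF).E, map_add, map_mul, HahnSeries.ofPowerSeries_X,
        mul_add, ← single_comm 1, ← mul_assoc, single_mul_single', single_comm (-1)]
      have : (HahnSeries.single (-1 + 1 : ℤ) (1 : U a th Q w1) :
          LaurentSeries (U a th Q w1)) = 1 := by
        rw [neg_add_cancel]; rfl
      rw [this, one_mul]
      rfl
    rw [h1]
    exact mul_mem (single_mem_DD h _) (hC _)
  · intro x y hx hy; rw [map_add]; exact add_mem hx hy
  · intro x y hx hy; rw [map_mul]; exact mul_mem hx hy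

/-- `V' → DD` -/
noncomputable def jD : Vp a th Q w →+* DD h :=
  (jV a th (Q := Q) hk hkF).codRestrict (DD h) (jV_mem_DD a th hk hkF h)


theorem jD_range : (jD a th hk hkF h).range = VS a th hk hkF h := by
  ext d
  rw [mem_VS]
  constructor
  · rintro ⟨v, rfl⟩
    exact ⟨v, rfl⟩
  · rintro ⟨v, hv⟩
    exact ⟨v, Subtype.ext hv⟩

/-- `RR → O` -/
noncomputable def BR : RR a th Q w →+* OD h := (jOD h).comp (RtoI a th Q w)

theorem qOD_BR (r : RR a th Q w) : qOD h (BR a th hk hkF h r) = δ (RtoI a th Q w r) := by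
  rw [BR, RingHom.comp_apply, qOD_jOD]

theorem hB (l : ℕ) (r : RR a th Q w) (hr : r ∈ (GR a th Q w).deg l) :
    ((oData h).pi : DD h) ^ l * jD a th hk hkF h (RtoV a th Q w r) = BR a th hk hkF h r := by
  refine rees_scale a th Q w (jD a th hk hkF h) ((OD h).subtype.comp (jOD h)) (pD h)
    (fun y => pD_comm h y) ?_ ?_ ?_ ?_ ?_ l r hr
  · intro d
    apply Subtype.ext
    change HahnSeries.ofPowerSeries ℤ _ (jinf a th (Q := Q) hk hkF (iD a th _ w d)) =
      jV a th (Q := Q) hk hkF (iD a th _ w d)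
    rw [(isChain_jinf a th hk hkF).D, jV_iD]
    rfl
  · intro x
    apply Subtype.ext
    change HahnSeries.ofPowerSeries ℤ _
      (jinf a th (Q := Q) hk hkF (iL a th _ w (Polynomial.C x))) =
      jV a th (Q := Q) hk hkF (iL a th _ w (Polynomial.C x))
    rw [(isChain_jinf a th hk hkF).L, jV_iL]
    rfl
  · apply Subtype.ext
    change (HahnSeries.single (1 : ℤ) 1 : LaurentSeries (U a th Q w1)) *
      jV a th (Q := Q) hk hkF (iL a th _ w Polynomial.X) = 1
    rw [jV_X, single_mul_single', add_neg_cancel]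
    rfl
  · apply Subtype.ext
    change HahnSeries.ofPowerSeries ℤ _
      (jinf a th (Q := Q) hk hkF (iL a th _ w Polynomial.X)) = HahnSeries.single 1 1
    rw [(isChain_jinf a th hk hkF).X, HahnSeries.ofPowerSeries_X]
  · intro l
    apply Subtype.ext
    change HahnSeries.ofPowerSeries ℤ _ (jinf a th (Q := Q) hk hkF (eta a th _ w l)) =
      (HahnSeries.single (1 : ℤ) 1 : LaurentSeries (U a th Q w1)) *
        jV a th (Q := Q) hk hkF (eta a th _ w l)
    rw [(isChain_jinf a th hk hkF).E, jV_eta, map_add, map_mul, HahnSeries.ofPowerSeries_X,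
      mul_add, add_comm, ← single_comm 1, single_comm 1
        (CL a th (iD a th Q w1 (w1 l none)) * HahnSeries.single (-1) 1), mul_assoc,
      single_mul_single', neg_add_cancel, add_comm]
    congr 1
    exact (mul_one _).symm

/-- the chart -/
noncomputable def chart : Chart (DD h) (Vp a th Q w) Δ :=
  mkChart (oData h) (GR a th Q w) (RtoV a th Q w) (RtoV_surjective a th Q w) (tR a th Q w)
    (tR_mem a th Q w) (RtoV_tR a th Q w) (jD a th hk hkF h) (BR a th hk hkF h)
    (hB a th hk hkF h)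

/-- the line of `UT773b` -/
noncomputable abbrev lineS : V868.Line (DD h) :=
  line h (VS a th hk hkF h) (xD_mem_VS a th hk hkF h) (VS_coeff a th hk hkF h)

theorem chart_O : (chart a th hk hkF h).O = (lineS a th hk hkF h).O := rfl

theorem chart_pi : ((chart a th hk hkF h).pi : DD h) = (lineS a th hk hkF h).p := rfl


theorem chart_range : (chart a th hk hkF h).j.range = (lineS a th hk hkF h).V :=
  jD_range a th hk hkF h

variable (hker : ∀ r : Vinf a th Q w, δ r = 0 → Ito1 a th Q w r = 0)
  (hreg : ∀ y, xh a th Q w * y = 0 → y = 0)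

include hker hreg in
/-- **injectivity of symbols** -/
theorem chart_inj : (chart a th hk hkF h).Inj := by
  apply mkChart_inj
  intro l r hr h0
  have h1 : δ (RtoI a th Q w r) = 0 := by
    rw [← qOD_BR a th hk hkF h]; exact h0
  exact rees_inj a th Q w (RingHom.id _) Function.injective_id hreg l r hr (hker _ h1)

include hker hreg in
theorem jD_injective : Function.Injective (jD a th hk hkF h) :=
  Chart.j_injective (chart_inj a th hk hkF h hker hreg)

/-- **`V' = V`** -/
noncomputable def VpEquiv : Vp a th Q w ≃+* (lineS a th hk hkF h).V :=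
  (RingEquiv.ofBijective (jD a th hk hkF h).rangeRestrict
    ⟨fun _ _ hxy => jD_injective a th hk hkF h hker hreg (congrArg Subtype.val hxy),
      (jD a th hk hkF h).rangeRestrict_surjective⟩).trans
    (RingEquiv.subringCongr (jD_range a th hk hkF h))


end jD

section main

variable {F D D1 I σ τ : Type} [CommRing F] [DivisionRing D] [Algebra F D] [DivisionRing D1]
  [Algebra F D1] [Fintype I] [Fintype σ] [DecidableEq σ]
  (a : I → ℕ) (th : I → I → F)
  {Q : I → MvPolynomial (Option (Option σ)) (MvPolynomial τ F)}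
  {w : I → σ → D} {kap : D →+* D1} {w1 : I → Option σ → D1}
  (hk : ∀ i v, w1 i (some v) = kap (w i v))
  (hkF : ∀ c : F, kap (algebraMap F D c) = algebraMap F D1 c)
  {δ : Vinf a th Q w →+* PA D1 τ} {i : PA D1 τ →+* U a th Q w1}
  (h : Dat (jinf a th (Q := Q) hk hkF) δ i (iL a th _ w Polynomial.X))
  (hres : IsRes a th kap w1 δ)
  (hker : ∀ r : Vinf a th Q w, δ r = 0 → Ito1 a th Q w r = 0)
  (hreg : ∀ y, xh a th Q w * y = 0 → y = 0)

theorem oData_q_BR : (oData h).q.comp (BR a th hk hkF h) = δ.comp (RtoI a th Q w) :=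
  RingHom.ext fun r => qOD_BR a th hk hkF h r

include hres in
/-- the symbol data -/
theorem chartSym : SymData (chart a th hk hkF h) kap
    (symS (GR a th Q w) ((oData h).q.comp (BR a th hk hkF h))) := by
  have hs : IsSym a th kap w1 ((oData h).q.comp (BR a th hk hkF h)) := by
    rw [oData_q_BR]
    exact hres.isSym
  exact symData (oData h) (GR a th Q w) (RtoV a th Q w) (RtoV_surjective a th Q w) (tR a th Q w)
    (tR_mem a th Q w) (RtoV_tR a th Q w) (jD a th hk hkF h) (BR a th hk hkF h)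
    (hB a th hk hkF h) kap hs.hκ hs.hmon (hs.hPS hkF) (hs.hP0 hkF)

/-- **left basis** -/
noncomputable def lbL : V868.LB (lineS a th hk hkF h) :=
  leftLB (chart_inj a th hk hkF h hker hreg) (chart_O a th hk hkF h) (chart_pi a th hk hkF h)
    (chart_range a th hk hkF h)
    ((chartSym a th hk hkF h hres).leftBD (chart_inj a th hk hkF h hker hreg))

/-- **right basis** -/
noncomputable def lbR : V868.LB (lineS a th hk hkF h).op :=
  rightLB (chart_inj a th hk hkF h hker hreg) (chart_O a th hk hkF h) (chart_pi a th hk hkF h)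
    (chart_range a th hk hkF h)
    ((chartSym a th hk hkF h hres).rightBD (chart_inj a th hk hkF h hker hreg))

include hres hker hreg in
/-- **495's `hOb`** -/
theorem hOb : ∃ (J : Type) (j0 : J) (c : J → DD h), c j0 = 1 ∧
    (∀ j, c j ∈ (lineS a th hk hkF h).O) ∧
    (∀ o ∈ (lineS a th hk hkF h).O, ∃ e : J →₀ DD h,
      (∀ j, e j ∈ (lineS a th hk hkF h).V ⊓ (lineS a th hk hkF h).O) ∧
      ∃ o' ∈ (lineS a th hk hkF h).O,
        o = (e.sum fun j r => c j * r) + (lineS a th hk hkF h).p * o') ∧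
    ∀ e : J →₀ DD h, (∀ j, e j ∈ (lineS a th hk hkF h).V ⊓ (lineS a th hk hkF h).O) →
      ∀ o' ∈ (lineS a th hk hkF h).O,
        (e.sum fun j r => c j * r) = (lineS a th hk hkF h).p * o' → e = 0 :=
  rightOB (chart_inj a th hk hkF h hker hreg) (chart_O a th hk hkF h) (chart_pi a th hk hkF h)
    (chart_range a th hk hkF h)
    ((chartSym a th hk hkF h hres).rightBD (chart_inj a th hk hkF h hker hreg))

include hres hker hreg in
/-- **495's `hVb`** -/
theorem hVb : ∃ (J : Type) (j0 : J) (c : J → DD h), c j0 = 1 ∧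
    (∀ j, c j ∈ (lineS a th hk hkF h).V) ∧
    (∀ v ∈ (lineS a th hk hkF h).V, ∃ e : J →₀ DD h,
      (∀ j, e j ∈ (lineS a th hk hkF h).V ⊓ (lineS a th hk hkF h).O) ∧
      v = e.sum fun j r => c j * r) ∧
    ∀ e : J →₀ DD h, (∀ j, e j ∈ (lineS a th hk hkF h).V ⊓ (lineS a th hk hkF h).O) →
      (e.sum fun j r => c j * r) = 0 → e = 0 :=
  rightVB (chart_inj a th hk hkF h hker hreg) (chart_O a th hk hkF h)
    (chart_range a th hk hkF h)
    ((chartSym a th hk hkF h hres).exists_VData (chart_inj a th hk hkF h hker hreg)).some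

end main

end Crest.Agent.R181.CU
end

-- ▼ part R181/CU735i
section

/-!
# `E = V ⊓ O = D[τ]`
-/

set_option autoImplicit false
set_option linter.unusedSectionVars false

namespace Crest.Agent.R181.CU

open Crest.Agent.R181.UR Crest.Agent.R181.OR Crest.Agent.R181.RO Crest.Agent.R181.UT
open AddMonoidAlgebra
open scoped Polynomial

section abstr

variable {DD V Del : Type} [Ring DD] [Ring V] [Ring Del] {L : V868.Line DD} {C : Chart DD V Del}
variable (hC : C.Inj) (hO : C.O = L.O) (hV : C.j.range = L.V)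


/-- `E → V ⊓ O` -/
noncomputable def toInf : C.E →+* ↥(L.V ⊓ L.O) :=
  (C.j.comp C.E.subtype).codRestrict (L.V ⊓ L.O) (fun e => j_mem_inf hO hV e)

/-- `E ≃ V ⊓ O` -/
noncomputable def infEquiv : C.E ≃+* ↥(L.V ⊓ L.O) :=
  RingEquiv.ofBijective (toInf hO hV) ⟨by
    intro x y hxy
    exact Subtype.ext (Chart.j_injective hC (congrArg Subtype.val hxy)), by
    rintro ⟨x, hx⟩
    obtain ⟨e, he⟩ := exists_E_of_mem hC hO hV hx
    exact ⟨e, Subtype.ext he⟩⟩


end abstr

section main

variable {F D D1 I σ τ : Type} [CommRing F] [DivisionRing D] [Algebra F D] [DivisionRing D1]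
  [Algebra F D1] [Fintype I] [Fintype σ] [DecidableEq σ]
  (a : I → ℕ) (th : I → I → F)
  {Q : I → MvPolynomial (Option (Option σ)) (MvPolynomial τ F)}
  {w : I → σ → D} {kap : D →+* D1} {w1 : I → Option σ → D1}
  (hk : ∀ i v, w1 i (some v) = kap (w i v))
  (hkF : ∀ c : F, kap (algebraMap F D c) = algebraMap F D1 c)
  {δ : Vinf a th Q w →+* PA D1 τ} {i : PA D1 τ →+* U a th Q w1}
  (h : Dat (jinf a th (Q := Q) hk hkF) δ i (iL a th _ w Polynomial.X))
  (hres : IsRes a th kap w1 δ)
  (hker : ∀ r : Vinf a th Q w, δ r = 0 → Ito1 a th Q w r = 0)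
  (hreg : ∀ y, xh a th Q w * y = 0 → y = 0)

/-- **`V ⊓ O = D[τ]`** -/
noncomputable def EEquiv :
    ↥((lineS a th hk hkF h).V ⊓ (lineS a th hk hkF h).O) ≃+* PA D τ :=
  (infEquiv (L := lineS a th hk hkF h) (chart_inj a th hk hkF h hker hreg)
    (chart_O a th hk hkF h) (chart_range a th hk hkF h)).symm.trans
    ((chartSym a th hk hkF h hres).eqv (chart_inj a th hk hkF h hker hreg))

end main

end Crest.Agent.R181.CU
end

-- ▼ part R181/VP836f
section

/-!
R181, V-chain (helper836): V1 over 825's `Chain`, part f: `IsRes` for the residue map of the chain,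
left basis, regularity of `L` at all levels, the inputs of 495's abstract V2.
-/

set_option autoImplicit false
set_option linter.unusedSectionVars false

namespace Crest.Agent.R181.VP

open AddMonoidAlgebra Crest.Agent.R181.UR Crest.Agent.R181.TW Crest.Agent.R181.RO
open Crest.Agent.R181.OR Crest.Agent.R181.UT Crest.Agent.R181.BM
open scoped Polynomial

variable {F I : Type} [Field F] [Fintype I] {n : ℕ} {d : TW.Dat F I n} {i : ℕ}
  {X : Lvl d i} {Y : Lvl d (i + 1)}


section one

variable (s : Step X Y) {σ : Type} [Fintype σ] (lam : Fin n → MvPolynomial σ F)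

theorem isRes_dlt : CU.IsRes d.a d.th (kap s) Y.w (dlt s lam) where
  D x := dlt_iD s lam x
  L x := by
    rw [dlt_iL, Polynomial.eval_C]
    rfl
  X := by rw [dlt_iL, Polynomial.eval_X, map_zero]
  E l := dlt_eta s lam l

variable [Infinite F] (hNT : NT Y)


/-- left basis of the chain step -/
noncomputable def lbLc (hX : Reg X) : V868.LB (ln s lam hNT) :=
  CU.lbL d.a d.th (hkap s) (hkapF s) (datOf s lam hNT) (isRes_dlt s lam)
    (dlt_eq_zero s lam) (hX.th lam)

/-- right basis of the chain step -/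
noncomputable def lbRc (hX : Reg X) : V868.LB (ln s lam hNT).op :=
  CU.lbR d.a d.th (hkap s) (hkapF s) (datOf s lam hNT) (isRes_dlt s lam)
    (dlt_eq_zero s lam) (hX.th lam)

end one

theorem reg_step [Infinite F] (s : Step X Y) (hNT : NT Y) (hX : Reg X) : Reg Y := by
  intro σ _ lam x hx y hy
  exact reg_of_left s lam hNT (lbLc s lam hNT hX) x hx y hy

/-- `L` is regular at all levels of the chain -/
theorem reg [LinearOrder I] [Infinite F] (hth : ∀ l m : I, ¬ l < m → d.th l m = 0)
    (hNT : ∀ j : ℕ, j < n → ∀ Z : Lvl d j, Chain d j Z → NT Z) {i : ℕ} {X : Lvl d i}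
    (c : Chain d i X) (hi : i ≤ n) : Reg X := by
  induction c with
  | base => exact reg_lvl0 hth
  | @step j Z Y c s ih =>
    rcases Nat.lt_or_ge (j + 1) n with h | h
    · exact reg_step s (hNT _ h Y (Chain.step c s)) (ih (by omega))
    · obtain rfl : j + 1 = n := le_antisymm hi h
      exact reg_step s (nt_top Y) (ih (by omega))

/-- the statement of the abstract V2 (495) -/
def V2Abs : Prop :=
  ∀ {DD : Type} [Ring DD] (L : V868.Line DD) {T : Type} [Ring T] (_ : V868.UnivT L T)
    (_ : V868.LB L) (_ : V868.LB L.op)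
    (_ : ∀ d : DD, (∀ n : ℕ, ∃ o ∈ L.O, d = L.p ^ n * o) → d = 0)
    (_ : ∀ a : ℕ → DD, (∀ n, a n ∈ L.O) → ∃ s ∈ L.O, ∀ N : ℕ, ∃ r ∈ L.O,
      s = ∑ n ∈ Finset.range N, L.p ^ n * a n + L.p ^ N * r)
    {Δ : Type} [Ring Δ] (q : L.O →+* Δ) (_ : Function.Surjective q)
    (_ : ∀ o, q o = 0 → ∃ o' ∈ L.O, (o : DD) = L.p * o') (_ : q ⟨L.p, L.pO⟩ = 0)
    (_ : FFR.AllFFR ↥(L.V ⊓ L.O)) (_ : FFR.AllFFR Δ)
    (_ : ∃ (J : Type) (j0 : J) (c : J → DD), c j0 = 1 ∧ (∀ j, c j ∈ L.V) ∧
      (∀ v ∈ L.V, ∃ e : J →₀ DD, (∀ j, e j ∈ L.V ⊓ L.O) ∧ v = e.sum fun j r => c j * r) ∧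
      ∀ e : J →₀ DD, (∀ j, e j ∈ L.V ⊓ L.O) → (e.sum fun j r => c j * r) = 0 → e = 0)
    (_ : ∃ (J : Type) (j0 : J) (c : J → DD), c j0 = 1 ∧ (∀ j, c j ∈ L.O) ∧
      (∀ o ∈ L.O, ∃ e : J →₀ DD, (∀ j, e j ∈ L.V ⊓ L.O) ∧
        ∃ o' ∈ L.O, o = (e.sum fun j r => c j * r) + L.p * o') ∧
      ∀ e : J →₀ DD, (∀ j, e j ∈ L.V ⊓ L.O) → ∀ o' ∈ L.O,
        (e.sum fun j r => c j * r) = L.p * o' → e = 0)
    (_ : AllSF L.V), AllSF T

theorem allFFR_of_equiv {A B : Type} [Ring A] [Ring B] (e : A ≃+* B) (h : FFR.AllFFR B) :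
    FFR.AllFFR A := h.congr e.symm

section two

variable [Infinite F] (s : Step X Y) (hNT : NT Y) {σ : Type} [Fintype σ]
  (lam : Fin n → MvPolynomial σ F) (hX : Reg X)

include hX in
theorem allFFR_inf : FFR.AllFFR ↥((ln s lam hNT).V ⊓ (ln s lam hNT).O) :=
  allFFR_of_equiv (CU.EEquiv d.a d.th (hkap s) (hkapF s) (datOf s lam hNT) (isRes_dlt s lam)
    (dlt_eq_zero s lam) (hX.th lam)) (allFFR_PA X.D σ)

include hX in
theorem allSF_V (hV : AllSF (X.U (fun t : Fin n => if (t : ℕ) = i then Polynomial.X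
      else Polynomial.C (lam t)))) : AllSF (ln s lam hNT).V :=
  (allSF_Vp lam hV).congr (CU.VpEquiv d.a d.th (hkap s) (hkapF s) (datOf s lam hNT)
    (dlt_eq_zero s lam) (hX.th lam))

include s hNT hX in
/-- one step -/
theorem allSF_step (habs : V2Abs) (hV : AllSF (X.U (fun t : Fin n =>
      if (t : ℕ) = i then Polynomial.X else Polynomial.C (lam t)))) : AllSF (Y.U lam) :=
  habs (ln s lam hNT) (un s lam hNT) (lbLc s lam hNT hX) (lbRc s lam hNT hX)
    (hsep_DD (datOf s lam hNT)) (hsum_DD (datOf s lam hNT))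
    (CU.qOD (datOf s lam hNT)) (CU.oData (datOf s lam hNT)).q_surj
    (fun o ho => by
      obtain ⟨o', h⟩ := (CU.oData (datOf s lam hNT)).q_ker o ho
      exact ⟨o', o'.2, h⟩) (CU.oData (datOf s lam hNT)).q_pi
    (allFFR_inf s hNT lam hX) (allFFR_PA Y.D σ)
    (CU.hVb d.a d.th (hkap s) (hkapF s) (datOf s lam hNT) (isRes_dlt s lam)
      (dlt_eq_zero s lam) (hX.th lam))
    (CU.hOb d.a d.th (hkap s) (hkapF s) (datOf s lam hNT) (isRes_dlt s lam)
      (dlt_eq_zero s lam) (hX.th lam))
    (allSF_V s hNT lam hX hV)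

end two

/-- **V2 from the abstract V2 and BM1** -/
theorem v2_of_abs [LinearOrder I] [Infinite F] (habs : V2Abs)
    (hth : ∀ l m : I, ¬ l < m → d.th l m = 0)
    (hNT : ∀ j : ℕ, j < n → ∀ Z : Lvl d j, Chain d j Z → NT Z) : V2Stmt d := by
  intro i hi X c Y s σ _ lam hV
  exact allSF_step s (hNT _ hi Y (Chain.step c s)) lam (reg hth hNT c (by omega)) habs hV

end Crest.Agent.R181.VP
end

-- ▼ part R181/VP836g

/-!
R181, V-chain (helper836): `v2_of_abs` for 279's `AS.dat`.
-/

set_option autoImplicit false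

namespace Crest.Agent.R181.VP

open Crest.Agent.R181.TW

section

variable {r : ℕ} (a : Fin (r + 1) → ℕ) (f : Fin (r + 1) → MvPolynomial (Fin (r + 1)) ℂ)
  (ha : Monotone a) (ha2 : ∀ i, 2 ≤ a i) (hf : ∀ i, (f i).IsHomogeneous (a i))

instance infinite_Fld (n : ℕ) : Infinite (AS.Fld n) := inferInstance

theorem th_dat (l m : Fin r) (h : ¬ l < m) : (AS.dat a f ha ha2 hf).th l m = 0 :=
  if_neg fun h' => h (Fin.succ_lt_succ_iff.1 h')

/-- **V2 for `AS.dat` from the abstract V2 and BM1** -/
theorem v2_dat (habs : V2Abs)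
    (hNT : ∀ j : ℕ, j < r + 1 → ∀ Z : Lvl (AS.dat a f ha ha2 hf) j,
      Chain (AS.dat a f ha ha2 hf) j Z → NT Z) : V2Stmt (AS.dat a f ha ha2 hf) :=
  v2_of_abs habs (th_dat a f ha ha2 hf) hNT

end

end Crest.Agent.R181.VP
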